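import Vale.Agent.P232.Defs

/-!
Calculus on the torus: translation invariance, integration by parts, the mollification of a set of
finite perimeter.
-/

open MeasureTheory Set Filter Topology
open scoped ENNReal RealInnerProductSpace Convolution ContDiff Pointwise

namespace Vale.Agent.P232

/-- The standard basis. -/
noncomputable def stdBasis : Module.Basis (Fin 3) ℝ R3 :=
  (EuclideanSpace.basisFun (Fin 3) ℝ).toBasis

/-- The lattice of integer vectors. -/
noncomputable def lattice : Submodule ℤ R3 := Submodule.span ℤ (range stdBasis)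

lemma stdBasis_apply (i : Fin 3) : stdBasis i = e i := by simp [stdBasis, e]

lemma cell_eq : cell = ZSpan.fundamentalDomain stdBasis := by
  ext x; simp [cell, stdBasis]

lemma measurableSet_cell : MeasurableSet cell :=
  cell_eq ▸ ZSpan.fundamentalDomain_measurableSet stdBasis

lemma isFundamentalDomain_cell : IsAddFundamentalDomain lattice cell volume :=
  cell_eq ▸ ZSpan.isAddFundamentalDomain stdBasis volume

instance : Countable lattice := by unfold lattice; infer_instance

instance : VAddInvariantMeasure lattice R3 volume :=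
  (inferInstance : VAddInvariantMeasure lattice.toAddSubgroup R3 volume)

lemma norm_le_of_mem_cell {x : R3} (hx : x ∈ cell) : ‖x‖ ≤ 2 := by
  rw [EuclideanSpace.norm_eq, Real.sqrt_le_iff]
  refine ⟨zero_le_two, (Finset.sum_le_sum (g := fun _ => (1 : ℝ)) fun i _ => ?_).trans
    (by norm_num)⟩
  rw [Real.norm_eq_abs, sq_abs]
  obtain ⟨h0, h1⟩ := hx i
  nlinarith

lemma cell_subset_ball : cell ⊆ Metric.closedBall 0 2 := fun _ hx =>
  mem_closedBall_zero_iff.2 (norm_le_of_mem_cell hx)

lemma volume_cell : volume cell = 1 := by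
  rw [cell_eq, show stdBasis = (EuclideanSpace.basisFun (Fin 3) ℝ).toBasis from rfl,
    measure_congr (ZSpan.fundamentalDomain_ae_parallelepiped _ volume),
    ← (EuclideanSpace.basisFun (Fin 3) ℝ).volume_parallelepiped]
  rfl

instance : IsFiniteMeasure (volume.restrict cell : Measure R3) :=
  ⟨by rw [Measure.restrict_apply_univ, volume_cell]; exact ENNReal.one_lt_top⟩

namespace IsPer

variable {α β : Type*} {f : R3 → α}

lemma comp (hf : IsPer f) (g : α → β) : IsPer fun x => g (f x) := fun i x => congrArg g (hf i x)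

lemma comp₂ {γ : Type*} {g : R3 → γ} (hf : IsPer f) (hg : IsPer g) (F : α → γ → β) :
    IsPer fun x => F (f x) (g x) := fun i x => congrArg₂ F (hf i x) (hg i x)

lemma comp_add (hf : IsPer f) (v : R3) : IsPer fun x => f (x + v) := fun i x => by
  show f (x + e i + v) = f (x + v)
  rw [add_right_comm]; exact hf i _

lemma comp_sub (hf : IsPer f) (v : R3) : IsPer fun x => f (x - v) := by
  simpa only [sub_eq_add_neg] using hf.comp_add (-v)

lemma add_mem_lattice (hf : IsPer f) {g : R3} (hg : g ∈ lattice) : ∀ x, f (x + g) = f x := by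
  induction hg using Submodule.span_induction with
  | mem x hx =>
    obtain ⟨i, rfl⟩ := hx
    exact fun y => by rw [stdBasis_apply]; exact hf i y
  | zero => simp
  | add a b _ _ ha hb => exact fun x => by rw [← add_assoc, hb, ha]
  | smul n a _ ha => exact fun x => (Function.Periodic.zsmul ha n) x

lemma exists_mem_cell (hf : IsPer f) (x : R3) : ∃ w ∈ cell, f w = f x := by
  refine ⟨ZSpan.fract stdBasis x, cell_eq ▸ ZSpan.fract_mem_fundamentalDomain stdBasis x, ?_⟩
  rw [ZSpan.fract_apply, sub_eq_add_neg]
  exact hf.add_mem_lattice (Submodule.neg_mem _ (ZSpan.floor stdBasis x).2) x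

lemma bounded {E : Type*} [NormedAddCommGroup E] {f : R3 → E} (hf : IsPer f) (hc : Continuous f) :
    ∃ C, 0 ≤ C ∧ ∀ x, ‖f x‖ ≤ C := by
  obtain ⟨C, hC⟩ := (isCompact_closedBall (0 : R3) 2).exists_bound_of_continuousOn hc.continuousOn
  refine ⟨max C 0, le_max_right _ _, fun x => ?_⟩
  obtain ⟨w, hw, e⟩ := hf.exists_mem_cell x
  exact e ▸ (hC w (cell_subset_ball hw)).trans (le_max_left _ _)

lemma fderiv {E : Type*} [NormedAddCommGroup E] [NormedSpace ℝ E] {f : R3 → E} (hf : IsPer f) :
    IsPer (fderiv ℝ f) := fun i x => by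
  have h : (fun y => f (y + e i)) = f := funext fun y => hf i y
  conv_rhs => rw [← h, fderiv_comp_add_right]

/-- The integral over the cell of a periodic function is invariant under translations. -/
lemma setIntegral_add {E : Type*} [NormedAddCommGroup E] [NormedSpace ℝ E] {f : R3 → E}
    (hf : IsPer f) (v : R3) : ∫ x in cell, f (x + v) = ∫ x in cell, f x := by
  calc ∫ x in cell, f (x + v) = ∫ x in cell, f ((v + ·) x) := by simp only [add_comm v]
    _ = ∫ y in (v + ·) '' cell, f y := ((measurePreserving_add_left volume v).setIntegral_image_emb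
        (measurableEmbedding_addLeft v) f cell).symm
    _ = _ := by
      refine (isFundamentalDomain_cell.vadd_of_comm v).setIntegral_eq isFundamentalDomain_cell
        fun g x => ?_
      show f ((g : R3) + x) = f x
      rw [add_comm]; exact hf.add_mem_lattice g.2 x

lemma integrable_cell {E : Type*} [NormedAddCommGroup E] {f : R3 → E}
    (hf : IsPer f) (hc : Continuous f) : Integrable f (volume.restrict cell) := by
  obtain ⟨C, -, hC⟩ := hf.bounded hc
  exact Integrable.of_bound hc.aestronglyMeasurable C (ae_of_all _ hC)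

/-- The integral over the cell of a derivative of a periodic function vanishes. -/
lemma setIntegral_fderiv {E : Type*} [NormedAddCommGroup E] [NormedSpace ℝ E] [CompleteSpace E]
    {f : R3 → E} (hf : IsPer f) (hd : ContDiff ℝ 1 f) (v : R3) :
    ∫ x in cell, _root_.fderiv ℝ f x v = 0 := by
  have hcd : Continuous fun x => _root_.fderiv ℝ f x v := by fun_prop
  obtain ⟨C, -, hC⟩ := (hf.fderiv.comp fun L => L v).bounded hcd
  have h := (hasDerivAt_integral_of_dominated_loc_of_deriv_le (μ := volume.restrict cell)
    (F := fun (t : ℝ) x => f (x + t • v)) (F' := fun t x => _root_.fderiv ℝ f (x + t • v) v)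
    (bound := fun _ => C) (x₀ := 0) (s := univ) univ_mem
    (Eventually.of_forall fun t => ((hd.continuous).comp (by fun_prop)).aestronglyMeasurable)
    (by simpa using hf.integrable_cell hd.continuous)
    ((hcd.comp (by fun_prop)).aestronglyMeasurable)
    (ae_of_all _ fun x t _ => hC _) (integrable_const C)
    (ae_of_all _ fun x t _ => by
      have h1 : HasDerivAt (fun t : ℝ => x + t • v) v t := by
        simpa using ((hasDerivAt_id t).smul_const v).const_add x
      exact ((hd.differentiable one_ne_zero) _).hasFDerivAt.comp_hasDerivAt t h1)).2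
  have hconst : (fun t : ℝ => ∫ x in cell, f (x + t • v)) = fun _ => ∫ x in cell, f x :=
    funext fun t => hf.setIntegral_add _
  rw [hconst] at h
  simpa using h.unique (hasDerivAt_const 0 _)

end IsPer

lemma IsPeriodicSet.indicator {E : Set R3} (hE : IsPeriodicSet E) {α : Type*} [Zero α] {f : R3 → α}
    (hf : IsPer f) : IsPer (E.indicator f) := fun i x => by
  classical
  simp only [indicator_apply, hE i x, hf i x]

/-! ### Gradient and divergence -/

/-- The gradient of a function. -/
noncomputable def grad (u : R3 → ℝ) (x : R3) : R3 :=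
  WithLp.toLp 2 fun i => fderiv ℝ u x (e i)

/-- The total variation in the torus of a smooth function. -/
noncomputable def gradMass (u : R3 → ℝ) : ℝ := ∫ x in cell, ‖grad u x‖

lemma sum_smul_e (v : R3) : ∑ i, v i • e i = v := by
  ext j; simp [e, Pi.single_apply]

lemma fderiv_eq_inner (u : R3 → ℝ) (x v : R3) : fderiv ℝ u x v = ⟪grad u x, v⟫ := by
  conv_lhs => rw [← sum_smul_e v]
  simp [grad, PiLp.inner_apply]

lemma IsPer.grad {u : R3 → ℝ} (hu : IsPer u) : IsPer (grad u) :=
  hu.fderiv.comp fun L => (WithLp.toLp 2 fun i => L (e i) : R3)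

lemma contDiff_grad {u : R3 → ℝ} {n : ℕ∞} (hu : ContDiff ℝ (n + 1) u) :
    ContDiff ℝ n (grad u) := by
  refine (contDiff_piLp _).2 fun i => ?_
  show ContDiff ℝ n fun x => fderiv ℝ u x (e i)
  exact (hu.fderiv_right le_rfl).clm_apply contDiff_const

lemma continuous_grad {u : R3 → ℝ} (hu : ContDiff ℝ 1 u) : Continuous (grad u) :=
  (contDiff_grad (n := 0) (by simpa using hu)).continuous

lemma fderiv_coord {X : R3 → R3} (hX : ContDiff ℝ 1 X) (i : Fin 3) (x v : R3) :
    fderiv ℝ (fun y => X y i) x v = fderiv ℝ X x v i := by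
  have h := ((EuclideanSpace.proj i : R3 →L[ℝ] ℝ).hasFDerivAt.comp x
    (hX.differentiable one_ne_zero x).hasFDerivAt).fderiv
  show fderiv ℝ (⇑(EuclideanSpace.proj i : R3 →L[ℝ] ℝ) ∘ X) x v = _
  rw [h]; rfl

lemma continuous_dv {X : R3 → R3} (hX : ContDiff ℝ 1 X) : Continuous (dv X) := by
  unfold dv; fun_prop

lemma IsPer.dv {X : R3 → R3} (hX : IsPer X) : IsPer (P232.dv X) :=
  hX.fderiv.comp fun L => ∑ i, L (e i) i

/-- Integration by parts on the torus. -/
theorem setIntegral_mul_dv {u : R3 → ℝ} {X : R3 → R3} (hu : ContDiff ℝ 1 u) (hup : IsPer u)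
    (hX : ContDiff ℝ 1 X) (hXp : IsPer X) :
    ∫ x in cell, u x * dv X x = -∫ x in cell, ⟪grad u x, X x⟫ := by
  have hXi : ∀ i, ContDiff ℝ 1 fun y => X y i := fun i => (contDiff_piLp _).1 hX i
  have h0 : ∫ x in cell, ∑ i, fderiv ℝ (fun y => u y * X y i) x (e i) = 0 := by
    rw [integral_finsetSum _ fun i _ => ((hup.comp₂ hXp fun a b => a * b i).fderiv.comp
      fun L => L (e i)).integrable_cell (by have := hXi i; fun_prop)]
    exact Finset.sum_eq_zero fun i _ =>
      (hup.comp₂ hXp fun a b => a * b i).setIntegral_fderiv (hu.mul (hXi i)) _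
  have e1 : ∀ x, ∑ i, fderiv ℝ (fun y => u y * X y i) x (e i) =
      u x * dv X x + ⟪grad u x, X x⟫ := by
    intro x
    rw [dv, Finset.mul_sum, PiLp.inner_apply, ← Finset.sum_add_distrib]
    refine Finset.sum_congr rfl fun i _ => ?_
    rw [fderiv_fun_mul (hu.differentiable one_ne_zero x) ((hXi i).differentiable one_ne_zero x)]
    simp [fderiv_coord hX, grad]
  simp only [e1] at h0
  rw [integral_add ((hup.comp₂ hXp.dv fun a b => a * b).integrable_cell
      (hu.continuous.mul (continuous_dv hX)))
    ((hup.grad.comp₂ hXp fun a b => ⟪a, b⟫).integrable_cell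
      ((continuous_grad hu).inner hX.continuous))] at h0
  linarith

lemma IsPer.setIntegral_dv {X : R3 → R3} (hXp : IsPer X) (hX : ContDiff ℝ 1 X) :
    ∫ x in cell, P232.dv X x = 0 := by
  have h := setIntegral_mul_dv (u := fun _ => 1) contDiff_const (fun _ _ => rfl) hX hXp
  simpa [show ∀ x, P232.grad (fun _ : R3 => (1 : ℝ)) x = 0 from fun x => by ext i; simp [P232.grad]]
    using h

/-- A smooth function pairs with test fields by at most its total variation. -/
theorem setIntegral_mul_dv_le {u : R3 → ℝ} (hu : ContDiff ℝ 1 u) (hup : IsPer u) {X : R3 → R3}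
    (hX : IsTestField X) : ∫ x in cell, u x * dv X x ≤ gradMass u := by
  rw [setIntegral_mul_dv hu hup hX.smooth hX.periodic, gradMass, ← integral_neg]
  refine integral_mono
    ((hup.grad.comp₂ hX.periodic fun a b => -⟪a, b⟫).integrable_cell
      ((continuous_grad hu).inner hX.smooth.continuous).neg)
    ((hup.grad.comp fun a => ‖a‖).integrable_cell (continuous_grad hu).norm) fun x => ?_
  exact (neg_le_abs _).trans ((abs_real_inner_le_norm _ _).trans
    (mul_le_of_le_one_right (norm_nonneg _) (hX.norm_le x)))

/-- The total variation of a smooth function is attained by test fields. -/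
theorem gradMass_le {u : R3 → ℝ} (hu : ContDiff ℝ 2 u) (hup : IsPer u) {P : ℝ}
    (h : ∀ X, IsTestField X → ∫ x in cell, u x * dv X x ≤ P) : gradMass u ≤ P := by
  refine le_of_forall_pos_le_add fun δ hδ => ?_
  have hu1 : ContDiff ℝ 1 u := hu.of_le (by norm_num)
  have hg1 : ContDiff ℝ 1 (grad u) := contDiff_grad (n := 1) (hu.of_le (by norm_num))
  have hpos : ∀ x, 0 < δ ^ 2 + ‖grad u x‖ ^ 2 := fun x => by positivity
  set X : R3 → R3 := fun x => -((Real.sqrt (δ ^ 2 + ‖grad u x‖ ^ 2))⁻¹ • grad u x) with hXd
  have hX : IsTestField X := by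
    refine ⟨((((contDiff_const.add (hg1.norm_sq ℝ)).sqrt fun x => (hpos x).ne').inv
      fun x => (Real.sqrt_pos.2 (hpos x)).ne').smul hg1).neg,
      hup.grad.comp fun g => -((Real.sqrt (δ ^ 2 + ‖g‖ ^ 2))⁻¹ • g), fun x => ?_⟩
    rw [hXd, norm_neg, norm_smul, norm_inv, Real.norm_of_nonneg (Real.sqrt_nonneg _),
      inv_mul_le_iff₀ (Real.sqrt_pos.2 (hpos x)), mul_one]
    exact Real.le_sqrt_of_sq_le (le_add_of_nonneg_left (sq_nonneg δ))
  have hb := h X hX
  rw [setIntegral_mul_dv hu1 hup hX.smooth hX.periodic, ← integral_neg] at hb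
  have hi : Integrable (fun x => ‖grad u x‖) (volume.restrict cell) :=
    (hup.grad.comp fun a => ‖a‖).integrable_cell (continuous_grad hu1).norm
  have hle : gradMass u - δ ≤ ∫ x in cell, -⟪grad u x, X x⟫ := by
    have e1 : gradMass u - δ = ∫ x in cell, (‖grad u x‖ - δ) := by
      rw [integral_sub hi (integrable_const δ), integral_const, gradMass]
      simp [measureReal_def, volume_cell]
    rw [e1]
    refine integral_mono (hi.sub (integrable_const δ))
      ((hup.grad.comp₂ hX.periodic fun a b => -⟪a, b⟫).integrable_cell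
        ((continuous_grad hu1).inner hX.smooth.continuous).neg) fun x => ?_
    simp only [hXd, inner_neg_right, real_inner_smul_right, real_inner_self_eq_norm_sq, neg_neg]
    rw [le_inv_mul_iff₀ (Real.sqrt_pos.2 (hpos x))]
    set r := ‖grad u x‖
    have hr : 0 ≤ r := norm_nonneg _
    have hs := Real.sq_sqrt (hpos x).le
    have hs0 := Real.sqrt_nonneg (δ ^ 2 + r ^ 2)
    nlinarith [mul_le_mul_of_nonneg_left (show Real.sqrt (δ ^ 2 + r ^ 2) ≤ r + δ from
      Real.sqrt_le_iff.2 ⟨by positivity, by nlinarith⟩) hr]
  linarith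

/-! ### Sets -/

lemma setIntegral_inter_cell {E : Set R3} (hE : MeasurableSet E) (f : R3 → ℝ) :
    ∫ x in E ∩ cell, f x = ∫ x in cell, E.indicator 1 x * f x := by
  rw [inter_comm, ← setIntegral_indicator hE]
  congr 1; ext x
  by_cases hx : x ∈ E <;> simp [hx]

lemma ofReal_le_per {E : Set R3} {X : R3 → R3} (hX : IsTestField X) :
    ENNReal.ofReal (∫ x in E ∩ cell, dv X x) ≤ per E := le_iSup₂_of_le X hX le_rfl

lemma setIntegral_dv_le_per {E : Set R3} (hP : per E ≠ ⊤) {X : R3 → R3} (hX : IsTestField X) :
    ∫ x in E ∩ cell, dv X x ≤ (per E).toReal :=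
  (ENNReal.ofReal_le_iff_le_toReal hP).1 (ofReal_le_per hX)

lemma vol_le_one (E : Set R3) : vol E ≤ 1 :=
  (measure_mono inter_subset_right).trans volume_cell.le

lemma IsTestField.comp_add {X : R3 → R3} (hX : IsTestField X) (v : R3) :
    IsTestField fun x => X (x + v) :=
  ⟨hX.smooth.comp (contDiff_id.add contDiff_const), hX.periodic.comp_add v, fun _ => hX.norm_le _⟩

lemma dv_comp_add (X : R3 → R3) (v x : R3) : dv (fun y => X (y + v)) x = dv X (x + v) := by
  simp [dv, fderiv_comp_add_right]

/-- The mollified indicator of a set. -/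
noncomputable def moll (φ : ContDiffBump (0 : R3)) (E : Set R3) : R3 → ℝ :=
  φ.normed volume ⋆[ContinuousLinearMap.lsmul ℝ ℝ, volume] E.indicator 1

section Moll

variable (φ : ContDiffBump (0 : R3)) {E : Set R3}

lemma moll_apply (E : Set R3) (x : R3) :
    moll φ E x = ∫ t, φ.normed volume t * E.indicator 1 (x - t) := rfl

lemma indicator_one_mem (E : Set R3) (x : R3) : 0 ≤ E.indicator (1 : R3 → ℝ) x ∧
    E.indicator (1 : R3 → ℝ) x ≤ 1 := by
  by_cases hx : x ∈ E <;> simp [hx]

lemma moll_contDiff (hE : MeasurableSet E) : ContDiff ℝ ∞ (moll φ E) :=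
  φ.hasCompactSupport_normed.contDiff_convolution_left _ φ.contDiff_normed
    ((locallyIntegrable_const (1 : ℝ)).indicator hE)

lemma moll_isPer (hp : IsPeriodicSet E) : IsPer (moll φ E) := fun i x => by
  simp only [moll_apply]
  congr 1; ext t
  exact congrArg _ (((hp.indicator (f := fun _ => (1 : ℝ)) fun _ _ => rfl).comp_sub t) i x)

lemma moll_mem (x : R3) : 0 ≤ moll φ E x ∧ moll φ E x ≤ 1 := by
  have h : ∀ t, 0 ≤ φ.normed volume t * E.indicator 1 (x - t) ∧
      φ.normed volume t * E.indicator 1 (x - t) ≤ φ.normed volume t := fun t =>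
    ⟨mul_nonneg (φ.nonneg_normed t) (indicator_one_mem E _).1,
      mul_le_of_le_one_right (φ.nonneg_normed t) (indicator_one_mem E _).2⟩
  rw [moll_apply]
  refine ⟨integral_nonneg fun t => (h t).1, ?_⟩
  calc _ ≤ ∫ t, φ.normed volume t :=
        integral_mono_of_nonneg (ae_of_all _ fun t => (h t).1) φ.integrable_normed
          (ae_of_all _ fun t => (h t).2)
    _ = 1 := φ.integral_normed

/-- Pairing the mollification with a periodic function. -/
lemma setIntegral_moll_mul (hE : MeasurableSet E) (hp : IsPeriodicSet E) {g : R3 → ℝ}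
    (hg : Continuous g) (hgp : IsPer g) :
    ∫ x in cell, moll φ E x * g x =
      ∫ t, φ.normed volume t * ∫ x in E ∩ cell, g (x + t) := by
  obtain ⟨C, hC0, hC⟩ := hgp.bounded hg
  have hmeas : Measurable (E.indicator (1 : R3 → ℝ)) := measurable_const.indicator hE
  have hint : Integrable (Function.uncurry fun x t =>
      φ.normed volume t * E.indicator 1 (x - t) * g x)
      ((volume.restrict cell).prod volume) := by
    have hn : Measurable (φ.normed (volume : Measure R3)) := φ.continuous_normed.measurable
    have hgm : Measurable g := hg.measurable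
    refine (((φ.integrable_normed (μ := volume)).comp_snd (volume.restrict cell)).const_mul C).mono'
      (Measurable.aestronglyMeasurable (by fun_prop)) (ae_of_all _ fun ⟨x, t⟩ => ?_)
    simp only [Function.uncurry, norm_mul, Real.norm_of_nonneg (φ.nonneg_normed t),
      Real.norm_of_nonneg (indicator_one_mem E (x - t)).1]
    rw [mul_comm C]
    exact mul_le_mul (mul_le_of_le_one_right (φ.nonneg_normed t) (indicator_one_mem E _).2) (hC x)
      (norm_nonneg _) (φ.nonneg_normed t)
  simp only [moll_apply, ← integral_mul_const]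
  rw [integral_integral_swap hint]
  congr 1; ext t
  simp only [mul_assoc]
  rw [integral_const_mul]
  congr 1
  rw [setIntegral_inter_cell hE]
  have hq : IsPer fun x => E.indicator 1 x * g (x + t) :=
    (hp.indicator (f := (1 : R3 → ℝ)) fun _ _ => rfl).comp₂ (hgp.comp_add t) (· * ·)
  simpa [sub_eq_add_neg] using hq.setIntegral_add (-t)

lemma setIntegral_moll (hE : MeasurableSet E) (hp : IsPeriodicSet E) :
    ∫ x in cell, moll φ E x = (vol E).toReal := by
  have h := setIntegral_moll_mul φ hE hp (g := fun _ => 1) continuous_const (fun _ _ => rfl)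
  simp only [mul_one, setIntegral_const, smul_eq_mul, integral_mul_const,
    φ.integral_normed, one_mul] at h
  exact h

/-- Mollification does not increase the perimeter. -/
theorem gradMass_moll_le (hE : MeasurableSet E) (hp : IsPeriodicSet E) (hP : per E ≠ ⊤) :
    gradMass (moll φ E) ≤ (per E).toReal := by
  refine gradMass_le ((moll_contDiff φ hE).of_le (by norm_cast)) (moll_isPer φ hp) fun X hX => ?_
  rw [setIntegral_moll_mul φ hE hp (continuous_dv hX.smooth) hX.periodic.dv]
  calc ∫ t, φ.normed volume t * ∫ x in E ∩ cell, dv X (x + t)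
      ≤ ∫ t, φ.normed volume t * (per E).toReal := by
        refine integral_mono ?_ (φ.integrable_normed.mul_const _) fun t =>
          mul_le_mul_of_nonneg_left ?_ (φ.nonneg_normed t)
        · obtain ⟨C, hC0, hC⟩ := hX.periodic.dv.bounded (continuous_dv hX.smooth)
          have : IsFiniteMeasure (volume.restrict (E ∩ cell) : Measure R3) :=
            ⟨by rw [Measure.restrict_apply_univ]; exact (vol_le_one E).trans_lt ENNReal.one_lt_top⟩
          have hc := continuous_dv hX.smooth
          have hm : AEStronglyMeasurable (fun t => ∫ x in E ∩ cell, dv X (x + t)) volume :=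
            (continuous_of_dominated (F := fun t x => dv X (x + t)) (bound := fun _ => C)
              (fun t => (hc.comp (by fun_prop)).aestronglyMeasurable)
              (fun t => ae_of_all _ fun x => hC _) (integrable_const C)
              (ae_of_all _ fun x => hc.comp (by fun_prop))).aestronglyMeasurable
          refine (φ.integrable_normed.mul_const C).mono'
            ((φ.continuous_normed.aestronglyMeasurable).mul hm) (ae_of_all _ fun t => ?_)
          rw [norm_mul, Real.norm_of_nonneg (φ.nonneg_normed t)]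
          refine mul_le_mul_of_nonneg_left ((norm_integral_le_of_norm_le_const
            (ae_of_all _ fun x => hC (x + t))).trans (mul_le_of_le_one_right hC0 ?_))
            (φ.nonneg_normed t)
          rw [measureReal_def, Measure.restrict_apply_univ]
          exact ENNReal.toReal_le_of_le_ofReal zero_le_one (by simpa [vol] using vol_le_one E)
        · simp only [← dv_comp_add]
          exact setIntegral_dv_le_per hP (hX.comp_add t)
    _ = _ := by rw [integral_mul_const, φ.integral_normed, one_mul]

end Moll

/-- The bump functions of radius 1/(n+1). -/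
noncomputable def bump (n : ℕ) : ContDiffBump (0 : R3) where
  rIn := 1 / (2 * (n + 1))
  rOut := 1 / (n + 1)
  rIn_pos := by positivity
  rIn_lt_rOut := by
    rw [div_lt_div_iff₀ (by positivity) (by positivity)]
    linarith [(Nat.cast_nonneg n : (0 : ℝ) ≤ n)]

/-- A set of finite perimeter is the limit in L¹ and almost everywhere of smooth periodic
functions with values in [0,1], the same mass and no larger total variation. -/
theorem exists_approx {E : Set R3} (hE : MeasurableSet E) (hp : IsPeriodicSet E)
    (hP : per E ≠ ⊤) :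
    ∃ u : ℕ → R3 → ℝ, (∀ n, ContDiff ℝ ∞ (u n) ∧ IsPer (u n) ∧ (∀ x, 0 ≤ u n x ∧ u n x ≤ 1) ∧
        ∫ x in cell, u n x = (vol E).toReal ∧ gradMass (u n) ≤ (per E).toReal) ∧
      (∀ᵐ x, Tendsto (fun n => u n x) atTop (𝓝 (E.indicator 1 x))) ∧
      Tendsto (fun n => ∫ x in cell, |u n x - E.indicator 1 x|) atTop (𝓝 0) := by
  have hr : Tendsto (fun n => (bump n).rOut) atTop (𝓝 0) :=
    tendsto_one_div_add_atTop_nhds_zero_nat
  have hK : ∀ᶠ n in atTop, (bump n).rOut ≤ 2 * (bump n).rIn :=
    Eventually.of_forall fun n => le_of_eq (by simp only [bump]; field_simp)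
  have hli : LocallyIntegrable (E.indicator (1 : R3 → ℝ)) volume :=
    (locallyIntegrable_const (1 : ℝ)).indicator hE
  have hae : ∀ᵐ x, Tendsto (fun n => moll (bump n) E x) atTop (𝓝 (E.indicator 1 x)) :=
    ContDiffBump.ae_convolution_tendsto_right_of_locallyIntegrable hr hK hli
  refine ⟨fun n => moll (bump n) E, fun n => ⟨moll_contDiff _ hE, moll_isPer _ hp,
    moll_mem _, setIntegral_moll _ hE hp, gradMass_moll_le _ hE hp hP⟩, hae, ?_⟩
  have hm : Measurable (E.indicator (1 : R3 → ℝ)) := measurable_const.indicator hE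
  have := tendsto_integral_of_dominated_convergence (μ := volume.restrict cell)
    (F := fun n x => |moll (bump n) E x - E.indicator 1 x|) (f := fun _ => (0 : ℝ))
    (fun _ => (1 : ℝ))
    (fun n => ((moll_contDiff (bump n) hE).continuous.measurable.sub hm).norm.aestronglyMeasurable)
    (integrable_const 1)
    (fun n => ae_of_all _ fun x => by
      have h1 := moll_mem (bump n) (E := E) x
      have h2 := indicator_one_mem E x
      rw [Real.norm_eq_abs, abs_abs, abs_le]; constructor <;> linarith)
    ((ae_restrict_of_ae hae).mono fun x hx => by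
      simpa using (hx.sub_const (E.indicator 1 x)).abs)
  simpa using this

/-! ### Invariance -/

lemma per_empty : per ∅ = 0 := by simp [per]

lemma IsPeriodicSet.compl {E : Set R3} (hp : IsPeriodicSet E) : IsPeriodicSet Eᶜ :=
  fun i x => not_congr (hp i x)

/-- A set and its complement have the same perimeter. -/
theorem per_compl {E : Set R3} (hE : MeasurableSet E) : per Eᶜ = per E := by
  suffices h : ∀ {A : Set R3}, MeasurableSet A → per Aᶜ ≤ per A from
    le_antisymm (h hE) (by simpa using h hE.compl)
  intro A hA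
  refine iSup₂_le fun X hX => ?_
  have hX' : IsTestField fun x => -X x :=
    ⟨hX.smooth.neg, hX.periodic.comp (fun a => -a), fun x => (norm_neg _).trans_le (hX.norm_le x)⟩
  refine le_trans (ENNReal.ofReal_le_ofReal (le_of_eq ?_)) (ofReal_le_per hX')
  have h1 : ∀ x, dv (fun y => -X y) x = -dv X x := fun x => by simp [dv]
  have hd := (hX.periodic.dv.integrable_cell (continuous_dv hX.smooth))
  simp only [h1, integral_neg]
  have h2 := integral_add_compl (μ := volume.restrict cell) hA hd
  rw [IsPer.setIntegral_dv hX.periodic hX.smooth, Measure.restrict_restrict hA,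
    Measure.restrict_restrict hA.compl] at h2
  linarith

end Vale.Agent.P232
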