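import Vale.Agent.P232.ConcaveBase
import Vale.Agent.P232.Perimeter

/-!
Concavity of the profile by translations: union and intersection with a translate do not increase
the total perimeter, and their volumes fill the whole range `V ± [0, V (1 - V)]`.
-/

open MeasureTheory Set Filter
open scoped ENNReal Topology

namespace Vale.Agent.P232

lemma integrable_cell_of_bound {f : R3 → ℝ} {C : ℝ} (hf : Measurable f) (hb : ∀ x, |f x| ≤ C) :
    IntegrableOn f cell := by
  exact Integrable.mono' (integrable_const C) hf.aestronglyMeasurable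
    (ae_of_all _ fun x => by simpa using hb x)

lemma exists_bound_cell {f : R3 → ℝ} (hf : Continuous f) :
    ∃ C, 0 ≤ C ∧ ∀ x ∈ cell, |f x| ≤ C := by
  obtain ⟨C, hC⟩ := (isCompact_closedBall (0 : R3) 2).exists_bound_of_continuousOn hf.continuousOn
  refine ⟨max C 0, le_max_right _ _, fun x hx => le_max_of_le_left ?_⟩
  simpa using hC x (by simpa using norm_le_of_mem_cell hx)

lemma integrable_cell_mul {f h : R3 → ℝ} {C : ℝ} (hf : Measurable f) (hb : ∀ x, |f x| ≤ C)
    (hh : Continuous h) : IntegrableOn (fun x => f x * h x) cell := by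
  obtain ⟨D, hD0, hD⟩ := exists_bound_cell hh
  refine Integrable.mono' (integrable_const (C * D)) (hf.mul hh.measurable).aestronglyMeasurable
    ((ae_restrict_iff' measurableSet_cell).2 (ae_of_all _ fun x hx => ?_))
  rw [norm_mul]
  exact mul_le_mul (by simpa using hb x) (by simpa using hD x hx) (norm_nonneg _)
    ((abs_nonneg _).trans (hb x))

lemma vol_eq_ofReal {E : Set R3} (hE : MeasurableSet E) :
    vol E = ENNReal.ofReal (∫ x in cell, E.indicator (1 : R3 → ℝ) x) := by
  have hlt : volume (E ∩ cell) < ∞ :=
    (measure_mono inter_subset_right).trans_lt (by rw [volume_cell]; exact ENNReal.one_lt_top)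
  have h : ∫ x in cell, E.indicator (1 : R3 → ℝ) x = (volume (E ∩ cell)).toReal := by
    rw [setIntegral_indicator hE, inter_comm]
    simp [Measure.real]
  rw [h, ENNReal.ofReal_toReal hlt.ne, vol]

lemma abs_indicator_one_le (E : Set R3) (x : R3) : |E.indicator (1 : R3 → ℝ) x| ≤ 1 := by
  by_cases h : x ∈ E <;> simp [h]

lemma norm_grad (u : R3 → ℝ) (x : R3) : ‖grad u x‖ = ‖fderiv ℝ u x‖ := by
  have h : fderiv ℝ u x = innerSL ℝ (grad u x) :=
    ContinuousLinearMap.ext fun v => fderiv_eq_inner u x v
  rw [h, innerSL_apply_norm]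

lemma per_eq_iSup (E : Set R3) :
    per E = ⨆ X : {X : R3 → R3 // IsTestField X},
      ENNReal.ofReal (∫ x in E ∩ cell, dv X.1 x) := iSup_subtype'

lemma isTestField_zero : IsTestField (0 : R3 → R3) :=
  ⟨contDiff_const, fun i x => rfl, fun x => by simp⟩

lemma dv_zero (x : R3) : dv (0 : R3 → R3) x = 0 := by simp [dv]

lemma profile_le {E : Set R3} {V : ℝ} (hE : MeasurableSet E) (hp : IsPeriodicSet E)
    (hv : vol E = ENNReal.ofReal V) : profile V ≤ per E :=
  iInf_le_of_le E (iInf_le_of_le hE (iInf_le_of_le hp (iInf_le_of_le hv le_rfl)))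

lemma profile_symm_le {V : ℝ} (h0 : 0 ≤ V) : profile (1 - V) ≤ profile V := by
  refine le_iInf fun E => le_iInf fun hE => le_iInf fun hp => le_iInf fun hv => ?_
  have hvc : vol Eᶜ = ENNReal.ofReal (1 - V) := by
    have h : volume (cell \ E) = volume cell - volume (E ∩ cell) := by
      rw [← sdiff_inter_self_eq_sdiff]
      refine measure_sdiff (inter_subset_right) (hE.inter measurableSet_cell).nullMeasurableSet ?_
      exact ((measure_mono inter_subset_right).trans_lt
        (by rw [volume_cell]; exact ENNReal.one_lt_top)).ne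
    rw [vol, inter_comm, ← sdiff_eq, h, volume_cell]
    change 1 - vol E = _
    rw [hv, ENNReal.ofReal_sub _ h0, ENNReal.ofReal_one]
  exact (profile_le hE.compl (hp.compl) hvc).trans (per_compl hE).le

/-- The profile is symmetric about one half. -/
theorem profile_symm {V : ℝ} (h0 : 0 < V) (h1 : V < 1) : profile (1 - V) = profile V := by
  refine le_antisymm (profile_symm_le h0.le) ?_
  simpa using profile_symm_le (V := 1 - V) (by linarith)

/-- A translate of a set, on the torus. -/
def shift (t : R3) (E : Set R3) : Set R3 := {x | x + t ∈ E}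

lemma measurableSet_shift {E : Set R3} (hE : MeasurableSet E) (t : R3) :
    MeasurableSet (shift t E) := hE.preimage (measurable_id.add_const t)

lemma isPeriodicSet_shift {E : Set R3} (hp : IsPeriodicSet E) (t : R3) :
    IsPeriodicSet (shift t E) := fun i x => by
  simp only [shift, mem_ofPred_eq]
  rw [add_right_comm]
  exact hp i (x + t)

lemma isPer_indicator {E : Set R3} (hp : IsPeriodicSet E) :
    IsPer (E.indicator (1 : R3 → ℝ)) := fun i x => by
  by_cases h : x ∈ E
  · simp [h, (hp i x).2 h]
  · simp [h, mt (hp i x).1 h]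

lemma per_shift_le {E : Set R3} (hE : MeasurableSet E) (hp : IsPeriodicSet E) (t : R3) :
    per (shift t E) ≤ per E := by
  refine iSup₂_le fun X hX => ?_
  set Y : R3 → R3 := fun x => X (x - t) with hYdef
  have hY : IsTestField Y := ⟨hX.smooth.comp (contDiff_id.sub contDiff_const), fun i x => by
    simp only [hYdef]; rw [add_sub_right_comm]; exact hX.periodic i (x - t),
    fun x => hX.norm_le _⟩
  have hdv : ∀ x, dv Y x = dv X (x - t) := fun x => by
    simp only [dv, hYdef, sub_eq_add_neg, fderiv_comp_add_right]
  have key : (∫ x in shift t E ∩ cell, dv X x) = ∫ x in E ∩ cell, dv Y x := by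
    rw [setIntegral_inter_cell (measurableSet_shift hE t), setIntegral_inter_cell hE,
      ← IsPer.setIntegral_add (f := fun x => E.indicator 1 x * dv Y x) (fun i x => by
        simp only [hdv, isPer_indicator hp i x]
        congr 1
        rw [add_sub_right_comm]
        simp only [dv]
        refine Finset.sum_congr rfl fun j _ => ?_
        rw [← fderiv_comp_add_right, show (fun y => X (y + e i)) = X from funext (hX.periodic i)]) t]
    refine setIntegral_congr_fun measurableSet_cell fun x _ => ?_
    simp only [hdv, add_sub_cancel_right]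
    by_cases h : x + t ∈ E <;> simp [shift, h]
  rw [key]
  exact le_iSup₂ (f := fun (Z : R3 → R3) (_ : IsTestField Z) =>
    ENNReal.ofReal (∫ x in E ∩ cell, dv Z x)) Y hY

/-- Union and intersection do not increase the total perimeter. -/
theorem per_union_inter {E F : Set R3} (hE : MeasurableSet E) (hF : MeasurableSet F)
    (hpE : IsPeriodicSet E) (hpF : IsPeriodicSet F) :
    per (E ∪ F) + per (E ∩ F) ≤ per E + per F := by
  by_cases hfE : per E = ∞
  · simp [hfE]
  by_cases hfF : per F = ∞
  · simp [hfF]
  set pE := (per E).toReal with hpEdef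
  set pF := (per F).toReal with hpFdef
  obtain ⟨u, hu', -, hul⟩ := exists_approx hE hpE hfE
  have hu : ∀ n, ContDiff ℝ 1 (u n) := fun n => (hu' n).1.of_le (by norm_cast)
  have hup : ∀ n, IsPer (u n) := fun n => (hu' n).2.1
  have hur : ∀ n x, u n x ∈ Icc (0 : ℝ) 1 := fun n => (hu' n).2.2.1
  have hub : ∀ n, gradMass (u n) ≤ (per E).toReal := fun n => (hu' n).2.2.2.2
  obtain ⟨v, hv', -, hvl⟩ := exists_approx hF hpF hfF
  have hv : ∀ n, ContDiff ℝ 1 (v n) := fun n => (hv' n).1.of_le (by norm_cast)
  have hvp : ∀ n, IsPer (v n) := fun n => (hv' n).2.1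
  have hvr : ∀ n x, v n x ∈ Icc (0 : ℝ) 1 := fun n => (hv' n).2.2.1
  have hvb : ∀ n, gradMass (v n) ≤ (per F).toReal := fun n => (hv' n).2.2.2.2
  set g : R3 → ℝ := E.indicator 1 with hg
  set h : R3 → ℝ := F.indicator 1 with hh
  have gm : Measurable g := measurable_one.indicator hE
  have hm : Measurable h := measurable_one.indicator hF
  set ε : ℕ → ℝ := fun n => 1 / ((n : ℝ) + 1) with hεdef
  have hε : ∀ n, 0 < ε n := fun n => by positivity
  have hε1 : ∀ n, ε n ≤ 1 := fun n => by
    simp only [hεdef]; rw [div_le_one (by positivity)]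
    exact le_add_of_nonneg_left (Nat.cast_nonneg n)
  have core : ∀ X Y : R3 → R3, IsTestField X → IsTestField Y →
      (∫ x in (E ∪ F) ∩ cell, dv X x) + (∫ x in (E ∩ F) ∩ cell, dv Y x) ≤ pE + pF := by
    intro X Y hX hY
    rw [setIntegral_inter_cell (hE.union hF), setIntegral_inter_cell (hE.inter hF)]
    obtain ⟨C, hC0, hC⟩ := exists_bound_cell (continuous_dv hX.smooth)
    obtain ⟨D, hD0, hD⟩ := exists_bound_cell (continuous_dv hY.smooth)
    set M : ℕ → R3 → ℝ := fun n => smax (ε n) (u n) (v n) with hM
    set N : ℕ → R3 → ℝ := fun n => smin (ε n) (u n) (v n) with hN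
    have hMc : ∀ n, ContDiff ℝ 1 (M n) := fun n => contDiff_smax (hε n).ne' (hu n) (hv n)
    have hNc : ∀ n, ContDiff ℝ 1 (N n) := fun n => contDiff_smin (hε n).ne' (hu n) (hv n)
    have hMp : ∀ n, IsPer (M n) := fun n i x => by simp only [hM, smax, hup n i x, hvp n i x]
    have hNp : ∀ n, IsPer (N n) := fun n i x => by simp only [hN, smin, hup n i x, hvp n i x]
    have hMb : ∀ n x, |M n x| ≤ 2 := fun n x => by
      have := smax_sub_max (ε n) (u n) (v n) x
      rw [abs_of_pos (hε n), abs_le] at this
      rw [abs_le]
      constructor <;> linarith [hε1 n, le_max_left (u n x) (v n x), (hur n x).1,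
        max_le (hur n x).2 (hvr n x).2]
    have hNb : ∀ n x, |N n x| ≤ 2 := fun n x => by
      have := smin_sub_min (ε n) (u n) (v n) x
      rw [abs_of_pos (hε n), abs_le] at this
      rw [abs_le]
      constructor <;> linarith [hε1 n, min_le_left (u n x) (v n x), (hur n x).2,
        le_min (hur n x).1 (hvr n x).1]
    have bound : ∀ n, (∫ x in cell, M n x * dv X x) + (∫ x in cell, N n x * dv Y x)
        ≤ pE + pF := fun n => by
      have hi : ∀ w : R3 → ℝ, ContDiff ℝ 1 w → IsPer w →
          IntegrableOn (fun x => ‖grad w x‖) cell := fun w hw hwp =>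
        (hwp.grad.comp fun a => ‖a‖).integrable_cell (continuous_grad hw).norm
      calc _ ≤ gradMass (M n) + gradMass (N n) :=
            add_le_add (setIntegral_mul_dv_le (hMc n) (hMp n) hX)
              (setIntegral_mul_dv_le (hNc n) (hNp n) hY)
        _ = ∫ x in cell, (‖grad (M n) x‖ + ‖grad (N n) x‖) :=
            (integral_add (hi _ (hMc n) (hMp n)) (hi _ (hNc n) (hNp n))).symm
        _ ≤ ∫ x in cell, (‖grad (u n) x‖ + ‖grad (v n) x‖) :=
            setIntegral_mono_on ((hi _ (hMc n) (hMp n)).add (hi _ (hNc n) (hNp n)))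
              ((hi _ (hu n) (hup n)).add (hi _ (hv n) (hvp n))) measurableSet_cell fun x _ => by
              simp only [norm_grad]
              exact norm_fderiv_smax_add_smin (hε n).ne' ((hu n).differentiable one_ne_zero x)
                ((hv n).differentiable one_ne_zero x)
        _ ≤ pE + pF := by
            rw [integral_add (hi _ (hu n) (hup n)) (hi _ (hv n) (hvp n))]
            exact add_le_add (hub n) (hvb n)
    have err : ∀ n, |((∫ x in cell, M n x * dv X x) + ∫ x in cell, N n x * dv Y x)
        - ((∫ x in cell, (E ∪ F).indicator 1 x * dv X x)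
          + ∫ x in cell, (E ∩ F).indicator 1 x * dv Y x)|
        ≤ (C + D) * (ε n + (∫ x in cell, |u n x - g x|) + ∫ x in cell, |v n x - h x|) := fun n => by
      have i1 := integrable_cell_mul (hMc n).continuous.measurable (hMb n) (continuous_dv hX.smooth)
      have i2 := integrable_cell_mul (hNc n).continuous.measurable (hNb n) (continuous_dv hY.smooth)
      have i3 := integrable_cell_mul (measurable_one.indicator (hE.union hF))
        (abs_indicator_one_le _) (continuous_dv hX.smooth)
      have i4 := integrable_cell_mul (measurable_one.indicator (hE.inter hF))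
        (abs_indicator_one_le _) (continuous_dv hY.smooth)
      have iu : IntegrableOn (fun x => |u n x - g x|) cell :=
        integrable_cell_of_bound (C := 2) ((hu n).continuous.measurable.sub gm).abs fun x => by
          rw [abs_abs, abs_le]
          have := abs_le.1 (abs_indicator_one_le E x)
          constructor <;> linarith [(hur n x).1, (hur n x).2]
      have iv : IntegrableOn (fun x => |v n x - h x|) cell :=
        integrable_cell_of_bound (C := 2) ((hv n).continuous.measurable.sub hm).abs fun x => by
          rw [abs_abs, abs_le]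
          have := abs_le.1 (abs_indicator_one_le F x)
          constructor <;> linarith [(hvr n x).1, (hvr n x).2]
      have ie : IntegrableOn (fun _ : R3 => ε n) cell := integrable_const _
      rw [← integral_add i1 i2, ← integral_add i3 i4, ← integral_sub (i1.fun_add i2) (i3.fun_add i4)]
      refine abs_integral_le_integral_abs.trans ?_
      calc ∫ x in cell, |M n x * dv X x + N n x * dv Y x
            - ((E ∪ F).indicator 1 x * dv X x + (E ∩ F).indicator 1 x * dv Y x)|
          ≤ ∫ x in cell, (C + D) * (ε n + |u n x - g x| + |v n x - h x|) := by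
            refine setIntegral_mono_on ((i1.fun_add i2).sub (i3.fun_add i4)).abs
              (((ie.fun_add iu).fun_add iv).const_mul _) measurableSet_cell fun x hx => ?_
            have emax : (E ∪ F).indicator (1 : R3 → ℝ) x = max (g x) (h x) := by
              by_cases a : x ∈ E <;> by_cases b : x ∈ F <;> simp [hg, hh, a, b]
            have emin : (E ∩ F).indicator (1 : R3 → ℝ) x = min (g x) (h x) := by
              by_cases a : x ∈ E <;> by_cases b : x ∈ F <;> simp [hg, hh, a, b]
            set e := ε n + |u n x - g x| + |v n x - h x| with he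
            have he0 : 0 ≤ e := by have := hε n; positivity
            have d1 : |M n x - (E ∪ F).indicator 1 x| ≤ e := by
              rw [emax]
              have a1 := smax_sub_max (ε n) (u n) (v n) x
              have a2 := abs_max_sub_max_le_max (u n x) (v n x) (g x) (h x)
              rw [abs_of_pos (hε n)] at a1
              have a3 := abs_sub_le (M n x) (max (u n x) (v n x)) (max (g x) (h x))
              linarith [max_le_add_of_nonneg (abs_nonneg (u n x - g x))
                (abs_nonneg (v n x - h x))]
            have d2 : |N n x - (E ∩ F).indicator 1 x| ≤ e := by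
              rw [emin]
              have a1 := smin_sub_min (ε n) (u n) (v n) x
              have a2 := abs_min_sub_min_le_max (u n x) (v n x) (g x) (h x)
              rw [abs_of_pos (hε n)] at a1
              have a3 := abs_sub_le (N n x) (min (u n x) (v n x)) (min (g x) (h x))
              linarith [max_le_add_of_nonneg (abs_nonneg (u n x - g x))
                (abs_nonneg (v n x - h x))]
            calc _ = |(M n x - (E ∪ F).indicator 1 x) * dv X x
                  + (N n x - (E ∩ F).indicator 1 x) * dv Y x| := by ring_nf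
              _ ≤ |M n x - (E ∪ F).indicator 1 x| * |dv X x|
                  + |N n x - (E ∩ F).indicator 1 x| * |dv Y x| := by
                  rw [← abs_mul, ← abs_mul]; exact abs_add_le _ _
              _ ≤ e * C + e * D := add_le_add (mul_le_mul d1 (hC x hx) (abs_nonneg _) he0)
                  (mul_le_mul d2 (hD x hx) (abs_nonneg _) he0)
              _ = (C + D) * e := by ring
        _ = _ := by
            rw [integral_const_mul, integral_add (ie.fun_add iu) iv, integral_add ie iu]
            simp [Measure.real, volume_cell]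
    have elim : Tendsto
        (fun n => (C + D) * (ε n + (∫ x in cell, |u n x - g x|) + ∫ x in cell, |v n x - h x|))
        atTop (𝓝 0) := by
      have := ((tendsto_one_div_add_atTop_nhds_zero_nat.add hul).add hvl).const_mul (C + D)
      simpa [hεdef] using this
    have conv : Tendsto (fun n => (∫ x in cell, M n x * dv X x) + ∫ x in cell, N n x * dv Y x)
        atTop (𝓝 ((∫ x in cell, (E ∪ F).indicator 1 x * dv X x)
          + ∫ x in cell, (E ∩ F).indicator 1 x * dv Y x)) :=
      tendsto_iff_norm_sub_tendsto_zero.2
        (squeeze_zero (fun n => norm_nonneg _) (fun n => err n) elim)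
    exact le_of_tendsto' conv bound
  rw [← ENNReal.ofReal_toReal hfE, ← ENNReal.ofReal_toReal hfF,
    ← ENNReal.ofReal_add ENNReal.toReal_nonneg ENNReal.toReal_nonneg]
  have : Nonempty {X : R3 → R3 // IsTestField X} := ⟨⟨0, isTestField_zero⟩⟩
  rw [per_eq_iSup (E ∪ F), per_eq_iSup (E ∩ F)]
  refine ENNReal.iSup_add_iSup_le fun X Y => ?_
  have h1 := core X.1 Y.1 X.2 Y.2
  have h2 := core X.1 0 X.2 isTestField_zero
  have h3 := core 0 Y.1 isTestField_zero Y.2
  simp only [dv_zero, integral_zero, add_zero, zero_add] at h2 h3
  rcases le_total 0 (∫ x in (E ∪ F) ∩ cell, dv X.1 x) with a | a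
  · rcases le_total 0 (∫ x in (E ∩ F) ∩ cell, dv Y.1 x) with b | b
    · rw [← ENNReal.ofReal_add a b]
      exact ENNReal.ofReal_le_ofReal h1
    · rw [ENNReal.ofReal_of_nonpos b, add_zero]
      exact ENNReal.ofReal_le_ofReal h2
  · rw [ENNReal.ofReal_of_nonpos a, zero_add]
    exact ENNReal.ofReal_le_ofReal h3

/-- Every overlap between `V ^ 2` and `V` is attained by a translate. -/
lemma exists_shift {E : Set R3} (hE : MeasurableSet E) (hp : IsPeriodicSet E) (hfin : per E ≠ ∞)
    {V c : ℝ} (hV : ∫ x in cell, E.indicator (1 : R3 → ℝ) x = V) (hc : c ∈ Icc (V ^ 2) V) :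
    ∃ t, ∫ x in cell, (E ∩ shift t E).indicator (1 : R3 → ℝ) x = c := by
  obtain ⟨u, hu', -, hul⟩ := exists_approx hE hp hfin
  have hu : ∀ n, ContDiff ℝ 1 (u n) := fun n => (hu' n).1.of_le (by norm_cast)
  have hup : ∀ n, IsPer (u n) := fun n => (hu' n).2.1
  have hur : ∀ n x, u n x ∈ Icc (0 : ℝ) 1 := fun n => (hu' n).2.2.1
  set g : R3 → ℝ := E.indicator 1 with hg
  have gm : Measurable g := measurable_one.indicator hE
  have gb : ∀ x, |g x| ≤ 1 := abs_indicator_one_le E
  set φ : R3 → ℝ := fun t => ∫ x in cell, g x * g (x + t) with hφ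
  have hφE : ∀ t, ∫ x in cell, (E ∩ shift t E).indicator (1 : R3 → ℝ) x = φ t := fun t => by
    refine setIntegral_congr_fun measurableSet_cell fun x _ => ?_
    by_cases a : x ∈ E <;> by_cases b : x + t ∈ E <;> simp [hg, shift, a, b]
  have hcont : ∀ n, Continuous fun t => ∫ x in cell, g x * u n (x + t) := fun n => by
    refine continuous_of_dominated (bound := fun _ => (1 : ℝ)) (fun t => ?_) (fun t => ?_)
      (integrable_const _) (ae_of_all _ fun x => ?_)
    · exact (gm.mul ((hu n).continuous.measurable.comp
        (measurable_id.add_const t))).aestronglyMeasurable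
    · refine ae_of_all _ fun x => ?_
      rw [norm_mul]
      exact mul_le_one₀ (gb x) (norm_nonneg _)
        (abs_le.2 ⟨by linarith [(hur n (x + t)).1], (hur n (x + t)).2⟩)
    · exact continuous_const.mul ((hu n).continuous.comp (continuous_const.add continuous_id))
  have hunif : TendstoUniformly (fun n t => ∫ x in cell, g x * u n (x + t)) φ atTop := by
    rw [Metric.tendstoUniformly_iff]
    intro η hη
    filter_upwards [hul.eventually (gt_mem_nhds hη)] with n hn t
    rw [Real.dist_eq, hφ]
    have hd : ∀ x, |u n x - g x| ≤ 2 := fun x => by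
      have := abs_le.1 (gb x)
      rw [abs_le]
      constructor <;> linarith [(hur n x).1, (hur n x).2]
    have j1 : IntegrableOn (fun x => g x * g (x + t)) cell :=
      integrable_cell_of_bound (C := 1) (gm.mul (gm.comp (measurable_id.add_const t))) fun x => by
        rw [abs_mul]; exact mul_le_one₀ (gb x) (abs_nonneg _) (gb _)
    have j2 : IntegrableOn (fun x => g x * u n (x + t)) cell :=
      integrable_cell_of_bound (C := 1)
        (gm.mul ((hu n).continuous.measurable.comp (measurable_id.add_const t))) fun x => by
        rw [abs_mul]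
        exact mul_le_one₀ (gb x) (abs_nonneg _)
          (abs_le.2 ⟨by linarith [(hur n (x + t)).1], (hur n (x + t)).2⟩)
    have md : Measurable fun x => |u n x - g x| := ((hu n).continuous.measurable.sub gm).abs
    calc |(∫ x in cell, g x * g (x + t)) - ∫ x in cell, g x * u n (x + t)|
        = |∫ x in cell, (g x * g (x + t) - g x * u n (x + t))| := by rw [integral_sub j1 j2]
      _ ≤ ∫ x in cell, |g x * g (x + t) - g x * u n (x + t)| := abs_integral_le_integral_abs
      _ ≤ ∫ x in cell, |u n (x + t) - g (x + t)| := by
          refine setIntegral_mono_on (j1.sub j2).abs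
            (integrable_cell_of_bound (C := 2) (md.comp (measurable_id.add_const t))
              fun x => by rw [abs_abs]; exact hd _) measurableSet_cell fun x _ => ?_
          rw [← mul_sub, abs_mul, abs_sub_comm]
          exact mul_le_of_le_one_left (abs_nonneg _) (gb x)
      _ = ∫ x in cell, |u n x - g x| := IsPer.setIntegral_add (f := fun x => |u n x - g x|)
          (fun i x => by simp only [hup n i x, hg, isPer_indicator hp i x]) t
      _ < η := hn
  have hφc : Continuous φ := hunif.continuous (Frequently.of_forall hcont)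
  have hφ0 : φ 0 = V := by
    rw [← hV, hφ]
    refine setIntegral_congr_fun measurableSet_cell fun x _ => ?_
    by_cases a : x ∈ E <;> simp [hg, a]
  obtain ⟨t₁, ht₁⟩ : ∃ t, φ t ≤ V ^ 2 := by
    have hint : Integrable (Function.uncurry fun t x => g x * g (x + t))
        ((volume.restrict cell).prod (volume.restrict cell)) := by
      refine Integrable.mono' (integrable_const (1 : ℝ))
        (((gm.comp measurable_snd).mul
          (gm.comp (measurable_snd.add measurable_fst))).aestronglyMeasurable)
        (ae_of_all _ fun p => ?_)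
      simp only [Function.uncurry]
      rw [norm_mul]
      exact mul_le_one₀ (gb _) (norm_nonneg _) (gb _)
    have havg : ∫ t in cell, φ t = V ^ 2 := by
      simp only [hφ]
      rw [integral_integral_swap hint]
      have hin : ∀ x : R3, (∫ t in cell, g x * g (x + t)) = g x * V := fun x => by
        rw [integral_const_mul, ← hV]
        congr 1
        rw [← (isPer_indicator hp).setIntegral_add x]
        simp_rw [add_comm _ x, hg]
      simp only [hin, integral_mul_const, hV]
      ring
    obtain ⟨t, _, ht⟩ := exists_le_setAverage (μ := volume) (s := cell) (f := φ)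
      (by rw [volume_cell]; exact one_ne_zero) (by rw [volume_cell]; exact ENNReal.one_ne_top)
      hint.integral_prod_left
    refine ⟨t, ?_⟩
    rw [setAverage_eq, havg] at ht
    simpa [Measure.real, volume_cell] using ht
  obtain ⟨t, ht⟩ := intermediate_value_univ t₁ 0 hφc ⟨ht₁.trans hc.1, hφ0.symm ▸ hc.2⟩
  exact ⟨t, (hφE t).trans ht⟩

/-- Local midpoint concavity of the profile. -/
theorem profile_midpoint {V d : ℝ} (h0 : 0 < V) (h1 : V < 1) (hd0 : 0 ≤ d)
    (hd : d ≤ V * (1 - V)) : profile (V + d) + profile (V - d) ≤ 2 * profile V := by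
  rw [mul_comm, ← ENNReal.div_le_iff_le_mul (by simp) (by simp)]
  refine le_iInf fun E => le_iInf fun hE => le_iInf fun hp => le_iInf fun hv => ?_
  rw [ENNReal.div_le_iff_le_mul (by simp) (by simp), mul_two]
  by_cases hfin : per E = ∞
  · simp [hfin]
  have hV : ∫ x in cell, E.indicator (1 : R3 → ℝ) x = V := by
    rw [vol_eq_ofReal hE] at hv
    exact (ENNReal.ofReal_eq_ofReal_iff
      (integral_nonneg fun x => indicator_nonneg (fun _ _ => zero_le_one) x) h0.le).1 hv
  obtain ⟨t, ht⟩ := exists_shift hE hp hfin hV (c := V - d) ⟨by nlinarith, by linarith⟩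
  have hS := measurableSet_shift hE t
  have hSp := isPeriodicSet_shift hp t
  have hVs : ∫ x in cell, (shift t E).indicator (1 : R3 → ℝ) x = V := by
    rw [← hV, ← (isPer_indicator hp).setIntegral_add t]
    refine setIntegral_congr_fun measurableSet_cell fun x _ => ?_
    by_cases a : x + t ∈ E <;> simp [shift, a]
  have hI : vol (E ∩ shift t E) = ENNReal.ofReal (V - d) := by
    rw [vol_eq_ofReal (hE.inter hS), ht]
  have hU : vol (E ∪ shift t E) = ENNReal.ofReal (V + d) := by
    rw [vol_eq_ofReal (hE.union hS)]
    congr 1
    have i : ∀ A : Set R3, MeasurableSet A → IntegrableOn (A.indicator (1 : R3 → ℝ)) cell :=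
      fun A hA => integrable_cell_of_bound (measurable_one.indicator hA) (abs_indicator_one_le A)
    have hsum : ∫ x in cell, (E ∪ shift t E).indicator (1 : R3 → ℝ) x
        = (∫ x in cell, E.indicator (1 : R3 → ℝ) x)
          + (∫ x in cell, (shift t E).indicator (1 : R3 → ℝ) x)
          - ∫ x in cell, (E ∩ shift t E).indicator (1 : R3 → ℝ) x := by
      rw [← integral_add (i _ hE) (i _ hS), ← integral_sub ((i _ hE).fun_add (i _ hS))
        (i _ (hE.inter hS))]
      refine setIntegral_congr_fun measurableSet_cell fun x _ => ?_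
      by_cases a : x ∈ E <;> by_cases b : x ∈ shift t E <;> simp [a, b]
    rw [hsum, hV, hVs, ht]
    ring
  calc profile (V + d) + profile (V - d)
      ≤ per (E ∪ shift t E) + per (E ∩ shift t E) := by
        refine add_le_add ?_ ?_
        · exact profile_le (hE.union hS) (fun i x => or_congr (hp i x) (hSp i x)) hU
        · exact profile_le (hE.inter hS) (fun i x => and_congr (hp i x) (hSp i x)) hI
    _ ≤ per E + per (shift t E) := per_union_inter hE hS hp hSp
    _ ≤ per E + per E := add_le_add le_rfl (per_shift_le hE hp t)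

/-- A bound at one volume `a ≤ 1/2` holds on all of `[a, 1 - a]`. -/
theorem profile_slab_range {a V : ℝ} {c : ℝ≥0∞} (ha0 : 0 < a) (ha : a ≤ 1/2)
    (hc : c ≤ profile a) (hV : V ∈ Icc a (1 - a)) : c ≤ profile V :=
  ennreal_slab_min profile a ha0 ha (fun _ h1 h2 => profile_symm h1 h2)
    (fun _ _ h1 h2 h3 h4 => profile_midpoint h1 h2 h3 h4) c hc V hV

end Vale.Agent.P232
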