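import Vale.Agent.P232.Perimeter

/-!
Polarisation on the torus with respect to coordinate reflections, and the symmetrically decreasing
rearrangement it produces: a maximiser of `∫ v * ∑ cos (2π xᵢ)` among the functions with the same
distribution and no larger total variation.
-/

open MeasureTheory Set Filter Topology
open scoped ENNReal RealInnerProductSpace Convolution ContDiff NNReal

namespace Vale.Agent.P232

/-- The linear reflection in the `i`-th coordinate. -/
noncomputable def flip (i : Fin 3) : R3 ≃ₗᵢ[ℝ] R3 :=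
  LinearIsometryEquiv.piLpCongrRight 2 fun j =>
    if j = i then LinearIsometryEquiv.neg ℝ else LinearIsometryEquiv.refl ℝ ℝ

lemma flip_apply (i : Fin 3) (x : R3) (j : Fin 3) :
    flip i x j = if j = i then -x j else x j := by
  simp only [flip, LinearIsometryEquiv.piLpCongrRight_apply]
  split_ifs <;> simp

lemma e_coord (i j : Fin 3) : e i j = if j = i then 1 else 0 := by
  simp [e]

/-- The reflection in the hyperplane `x i = c`. -/
noncomputable def refl (i : Fin 3) (c : ℝ) (x : R3) : R3 := flip i x + (2 * c) • e i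

lemma refl_apply (i : Fin 3) (c : ℝ) (x : R3) (j : Fin 3) :
    refl i c x j = if j = i then 2 * c - x j else x j := by
  simp only [refl, PiLp.add_apply, PiLp.smul_apply, flip_apply, e_coord]
  split_ifs <;> simp <;> ring

lemma refl_eq (i : Fin 3) (c : ℝ) (x : R3) : refl i c x = x + (2 * (c - x i)) • e i := by
  ext j
  simp only [refl_apply, PiLp.add_apply, PiLp.smul_apply, e_coord]
  split_ifs with h
  · subst h; simp; ring
  · simp

lemma refl_refl (i : Fin 3) (c : ℝ) (x : R3) : refl i c (refl i c x) = x := by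
  ext j; simp only [refl_apply]; split_ifs <;> ring

lemma dist_refl (i : Fin 3) (c : ℝ) (x y : R3) : dist (refl i c x) (refl i c y) = dist x y := by
  simp only [refl, dist_add_right, LinearIsometryEquiv.dist_map]

lemma continuous_refl (i : Fin 3) (c : ℝ) : Continuous (refl i c) :=
  (flip i).continuous.add continuous_const

lemma hasFDerivAt_refl (i : Fin 3) (c : ℝ) (x : R3) :
    HasFDerivAt (refl i c) (flip i).toContinuousLinearEquiv.toContinuousLinearMap x :=
  ((flip i).toContinuousLinearEquiv.toContinuousLinearMap.hasFDerivAt).add_const _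

/-- A coordinate hyperplane, or a countable union of them, is null. -/
lemma volume_coord_eq_zero (i : Fin 3) {A : Set ℝ} (hA : A.Countable) :
    volume {x : R3 | x i ∈ A} = 0 := by
  have hm : MeasurableSet {x : R3 | x i ∈ A} :=
    hA.measurableSet.preimage (by fun_prop : Measurable fun x : R3 => x i)
  rw [← (PiLp.volume_preserving_toLp (Fin 3)).measure_preimage hm.nullMeasurableSet]
  have h : WithLp.toLp 2 ⁻¹' {x : R3 | x i ∈ A} = ⋃ a ∈ A, {f : Fin 3 → ℝ | f i = a} := by
    ext f; simp
  rw [h, measure_biUnion_null_iff hA]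
  exact fun a _ => Measure.pi_hyperplane (fun _ => (volume : Measure ℝ)) i a

lemma isPer_refl {α : Type*} {f : R3 → α} (hf : IsPer f) (i : Fin 3) (c : ℝ) :
    IsPer fun x => f (refl i c x) := fun j x => by
  show f (refl i c (x + e j)) = f (refl i c x)
  by_cases h : j = i
  · subst h
    have : refl j c (x + e j) + e j = refl j c x := by
      ext k; simp only [PiLp.add_apply, refl_apply, e_coord]; split_ifs <;> ring
    rw [← this, hf]
  · have : refl i c (x + e j) = refl i c x + e j := by
      ext k; simp only [PiLp.add_apply, refl_apply, e_coord]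
      split_ifs with h1 h2
      · exact absurd (h2.symm.trans h1) h
      all_goals ring
    rw [this, hf]

/-- Reflections preserve the integral over the cell of a periodic function. -/
lemma setIntegral_refl {f : R3 → ℝ} (hf : IsPer f) (i : Fin 3) (c : ℝ) :
    ∫ x in cell, f (refl i c x) = ∫ x in cell, f x := by
  have h1 : ∀ x, f (refl i c x) = (fun y => f (y + (2 * c - 1) • e i)) (flip i x + e i) := fun x => by
    show f (refl i c x) = f (flip i x + e i + (2 * c - 1) • e i)
    congr 1; ext j
    simp only [refl_apply, PiLp.add_apply, PiLp.smul_apply, flip_apply, e_coord]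
    split_ifs <;> simp <;> ring
  simp only [h1]
  set g := fun y => f (y + (2 * c - 1) • e i) with hg
  set τ := fun x => flip i x + e i with hτ
  have hmp : MeasurePreserving τ volume volume :=
    (measurePreserving_add_right volume (e i)).comp (flip i).measurePreserving
  have hemb : MeasurableEmbedding τ :=
    (((flip i).toHomeomorph.trans (Homeomorph.addRight (e i)))).measurableEmbedding
  have hae : τ ⁻¹' cell =ᵐ[volume] cell := by
    refine ae_eq_set.2 ⟨?_, ?_⟩ <;>
    refine measure_mono_null ?_ (volume_coord_eq_zero i (A := {0, 1}) (by simp)) <;>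
    · rintro x ⟨hx, hx'⟩
      simp only [cell, mem_preimage, mem_ofPred_eq, hτ, PiLp.add_apply, flip_apply, e_coord,
        mem_Ico, not_forall] at hx hx' ⊢
      obtain ⟨j, hj⟩ := hx'
      have hxj := hx j
      by_cases h : j = i
      · subst h
        simp only [↓reduceIte] at hj hxj
        simp only [mem_insert_iff, mem_singleton_iff]
        rw [not_and_or, not_le, not_lt] at hj
        rcases hj with h | h
        · first | (left; linarith) | (right; linarith)
        · first | (left; linarith) | (right; linarith)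
      · simp only [h, if_false, add_zero] at hj hxj
        exact absurd hxj hj
  calc ∫ x in cell, g (τ x) = ∫ x in τ ⁻¹' cell, g (τ x) := (setIntegral_congr_set hae).symm
    _ = ∫ y in cell, g y := hmp.setIntegral_preimage_emb hemb g cell
    _ = _ := hf.setIntegral_add _

/-- Integrals of products with periodic factors: a factor invariant under the reflection. -/
lemma setIntegral_mul_refl {p G : R3 → ℝ} {i : Fin 3} {c : ℝ} (hp : IsPer p) (hG : IsPer G)
    (h : ∀ x, p (refl i c x) = p x) :
    ∫ x in cell, p x * G (refl i c x) = ∫ x in cell, p x * G x := by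
  rw [← setIntegral_refl (hp.comp₂ hG (· * ·)) i c]
  simp only [h]

/-- The function whose sign separates the two halves exchanged by the reflection. -/
noncomputable def side (c t : ℝ) : ℝ :=
  Real.cos (2 * Real.pi * t) - Real.cos (2 * Real.pi * (2 * c - t))

lemma side_eq (c t : ℝ) :
    side c t = -2 * Real.sin (2 * Real.pi * c) * Real.sin (2 * Real.pi * (t - c)) := by
  rw [side, Real.cos_sub_cos]; ring_nf

lemma side_refl (i : Fin 3) (c : ℝ) (x : R3) : side c (refl i c x i) = -side c (x i) := by
  simp only [side, refl_apply, if_true, sub_sub_cancel]; ring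

lemma continuous_side (c : ℝ) : Continuous (side c) := by unfold side; fun_prop

lemma hasDerivAt_side (c t : ℝ) : ∃ d, |d| ≤ 4 * Real.pi ∧ HasDerivAt (side c) d t := by
  have h1 := ((hasDerivAt_id t).const_mul (2 * Real.pi)).cos
  have h2 := (((hasDerivAt_id t).const_sub (2 * c)).const_mul (2 * Real.pi)).cos
  refine ⟨_, ?_, h1.sub h2⟩
  simp only [id, mul_one, mul_neg, neg_mul, neg_neg]
  refine (abs_sub _ _).trans ?_
  simp only [abs_neg, abs_mul, abs_two, abs_of_pos Real.pi_pos]
  nlinarith [Real.abs_sin_le_one (2 * Real.pi * t), Real.abs_sin_le_one (2 * Real.pi * (2 * c - t)),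
    Real.pi_pos]

lemma isPer_side (i : Fin 3) (c : ℝ) : IsPer fun x => side c (x i) := fun j x => by
  simp only [PiLp.add_apply, e_coord]
  split_ifs with h
  · simp only [side]
    congr 1
    · rw [mul_add, mul_one, Real.cos_add_two_pi]
    · rw [show 2 * Real.pi * (2 * c - (x i + 1)) = 2 * Real.pi * (2 * c - x i) - 2 * Real.pi by ring,
        Real.cos_sub_two_pi]
  · simp

lemma isPer_smul_int {α : Type*} {f : R3 → α} (hf : IsPer f) (i : Fin 3) (n : ℤ) (x : R3) :
    f (x + (n : ℝ) • e i) = f x := by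
  refine hf.add_mem_lattice ?_ x
  rw [Int.cast_smul_eq_zsmul, ← stdBasis_apply]
  exact Submodule.smul_mem _ n (Submodule.subset_span (mem_range_self i))

/-- The hyperplane is fixed with a condition excluding the exchange of the centre. -/
def Admissible (c : ℝ) : Prop := Real.sin (2 * Real.pi * c) ≠ 0

lemma abs_sub_refl_le {v : R3 → ℝ} {K : ℝ≥0} (hv : LipschitzWith K v) (hp : IsPer v) {i : Fin 3}
    {c : ℝ} (hc : Admissible c) (x : R3) :
    |v x - v (refl i c x)| ≤ K / (4 * |Real.sin (2 * Real.pi * c)|) * |side c (x i)| := by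
  set y := 2 * (x i - c) with hy
  set n := round y
  have h1 : |v x - v (refl i c x)| ≤ K * |y - n| := by
    have h2 : v (refl i c x) = v (refl i c x + (n : ℝ) • e i) := (isPer_smul_int hp i n _).symm
    rw [h2, ← Real.dist_eq]
    refine (hv.dist_le_mul _ _).trans (mul_le_mul_of_nonneg_left (le_of_eq ?_) K.2)
    rw [dist_eq_norm, refl_eq, show x - (x + (2 * (c - x i)) • e i + (n : ℝ) • e i) =
      (y - n) • e i by rw [hy]; module, norm_smul, Real.norm_eq_abs]
    simp [e]
  have h2 : 2 * |y - n| ≤ |Real.sin (2 * Real.pi * (x i - c))| := by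
    have h3 : |Real.pi * (y - n)| ≤ Real.pi / 2 := by
      rw [abs_mul, abs_of_pos Real.pi_pos]
      nlinarith [abs_sub_round y, Real.pi_pos]
    have h4 := Real.mul_abs_le_abs_sin h3
    rw [abs_mul, abs_of_pos Real.pi_pos, show Real.pi * (y - n) = Real.pi * y - n * Real.pi by ring,
      Real.sin_sub_int_mul_pi, abs_mul, abs_zpow, abs_neg, abs_one, one_zpow, one_mul] at h4
    rw [show 2 * Real.pi * (x i - c) = Real.pi * y by rw [hy]; ring]
    calc 2 * |y - n| = 2 / Real.pi * (Real.pi * |y - n|) := by field_simp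
      _ ≤ _ := h4
  have hs : 0 < |Real.sin (2 * Real.pi * c)| := abs_pos.2 hc
  refine h1.trans ?_
  rw [side_eq, abs_mul, abs_mul, abs_neg, abs_two, div_mul_eq_mul_div, le_div_iff₀ (by positivity)]
  have h5 : (K : ℝ) * |Real.sin (2 * Real.pi * c)| * (2 * |y - n|) ≤
      K * |Real.sin (2 * Real.pi * c)| * |Real.sin (2 * Real.pi * (x i - c))| :=
    mul_le_mul_of_nonneg_left h2 (mul_nonneg K.2 hs.le)
  nlinarith

/-! ### Polarisation -/

/-- The polarisation towards the half containing the origin. -/
noncomputable def pol (i : Fin 3) (c : ℝ) (v : R3 → ℝ) (x : R3) : ℝ :=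
  if 0 ≤ side c (x i) then max (v x) (v (refl i c x)) else min (v x) (v (refl i c x))

section Pol

variable {i : Fin 3} {c : ℝ} {v : R3 → ℝ} {K : ℝ≥0}

lemma pol_of_nonpos (hv : LipschitzWith K v) (hp : IsPer v) (hc : Admissible c) {x : R3}
    (h : side c (x i) ≤ 0) : pol i c v x = min (v x) (v (refl i c x)) := by
  unfold pol
  split_ifs with h'
  · have h0 := abs_sub_refl_le hv hp hc (i := i) x
    rw [le_antisymm h h', abs_zero, mul_zero, abs_nonpos_iff, sub_eq_zero] at h0
    rw [h0, max_self, min_self]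
  · rfl

lemma lipschitz_pol (hv : LipschitzWith K v) (hp : IsPer v) (hc : Admissible c) :
    LipschitzWith K (pol i c v) := by
  have hup : ∀ {x y : R3}, 0 ≤ side c (x i) → 0 ≤ side c (y i) →
      |pol i c v x - pol i c v y| ≤ K * dist x y := fun {x y} hx hy => by
    rw [pol, pol, if_pos hx, if_pos hy]
    exact (abs_max_sub_max_le_max _ _ _ _).trans (max_le (hv.dist_le_mul x y)
      ((hv.dist_le_mul _ _).trans_eq (by rw [dist_refl])))
  have hlo : ∀ {x y : R3}, side c (x i) ≤ 0 → side c (y i) ≤ 0 →
      |pol i c v x - pol i c v y| ≤ K * dist x y := fun {x y} hx hy => by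
    rw [pol_of_nonpos hv hp hc hx, pol_of_nonpos hv hp hc hy]
    exact (abs_min_sub_min_le_max _ _ _ _).trans (max_le (hv.dist_le_mul x y)
      ((hv.dist_le_mul _ _).trans_eq (by rw [dist_refl])))
  have hcross : ∀ {x y : R3}, 0 ≤ side c (x i) → side c (y i) ≤ 0 →
      |pol i c v x - pol i c v y| ≤ K * dist x y := fun {x y} hx hy => by
    have hcont : Continuous fun t : ℝ => side c (AffineMap.lineMap x y t i) :=
      (continuous_side c).comp
        ((PiLp.continuous_apply 2 _ i).comp AffineMap.lineMap_continuous)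
    obtain ⟨t, ht, h0⟩ := intermediate_value_Icc' zero_le_one hcont.continuousOn
      (show (0 : ℝ) ∈ Icc (side c ((AffineMap.lineMap x y (1 : ℝ)) i))
        (side c ((AffineMap.lineMap x y (0 : ℝ)) i)) by simp [hx, hy])
    set z := AffineMap.lineMap x y t
    calc |pol i c v x - pol i c v y|
        ≤ |pol i c v x - pol i c v z| + |pol i c v z - pol i c v y| := abs_sub_le _ _ _
      _ ≤ K * dist x z + K * dist z y := add_le_add (hup hx h0.ge) (hlo h0.le hy)
      _ = K * dist x y := by
        have hz : z ∈ segment ℝ x y := segment_eq_image_lineMap ℝ x y ▸ mem_image_of_mem _ ht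
        rw [← mul_add, dist_add_dist_of_mem_segment hz]
  refine LipschitzWith.of_dist_le_mul fun x y => ?_
  rw [Real.dist_eq]
  rcases le_total 0 (side c (x i)) with hx | hx <;> rcases le_total 0 (side c (y i)) with hy | hy
  · exact hup hx hy
  · exact hcross hx hy
  · rw [abs_sub_comm, dist_comm]; exact hcross hy hx
  · exact hlo hx hy

lemma isPer_pol (hp : IsPer v) : IsPer (pol i c v) := fun j x => by
  simp only [pol, hp j x, isPer_refl hp i c j x, isPer_side i c j x]

lemma pol_mem (h : ∀ x, 0 ≤ v x ∧ v x ≤ 1) (x : R3) : 0 ≤ pol i c v x ∧ pol i c v x ≤ 1 := by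
  unfold pol
  split_ifs
  · exact ⟨(h x).1.trans (le_max_left _ _), max_le (h x).2 (h _).2⟩
  · exact ⟨le_min (h x).1 (h _).1, (min_le_left _ _).trans (h x).2⟩

lemma pol_pair (hv : LipschitzWith K v) (hp : IsPer v) (hc : Admissible c) (F : ℝ → ℝ) (x : R3) :
    F (pol i c v x) + F (pol i c v (refl i c x)) = F (v x) + F (v (refl i c x)) := by
  rcases le_total 0 (side c (x i)) with h | h
  · rw [pol_of_nonpos hv hp hc (x := refl i c x) (by rw [side_refl]; linarith), refl_refl, pol,
      if_pos h]
    rcases le_total (v x) (v (refl i c x)) with h' | h' <;> simp [h'] <;> ring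
  · rw [pol_of_nonpos hv hp hc h]
    have : 0 ≤ side c (refl i c x i) := by rw [side_refl]; linarith
    rw [pol, if_pos this, refl_refl]
    rcases le_total (v x) (v (refl i c x)) with h' | h' <;> simp [h'] <;> ring

lemma pol_sub_mul_nonneg (x : R3) : 0 ≤ (pol i c v x - v x) * side c (x i) := by
  unfold pol
  split_ifs with h
  · exact mul_nonneg (sub_nonneg.2 (le_max_left _ _)) h
  · exact mul_nonneg_of_nonpos_of_nonpos (sub_nonpos.2 (min_le_left _ _)) (not_le.1 h).le

lemma abs_pol_sub_pol_le {w : R3 → ℝ} {d : ℝ} (h : ∀ x, |v x - w x| ≤ d) (x : R3) :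
    |pol i c v x - pol i c w x| ≤ d := by
  unfold pol
  split_ifs
  · exact (abs_max_sub_max_le_max _ _ _ _).trans (max_le (h _) (h _))
  · exact (abs_min_sub_min_le_max _ _ _ _).trans (max_le (h _) (h _))

lemma setIntegral_pol (hv : LipschitzWith K v) (hp : IsPer v) (hc : Admissible c) {F : ℝ → ℝ}
    (hF : Continuous F) : ∫ x in cell, F (pol i c v x) = ∫ x in cell, F (v x) := by
  have h1 := (isPer_pol (i := i) (c := c) hp).comp F
  have h2 := hp.comp F
  have c1 : Continuous fun x => F (pol i c v x) := hF.comp (lipschitz_pol hv hp hc).continuous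
  have c2 : Continuous fun x => F (v x) := hF.comp hv.continuous
  have hsum : ∫ x in cell, (F (pol i c v x) + F (pol i c v (refl i c x))) =
      ∫ x in cell, (F (v x) + F (v (refl i c x))) := by
    simp only [pol_pair hv hp hc F]
  rw [integral_add (h1.integrable_cell c1)
      ((isPer_refl h1 i c).integrable_cell (c1.comp (continuous_refl i c))),
    integral_add (h2.integrable_cell c2)
      ((isPer_refl h2 i c).integrable_cell (c2.comp (continuous_refl i c))),
    setIntegral_refl h1, setIntegral_refl h2] at hsum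
  linarith

end Pol

lemma norm_grad_le {u : R3 → ℝ} {x : R3} {M : ℝ} (hM : 0 ≤ M)
    (h : ∀ a, |fderiv ℝ u x a| ≤ M * ‖a‖) : ‖grad u x‖ ≤ M := by
  have h1 := h (grad u x)
  rw [fderiv_eq_inner, real_inner_self_eq_norm_sq, abs_of_nonneg (sq_nonneg _)] at h1
  by_contra h2
  nlinarith [not_le.1 h2]

/-- Approximate sign. -/
noncomputable def sgnA (δ s : ℝ) : ℝ := s / Real.sqrt (s ^ 2 + δ ^ 2)

lemma abs_sgnA_le (δ s : ℝ) : |sgnA δ s| ≤ 1 := by
  rw [sgnA, abs_div, abs_of_nonneg (Real.sqrt_nonneg _)]
  exact div_le_one_of_le₀ (Real.abs_le_sqrt (le_add_of_nonneg_right (sq_nonneg δ)))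
    (Real.sqrt_nonneg _)

lemma hasDerivAt_sgnA {δ : ℝ} (hδ : δ ≠ 0) (s : ℝ) :
    HasDerivAt (sgnA δ) (δ ^ 2 / Real.sqrt (s ^ 2 + δ ^ 2) ^ 3) s := by
  have hpos : 0 < s ^ 2 + δ ^ 2 := by positivity
  have hr := Real.sqrt_pos.2 hpos
  have h := (hasDerivAt_id s).div (((hasDerivAt_pow 2 s).add_const (δ ^ 2)).sqrt hpos.ne') hr.ne'
  refine h.congr_deriv ?_
  simp only [id, Nat.cast_ofNat]
  field_simp
  linear_combination Real.sq_sqrt hpos.le

/-- Polarisation does not increase the total variation of a `C¹` function. -/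
theorem setIntegral_pol_mul_dv_le {u : R3 → ℝ} (hu : ContDiff ℝ 1 u) (hp : IsPer u) (i : Fin 3)
    {c : ℝ} (hc : Admissible c) {X : R3 → R3} (hX : IsTestField X) :
    ∫ x in cell, pol i c u x * dv X x ≤ gradMass u := by
  obtain ⟨B, hB0, hB⟩ := hp.bounded hu.continuous
  obtain ⟨L, hL0, hL⟩ := (hp.fderiv).bounded (hu.continuous_fderiv one_ne_zero)
  have hlip : LipschitzWith L.toNNReal u := lipschitzWith_of_nnnorm_fderiv_le
    (hu.differentiable one_ne_zero) fun x => by
      rw [← norm_toNNReal]; exact Real.toNNReal_le_toNNReal (hL x)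
  set C : ℝ := (L.toNNReal : ℝ) / (4 * |Real.sin (2 * Real.pi * c)|) with hC
  have hC0 : 0 ≤ C := by positivity
  have hS : ∀ x : R3, |u x - u (refl i c x)| ≤ C * |side c (x i)| := abs_sub_refl_le hlip hp hc
  set δ : ℕ → ℝ := fun n => 1 / ((n : ℝ) + 1) with hδd
  have hδ : ∀ n, 0 < δ n := fun n => by positivity
  have hδ1 : ∀ n, δ n ≤ 1 := fun n => by
    rw [hδd]; exact (div_le_one (by positivity)).2 (by linarith [(Nat.cast_nonneg n : (0:ℝ) ≤ n)])
  have hδ0 : Tendsto δ atTop (𝓝 0) := tendsto_one_div_add_atTop_nhds_zero_nat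
  have hpr := isPer_refl hp i c
  have hcr := continuous_refl i c
  set D : R3 → ℝ := fun x => u x - u (refl i c x) with hD
  set R : ℕ → R3 → ℝ := fun n x => Real.sqrt (D x ^ 2 + (δ n ^ 2) ^ 2) with hR
  set φ : ℕ → R3 → ℝ := fun n x => sgnA (δ n) (side c (x i)) with hφ
  set w : ℕ → R3 → ℝ := fun n x =>
    (u x + u (refl i c x)) / 2 + φ n x * R n x / 2 with hw
  have hDpos : ∀ n x, 0 < D x ^ 2 + (δ n ^ 2) ^ 2 := fun n x => by
    have := hδ n; positivity
  have hR0 : ∀ n x, 0 < R n x := fun n x => Real.sqrt_pos.2 (hDpos n x)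
  have hRle : ∀ n x, R n x ≤ |D x| + δ n ^ 2 := fun n x => Real.sqrt_le_iff.2 ⟨by positivity, by
    nlinarith [sq_abs (D x), mul_nonneg (abs_nonneg (D x)) (sq_nonneg (δ n))]⟩
  have hcoord : ContDiff ℝ 1 fun x : R3 => side c (x i) :=
    (show ContDiff ℝ 1 (side c) by unfold side; fun_prop).comp ((contDiff_piLp _).1 contDiff_id i)
  have hur : ContDiff ℝ 1 fun x => u (refl i c x) :=
    hu.comp (show ContDiff ℝ 1 (refl i c) from
      (flip i).toContinuousLinearEquiv.contDiff.add contDiff_const)
  have hws : ∀ n, ContDiff ℝ 1 (w n) := fun n => by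
    have h1 : ContDiff ℝ 1 (φ n) := by
      refine hcoord.div (((hcoord.pow 2).add contDiff_const).sqrt fun x => ?_) fun x => ?_
      · have := hδ n; positivity
      · exact (Real.sqrt_pos.2 (by have := hδ n; positivity)).ne'
    have h2 : ContDiff ℝ 1 (R n) :=
      (((hu.sub hur).pow 2).add contDiff_const).sqrt fun x => (hDpos n x).ne'
    exact ((hu.add hur).div_const 2).add ((h1.mul h2).div_const 2)
  have hφp : ∀ n, IsPer (φ n) := fun n => (isPer_side i c).comp (sgnA (δ n))
  have hRp : ∀ n, IsPer (R n) := fun n =>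
    hp.comp₂ hpr fun a b => Real.sqrt ((a - b) ^ 2 + (δ n ^ 2) ^ 2)
  have hwp : ∀ n, IsPer (w n) := fun n j x => by
    simp only [hw, hp j x, hpr j x, hφp n j x, hRp n j x]
  -- the pointwise bound on the gradient
  set g : ℕ → R3 → ℝ := fun n x =>
    2 * Real.pi * (C * (δ n ^ 2 / (side c (x i) ^ 2 + δ n ^ 2)) + δ n) with hg
  set ψ : ℕ → R3 → ℝ := fun n x => φ n x * (D x / R n x) with hψ
  set G : R3 → ℝ := fun x => ‖grad u x‖ with hG
  have key : ∀ n x, ‖grad (w n) x‖ ≤
      (1 + ψ n x) / 2 * G x + (1 - ψ n x) / 2 * G (refl i c x) + g n x := by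
    intro n x
    have hd := hδ n
    have hψ1 : |ψ n x| ≤ 1 := by
      rw [hψ, abs_mul, abs_div, abs_of_pos (hR0 n x)]
      refine mul_le_one₀ (abs_sgnA_le _ _) (by positivity) (div_le_one_of_le₀ ?_ (hR0 n x).le)
      exact Real.abs_le_sqrt (le_add_of_nonneg_right (sq_nonneg _))
    rw [abs_le] at hψ1
    have hg0 : 0 ≤ g n x := by positivity
    refine norm_grad_le (add_nonneg (add_nonneg
      (mul_nonneg (by linarith) (norm_nonneg _)) (mul_nonneg (by linarith) (norm_nonneg _))) hg0)
      fun a => ?_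
    obtain ⟨d, hd4, hside⟩ := hasDerivAt_side c (x i)
    have hA := (hu.differentiable one_ne_zero x).hasFDerivAt
    have hB' := ((hu.differentiable one_ne_zero (refl i c x)).hasFDerivAt).comp x
      (hasFDerivAt_refl i c x)
    have hDd : HasFDerivAt D _ x := hA.sub hB'
    have hRd : HasFDerivAt (R n) _ x :=
      ((HasFDerivAt.pow hDd 2).add_const ((δ n ^ 2) ^ 2)).sqrt (hDpos n x).ne'
    have hcomp : HasDerivAt (fun t => sgnA (δ n) (side c t))
        (δ n ^ 2 / Real.sqrt (side c (x i) ^ 2 + δ n ^ 2) ^ 3 * d) (x i) :=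
      (hasDerivAt_sgnA hd.ne' (side c (x i))).comp (x i) hside
    have hproj : HasFDerivAt (fun y : R3 => y i) _ x := PiLp.hasFDerivAt_apply (𝕜 := ℝ) 2 x i
    have hφd : HasFDerivAt (φ n) _ x :=
      HasDerivAt.comp_hasFDerivAt (f := fun y : R3 => y i) x hcomp hproj
    have hwd0 := ((hA.add hB').mul_const (2 : ℝ)⁻¹).add ((hφd.mul hRd).mul_const (2 : ℝ)⁻¹)
    have hwd : HasFDerivAt (w n) _ x := hwd0.congr_of_eventuallyEq
      (Eventually.of_forall fun y => by simp [hw, div_eq_mul_inv])
    rw [hwd.fderiv]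
    simp only [add_apply, smul_apply, ContinuousLinearMap.coe_comp, Function.comp_apply,
      smul_eq_mul, sub_apply, PiLp.proj_apply]
    simp only [ContinuousLinearEquiv.coe_coe, LinearIsometryEquiv.coe_toContinuousLinearEquiv]
    have hRx : R n x = Real.sqrt (D x ^ 2 + (δ n ^ 2) ^ 2) := rfl
    rw [← hRx]
    set A := fderiv ℝ u x a with hAdef
    set B := fderiv ℝ u (refl i c x) (flip i a) with hBdef
    set r := Real.sqrt (side c (x i) ^ 2 + δ n ^ 2) with hr
    have hA1 : |A| ≤ G x * ‖a‖ := by
      rw [hAdef, fderiv_eq_inner]; exact abs_real_inner_le_norm _ _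
    have hB1 : |B| ≤ G (refl i c x) * ‖a‖ := by
      rw [hBdef, fderiv_eq_inner]
      exact (abs_real_inner_le_norm _ _).trans_eq (by rw [(flip i).norm_map])
    have hrpos : 0 < r := Real.sqrt_pos.2 (by positivity)
    have hE : |R n x * (δ n ^ 2 / r ^ 3 * d) * a i / 2| ≤ g n x * ‖a‖ := by
      have hai : |a i| ≤ ‖a‖ := PiLp.norm_apply_le a i
      have h1 : R n x * (δ n ^ 2 / r ^ 3) ≤ C * (δ n ^ 2 / (side c (x i) ^ 2 + δ n ^ 2)) + δ n := by
        have hr2 : r ^ 2 = side c (x i) ^ 2 + δ n ^ 2 := Real.sq_sqrt (by positivity)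
        have hsr : |side c (x i)| ≤ r := Real.abs_le_sqrt (le_add_of_nonneg_right (sq_nonneg _))
        have hdr : δ n ≤ r := Real.le_sqrt_of_sq_le (le_add_of_nonneg_left (sq_nonneg _))
        have h3 : R n x * δ n ^ 2 ≤ C * δ n ^ 2 * r + δ n * r ^ 3 := by
          calc R n x * δ n ^ 2 ≤ (C * |side c (x i)| + δ n ^ 2) * δ n ^ 2 :=
                mul_le_mul_of_nonneg_right ((hRle n x).trans (by linarith [hS x])) (sq_nonneg _)
            _ ≤ C * δ n ^ 2 * r + δ n * r ^ 3 := by
              have h4 : δ n ^ 3 ≤ r ^ 3 := pow_le_pow_left₀ hd.le hdr 3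
              nlinarith [mul_le_mul_of_nonneg_left hsr (mul_nonneg hC0 (sq_nonneg (δ n)))]
        rw [← hr2]
        calc R n x * (δ n ^ 2 / r ^ 3) = R n x * δ n ^ 2 / r ^ 3 := by ring
          _ ≤ (C * δ n ^ 2 * r + δ n * r ^ 3) / r ^ 3 := by gcongr
          _ = _ := by field_simp
      have h0 : 0 ≤ R n x * (δ n ^ 2 / r ^ 3) := by have := hR0 n x; positivity
      calc |R n x * (δ n ^ 2 / r ^ 3 * d) * a i / 2|
          = R n x * (δ n ^ 2 / r ^ 3) * (|d| * |a i|) / 2 := by
            rw [← mul_assoc (R n x), abs_div, abs_mul, abs_mul, abs_of_nonneg h0, abs_two]; ring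
        _ ≤ (C * (δ n ^ 2 / (side c (x i) ^ 2 + δ n ^ 2)) + δ n) * (4 * Real.pi * ‖a‖) / 2 := by
            gcongr
        _ = _ := by rw [hg]; ring
    have hmain : |(1 + ψ n x) / 2 * A + (1 - ψ n x) / 2 * B| ≤
        ((1 + ψ n x) / 2 * G x + (1 - ψ n x) / 2 * G (refl i c x)) * ‖a‖ := by
      refine (abs_add_le _ _).trans ?_
      rw [abs_mul, abs_mul, abs_of_nonneg (a := (1 + ψ n x) / 2) (by linarith),
        abs_of_nonneg (a := (1 - ψ n x) / 2) (by linarith)]
      nlinarith [mul_le_mul_of_nonneg_left hA1 (show (0:ℝ) ≤ (1 + ψ n x) / 2 by linarith),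
        mul_le_mul_of_nonneg_left hB1 (show (0:ℝ) ≤ (1 - ψ n x) / 2 by linarith)]
    rw [add_mul]
    refine le_trans (le_of_eq ?_) ((abs_add_le _ _).trans (add_le_add hmain hE))
    congr 1
    simp only [hψ]
    have hR1 := (hR0 n x).ne'
    have hr1 := hrpos.ne'
    clear_value R
    field_simp
    ring
  have hGp : IsPer G := hp.grad.comp fun a => ‖a‖
  have hGc : Continuous G := (continuous_grad hu).norm
  have hψp : ∀ n, IsPer (ψ n) := fun n j x => by
    simp only [hψ, hD, hp j x, hpr j x, hφp n j x, hRp n j x]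
  have hψc : ∀ n, Continuous (ψ n) := fun n => by
    have h1 : Continuous (φ n) := by
      refine hcoord.continuous.div ((hcoord.continuous.pow 2).add continuous_const).sqrt fun x => ?_
      have := hδ n
      exact (Real.sqrt_pos.2 (by positivity)).ne'
    have h2 : Continuous D := hu.continuous.sub hur.continuous
    exact h1.mul (h2.div (by fun_prop) fun x => (hR0 n x).ne')
  have hgc : ∀ n, Continuous (g n) := fun n => by
    refine continuous_const.mul (((continuous_const.div
      ((hcoord.continuous.pow 2).add continuous_const) fun x => ?_).const_mul _).add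
      continuous_const)
    have := hδ n
    exact (show (0:ℝ) < side c (x i) ^ 2 + δ n ^ 2 by positivity).ne'
  have hgp : ∀ n, IsPer (g n) := fun n =>
    (isPer_side i c).comp fun s => 2 * Real.pi * (C * (δ n ^ 2 / (s ^ 2 + δ n ^ 2)) + δ n)
  have hmass : ∀ n, gradMass (w n) ≤ gradMass u + ∫ x in cell, g n x := by
    intro n
    have hψr : ∀ x, ψ n (refl i c x) = ψ n x := fun x => by
      simp only [hψ, hφ, hR, hD, side_refl, refl_refl, sgnA, neg_sq]
      rw [show (u (refl i c x) - u x) ^ 2 = (u x - u (refl i c x)) ^ 2 by ring]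
      ring
    have e1 : ∫ x in cell, (1 - ψ n x) / 2 * G (refl i c x) =
        ∫ x in cell, (1 - ψ n x) / 2 * G x :=
      setIntegral_mul_refl ((hψp n).comp fun a => (1 - a) / 2) hGp fun x => by rw [hψr]
    have i1 : Integrable (fun x => (1 + ψ n x) / 2 * G x) (volume.restrict cell) :=
      ((hψp n).comp₂ hGp fun a b => (1 + a) / 2 * b).integrable_cell
        (by have := hψc n; fun_prop)
    have i2 : Integrable (fun x => (1 - ψ n x) / 2 * G (refl i c x)) (volume.restrict cell) :=
      ((hψp n).comp₂ (isPer_refl hGp i c) fun a b => (1 - a) / 2 * b).integrable_cell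
        (by have := hψc n; fun_prop)
    have i3 : Integrable (fun x => (1 - ψ n x) / 2 * G x) (volume.restrict cell) :=
      ((hψp n).comp₂ hGp fun a b => (1 - a) / 2 * b).integrable_cell
        (by have := hψc n; fun_prop)
    have i4 : Integrable (g n) (volume.restrict cell) := (hgp n).integrable_cell (hgc n)
    calc gradMass (w n)
        ≤ ∫ x in cell, ((1 + ψ n x) / 2 * G x + (1 - ψ n x) / 2 * G (refl i c x) + g n x) :=
          integral_mono (((hwp n).grad.comp fun a => ‖a‖).integrable_cell
            (continuous_grad (hws n)).norm) ((i1.add i2).add i4) (key n)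
      _ = (∫ x in cell, (1 + ψ n x) / 2 * G x) + (∫ x in cell, (1 - ψ n x) / 2 * G x) +
          ∫ x in cell, g n x := by
          have i12 : Integrable (fun x => (1 + ψ n x) / 2 * G x +
              (1 - ψ n x) / 2 * G (refl i c x)) (volume.restrict cell) := i1.add i2
          rw [integral_add i12 i4, integral_add i1 i2, e1]
      _ = _ := by
          rw [← integral_add i1 i3]
          congr 2
          ext x; simp only [hG]; ring
  -- limits
  have hnull : ∀ᵐ x ∂(volume.restrict cell), side c (x i) ≠ 0 := by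
    refine ae_restrict_of_ae (compl_mem_ae_iff.2 (measure_mono_null ?_ (volume_coord_eq_zero i
      (A := ⋃ k : ℤ, {c + k / 2}) (countable_iUnion fun _ => countable_singleton _))))
    intro x hx
    have hx0 : side c (x i) = 0 := hx
    rw [side_eq, mul_eq_zero, Real.sin_eq_zero_iff] at hx0
    rcases hx0 with h | ⟨k, hk⟩
    · exact absurd h (mul_ne_zero (by norm_num) hc)
    · refine mem_iUnion.2 ⟨k, ?_⟩
      rw [mem_singleton_iff]
      field_simp [Real.pi_ne_zero] at hk ⊢
      linarith
  have hg0 : Tendsto (fun n => ∫ x in cell, g n x) atTop (𝓝 0) := by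
    have := tendsto_integral_of_dominated_convergence (μ := volume.restrict cell) (F := g)
      (f := fun _ => (0 : ℝ)) (fun _ => 2 * Real.pi * (C + 1))
      (fun n => (hgc n).aestronglyMeasurable) (integrable_const _)
      (fun n => ae_of_all _ fun x => by
        have := hδ n
        rw [Real.norm_of_nonneg (by positivity)]
        simp only [hg]
        gcongr
        · exact mul_le_of_le_one_right hC0
            (div_le_one_of_le₀ (le_add_of_nonneg_left (sq_nonneg _)) (by positivity))
        · exact hδ1 n)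
      (hnull.mono fun x hx => by
        have h := ((((hδ0.pow 2).div ((hδ0.pow 2).const_add (side c (x i) ^ 2))
          (by simp [hx])).const_mul C).add hδ0).const_mul (2 * Real.pi)
        simpa [hg] using h)
    simpa using this
  have hlim : Tendsto (fun n => ∫ x in cell, w n x * dv X x) atTop
      (𝓝 (∫ x in cell, pol i c u x * dv X x)) := by
    obtain ⟨M, hM0, hM⟩ := hX.periodic.dv.bounded (continuous_dv hX.smooth)
    refine tendsto_integral_of_dominated_convergence (μ := volume.restrict cell)
      (fun _ => (3 * B + 1) * M)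
      (fun n => ((hws n).continuous.mul (continuous_dv hX.smooth)).aestronglyMeasurable)
      (integrable_const _) (fun n => ae_of_all _ fun x => ?_) (ae_of_all _ fun x => ?_)
    · rw [norm_mul]
      refine mul_le_mul ?_ (hM x) (norm_nonneg _) (by linarith)
      have h1 := hB x
      have h2 := hB (refl i c x)
      have h5 : |φ n x * R n x| ≤ 2 * B + 1 := by
        rw [abs_mul, abs_of_pos (hR0 n x)]
        refine (mul_le_of_le_one_left (hR0 n x).le (abs_sgnA_le _ _)).trans ((hRle n x).trans ?_)
        have h6 : δ n ^ 2 ≤ 1 := pow_le_one₀ (hδ n).le (hδ1 n)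
        simp only [Real.norm_eq_abs] at h1 h2
        linarith [abs_sub (u x) (u (refl i c x))]
      simp only [Real.norm_eq_abs] at h1 h2 ⊢
      simp only [hw]
      rw [abs_le] at h1 h2 h5 ⊢
      constructor <;> linarith
    · refine Tendsto.mul_const _ ?_
      have hR' : Tendsto (fun n => R n x) atTop (𝓝 |D x|) := by
        have := ((((hδ0.pow 2).pow 2).const_add (D x ^ 2))).sqrt
        simpa [hR, Real.sqrt_sq_eq_abs] using this
      have hbase : ∀ {l : ℝ}, Tendsto (fun n => φ n x * R n x) atTop (𝓝 l) →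
          (u x + u (refl i c x)) / 2 + l / 2 = pol i c u x →
          Tendsto (fun n => w n x) atTop (𝓝 (pol i c u x)) := fun {l} h e =>
        e ▸ (h.div_const 2).const_add _
      rcases lt_trichotomy (side c (x i)) 0 with hs | hs | hs
      · have hφ' : Tendsto (fun n => φ n x) atTop (𝓝 (-1)) := by
          have := (tendsto_const_nhds (x := side c (x i))).div
            (((hδ0.pow 2).const_add (side c (x i) ^ 2)).sqrt) (by simp [hs.ne, Real.sqrt_sq_eq_abs])
          simpa [hφ, sgnA, Pi.div_def, Real.sqrt_sq_eq_abs, abs_of_neg hs, div_neg, div_self hs.ne] using this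
        refine hbase (hφ'.mul hR') ?_
        rw [pol_of_nonpos hlip hp hc hs.le]
        rcases le_total (u x) (u (refl i c x)) with h' | h' <;>
          simp [h', hD, abs_of_nonneg, abs_of_nonpos] <;> ring
      · have hD0 : D x = 0 := by
          have := hS x
          rw [hs, abs_zero, mul_zero, abs_nonpos_iff] at this
          exact this
        refine hbase (l := 0) (squeeze_zero_norm (fun n => ?_) (by simpa [hD0] using hR')) ?_
        · rw [norm_mul, Real.norm_eq_abs, Real.norm_eq_abs, abs_of_pos (hR0 n x)]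
          exact mul_le_of_le_one_left (hR0 n x).le (abs_sgnA_le _ _)
        · rw [pol_of_nonpos hlip hp hc hs.le, ← sub_eq_zero.1 hD0, min_self]; ring
      · have hφ' : Tendsto (fun n => φ n x) atTop (𝓝 1) := by
          have := (tendsto_const_nhds (x := side c (x i))).div
            (((hδ0.pow 2).const_add (side c (x i) ^ 2)).sqrt) (by simp [hs.ne', Real.sqrt_sq_eq_abs])
          simpa [hφ, sgnA, Pi.div_def, Real.sqrt_sq_eq_abs, abs_of_pos hs, div_self hs.ne'] using this
        refine hbase (hφ'.mul hR') ?_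
        rw [pol, if_pos hs.le]
        rcases le_total (u x) (u (refl i c x)) with h' | h' <;>
          simp [h', hD, abs_of_nonneg, abs_of_nonpos] <;> ring
  refine le_of_tendsto_of_tendsto hlim (by simpa using hg0.const_add (gradMass u))
    (Eventually.of_forall fun n => ?_)
  exact (setIntegral_mul_dv_le (hws n) (hwp n) hX).trans (hmass n)

/-! ### Mollifying periodic functions -/

/-- The mollification of a function. -/
noncomputable def mollF (φ : ContDiffBump (0 : R3)) (v : R3 → ℝ) : R3 → ℝ :=
  φ.normed volume ⋆[ContinuousLinearMap.lsmul ℝ ℝ, volume] v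

lemma mollF_apply (φ : ContDiffBump (0 : R3)) (v : R3 → ℝ) (x : R3) :
    mollF φ v x = ∫ t, φ.normed volume t * v (x - t) := rfl

lemma gradMass_mollF_le (φ : ContDiffBump (0 : R3)) {v : R3 → ℝ} {P : ℝ} (hv : Continuous v)
    (hp : IsPer v) (h : ∀ X, IsTestField X → ∫ x in cell, v x * dv X x ≤ P) :
    ContDiff ℝ ∞ (mollF φ v) ∧ IsPer (mollF φ v) ∧ gradMass (mollF φ v) ≤ P := by
  have hs : ContDiff ℝ ∞ (mollF φ v) :=
    φ.hasCompactSupport_normed.contDiff_convolution_left _ φ.contDiff_normed hv.locallyIntegrable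
  have hper : IsPer (mollF φ v) := fun i x => by
    simp only [mollF_apply]
    congr 1; ext t; exact congrArg _ (hp.comp_sub t i x)
  refine ⟨hs, hper, gradMass_le (hs.of_le (by norm_cast)) hper fun X hX => ?_⟩
  obtain ⟨Cv, hCv0, hCv⟩ := hp.bounded hv
  obtain ⟨Cd, hCd0, hCd⟩ := hX.periodic.dv.bounded (continuous_dv hX.smooth)
  have hcn : Continuous (φ.normed (volume : Measure R3)) := φ.continuous_normed
  have hcd := continuous_dv hX.smooth
  have hint : Integrable (Function.uncurry fun x t =>
      φ.normed volume t * v (x - t) * dv X x) ((volume.restrict cell).prod volume) := by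
    refine (((φ.integrable_normed (μ := volume)).comp_snd (volume.restrict cell)).const_mul
      (Cv * Cd)).mono' (Continuous.aestronglyMeasurable (by fun_prop)) (ae_of_all _ fun ⟨x, t⟩ => ?_)
    simp only [Function.uncurry, norm_mul, Real.norm_of_nonneg (φ.nonneg_normed t)]
    calc φ.normed volume t * ‖v (x - t)‖ * ‖dv X x‖ ≤ φ.normed volume t * Cv * Cd := by
          gcongr
          · exact mul_nonneg (φ.nonneg_normed t) hCv0
          · exact φ.nonneg_normed t
          · exact hCv _
          · exact hCd _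
      _ = Cv * Cd * φ.normed volume t := by ring
  have e1 : ∀ t, ∫ x in cell, φ.normed volume t * v (x - t) * dv X x =
      φ.normed volume t * ∫ x in cell, v x * dv (fun y => X (y + t)) x := fun t => by
    simp only [mul_assoc]
    rw [integral_const_mul]
    congr 1
    have hq : IsPer fun x => v x * dv X (x + t) := hp.comp₂ (hX.periodic.dv.comp_add t) (· * ·)
    have h2 := hq.setIntegral_add (-t)
    simp only [← sub_eq_add_neg] at h2
    simpa [dv_comp_add] using h2
  simp only [mollF_apply, ← integral_mul_const]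
  rw [integral_integral_swap hint]
  calc ∫ t, ∫ x in cell, φ.normed volume t * v (x - t) * dv X x
      ≤ ∫ t, φ.normed volume t * P := by
        refine integral_mono hint.integral_prod_right (φ.integrable_normed.mul_const _) fun t => ?_
        simp only [Function.uncurry]
        rw [e1]
        exact mul_le_mul_of_nonneg_left (h _ (hX.comp_add t)) (φ.nonneg_normed t)
    _ = P := by rw [integral_mul_const, φ.integral_normed, one_mul]

/-- Polarisation keeps the bound on the total variation of a Lipschitz function. -/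
theorem pol_pairing {v : R3 → ℝ} {K : ℝ≥0} {P : ℝ} (hv : LipschitzWith K v) (hp : IsPer v)
    (h : ∀ X, IsTestField X → ∫ x in cell, v x * dv X x ≤ P) (i : Fin 3) {c : ℝ}
    (hc : Admissible c) {X : R3 → R3} (hX : IsTestField X) :
    ∫ x in cell, pol i c v x * dv X x ≤ P := by
  set f : ℕ → R3 → ℝ := fun n => mollF (bump n) v with hf
  have hf' := fun n => gradMass_mollF_le (bump n) hv.continuous hp h
  have hd : ∀ n x, |f n x - v x| ≤ K * (1 / ((n : ℝ) + 1)) := fun n x => by
    have := (bump n).dist_normed_convolution_le (μ := volume) (g := v) (x₀ := x)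
      (ε := K * (1 / ((n : ℝ) + 1))) hv.continuous.aestronglyMeasurable fun y hy =>
        (hv.dist_le_mul y x).trans (mul_le_mul_of_nonneg_left (le_of_lt hy) K.2)
    exact this
  obtain ⟨M, hM0, hM⟩ := hX.periodic.dv.bounded (continuous_dv hX.smooth)
  have hcp := (lipschitz_pol (i := i) hv hp hc).continuous
  obtain ⟨B, hB0, hB⟩ := (isPer_pol (i := i) (c := c) hp).bounded hcp
  have hlim : Tendsto (fun n => ∫ x in cell, pol i c (f n) x * dv X x) atTop
      (𝓝 (∫ x in cell, pol i c v x * dv X x)) := by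
    refine tendsto_integral_of_dominated_convergence (μ := volume.restrict cell)
      (fun _ => (B + K) * M) (fun n => ?_) (integrable_const _)
      (fun n => ae_of_all _ fun x => ?_) (ae_of_all _ fun x => ?_)
    · obtain ⟨L, -, hL⟩ := ((hf' n).2.1.fderiv).bounded ((hf' n).1.continuous_fderiv (by simp))
      have hl : LipschitzWith L.toNNReal (f n) := lipschitzWith_of_nnnorm_fderiv_le
        ((hf' n).1.differentiable (by simp)) fun x => by
          rw [← norm_toNNReal]; exact Real.toNNReal_le_toNNReal (hL x)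
      exact ((lipschitz_pol hl (hf' n).2.1 hc).continuous.mul
        (continuous_dv hX.smooth)).aestronglyMeasurable
    · rw [norm_mul]
      refine mul_le_mul ?_ (hM x) (norm_nonneg _) (add_nonneg hB0 K.2)
      have h1 : |pol i c (f n) x - pol i c v x| ≤ K * (1 / ((n : ℝ) + 1)) :=
        abs_pol_sub_pol_le (hd n) x
      have h2 : (K : ℝ) * (1 / ((n : ℝ) + 1)) ≤ K := mul_le_of_le_one_right K.2
        ((div_le_one (by positivity)).2 (by linarith [(Nat.cast_nonneg n : (0:ℝ) ≤ n)]))
      have h3 := hB x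
      simp only [Real.norm_eq_abs] at h3 ⊢
      linarith [abs_sub_abs_le_abs_sub (pol i c (f n) x) (pol i c v x)]
    · refine Tendsto.mul_const _ (tendsto_iff_dist_tendsto_zero.2 ?_)
      refine squeeze_zero (fun n => dist_nonneg) (fun n => abs_pol_sub_pol_le (hd n) x) ?_
      simpa using (tendsto_one_div_add_atTop_nhds_zero_nat (𝕜 := ℝ)).const_mul (K : ℝ)
  refine le_of_tendsto hlim (Eventually.of_forall fun n => ?_)
  exact (setIntegral_pol_mul_dv_le ((hf' n).1.of_le (by norm_cast)) (hf' n).2.1 i hc hX).trans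
    (hf' n).2.2

/-! ### The maximiser -/

/-- The weight favouring the centre. -/
noncomputable def weight (x : R3) : ℝ := ∑ i, Real.cos (2 * Real.pi * x i)

lemma continuous_weight : Continuous weight := by unfold weight; fun_prop

lemma isPer_weight : IsPer weight := fun j x => by
  refine Finset.sum_congr rfl fun i _ => ?_
  simp only [PiLp.add_apply, e_coord]
  split_ifs
  · rw [mul_add, mul_one, Real.cos_add_two_pi]
  · simp

lemma weight_sub_refl (i : Fin 3) (c : ℝ) (x : R3) :
    weight x - weight (refl i c x) = side c (x i) := by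
  unfold weight side
  rw [← Finset.sum_sub_distrib, Finset.sum_eq_single i]
  · simp [refl_apply]
  · exact fun j _ hj => by simp [refl_apply, hj]
  · simp

lemma eq_zero_of_setIntegral {f : R3 → ℝ} (hc : Continuous f) (hp : IsPer f) (h0 : ∀ x, 0 ≤ f x)
    (hi : ∫ x in cell, f x = 0) (x : R3) : f x = 0 := by
  set m : R3 := WithLp.toLp 2 fun _ => (1 / 2 : ℝ)
  set g := fun y => f (y + (x - m))
  have hgc : Continuous g := hc.comp (by fun_prop)
  have hg : g =ᵐ[volume.restrict cell] 0 := (integral_eq_zero_iff_of_nonneg (fun y => h0 _)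
    ((hp.comp_add _).integrable_cell hgc)).1 ((hp.setIntegral_add _).trans hi)
  set O : Set R3 := ⋂ i, {y : R3 | y i ∈ Ioo (0 : ℝ) 1}
  have hO : IsOpen O := isOpen_iInter_of_finite fun i =>
    isOpen_Ioo.preimage (PiLp.continuous_apply 2 _ i)
  have hsub : O ⊆ cell := fun y hy i => Ioo_subset_Ico_self (mem_iInter.1 hy i)
  have h := Measure.eqOn_open_of_ae_eq (ae_restrict_of_ae_restrict_of_subset hsub hg) hO
    hgc.continuousOn continuousOn_const (x := m) (mem_iInter.2 fun i => by simp [m]; norm_num)
  simpa [g] using h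

/-- The competitors of the maximisation. -/
structure IsRearr (u : R3 → ℝ) (K : ℝ≥0) (P : ℝ) (v : R3 → ℝ) : Prop where
  lipschitz : LipschitzWith K v
  periodic : IsPer v
  mem : ∀ x, 0 ≤ v x ∧ v x ≤ 1
  dist_eq : ∀ F : ℝ → ℝ, Continuous F → ∫ x in cell, F (v x) = ∫ x in cell, F (u x)
  pairing : ∀ X, IsTestField X → ∫ x in cell, v x * dv X x ≤ P

lemma IsRearr.pol {u v : R3 → ℝ} {K : ℝ≥0} {P : ℝ} (h : IsRearr u K P v) (i : Fin 3) {c : ℝ}
    (hc : Admissible c) : IsRearr u K P (pol i c v) where
  lipschitz := lipschitz_pol h.lipschitz h.periodic hc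
  periodic := isPer_pol h.periodic
  mem := pol_mem h.mem
  dist_eq F hF := (setIntegral_pol h.lipschitz h.periodic hc hF).trans (h.dist_eq F hF)
  pairing _ hX := pol_pairing h.lipschitz h.periodic h.pairing i hc hX

lemma exists_isMax {u : R3 → ℝ} {K : ℝ≥0} {P : ℝ} (Q : (R3 → ℝ) → Prop)
    (hQlim : ∀ (f : ℕ → R3 → ℝ) (v : R3 → ℝ), (∀ n, IsRearr u K P (f n) ∧ Q (f n)) →
      IsRearr u K P v → (∀ x, Tendsto (fun n => f n x) atTop (𝓝 (v x))) → Q v)
    (hne : IsRearr u K P u) (hQu : Q u) :
    ∃ v, IsRearr u K P v ∧ Q v ∧ ∀ w, IsRearr u K P w → Q w →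
      ∫ x in cell, w x * weight x ≤ ∫ x in cell, v x * weight x := by
  obtain ⟨W, hW0, hW⟩ := isPer_weight.bounded continuous_weight
  set S := (fun v : R3 → ℝ => ∫ x in cell, v x * weight x) '' {v | IsRearr u K P v ∧ Q v}
  have hne' : S.Nonempty := ⟨_, u, ⟨hne, hQu⟩, rfl⟩
  have hbd : BddAbove S := ⟨W, by
    rintro _ ⟨v, ⟨hv, -⟩, rfl⟩
    suffices h : ‖∫ x in cell, v x * weight x‖ ≤ W * (volume.restrict cell).real univ by
      simpa [measureReal_def, volume_cell] using (le_abs_self _).trans h
    refine norm_integral_le_of_norm_le_const (ae_of_all _ fun x => ?_)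
    rw [norm_mul, Real.norm_of_nonneg (hv.mem x).1]
    exact (mul_le_of_le_one_left (norm_nonneg _) (hv.mem x).2).trans (hW x)⟩
  obtain ⟨s, -, hs, hsS⟩ := exists_seq_tendsto_sSup hne' hbd
  choose f hfQ hfs using hsS
  have hf : ∀ n, IsRearr u K P (f n) := fun n => (hfQ n).1
  set q := TopologicalSpace.denseSeq R3
  obtain ⟨l, -, φ, hφ, hl⟩ := (isCompact_univ_pi fun _ : ℕ => isCompact_Icc (a := (0:ℝ)) (b := 1))
    |>.tendsto_subseq (x := fun n k => f n (q k)) fun n k _ => (hf n).mem _
  rw [tendsto_pi_nhds] at hl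
  have hcau : ∀ x, ∃ y, Tendsto (fun n => f (φ n) x) atTop (𝓝 y) := fun x => by
    refine cauchySeq_tendsto_of_complete (Metric.cauchySeq_iff.2 fun ε hε => ?_)
    obtain ⟨k, hk⟩ := (TopologicalSpace.denseRange_denseSeq R3).exists_dist_lt x
      (show 0 < ε / (4 * (K + 1)) by positivity)
    obtain ⟨N, hN⟩ := Metric.cauchySeq_iff.1 (hl k).cauchySeq (ε / 2) (by positivity)
    refine ⟨N, fun m hm n hn => ?_⟩
    have h1 : (K : ℝ) * dist x (q k) ≤ ε / 4 := by
      calc (K : ℝ) * dist x (q k) ≤ (K + 1) * (ε / (4 * (K + 1))) := by gcongr; linarith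
        _ = _ := by field_simp
    have h2 := hN m hm n hn
    simp only [Function.comp_apply] at h2
    calc dist (f (φ m) x) (f (φ n) x)
        ≤ dist (f (φ m) x) (f (φ m) (q k)) + dist (f (φ m) (q k)) (f (φ n) (q k)) +
          dist (f (φ n) (q k)) (f (φ n) x) := dist_triangle4 _ _ _ _
      _ < ε / 4 + ε / 2 + ε / 4 := by
          have a1 := ((hf (φ m)).lipschitz.dist_le_mul x (q k)).trans h1
          have a2 := (hf (φ n)).lipschitz.dist_le_mul (q k) x
          rw [dist_comm (q k) x] at a2
          linarith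
      _ = ε := by ring
  choose v hv using hcau
  have hvl : LipschitzWith K v := LipschitzWith.of_dist_le_mul fun x y =>
    le_of_tendsto' ((hv x).dist (hv y)) fun n => (hf (φ n)).lipschitz.dist_le_mul x y
  have hv01 : ∀ x, 0 ≤ v x ∧ v x ≤ 1 := fun x =>
    ⟨ge_of_tendsto' (hv x) fun n => ((hf _).mem x).1, le_of_tendsto' (hv x) fun n => ((hf _).mem x).2⟩
  have conv : ∀ {F : ℝ → ℝ} {G : R3 → ℝ} {C : ℝ}, Continuous F → Continuous G → (∀ x, |G x| ≤ C) →
      Tendsto (fun n => ∫ x in cell, F (f (φ n) x) * G x) atTop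
        (𝓝 (∫ x in cell, F (v x) * G x)) := by
    intro F G C hF hG hC
    obtain ⟨M, hM⟩ := (isCompact_Icc (a := (0:ℝ)) (b := 1)).exists_bound_of_continuousOn
      hF.continuousOn
    refine tendsto_integral_of_dominated_convergence (μ := volume.restrict cell)
      (fun _ => M * C)
      (fun n => ((hF.comp (hf _).lipschitz.continuous).mul hG).aestronglyMeasurable)
      (integrable_const _) (fun n => ae_of_all _ fun x => ?_)
      (ae_of_all _ fun x => ((hF.tendsto _).comp (hv x)).mul_const _)
    rw [norm_mul]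
    exact mul_le_mul (hM _ ((hf _).mem x)) (hC x) (norm_nonneg _)
      ((norm_nonneg _).trans (hM 0 (left_mem_Icc.2 zero_le_one)))
  have hvR : IsRearr u K P v := by
    refine ⟨hvl, fun i x => tendsto_nhds_unique (hv _) ?_, hv01, fun F hF => ?_, fun X hX => ?_⟩
    · simpa only [(hf _).periodic i x] using hv x
    · refine tendsto_nhds_unique ?_ (tendsto_const_nhds (f := (atTop : Filter ℕ)))
      simpa [fun n => (hf (φ n)).dist_eq F hF] using
        conv hF (continuous_const (y := (1:ℝ))) (C := 1) (by simp)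
    · obtain ⟨M, -, hM⟩ := hX.periodic.dv.bounded (continuous_dv hX.smooth)
      exact le_of_tendsto' (conv continuous_id (continuous_dv hX.smooth) hM) fun n =>
        (hf (φ n)).pairing X hX
  refine ⟨v, hvR, hQlim (fun n => f (φ n)) v (fun n => hfQ _) hvR hv, fun w hw hwQ => ?_⟩
  have h1 : Tendsto (fun n => ∫ x in cell, f (φ n) x * weight x) atTop
      (𝓝 (∫ x in cell, v x * weight x)) := conv continuous_id continuous_weight hW
  simp only [hfs] at h1
  rw [tendsto_nhds_unique h1 (hs.comp hφ.tendsto_atTop)]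
  exact le_csSup hbd ⟨w, ⟨hw, hwQ⟩, rfl⟩

/-- A maximiser is invariant under every polarisation. -/
lemma le_of_isMax {u v : R3 → ℝ} {K : ℝ≥0} {P : ℝ} (hv : IsRearr u K P v)
    (hmax : ∀ (i : Fin 3) (c : ℝ), Admissible c →
      ∫ x in cell, P232.pol i c v x * weight x ≤ ∫ x in cell, v x * weight x)
    {i : Fin 3} {x : R3} {s : ℝ} (h : Real.cos (2 * Real.pi * s) < Real.cos (2 * Real.pi * x i)) :
    v (x + (s - x i) • e i) ≤ v x := by
  set c := (x i + s) / 2 with hcd
  have hpos : 0 < side c (x i) := by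
    rw [side, show 2 * c - x i = s by rw [hcd]; ring]; linarith
  have hc : Admissible c := fun h0 => by
    rw [side_eq, h0] at hpos; simp at hpos
  have hT := hv.pol i hc
  set d := fun y => P232.pol i c v y - v y with hd
  have hdc : Continuous d := hT.lipschitz.continuous.sub hv.lipschitz.continuous
  have hdp : IsPer d := hT.periodic.comp₂ hv.periodic (· - ·)
  have hdr : ∀ y, d (refl i c y) = -d y := fun y => by
    have := pol_pair (i := i) hv.lipschitz hv.periodic hc id y
    simp only [id] at this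
    simp only [hd]; linarith
  set f := fun y => d y * side c (y i) with hfd
  have hf0 : ∀ y, 0 ≤ f y := fun y => pol_sub_mul_nonneg y
  have hfc : Continuous f := hdc.mul ((continuous_side c).comp (PiLp.continuous_apply 2 _ i))
  have hfp : IsPer f := hdp.comp₂ (isPer_side i c) (· * ·)
  have iG : Integrable (fun y => d y * weight y) (volume.restrict cell) :=
    (hdp.comp₂ isPer_weight (· * ·)).integrable_cell (hdc.mul continuous_weight)
  have hp2 : IsPer fun y => d y * weight (refl i c y) :=
    hdp.comp₂ (isPer_refl isPer_weight i c) (· * ·)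
  have iG' : Integrable (fun y => d y * weight (refl i c y)) (volume.restrict cell) :=
    hp2.integrable_cell (hdc.mul (continuous_weight.comp (continuous_refl i c)))
  have e1 : ∫ y in cell, d y * weight (refl i c y) = -∫ y in cell, d y * weight y := by
    rw [← setIntegral_refl hp2 i c, ← integral_neg]
    simp only [hdr, refl_refl, neg_mul]
  have e2 : ∫ y in cell, f y = 2 * ∫ y in cell, d y * weight y := by
    have : f = fun y => d y * weight y - d y * weight (refl i c y) := by
      ext y; simp only [hfd, ← weight_sub_refl]; ring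
    rw [this, integral_sub iG iG', e1]; ring
  have e3 : ∫ y in cell, d y * weight y ≤ 0 := by
    simp only [hd, sub_mul]
    rw [integral_sub ((hT.periodic.comp₂ isPer_weight (· * ·)).integrable_cell
        (hT.lipschitz.continuous.mul continuous_weight))
      ((hv.periodic.comp₂ isPer_weight (· * ·)).integrable_cell
        (hv.lipschitz.continuous.mul continuous_weight))]
    linarith [hmax i c hc]
  have hz := eq_zero_of_setIntegral hfc hfp hf0
    (le_antisymm (by linarith) (integral_nonneg hf0)) x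
  rcases mul_eq_zero.1 hz with h1 | h1
  · simp only [hd, P232.pol, if_pos hpos.le, sub_eq_zero] at h1
    have h2 := le_max_right (v x) (v (refl i c x))
    rw [h1, refl_eq, show 2 * (c - x i) = s - x i by rw [hcd]; ring] at h2
    exact h2
  · exact absurd h1 hpos.ne'

/-- Symmetrisation: a function on the torus with the same distribution and no larger total
variation that is even and decreasing on `[0, 1/2]` in every coordinate. -/
theorem exists_symmDec_of {u : R3 → ℝ} {P : ℝ} (hu : ContDiff ℝ 1 u) (hp : IsPer u)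
    (h01 : ∀ x, 0 ≤ u x ∧ u x ≤ 1) (hP : gradMass u ≤ P) (Q : (R3 → ℝ) → Prop) (hQu : Q u)
    (hQpol : ∀ {K : ℝ≥0} {v : R3 → ℝ} (i : Fin 3) (c : ℝ), LipschitzWith K v → IsPer v →
      (∀ x, 0 ≤ v x ∧ v x ≤ 1) → Admissible c → Q v → Q (pol i c v))
    (hQlim : ∀ (f : ℕ → R3 → ℝ) (v : R3 → ℝ),
      (∀ n, Continuous (f n) ∧ IsPer (f n) ∧ (∀ x, 0 ≤ f n x ∧ f n x ≤ 1) ∧ Q (f n)) →
      Continuous v → IsPer v → (∀ x, 0 ≤ v x ∧ v x ≤ 1) →
      (∀ x, Tendsto (fun n => f n x) atTop (𝓝 (v x))) → Q v) :
    ∃ v : R3 → ℝ, Continuous v ∧ IsPer v ∧ (∀ x, 0 ≤ v x ∧ v x ≤ 1) ∧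
      (∀ i x, v (x - (2 * x i) • e i) = v x) ∧
      (∀ i x s, 0 ≤ x i → x i ≤ s → s ≤ 1 / 2 → v (x + (s - x i) • e i) ≤ v x) ∧
      (∀ F : ℝ → ℝ, Continuous F → ∫ x in cell, F (v x) = ∫ x in cell, F (u x)) ∧
      (∀ X, IsTestField X → ∫ x in cell, v x * dv X x ≤ P) ∧ Q v := by
  obtain ⟨L, hL0, hL⟩ := hp.fderiv.bounded (hu.continuous_fderiv one_ne_zero)
  have hlip : LipschitzWith L.toNNReal u := lipschitzWith_of_nnnorm_fderiv_le
    (hu.differentiable one_ne_zero) fun x => by
      rw [← norm_toNNReal]; exact Real.toNNReal_le_toNNReal (hL x)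
  obtain ⟨v, hv, hvQ, hmax'⟩ := exists_isMax (K := L.toNNReal) (P := P) Q
    (fun f v hf hv hlim => hQlim f v (fun n => ⟨(hf n).1.lipschitz.continuous, (hf n).1.periodic,
      (hf n).1.mem, (hf n).2⟩) hv.lipschitz.continuous hv.periodic hv.mem hlim)
    ⟨hlip, hp, h01, fun _ _ => rfl, fun X hX => (setIntegral_mul_dv_le hu hp hX).trans hP⟩ hQu
  have hmax : ∀ (i : Fin 3) (c : ℝ), Admissible c →
      ∫ x in cell, pol i c v x * weight x ≤ ∫ x in cell, v x * weight x := fun i c hc =>
    hmax' _ (hv.pol i hc) (hQpol i c hv.lipschitz hv.periodic hv.mem hc hvQ)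
  have hvc := hv.lipschitz.continuous
  have key := fun {i : Fin 3} {x : R3} {s : ℝ} => le_of_isMax hv hmax (i := i) (x := x) (s := s)
  have hcos : ∀ {a b : ℝ}, 0 ≤ a → a < b → b ≤ 1 / 2 →
      Real.cos (2 * Real.pi * b) < Real.cos (2 * Real.pi * a) := fun {a b} ha hab hb =>
    Real.cos_lt_cos_of_nonneg_of_le_pi (by positivity) (by nlinarith [Real.pi_pos])
      (by nlinarith [Real.pi_pos])
  have hset : ∀ (i : Fin 3) (x : R3) (a : ℝ), (x + (a - x i) • e i) i = a := fun i x a => by
    simp [e_coord]
  have hset2 : ∀ (i : Fin 3) (x : R3) (a b : ℝ),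
      x + (a - x i) • e i + (b - a) • e i = x + (b - x i) • e i := fun i x a b => by module
  -- evenness on (0, 1/2)
  have heven0 : ∀ (i : Fin 3) (x : R3) (t : ℝ), 0 ≤ t → t ≤ 1 / 2 →
      v (x + (-t - x i) • e i) = v (x + (t - x i) • e i) := by
    intro i x t h0 h1
    rcases h1.lt_or_eq with h1 | h1
    · set k : ℝ → ℝ := fun a => v (x + (a - x i) • e i) with hk
      have hkc : Continuous k := hvc.comp (by fun_prop)
      have hh : ∀ᶠ h in 𝓝[>] (0 : ℝ), k (-(t + h)) ≤ k t ∧ k (t + h) ≤ k (-t) := by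
        filter_upwards [Ioc_mem_nhdsGT (show (0:ℝ) < 1 / 2 - t by linarith)] with h hh
        have hlt := hcos h0 (show t < t + h by linarith [hh.1]) (by linarith [hh.2])
        constructor
        · have := key (i := i) (x := x + (t - x i) • e i) (s := -(t + h)) (by
            rw [hset, mul_neg, Real.cos_neg]; exact hlt)
          rwa [hset, hset2] at this
        · have := key (i := i) (x := x + (-t - x i) • e i) (s := t + h) (by
            rw [hset, mul_neg, Real.cos_neg]; exact hlt)
          rwa [hset, hset2] at this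
      have t1 : Tendsto (fun h => k (-(t + h))) (𝓝[>] (0:ℝ)) (𝓝 (k (-t))) :=
        tendsto_nhdsWithin_of_tendsto_nhds ((hkc.comp (by fun_prop)).tendsto' _ _ (by simp))
      have t2 : Tendsto (fun h => k (t + h)) (𝓝[>] (0:ℝ)) (𝓝 (k t)) :=
        tendsto_nhdsWithin_of_tendsto_nhds ((hkc.comp (by fun_prop)).tendsto' _ _ (by simp))
      exact le_antisymm (le_of_tendsto t1 (hh.mono fun _ h => h.1))
        (le_of_tendsto t2 (hh.mono fun _ h => h.2))
    · have : x + (t - x i) • e i = x + (-t - x i) • e i + ((1 : ℤ) : ℝ) • e i := by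
        rw [h1]; push_cast; module
      rw [this, isPer_smul_int hv.periodic]
  refine ⟨v, hvc, hv.periodic, hv.mem, fun i x => ?_, fun i x s h0 h1 h2 => ?_, hv.dist_eq,
    hv.pairing, hvQ⟩
  · set n := round (x i)
    set t := x i - n
    have ht := abs_le.1 (abs_sub_round (x i))
    have ea : v x = v (x + (t - x i) • e i) := by
      rw [← isPer_smul_int hv.periodic i (-n) x]
      congr 1; push_cast; simp only [t]; module
    have eb : v (x - (2 * x i) • e i) = v (x + (-t - x i) • e i) := by
      rw [← isPer_smul_int hv.periodic i n (x - _)]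
      congr 1; simp only [t]; module
    rw [ea, eb]
    rcases le_total 0 t with h | h
    · exact heven0 i x t h ht.2
    · have := heven0 i x (-t) (neg_nonneg.2 h) (by linarith [ht.1])
      rw [neg_neg] at this
      exact this.symm
  · rcases h1.lt_or_eq with h1 | h1
    · exact key (hcos h0 h1 h2)
    · simp [← h1]

/-- Symmetrisation, with no further invariant carried along. -/
theorem exists_symmDec {u : R3 → ℝ} {P : ℝ} (hu : ContDiff ℝ 1 u) (hp : IsPer u)
    (h01 : ∀ x, 0 ≤ u x ∧ u x ≤ 1) (hP : gradMass u ≤ P) :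
    ∃ v : R3 → ℝ, Continuous v ∧ IsPer v ∧ (∀ x, 0 ≤ v x ∧ v x ≤ 1) ∧
      (∀ i x, v (x - (2 * x i) • e i) = v x) ∧
      (∀ i x s, 0 ≤ x i → x i ≤ s → s ≤ 1 / 2 → v (x + (s - x i) • e i) ≤ v x) ∧
      (∀ F : ℝ → ℝ, Continuous F → ∫ x in cell, F (v x) = ∫ x in cell, F (u x)) ∧
      (∀ X, IsTestField X → ∫ x in cell, v x * dv X x ≤ P) := by
  obtain ⟨v, h1, h2, h3, h4, h5, h6, h7, -⟩ := exists_symmDec_of hu hp h01 hP (fun _ => True)
    trivial (fun _ _ _ _ _ _ _ => trivial) (fun _ _ _ _ _ _ _ => trivial)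
  exact ⟨v, h1, h2, h3, h4, h5, h6, h7⟩

end Vale.Agent.P232
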