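import Vale.Agent.P232.Limit

/-! From symmetric decreasing rearrangements of smooth functions to down-sets of the cube. -/

open MeasureTheory Set Filter Topology

namespace Vale.Agent.P232

/-- Decreasing in each coordinate on [0,1/2] gives decreasing in the componentwise order. -/
lemma anti_of_coord {v : R3 → ℝ}
    (hc : ∀ i x s, 0 ≤ x i → x i ≤ s → s ≤ 1 / 2 → v (x + (s - x i) • e i) ≤ v x)
    {x y : R3} (h : ∀ i, 0 ≤ x i ∧ x i ≤ y i ∧ y i ≤ 1 / 2) : v y ≤ v x := by
  classical
  have key : ∀ s : Finset (Fin 3), v (x + ∑ i ∈ s, (y i - x i) • e i) ≤ v x := by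
    intro s
    induction s using Finset.induction_on with
    | empty => simp
    | @insert i s hi ih =>
      refine le_trans ?_ ih
      have hx : (x + ∑ j ∈ s, (y j - x j) • e j) i = x i := by
        simp [WithLp.ofLp_sum, Finset.sum_apply, e_apply, hi]
      have := hc i (x + ∑ j ∈ s, (y j - x j) • e j) (y i) (by rw [hx]; exact (h i).1)
        (by rw [hx]; exact (h i).2.1) (h i).2.2
      rw [hx] at this
      rwa [Finset.sum_insert hi, add_comm ((y i - x i) • e i), ← add_assoc]
  have := key Finset.univ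
  rwa [Finset.sum_congr rfl (fun i _ => sub_smul _ _ (e i)), Finset.sum_sub_distrib, sum_smul_e,
    sum_smul_e, add_sub_cancel] at this

/-- Symmetrisation, given the symmetric decreasing rearrangement of smooth functions. -/
theorem exists_downset_of_symmDec
    (hS : ∀ (u : R3 → ℝ) (P : ℝ), ContDiff ℝ 1 u → IsPer u → (∀ x, 0 ≤ u x ∧ u x ≤ 1) →
      gradMass u ≤ P →
      ∃ v : R3 → ℝ, Continuous v ∧ IsPer v ∧ (∀ x, 0 ≤ v x ∧ v x ≤ 1) ∧
        (∀ i x, v (x - (2 * x i) • e i) = v x) ∧
        (∀ i x s, 0 ≤ x i → x i ≤ s → s ≤ 1 / 2 → v (x + (s - x i) • e i) ≤ v x) ∧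
        (∀ F : ℝ → ℝ, Continuous F → ∫ x in cell, F (v x) = ∫ x in cell, F (u x)) ∧
        (∀ X, IsTestField X → ∫ x in cell, v x * dv X x ≤ P))
    {E : Set R3} (hE : MeasurableSet E) (hp : IsPeriodicSet E) {P V : ℝ} (hP0 : 0 ≤ P)
    (hP : per E ≤ ENNReal.ofReal P) (hV0 : 0 ≤ V) (hV : vol E = ENNReal.ofReal V) :
    ∃ D, MeasurableSet D ∧ IsDownset D ∧ (volume D).toReal = V ∧ RelPerLE D (P / 2) := by
  have hne : per E ≠ ⊤ := (hP.trans_lt ENNReal.ofReal_lt_top).ne
  obtain ⟨u, hu, -, hL1⟩ := exists_approx hE hp hne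
  refine exists_downset_of_symApprox fun δ hδ => ?_
  obtain ⟨n, hn⟩ := (hL1.eventually (gt_mem_nhds hδ)).exists
  obtain ⟨hs, hper, h01, hmass, hgm⟩ := hu n
  obtain ⟨v, hvc, hvp, hv01, hev, hdec, hF, htest⟩ := hS (u n) P (hs.of_le (by norm_cast)) hper h01
    (hgm.trans (ENNReal.toReal_le_of_le_ofReal hP0 hP))
  refine ⟨v, hvc, hvp, hv01, ?_, ?_, htest, hev, fun x y h => anti_of_coord hdec h⟩
  · rw [show (∫ x in cell, v x) = ∫ x in cell, u n x from hF id continuous_id, hmass, hV,
      ENNReal.toReal_ofReal hV0]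
  · rw [hF (fun t => t * (1 - t)) (by fun_prop)]
    refine (le_trans ?_ hn.le)
    have hc : Continuous (u n) := hs.continuous
    have hm : Measurable (E.indicator (1 : R3 → ℝ)) := measurable_const.indicator hE
    refine integral_mono ((hper.comp fun t => t * (1 - t)).integrable_cell (by fun_prop))
      (Integrable.of_bound ((hc.measurable.sub hm).norm.aestronglyMeasurable) 1
        (ae_of_all _ fun x => ?_)) fun x => ?_
    · have h2 := indicator_one_mem E x
      rw [Real.norm_eq_abs, abs_abs, abs_le]; constructor <;> linarith [(h01 x).1, (h01 x).2]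
    · obtain ⟨a, b⟩ := h01 x
      by_cases hx : x ∈ E
      · simp only [indicator_of_mem hx, Pi.one_apply]
        rw [abs_of_nonpos (by linarith)]; nlinarith
      · simp only [indicator_of_notMem hx, sub_zero]
        rw [abs_of_nonneg a]; nlinarith

end Vale.Agent.P232
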