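import Vale.Agent.P232.Crux
import Vale.Agent.P232.Concave
import Vale.Agent.P232.Polarise
import Vale.Agent.P232.SymmGlue

/-! The lower bound for the profile of the torus from the inequality for down-sets. -/

open MeasureTheory Set Real
open scoped ENNReal

namespace Vale.Agent.P232

/-- The inequality for down-sets gives the bound for the torus up to volume `1/π`. -/
lemma profileJ_le_of_crux (hc : CruxBound) {V : ℝ} (h0 : 0 < V) (h1 : V ≤ 1 / π) :
    ENNReal.ofReal (profileJ V) ≤ profile V := by
  refine le_iInf fun E => le_iInf fun hE => le_iInf fun hp => le_iInf fun hV => ?_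
  by_cases hfin : per E = ⊤
  · simp [hfin]
  obtain ⟨D, hD, hdown, hvol, hrel⟩ := exists_downset_of_symmDec
    (fun u P hu hu' h01 hP => exists_symmDec hu hu' h01 hP) hE hp ENNReal.toReal_nonneg
    (ENNReal.ofReal_toReal hfin).ge h0.le hV
  have h := hc D _ hD hdown hrel (hvol.symm ▸ h0) (hvol.symm ▸ h1)
  rw [hvol] at h
  calc ENNReal.ofReal (profileJ V) ≤ ENNReal.ofReal (per E).toReal :=
        ENNReal.ofReal_le_ofReal (by rw [profileJ_eq_ballTube h1]; linarith)
    _ = per E := ENNReal.ofReal_toReal hfin

/-- The candidate profile bounds the profile from below at every volume. -/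
theorem profileJ_le_profile (hc : CruxBound) {V : ℝ} (h0 : 0 < V) (h1 : V < 1) :
    ENNReal.ofReal (profileJ V) ≤ profile V := by
  rcases le_or_gt V (1 / π) with hV | hV
  · exact profileJ_le_of_crux hc h0 hV
  rcases le_or_gt (1 - V) (1 / π) with hV' | hV'
  · rw [← profileJ_symm, ← profile_symm h0 h1]
    exact profileJ_le_of_crux hc (by linarith) hV'
  have hpi : (0 : ℝ) < 1 / π := by positivity
  calc ENNReal.ofReal (profileJ V) ≤ ENNReal.ofReal (profileJ (1 / π)) := by
        rw [profileJ_inv_pi]; exact ENNReal.ofReal_le_ofReal (profileJ_le_two V)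
    _ ≤ profile V := profile_slab_range hpi inv_pi_le_half (profileJ_le_of_crux hc hpi le_rfl)
        ⟨hV.le, by linarith⟩

end Vale.Agent.P232
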