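import Vale.Agent.P232.Cylinder

/-!
The equality case of the one-dimensional inequality in the ball range: a down-set without far
contacts attaining half a ball has the slice areas of an eighth of a ball in every direction.
-/

open MeasureTheory Set Filter Function
open scoped Topology

namespace Vale.Agent.P232.Cylinder

/-- The sine of the calibration of the ball whose largest slice has area `W²`. -/
noncomputable def sinB (W a : ℝ) : ℝ := Real.sqrt (1 - a / W ^ 2)

theorem continuous_sinB (W : ℝ) : Continuous (sinB W) := by unfold sinB; fun_prop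

theorem sinB_le_one {W a : ℝ} (ha : 0 ≤ a) : sinB W a ≤ 1 :=
  Real.sqrt_le_one.2 (by linarith [div_nonneg ha (sq_nonneg W)])

theorem sinC_zero {W a : ℝ} (ha : 0 ≤ a) : sinC 0 W a = sinB W a := by
  simp [sinC, sinB, cosC, div_pow, Real.sq_sqrt ha]

theorem integral_sinB {W c : ℝ} (hW : 0 < W) (hc0 : 0 ≤ c) (hc : c ≤ W ^ 2) :
    ∫ a in (0 : ℝ)..c, sinB W a
      = 2 / 3 * W ^ 2 - 2 / 3 * ((W ^ 2 - c) * Real.sqrt (W ^ 2 - c) / W) := by
  have h := intervalIntegral.integral_eq_sub_of_hasDerivAt_of_le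
    (f := fun a => -(2 / 3) * ((W ^ 2 - a) * Real.sqrt (W ^ 2 - a) / W)) (f' := sinB W) hc0
    (by fun_prop) (fun a ha => ?_) ((continuous_sinB W).intervalIntegrable _ _)
  · rw [h, sub_zero, Real.sqrt_sq hW.le]
    field_simp
    ring
  · have hp : 0 < W ^ 2 - a := by linarith [ha.2]
    have h1 := (hasDerivAt_id a).const_sub (W ^ 2)
    have h2 := ((h1.mul (h1.sqrt hp.ne')).div_const W).const_mul (-(2 / 3))
    refine h2.congr_deriv ?_
    have hs2 := Real.sq_sqrt hp.le
    have hs0 : 0 < Real.sqrt (W ^ 2 - a) := Real.sqrt_pos.2 hp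
    rw [sinB, show 1 - a / W ^ 2 = (W ^ 2 - a) / W ^ 2 by field_simp, Real.sqrt_div hp.le,
      Real.sqrt_sq hW.le]
    simp only [id]
    field_simp
    linear_combination (-1 : ℝ) * hs2

/-- The calibration with two balls, switched at a rational height. -/
theorem two_chord {A : ℝ → ℝ} (hA : Antitone A) {Q W₁ W₂ c : ℝ} {N j : ℕ} (hj : 0 < j)
    (hjN : j < N) (hW₁ : 0 < W₁) (hW₂ : 0 < W₂) (hM : rightLim A 0 ≤ W₁ ^ 2)
    (hc : c ≤ W₂ ^ 2) (hend : leftLim A 1 = 0)
    (hcR : rightLim A ((j : ℝ) / N) ≤ c) (hcL : c ≤ leftLim A ((j : ℝ) / N))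
    (hQ : ∀ n : ℕ, ∀ t : ℕ → ℝ, (∀ i, t i = i / ((n : ℝ) + 1)) →
      ∑ i ∈ Finset.range (n + 1), Real.sqrt ((1 / ((n : ℝ) + 1)
          * Real.sqrt (Real.pi * leftLim A (t (i + 1)))) ^ 2
          + (rightLim A (t i) - leftLim A (t (i + 1))) ^ 2)
        + ∑ i ∈ Finset.range n, (leftLim A (t (i + 1)) - rightLim A (t (i + 1))) ≤ Q) :
    Real.sqrt Real.pi / W₁ * (∫ z in (0 : ℝ)..(j / N : ℝ), A z)
      + Real.sqrt Real.pi / W₂ * (∫ z in (j / N : ℝ)..1, A z)
      + (∫ a in c..rightLim A 0, sinB W₁ a) + (∫ a in (0 : ℝ)..c, sinB W₂ a) ≤ Q := by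
  set p := Real.sqrt Real.pi
  set C := (p / W₁ + p / W₂) * rightLim A 0 with hC
  set goal := p / W₁ * (∫ z in (0 : ℝ)..(j / N : ℝ), A z)
      + p / W₂ * (∫ z in (j / N : ℝ)..1, A z)
      + (∫ a in c..rightLim A 0, sinB W₁ a) + (∫ a in (0 : ℝ)..c, sinB W₂ a)
  refine le_of_tendsto' (x := atTop) (f := fun m : ℕ => goal - 1 / ((m : ℝ) + 1) * C) ?_
    fun m => ?_
  · simpa using ((tendsto_one_div_add_atTop_nhds_zero_nat (𝕜 := ℝ)).mul_const C).const_sub goal
  obtain ⟨J, hJ⟩ := Nat.exists_eq_add_one.2 (Nat.mul_pos hj m.succ_pos)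
  obtain ⟨K, hK⟩ := Nat.exists_eq_add_one.2 (Nat.mul_pos (Nat.sub_pos_of_lt hjN) m.succ_pos)
  set n := J + 1 + K with hn
  have hn1 : (n : ℝ) + 1 = (N : ℝ) * ((m : ℝ) + 1) := by
    have h : n + 1 = N * (m + 1) := by
      have := Nat.add_mul j (N - j) (m + 1)
      rw [Nat.add_sub_cancel' hjN.le] at this
      simp only [Nat.succ_eq_add_one] at hJ hK
      omega
    exact_mod_cast h
  have hJr : ((J : ℝ) + 1) = (j : ℝ) * ((m : ℝ) + 1) := by exact_mod_cast hJ.symm
  have hN : (1 : ℝ) ≤ N := by exact_mod_cast (hj.trans hjN : 0 < N)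
  set t : ℕ → ℝ := fun i => i / ((n : ℝ) + 1) with ht
  set h := 1 / ((n : ℝ) + 1) with hh
  set L : ℕ → ℝ := fun i => leftLim A (t (i + 1)) with hL
  set R : ℕ → ℝ := fun i => rightLim A (t i) with hR
  have hstep : ∀ i, t (i + 1) - t i = h := fun i => by simp only [ht, hh]; push_cast; ring
  have hh0 : 0 < h := by positivity
  have htlt : ∀ i, t i < t (i + 1) := fun i => by linarith [hstep i]
  have ht0 : t 0 = 0 := by simp [ht]
  have htn : t (J + 1 + (K + 1)) = 1 := by
    rw [show J + 1 + (K + 1) = n + 1 by omega]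
    simp only [ht]; push_cast
    exact div_self (by positivity)
  have htJ : t (J + 1) = (j : ℝ) / N := by
    simp only [ht]; push_cast
    rw [hn1, hJr, mul_div_mul_right _ _ (by positivity)]
  have hLR : ∀ i, L i ≤ R i := fun i => by
    obtain ⟨q, hq1, hq2⟩ := exists_between (htlt i)
    exact (hA.leftLim_le hq2).trans (hA.le_rightLim hq1)
  have hRL : ∀ i, R (i + 1) ≤ L i := fun i => hA.rightLim_le_leftLim le_rfl
  have hmono : ∀ i l, i ≤ l → L l ≤ L i ∧ R l ≤ R i := by
    intro i l hil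
    induction l, hil using Nat.le_induction with
    | base => exact ⟨le_rfl, le_rfl⟩
    | succ l _ ih => exact ⟨((hLR (l + 1)).trans (hRL l)).trans ih.1,
        ((hRL l).trans (hLR l)).trans ih.2⟩
  have hR0 : R 0 = rightLim A 0 := by simp [hR, ht0]
  have hLn : L n = 0 := by
    simp only [hL, hn]
    rw [show J + 1 + K + 1 = J + 1 + (K + 1) by omega, htn, hend]
  have hL0 : ∀ i ≤ n, 0 ≤ L i := fun i hi => hLn ▸ (hmono i n hi).1
  have hRJ : R (J + 1) ≤ c := by simp only [hR, htJ]; exact hcR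
  have hLJ : c ≤ L J := by simp only [hL, htJ]; exact hcL
  -- one block of consecutive steps
  have hblock : ∀ a k, a + k ≤ n → ∀ W : ℝ, 0 < W → R a ≤ W ^ 2 →
      p / W * (∫ z in t a..t (a + (k + 1)), A z) - h * (p / W) * (R a - L (a + k))
        + (∫ x in L (a + k)..R a, sinB W x)
      ≤ ∑ i ∈ Finset.range (k + 1), Real.sqrt ((h * Real.sqrt (Real.pi * L (a + i))) ^ 2
          + (R (a + i) - L (a + i)) ^ 2)
        + ∑ i ∈ Finset.range k, (L (a + i) - R (a + i + 1)) := by
    intro a k hak W hW hRW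
    have hi : ∀ i, a + i ≤ n → p / W * (∫ z in t (a + i)..t (a + i + 1), A z)
        - h * (p / W) * (R (a + i) - L (a + i)) + (∫ x in L (a + i)..R (a + i), sinB W x)
        ≤ Real.sqrt ((h * Real.sqrt (Real.pi * L (a + i))) ^ 2
          + (R (a + i) - L (a + i)) ^ 2) := by
      intro i hin
      have hs := step_bound le_rfl hW.le hW hh0.le (by simpa using hL0 _ hin) (hLR (a + i))
        ((hmono a (a + i) (Nat.le_add_right _ _)).2.trans hRW)
        (le_refl (h * Real.sqrt (Real.pi * L (a + i))))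
      rw [intervalIntegral.integral_congr (g := sinB W) (fun x hx => sinC_zero ?_)] at hs
      swap
      · rw [uIcc_of_le (hLR (a + i))] at hx
        exact (hL0 _ hin).trans hx.1
      simp only [zero_add, zero_mul, add_zero, div_zero, mul_zero, sub_zero] at hs
      refine le_trans ?_ hs
      have hv : ∫ z in t (a + i)..t (a + i + 1), A z ≤ h * R (a + i) :=
        calc ∫ z in t (a + i)..t (a + i + 1), A z
            ≤ ∫ _ in t (a + i)..t (a + i + 1), R (a + i) :=
              intervalIntegral.integral_mono_on_of_le_Ioo (htlt _).le hA.intervalIntegrable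
                intervalIntegrable_const fun z hz => hA.le_rightLim hz.1
          _ = _ := by simp [hstep (a + i)]
      have := mul_le_mul_of_nonneg_left hv (show 0 ≤ p / W by positivity)
      linarith
    induction k with
    | zero => simpa using hi 0 (by omega)
    | succ k ih =>
      have e1 := intervalIntegral.integral_add_adjacent_intervals
        (hA.intervalIntegrable (μ := volume) (a := t a) (b := t (a + (k + 1))))
        (hA.intervalIntegrable (μ := volume) (a := t (a + (k + 1))) (b := t (a + (k + 1) + 1)))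
      have e2 := intervalIntegral.integral_add_adjacent_intervals (μ := volume)
        ((continuous_sinB W).intervalIntegrable (L (a + (k + 1))) (R (a + (k + 1))))
        ((continuous_sinB W).intervalIntegrable (R (a + (k + 1))) (L (a + k)))
      have e3 := intervalIntegral.integral_add_adjacent_intervals (μ := volume)
        ((continuous_sinB W).intervalIntegrable (L (a + (k + 1))) (L (a + k)))
        ((continuous_sinB W).intervalIntegrable (L (a + k)) (R a))
      have h3 : ∫ x in R (a + (k + 1))..L (a + k), sinB W x ≤ L (a + k) - R (a + (k + 1)) := by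
        calc ∫ x in R (a + (k + 1))..L (a + k), sinB W x
            ≤ ∫ _ in R (a + (k + 1))..L (a + k), (1 : ℝ) :=
              intervalIntegral.integral_mono_on (hRL (a + k))
                ((continuous_sinB W).intervalIntegrable _ _) intervalIntegrable_const fun x hx =>
                sinB_le_one (((hL0 _ hak).trans (hLR _)).trans hx.1)
          _ = _ := by simp
      have h4 := mul_le_mul_of_nonneg_left (hRL (a + k)) (show 0 ≤ h * (p / W) by positivity)
      rw [Finset.sum_range_succ (fun i => Real.sqrt _) (k + 1),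
        Finset.sum_range_succ (fun i => L (a + i) - R (a + i + 1)) k,
        show a + (k + 1 + 1) = a + (k + 1) + 1 by omega,
        show a + k + 1 = a + (k + 1) by omega, ← e1, ← e3, ← e2]
      rw [show a + k + 1 = a + (k + 1) by omega] at h4
      linarith [ih (by omega), hi (k + 1) hak]
  have hb1 := hblock 0 J (by omega) W₁ hW₁ (hR0 ▸ hM)
  have hb2 := hblock (J + 1) K le_rfl W₂ hW₂ (hRJ.trans hc)
  have h1 := hQ n t (fun i => rfl)
  change ∑ i ∈ Finset.range (n + 1), Real.sqrt ((h * Real.sqrt (Real.pi * L i)) ^ 2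
      + (R i - L i) ^ 2) + ∑ i ∈ Finset.range n, (L i - R (i + 1)) ≤ Q at h1
  rw [show n + 1 = J + 1 + (K + 1) by omega, Finset.sum_range_add _ (J + 1) (K + 1), hn,
    Finset.sum_range_add _ (J + 1) K,
    Finset.sum_range_succ (fun i => L i - R (i + 1))] at h1
  simp only [Nat.zero_add, ht0, htJ, hR0] at hb1
  rw [htJ, htn, ← hn, hLn] at hb2
  -- the switch
  have hR1 : 0 ≤ R (J + 1) := (hL0 _ (by omega)).trans (hLR (J + 1))
  have j1 : ∫ x in R (J + 1)..c, sinB W₂ x ≤ c - R (J + 1) :=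
    calc ∫ x in R (J + 1)..c, sinB W₂ x ≤ ∫ _ in R (J + 1)..c, (1 : ℝ) :=
          intervalIntegral.integral_mono_on hRJ ((continuous_sinB W₂).intervalIntegrable _ _)
            intervalIntegrable_const fun x hx => sinB_le_one (hR1.trans hx.1)
      _ = _ := by simp
  have j2 : ∫ x in c..L J, sinB W₁ x ≤ L J - c :=
    calc ∫ x in c..L J, sinB W₁ x ≤ ∫ _ in c..L J, (1 : ℝ) :=
          intervalIntegral.integral_mono_on hLJ ((continuous_sinB W₁).intervalIntegrable _ _)
            intervalIntegrable_const fun x hx => sinB_le_one ((hR1.trans hRJ).trans hx.1)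
      _ = _ := by simp
  have e1 := intervalIntegral.integral_add_adjacent_intervals (μ := volume)
    ((continuous_sinB W₂).intervalIntegrable 0 (R (J + 1)))
    ((continuous_sinB W₂).intervalIntegrable (R (J + 1)) c)
  have e2 := intervalIntegral.integral_add_adjacent_intervals (μ := volume)
    ((continuous_sinB W₁).intervalIntegrable c (L J))
    ((continuous_sinB W₁).intervalIntegrable (L J) (rightLim A 0))
  have hM0 : R (J + 1) ≤ rightLim A 0 := hR0 ▸ (hmono 0 (J + 1) (Nat.zero_le _)).2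
  have hmh : h ≤ 1 / ((m : ℝ) + 1) := by
    rw [hh, hn1]
    exact one_div_le_one_div_of_le (by positivity) (le_mul_of_one_le_left (by positivity) hN)
  have hp1 : 0 ≤ p / W₁ := by positivity
  have hp2 : 0 ≤ p / W₂ := by positivity
  have hMn : 0 ≤ rightLim A 0 := hR1.trans hM0
  have d1 := mul_le_mul_of_nonneg_left
    (show rightLim A 0 - L J ≤ rightLim A 0 by linarith [hL0 J (by omega)])
    (mul_nonneg hh0.le hp1)
  have d2 := mul_le_mul_of_nonneg_left (show R (J + 1) - 0 ≤ rightLim A 0 by linarith)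
    (mul_nonneg hh0.le hp2)
  have d3 := mul_le_mul_of_nonneg_right hmh (mul_nonneg (add_nonneg hp1 hp2) hMn)
  simp only [goal, hC]
  linarith

/-- The volume above the height where the slice area of the eighth ball is `c`, times `√π`. -/
noncomputable def capVol (w c : ℝ) : ℝ :=
  2 / 3 * Real.sqrt (w ^ 2 - c) ^ 3 - 2 * Real.sqrt (w ^ 2 - c) * w ^ 2 + 4 / 3 * w ^ 3

/-- The slice area of the eighth ball with largest slice area `w²`. -/
noncomputable def ballArea (w z : ℝ) : ℝ := max (w ^ 2 - Real.pi * z ^ 2 / 4) 0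

theorem capVol_lt {w c c' : ℝ} (hw : 0 < w) (h0 : 0 ≤ c) (h : c < c') (h1 : c' ≤ w ^ 2) :
    capVol w c < capVol w c' := by
  unfold capVol
  set s := Real.sqrt (w ^ 2 - c)
  set r := Real.sqrt (w ^ 2 - c')
  have hr0 : 0 ≤ r := Real.sqrt_nonneg _
  have hrs : r < s := Real.sqrt_lt_sqrt (by linarith) (by linarith)
  have hsw : s ≤ w := (Real.sqrt_le_left hw.le).2 (by linarith)
  have hneg : 2 / 3 * (s ^ 2 + s * r + r ^ 2) - 2 * w ^ 2 < 0 := by
    nlinarith [mul_le_mul hsw hsw (hr0.trans hrs.le) hw.le,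
      mul_lt_mul_of_pos_left (hrs.trans_le hsw) hw,
      mul_le_mul hsw (hrs.le.trans hsw) hr0 hw.le,
      mul_le_mul (hrs.le.trans hsw) (hrs.le.trans hsw) hr0 hw.le]
  nlinarith [mul_neg_of_pos_of_neg (sub_pos.2 hrs) hneg]

theorem capVol_mono {w c c' : ℝ} (hw : 0 < w) (h0 : 0 ≤ c) (h : c ≤ c') (h1 : c' ≤ w ^ 2) :
    capVol w c ≤ capVol w c' := by
  rcases eq_or_lt_of_le h with h | h
  · rw [h]
  · exact (capVol_lt hw h0 h h1).le

theorem integral_ballArea {w z : ℝ} (hw : 0 < w) (hw1 : 2 * w ≤ Real.sqrt Real.pi)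
    (hz : 0 ≤ z) (hz1 : z ≤ 1) :
    Real.sqrt Real.pi * ∫ x in z..1, ballArea w x = capVol w (ballArea w z) := by
  set p := Real.sqrt Real.pi with hp
  have hp2 : p ^ 2 = Real.pi := Real.sq_sqrt Real.pi_nonneg
  have hp0 : 0 < p := Real.sqrt_pos.2 Real.pi_pos
  set e := 2 * w / p with he
  have he0 : 0 ≤ e := by positivity
  have he2 : Real.pi * e ^ 2 / 4 = w ^ 2 := by rw [he, ← hp2]; field_simp; ring
  have he1 : e ≤ 1 := (div_le_one hp0).2 hw1
  have hout : ∀ x, e ≤ x → ballArea w x = 0 := fun x hx => max_eq_right (by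
    have := mul_le_mul_of_nonneg_left (pow_le_pow_left₀ he0 hx 2) Real.pi_nonneg
    linarith)
  have hin : ∀ x, 0 ≤ x → x ≤ e → ballArea w x = w ^ 2 - Real.pi * x ^ 2 / 4 := fun x hx hx1 =>
    max_eq_left (by
      have := mul_le_mul_of_nonneg_left (pow_le_pow_left₀ hx hx1 2) Real.pi_nonneg
      linarith)
  have hzero : ∀ a b, e ≤ a → a ≤ b → ∫ x in a..b, ballArea w x = 0 := by
    intro a b ha hab
    rw [intervalIntegral.integral_congr (g := fun _ => (0 : ℝ)) fun x hx => hout x (ha.trans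
      (by rw [uIcc_of_le hab] at hx; exact hx.1))]
    simp
  rcases le_or_gt e z with h | h
  · rw [hzero z 1 h hz1, hout z h, capVol, sub_zero, Real.sqrt_sq hw.le]
    ring
  · have hc : Continuous (ballArea w) := by unfold ballArea; fun_prop
    rw [← intervalIntegral.integral_add_adjacent_intervals (b := e) (μ := volume)
      (hc.intervalIntegrable _ _) (hc.intervalIntegrable _ _), hzero e 1 le_rfl he1, add_zero,
      intervalIntegral.integral_congr (g := fun x => w ^ 2 - Real.pi * x ^ 2 / 4) fun x hx => by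
        rw [uIcc_of_le h.le] at hx; exact hin x (hz.trans hx.1) hx.2,
      intervalIntegral.integral_eq_sub_of_hasDerivAt
        (f := fun x => w ^ 2 * x - Real.pi / 12 * x ^ 3)
        (fun x _ => (((hasDerivAt_id x).const_mul (w ^ 2)).sub
          (((hasDerivAt_id x).pow 3).const_mul (Real.pi / 12))).congr_deriv (by simp; ring))
        ((by fun_prop : Continuous fun x : ℝ => w ^ 2 - Real.pi * x ^ 2 / 4).intervalIntegrable
          _ _),
      hin z hz h.le, capVol,
      show w ^ 2 - (w ^ 2 - Real.pi * z ^ 2 / 4) = (p * z / 2) ^ 2 by rw [← hp2]; ring,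
      Real.sqrt_sq (by positivity), he, ← hp2]
    field_simp
    ring

/-- The one-sided variation of a ball at its largest slice. -/
theorem edge_chord {w b p : ℝ} (hw : 0 < w) (h : ∀ W, w < W →
      p / W * b + (2 / 3 * W ^ 2 - 2 / 3 * ((W ^ 2 - w ^ 2) * Real.sqrt (W ^ 2 - w ^ 2) / W))
        ≤ p / w * b + 2 / 3 * w ^ 2) :
    4 / 3 * w ^ 3 ≤ p * b := by
  by_contra hneg
  set δ := 4 / 3 * w ^ 3 - p * b with hδ
  have hδ0 : 0 < δ := sub_pos.2 (not_le.1 hneg)
  set η := min (1 / 2) (δ / (8 * w ^ 3))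
  have hη0 : 0 < η := lt_min (by norm_num) (by positivity)
  have hη1 : η ≤ 1 / 2 := min_le_left _ _
  have hη2 : η * (8 * w ^ 3) ≤ δ := (le_div_iff₀ (by positivity)).1 (min_le_right _ _)
  set ε := η ^ 2 / 3 with hε
  have hε0 : 0 < ε := by positivity
  have hε1 : ε ≤ 1 := by nlinarith
  have h := h (w * (1 + ε)) (lt_mul_of_one_lt_right hw (by linarith))
  rw [show (w * (1 + ε)) ^ 2 - w ^ 2 = w ^ 2 * (ε * (2 + ε)) by ring,
    Real.sqrt_mul (sq_nonneg w), Real.sqrt_sq hw.le] at h
  set S := Real.sqrt (ε * (2 + ε))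
  have hs : S ≤ η := by
    refine (Real.sqrt_le_left hη0.le).2 ?_
    calc ε * (2 + ε) ≤ ε * 3 := by gcongr; linarith
      _ = η ^ 2 := by rw [hε]; ring
  have h1 := mul_le_mul_of_nonneg_right h (show 0 ≤ w * (1 + ε) by positivity)
  have e1 : (p / (w * (1 + ε)) * b + (2 / 3 * (w * (1 + ε)) ^ 2
      - 2 / 3 * (w ^ 2 * (ε * (2 + ε)) * (w * S) / (w * (1 + ε))))) * (w * (1 + ε))
      = p * b + 2 / 3 * w ^ 3 * (1 + ε) ^ 3 - 2 / 3 * w ^ 3 * (ε * (2 + ε)) * S := by
    field_simp
    ring
  have e2 : (p / w * b + 2 / 3 * w ^ 2) * (w * (1 + ε))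
      = p * b * (1 + ε) + 2 / 3 * w ^ 3 * (1 + ε) := by
    field_simp
  rw [e1, e2] at h1
  have h2 : 2 / 3 * w ^ 3 * (ε * (2 + ε)) * S ≤ 2 / 3 * w ^ 3 * (ε * 3) * η :=
    mul_le_mul (by gcongr; linarith) hs (Real.sqrt_nonneg _) (by positivity)
  have h3 : ε * δ ≤ ε * (2 * w ^ 3 * η) := by
    have : 0 ≤ w ^ 3 * ε ^ 2 * (1 + ε / 3) := by positivity
    rw [hδ]; linarith
  linarith [le_of_mul_le_mul_left h3 hε0]

/-- An integral that is signed like its integrand and vanishes at both ends vanishes. -/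
theorem no_crossing {d : ℝ → ℝ} (hd : IntervalIntegrable d volume 0 1)
    (h0 : ∫ x in (0 : ℝ)..1, d x = 0)
    (hsign : ∀ x ∈ Ioo (0 : ℝ) 1, 0 < ∫ y in x..1, d y → 0 ≤ d x) {z : ℝ}
    (hz : z ∈ Ioo (0 : ℝ) 1) : ∫ y in z..1, d y ≤ 0 := by
  by_contra hpos
  set D := fun x => ∫ y in x..1, d y with hD
  have hc : ContinuousOn D (Icc 0 z) := by
    have h := intervalIntegral.continuousOn_primitive_interval_left (a := 0) (b := 1) (f := d)
      (μ := volume) (by
        rw [uIcc_of_le zero_le_one]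
        exact (intervalIntegrable_iff_integrableOn_Icc_of_le zero_le_one).1 hd)
    rw [uIcc_of_le zero_le_one] at h
    exact h.mono (Icc_subset_Icc le_rfl hz.2.le)
  set S := Icc 0 z ∩ D ⁻¹' Iic 0 with hS
  have hne : S.Nonempty := ⟨0, ⟨le_rfl, hz.1.le⟩, le_of_eq h0⟩
  obtain ⟨τ, hτS, hτ⟩ := (isCompact_Icc.of_isClosed_subset
    (hc.preimage_isClosed_of_isClosed isClosed_Icc isClosed_Iic) inter_subset_left).exists_isGreatest
      hne
  have hi : ∀ a b : ℝ, 0 ≤ a → a ≤ b → b ≤ 1 → IntervalIntegrable d volume a b :=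
    fun a b ha hab hb => hd.mono_set (by
      rw [uIcc_of_le hab, uIcc_of_le zero_le_one]; exact Icc_subset_Icc ha hb)
  have hge : 0 ≤ ∫ y in τ..z, d y := by
    refine le_trans (le_of_eq (by simp : (0 : ℝ) = ∫ _ in τ..z, (0 : ℝ))) ?_
    refine intervalIntegral.integral_mono_on_of_le_Ioo hτS.1.2 intervalIntegrable_const
      (hi τ z hτS.1.1 hτS.1.2 hz.2.le) fun x hx => ?_
    refine hsign x ⟨hτS.1.1.trans_lt hx.1, hx.2.trans hz.2⟩ ?_
    by_contra hx'
    exact absurd (hτ ⟨⟨(hτS.1.1.trans_lt hx.1).le, hx.2.le⟩, not_lt.1 hx'⟩) (not_le.2 hx.1)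
  have e := intervalIntegral.integral_add_adjacent_intervals (hi τ z hτS.1.1 hτS.1.2 hz.2.le)
    (hi z 1 hz.1.le hz.2.le le_rfl)
  have h1 : D τ ≤ 0 := hτS.2
  simp only [hD] at h1
  linarith [not_le.1 hpos]

/-- The equality case of the one-dimensional inequality in the ball range. -/
theorem ball_profile {A : ℝ → ℝ} (hA : Antitone A) (hA0 : ∀ x, 0 ≤ A x) {v Q : ℝ} (hv : 0 < v)
    (hvb : v ≤ 4 * Real.pi / 81) (hend : leftLim A 1 = 0)
    (hvA : ∫ z in (0 : ℝ)..1, A z = v) (hQv : Q ≤ ballTube v)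
    (hQ : ∀ n : ℕ, ∀ t : ℕ → ℝ, (∀ i, t i = i / ((n : ℝ) + 1)) →
      ∑ i ∈ Finset.range (n + 1), Real.sqrt ((1 / ((n : ℝ) + 1)
          * Real.sqrt (Real.pi * leftLim A (t (i + 1)))) ^ 2
          + (rightLim A (t i) - leftLim A (t (i + 1))) ^ 2)
        + ∑ i ∈ Finset.range n, (leftLim A (t (i + 1)) - rightLim A (t (i + 1))) ≤ Q) :
    ∃ w, 0 < w ∧ 4 / 3 * w ^ 3 = Real.sqrt Real.pi * v ∧
      ∀ z ∈ Ioo (0 : ℝ) 1, A z = ballArea w z := by
  set p := Real.sqrt Real.pi with hp
  have hp0 : 0 < p := Real.sqrt_pos.2 Real.pi_pos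
  have hp2 : p ^ 2 = Real.pi := Real.sq_sqrt Real.pi_nonneg
  set M := rightLim A 0 with hM
  have hint : ∀ a b, IntervalIntegrable A volume a b := fun a b => hA.intervalIntegrable
  have hvM : v ≤ M := by
    rw [← hvA]
    calc ∫ z in (0 : ℝ)..1, A z ≤ ∫ _ in (0 : ℝ)..1, M :=
          intervalIntegral.integral_mono_on_of_le_Ioo zero_le_one (hint 0 1)
            intervalIntegrable_const fun z hz => hA.le_rightLim hz.1
      _ = _ := by simp
  set w := Real.sqrt M with hw
  have hw0 : 0 < w := Real.sqrt_pos.2 (hv.trans_le hvM)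
  have hwM : M = w ^ 2 := (Real.sq_sqrt (hv.le.trans hvM)).symm
  -- the value of the single chord is minimal at `w`
  have hF : ∀ W, 0 < W → ballTube v ≤ p * v / W + 2 / 3 * W ^ 2 := by
    intro W hW
    have h := ballTube_le le_rfl hW.le hW hv.le
    rw [zero_mul, add_zero, zero_add, add_div] at h
    have e := integral_sinC le_rfl hW.le hW
    rw [zero_pow two_ne_zero, zero_add,
      intervalIntegral.integral_congr (g := sinB W) (fun x hx => sinC_zero
        (by rw [uIcc_of_le (sq_nonneg W)] at hx; exact hx.1)),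
      integral_sinB hW (sq_nonneg W) le_rfl, sub_self, Real.sqrt_zero, mul_zero, zero_div,
      mul_zero, sub_zero] at e
    rwa [← e] at h
  have hQw : p * v / w + 2 / 3 * w ^ 2 ≤ Q := by
    have h := cylinder_1d_gen hA (v := v) le_rfl hw0.le hw0 (by simp [hend]) hwM.le hvA.ge hQ
    rw [hend, intervalIntegral.integral_congr (g := sinB w) (fun x hx => sinC_zero
        (by rw [uIcc_of_le (hv.le.trans hvM)] at hx; exact hx.1)),
      integral_sinB hw0 (hv.le.trans hvM) hwM.le, hwM, sub_self] at h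
    simp only [zero_mul, zero_div, mul_zero, sub_zero, add_zero, zero_add] at h
    exact h
  have hwv : 4 / 3 * w ^ 3 = p * v := by
    have hmin : IsLocalMin (fun W => p * v / W + 2 / 3 * W ^ 2) w :=
      Filter.eventually_of_mem (Ioi_mem_nhds hw0) fun W hW =>
        hQw.trans (hQv.trans (hF W hW))
    have hd : HasDerivAt (fun W => p * v / W + 2 / 3 * W ^ 2)
        (-(p * v) / w ^ 2 + 4 / 3 * w) w := by
      refine (((hasDerivAt_const w (p * v)).div (hasDerivAt_id w) hw0.ne').add
        (((hasDerivAt_id w).pow 2).const_mul (2 / 3))).congr_deriv ?_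
      simp; ring
    have h := hmin.hasDerivAt_eq_zero hd
    field_simp at h
    linarith
  have hw1 : 2 * w ≤ p := by
    by_contra hh
    have h1 := pow_lt_pow_left₀ (not_le.1 hh) hp0.le (show (3 : ℕ) ≠ 0 by norm_num)
    have h2 := mul_le_mul_of_nonneg_left hvb hp0.le
    rw [← hp2] at h2
    nlinarith [pow_pos hp0 3]
  have hRM : ∀ q, 0 ≤ q → 0 ≤ rightLim A q ∧ rightLim A q ≤ w ^ 2 := fun q hq =>
    ⟨(hA0 (q + 1)).trans (hA.le_rightLim (by linarith)), hwM ▸ (hM ▸ hA.rightLim hq)⟩
  -- two chords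
  have hid : ∀ N j : ℕ, 0 < j → j < N → p * (∫ z in (j / N : ℝ)..1, A z)
      = capVol w (rightLim A ((j : ℝ) / N)) := by
    intro N j hj hjN
    set z₀ : ℝ := (j : ℝ) / N with hz₀
    have hNr : (0 : ℝ) < N := by exact_mod_cast hj.trans hjN
    have hz0 : 0 < z₀ := div_pos (by exact_mod_cast hj) hNr
    set c := rightLim A z₀ with hc
    set b := ∫ z in z₀..1, A z with hb
    have hc0 : 0 ≤ c := (hRM z₀ hz0.le).1
    have hcM : c ≤ w ^ 2 := (hRM z₀ hz0.le).2
    have hsplit : (∫ z in (0 : ℝ)..z₀, A z) + b = v := by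
      rw [hb, intervalIntegral.integral_add_adjacent_intervals (hint _ _) (hint _ _), hvA]
    have hle : ∀ W, 0 < W → c ≤ W ^ 2 →
        p / W * b + (∫ a in (0 : ℝ)..c, sinB W a) ≤ p / w * b + ∫ a in (0 : ℝ)..c, sinB w a := by
      intro W hW hcW
      have h := two_chord hA hj hjN hw0 hW hwM.le hcW hend le_rfl
        (hA.rightLim_le_leftLim le_rfl) hQ
      have e := intervalIntegral.integral_add_adjacent_intervals (μ := volume)
        ((continuous_sinB w).intervalIntegrable 0 c) ((continuous_sinB w).intervalIntegrable c M)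
      have e' : ∫ a in (0 : ℝ)..M, sinB w a = 2 / 3 * w ^ 2 := by
        rw [integral_sinB hw0 (hv.le.trans hvM) hwM.le, hwM]; simp
      have e'' : p * v / w = p / w * (∫ z in (0 : ℝ)..z₀, A z) + p / w * b := by
        rw [← hsplit]; ring
      linarith [hQv.trans (hF w hw0)]
    have hclt : c < w ^ 2 := by
      refine lt_of_le_of_ne hcM fun hcw => ?_
      have hb1 : p * b ≤ 4 / 3 * w ^ 3 - p * (z₀ * w ^ 2) := by
        have h : z₀ * w ^ 2 ≤ ∫ z in (0 : ℝ)..z₀, A z := by
          calc z₀ * w ^ 2 = ∫ _ in (0 : ℝ)..z₀, w ^ 2 := by simp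
            _ ≤ _ := intervalIntegral.integral_mono_on_of_le_Ioo hz0.le intervalIntegrable_const
                (hint _ _) fun z hz =>
                  hcw ▸ (hA.rightLim_le_leftLim le_rfl).trans (hA.leftLim_le hz.2)
        rw [hwv, ← hsplit]
        linarith [mul_le_mul_of_nonneg_left h hp0.le]
      have h := edge_chord (b := b) (p := p) hw0 fun W hW => by
        have hcW : c ≤ W ^ 2 := hcw.le.trans (pow_le_pow_left₀ hw0.le hW.le 2)
        have h := hle W (hw0.trans hW) hcW
        rw [integral_sinB (hw0.trans hW) hc0 hcW, integral_sinB hw0 hc0 hcM, hcw, sub_self] at h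
        simpa using h
      have : 0 < p * (z₀ * w ^ 2) := by positivity
      linarith
    set φ := fun W => p / W * b + (2 / 3 * W ^ 2
      - 2 / 3 * ((W ^ 2 - c) * Real.sqrt (W ^ 2 - c) / W)) with hφ
    have hmax : IsLocalMax φ w := by
      filter_upwards [Ioi_mem_nhds hw0, ((continuous_pow 2).tendsto w).eventually
        (lt_mem_nhds hclt)] with W hW hcW
      simp only [hφ]
      rw [← integral_sinB hW hc0 hcW.le, ← integral_sinB hw0 hc0 hcM]
      exact hle W hW hcW.le
    set s := Real.sqrt (w ^ 2 - c) with hs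
    have hs2 : s ^ 2 = w ^ 2 - c := Real.sq_sqrt (by linarith)
    have hs0 : 0 < s := Real.sqrt_pos.2 (by linarith)
    have hd : HasDerivAt φ (-(p * b) / w ^ 2 + 4 / 3 * w
        - 2 / 3 * (3 * s * w ^ 2 - s ^ 3) / w ^ 2) w := by
      have h1 := (((hasDerivAt_id w).pow 2).sub_const c)
      have h2 := (h1.mul (h1.sqrt (by simpa using (sub_pos.2 hclt).ne'))).div
        (hasDerivAt_id w) hw0.ne'
      refine ((((hasDerivAt_const w p).div (hasDerivAt_id w) hw0.ne').mul_const b).add
        ((((hasDerivAt_id w).pow 2).const_mul (2 / 3)).sub (h2.const_mul (2 / 3)))).congr_deriv ?_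
      simp only [id, Pi.mul_apply, Pi.pow_apply, ← hs2, Real.sqrt_sq hs0.le]
      field_simp
      ring
    have h := hmax.hasDerivAt_eq_zero hd
    field_simp at h
    rw [capVol, ← hs]
    linarith
  -- every height
  have hall : ∀ z ∈ Ioo (0 : ℝ) 1, p * (∫ x in z..1, A x) = capVol w (A z) := by
    intro z hz
    have hAz : A z ≤ w ^ 2 := hwM ▸ hA.le_rightLim hz.1
    have hrat : ∀ a b : ℝ, 0 ≤ a → a < b → b ≤ 1 →
        ∃ N j : ℕ, 0 < j ∧ j < N ∧ a < (j : ℝ) / N ∧ (j : ℝ) / N < b := by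
      intro a b ha hab hb
      obtain ⟨q, hq1, hq2⟩ := exists_rat_btwn hab
      have hq0 : (0 : ℝ) < q := lt_of_le_of_lt ha hq1
      have hq : ((q.num.toNat : ℝ) / q.den) = q := by
        have hn : ((q.num.toNat : ℤ)) = q.num :=
          Int.toNat_of_nonneg (Rat.num_nonneg.2 (by exact_mod_cast hq0.le))
        rw [show ((q.num.toNat : ℝ)) = ((q.num : ℤ) : ℝ) by exact_mod_cast hn, ← Rat.cast_def]
      refine ⟨q.den, q.num.toNat, ?_, ?_, hq.symm ▸ hq1, hq.symm ▸ hq2⟩
      · have h := hq.symm ▸ hq0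
        by_contra h0
        simp [Nat.eq_zero_of_not_pos h0] at h
      · have h : ((q.num.toNat : ℝ) / q.den) < 1 := hq.symm ▸ (hq2.trans_le hb)
        rw [div_lt_one (by exact_mod_cast q.pos)] at h
        exact_mod_cast h
    have hbound : ∀ a b : ℝ, 0 ≤ a → a ≤ b →
        0 ≤ (∫ x in a..b, A x) ∧ (∫ x in a..b, A x) ≤ w ^ 2 * (b - a) := by
      intro a b ha hab
      refine ⟨intervalIntegral.integral_nonneg hab fun x _ => hA0 x, ?_⟩
      calc ∫ x in a..b, A x ≤ ∫ _ in a..b, w ^ 2 :=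
            intervalIntegral.integral_mono_on_of_le_Ioo hab (hint a b) intervalIntegrable_const
              fun x hx => hwM ▸ hA.le_rightLim (ha.trans_lt hx.1)
        _ = _ := by simp; ring
    refine le_antisymm ?_ ?_
    · refine le_of_forall_pos_le_add fun ε hε => ?_
      set δ := ε / (p * w ^ 2) with hδ
      have hδ0 : 0 < δ := by positivity
      obtain ⟨N, j, hj, hjN, h1, h2⟩ := hrat z (min (z + δ) 1) hz.1.le
        (lt_min (by linarith) hz.2) (min_le_right _ _)
      have e := intervalIntegral.integral_add_adjacent_intervals (hint z (j / N : ℝ))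
        (hint (j / N : ℝ) 1)
      have hq := hid N j hj hjN
      have hR := capVol_mono hw0 (hRM _ (hz.1.le.trans h1.le)).1 (hA.rightLim_le h1.le) hAz
      have hd := mul_le_mul_of_nonneg_left ((hbound z (j / N : ℝ) hz.1.le h1.le).2.trans
        (mul_le_mul_of_nonneg_left (show (j : ℝ) / N - z ≤ δ by
          linarith [min_le_left (z + δ) 1]) (sq_nonneg w))) hp0.le
      have e2 : p * (w ^ 2 * δ) = ε := by rw [hδ]; field_simp
      rw [← e, mul_add]
      linarith
    · obtain ⟨N, j, hj, hjN, h1, h2⟩ := hrat 0 z le_rfl hz.1 hz.2.le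
      refine le_of_forall_pos_le_add fun ε hε => ?_
      set δ := ε / (p * w ^ 2) with hδ
      have hδ0 : 0 < δ := by positivity
      obtain ⟨N, j, hj, hjN, h1, h2⟩ := hrat (max (z - δ) 0) z (le_max_right _ _)
        (max_lt (by linarith) hz.1) hz.2.le
      have e := intervalIntegral.integral_add_adjacent_intervals (hint (j / N : ℝ) z) (hint z 1)
      have hq := hid N j hj hjN
      have hq0 : 0 ≤ (j : ℝ) / N := by positivity
      have hR := capVol_mono hw0 (hA0 z) (hA.le_rightLim h2) (hRM _ hq0).2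
      have hd := mul_le_mul_of_nonneg_left ((hbound (j / N : ℝ) z hq0 h2.le).2.trans
        (mul_le_mul_of_nonneg_left (show z - (j : ℝ) / N ≤ δ by
          linarith [le_max_left (z - δ) 0]) (sq_nonneg w))) hp0.le
      have e2 : p * (w ^ 2 * δ) = ε := by rw [hδ]; field_simp
      rw [← e, mul_add] at hq
      linarith
  have hcont : Continuous (ballArea w) := by unfold ballArea; fun_prop
  have hib : ∀ a b, IntervalIntegrable (ballArea w) volume a b :=
    fun a b => hcont.intervalIntegrable a b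
  have hrange : ∀ z, 0 ≤ ballArea w z ∧ ballArea w z ≤ w ^ 2 := fun z => ⟨le_max_right _ _,
    max_le (by linarith [mul_nonneg Real.pi_nonneg (sq_nonneg z)]) (sq_nonneg w)⟩
  have hsub : ∀ z, ∫ x in z..1, (A x - ballArea w x)
      = (∫ x in z..1, A x) - ∫ x in z..1, ballArea w x := fun z =>
    intervalIntegral.integral_sub (hint _ _) (hib _ _)
  have h0 : ∫ x in (0 : ℝ)..1, (A x - ballArea w x) = 0 := by
    have h := integral_ballArea hw0 hw1 le_rfl zero_le_one
    have hb0 : ballArea w 0 = w ^ 2 := by simp [ballArea, sq_nonneg]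
    rw [hb0, capVol, sub_self, Real.sqrt_zero] at h
    rw [hsub, hvA]
    refine (mul_eq_zero.1 (show p * (v - ∫ x in (0 : ℝ)..1, ballArea w x) = 0 by
      linarith [h])).resolve_left hp0.ne'
  refine ⟨w, hw0, hwv, fun z hz => ?_⟩
  have hAr : ∀ x ∈ Ioo (0 : ℝ) 1, 0 ≤ A x ∧ A x ≤ w ^ 2 := fun x hx =>
    ⟨hA0 x, hwM ▸ hA.le_rightLim hx.1⟩
  have hpe : ∀ x ∈ Ioo (0 : ℝ) 1, p * (∫ y in x..1, (A y - ballArea w y))
      = capVol w (A x) - capVol w (ballArea w x) := fun x hx => by
    rw [hsub, mul_sub, hall x hx, integral_ballArea hw0 hw1 hx.1.le hx.2.le]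
  have h1 := no_crossing ((hint 0 1).sub (hib 0 1)) h0 (fun x hx hpos => by
    by_contra hneg
    have := capVol_lt hw0 (hAr x hx).1 (by linarith [not_le.1 hneg]) (hrange x).2
    linarith [hpe x hx, mul_pos hp0 hpos]) hz
  have h2 := no_crossing (((hint 0 1).sub (hib 0 1)).neg) (by
    simp only [Pi.neg_apply, intervalIntegral.integral_neg, h0, neg_zero]) (fun x hx hpos => by
    simp only [Pi.neg_apply, intervalIntegral.integral_neg] at hpos ⊢
    by_contra hneg
    have := capVol_lt hw0 (hrange x).1 (by linarith [not_le.1 hneg]) (hAr x hx).2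
    linarith [hpe x hx, mul_pos hp0 hpos]) hz
  simp only [Pi.neg_apply, intervalIntegral.integral_neg] at h2
  have h3 := hpe z hz
  rw [le_antisymm h1 (by linarith), mul_zero] at h3
  rcases lt_trichotomy (A z) (ballArea w z) with h | h | h
  · linarith [capVol_lt hw0 (hAr z hz).1 h (hrange z).2]
  · exact h
  · linarith [capVol_lt hw0 (hrange z).1 h (hAr z hz).2]

end Vale.Agent.P232.Cylinder

namespace Vale.Agent.P232

open Cylinder

variable {D : Set R3}

/-- A down-set without far contacts attaining half a ball has the slice areas of the eighth ball,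
in every direction. -/
theorem sliceArea_eq_ballArea (hD : MeasurableSet D) (hdown : IsDownset D) {P : ℝ}
    (hP : RelPerLE D P) (hv : 0 < (volume D).toReal)
    (hvb : (volume D).toReal ≤ 4 * Real.pi / 81) (hPle : P ≤ ballTube (volume D).toReal)
    (hface : ∀ k, faceArea D k = 0) :
    ∃ w, 0 < w ∧ 4 / 3 * w ^ 3 = Real.sqrt Real.pi * (volume D).toReal ∧
      ∀ k, ∀ z ∈ Ioo (0 : ℝ) 1, sliceArea D k z = ballArea w z := by
  have hk : ∀ k, ∃ w, 0 < w ∧ 4 / 3 * w ^ 3 = Real.sqrt Real.pi * (volume D).toReal ∧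
      ∀ z ∈ Ioo (0 : ℝ) 1, areaExt D k z = ballArea w z := fun k =>
    ball_profile (areaExt_antitone hdown k) (fun x => sliceArea_nonneg D k _) hv hvb (hface k)
      (volume_eq_integral_areaExt hD hdown k).symm
      (Q := P + (faceArea D (k.succAbove 0) + faceArea D (k.succAbove 1)))
      (by simpa [hface] using hPle) (cylinder_hyp hD hdown hP k)
  obtain ⟨w, hw0, hw, -⟩ := hk 0
  refine ⟨w, hw0, hw, fun k z hz => ?_⟩
  obtain ⟨w', hw0', hw', h⟩ := hk k
  rw [← areaExt_eq hz.1.le, h z hz,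
    (pow_left_inj₀ hw0'.le hw0.le three_ne_zero).1 (by linarith : w' ^ 3 = w ^ 3)]

end Vale.Agent.P232
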