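import Vale.Agent.P232.CylinderKey

/-!
The scalar inequalities of the interior of the tube range and of the ball range: the chord
calibration of the quarter cylinder beats the tube by a gain which dominates the squares of the
two smaller far contacts allowed by the stretch inequality.
-/

open MeasureTheory Set intervalIntegral

namespace Vale.Agent.P232.Interior

open Cylinder

theorem H_one_small {ρ : ℝ} (h0 : 0 < ρ) (h1 : ρ ≤ 8 / 100) :
    (1 - ρ) ^ 2 * (5 + 6 * ρ) / 15 ≤ H ρ 1 := by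
  have hρ1 : ρ ≤ 1 := h1.trans (by norm_num)
  have hc1 : IntervalIntegrable (fun r => r * Real.sqrt (1 - r ^ 2)) volume ρ 1 :=
    (by fun_prop : Continuous fun r : ℝ => r * Real.sqrt (1 - r ^ 2)).intervalIntegrable _ _
  have hc2 : IntervalIntegrable (fun r => ρ ^ 2 * r⁻¹) volume ρ 1 := by
    refine ContinuousOn.intervalIntegrable ?_
    rw [uIcc_of_le hρ1]
    exact continuousOn_const.mul (continuousOn_inv₀.mono fun r hr => (h0.trans_le hr.1).ne')
  have hpt : ∀ r ∈ Icc ρ 1, r * Real.sqrt (1 - r ^ 2) - ρ ^ 2 * r⁻¹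
      ≤ Real.sqrt ((1 ^ 2 - r ^ 2) * (r ^ 2 - ρ ^ 2)) := by
    intro r hr
    have hr0 : 0 < r := h0.trans_le hr.1
    have hy : 0 ≤ 1 - r ^ 2 := by nlinarith [hr.2]
    rw [one_pow, Real.sqrt_mul hy]
    have h2 : r - ρ ^ 2 * r⁻¹ ≤ Real.sqrt (r ^ 2 - ρ ^ 2) := by
      refine Real.le_sqrt_of_sq_le ?_
      have hh : (r - ρ ^ 2 * r⁻¹) ^ 2 = (r ^ 2 - ρ ^ 2) ^ 2 / r ^ 2 := by field_simp
      rw [hh, div_le_iff₀ (by positivity)]
      nlinarith [mul_nonneg (sub_nonneg.2 (pow_le_pow_left₀ h0.le hr.1 2)) (sq_nonneg ρ)]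
    have h3 : Real.sqrt (1 - r ^ 2) ≤ 1 := Real.sqrt_le_one.2 (by nlinarith)
    nlinarith [mul_le_mul_of_nonneg_left h2 (Real.sqrt_nonneg (1 - r ^ 2)),
      mul_nonneg (sub_nonneg.2 h3) (show 0 ≤ ρ ^ 2 * r⁻¹ by positivity)]
  have hH := integral_mono_on (μ := volume) hρ1 (hc1.sub hc2)
    ((by fun_prop : Continuous fun r : ℝ =>
      Real.sqrt ((1 ^ 2 - r ^ 2) * (r ^ 2 - ρ ^ 2))).intervalIntegrable _ _) hpt
  rw [integral_sub hc1 hc2, integral_quarter_disc h0.le hρ1,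
    intervalIntegral.integral_const_mul, integral_inv_of_pos h0 one_pos] at hH
  have hp : ρ ^ 2 ≤ 1 / 100 := by nlinarith
  have hroot : 1 - 3 / 2 * ρ ^ 2 ≤ (1 - ρ ^ 2) * Real.sqrt (1 - ρ ^ 2) := by
    have hs := Real.sq_sqrt (show (0 : ℝ) ≤ 1 - ρ ^ 2 by linarith)
    refine le_of_pow_le_pow_left₀ two_ne_zero
      (mul_nonneg (by linarith) (Real.sqrt_nonneg _)) ?_
    rw [mul_pow, hs]
    nlinarith [mul_nonneg (mul_nonneg (sq_nonneg ρ) (sq_nonneg ρ))
      (show (0 : ℝ) ≤ 3 / 4 - ρ ^ 2 by linarith)]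
  set s := Real.sqrt ρ with hs
  have hs0 : 0 < s := Real.sqrt_pos.2 h0
  have hs2 : s ^ 2 = ρ := Real.sq_sqrt h0.le
  have hsb : s ≤ 283 / 1000 := by nlinarith
  have hlog : ρ ^ 2 * Real.log (1 / ρ) ≤ 209 / 1000 * ρ := by
    have he : (0 : ℝ) < Real.exp 1 := Real.exp_pos 1
    have hl := Real.log_le_sub_one_of_pos (show (0 : ℝ) < 1 / (s * Real.exp 1) by positivity)
    rw [Real.log_div one_ne_zero (by positivity), Real.log_mul hs0.ne' he.ne', Real.log_exp,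
      Real.log_one] at hl
    rw [Real.log_div one_ne_zero h0.ne', Real.log_one, ← hs2, Real.log_pow]
    have h2 : s * (1 / (s * Real.exp 1)) ≤ 368 / 1000 := by
      rw [show s * (1 / (s * Real.exp 1)) = 1 / Real.exp 1 by field_simp, div_le_iff₀ he]
      have := Real.exp_one_gt_d9
      linarith
    have h3 := mul_le_mul_of_nonneg_left hl (show 0 ≤ 2 * s ^ 4 by positivity)
    have h4 := mul_le_mul_of_nonneg_left h2 (show 0 ≤ 2 * s ^ 3 by positivity)
    have h5 := mul_le_mul_of_nonneg_left hsb (show 0 ≤ 736 / 1000 * s ^ 2 by positivity)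
    push_cast
    nlinarith [h3, h4, h5]
  refine le_trans ?_ (hH : _ ≤ H ρ 1)
  have h6 : (1 - ρ) ^ 2 * (5 + 6 * ρ) / 15 ≤ 1 / 3 - ρ ^ 2 / 2 - 209 / 1000 * ρ := by
    nlinarith [mul_le_mul_of_nonneg_left h1 h0.le,
      mul_le_mul_of_nonneg_left h1 (sq_nonneg ρ)]
  linarith

theorem H_one_large {ρ : ℝ} (h0 : 8 / 100 ≤ ρ) (h1 : ρ ≤ 1) :
    (1 - ρ) ^ 2 * (5 + 6 * ρ) / 15 ≤ H ρ 1 := by
  have hρ : 0 ≤ ρ := le_trans (by norm_num) h0
  set h := (1 - ρ) / 2 with hh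
  set μ := (1 + ρ) / 2 with hμ
  have hh0 : 0 ≤ h := by rw [hh]; linarith
  set p := Real.sqrt (2 * ρ * (1 + ρ)) with hp
  set q := Real.sqrt (2 * (1 + ρ)) with hq
  have hp0 : 0 ≤ p := Real.sqrt_nonneg _
  have hq0 : 0 ≤ q := Real.sqrt_nonneg _
  have hp2 : p ^ 2 = 2 * ρ * (1 + ρ) := Real.sq_sqrt (by positivity)
  have hq2 : q ^ 2 = 2 * (1 + ρ) := Real.sq_sqrt (by positivity)
  have hpt : ∀ x ∈ Icc (-1 : ℝ) 1,
      h * ((p + q) / 2 * Real.sqrt (1 - x ^ 2) + (q - p) / 2 * (x * Real.sqrt (1 - x ^ 2)))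
        ≤ Real.sqrt ((1 ^ 2 - (h * x + μ) ^ 2) * ((h * x + μ) ^ 2 - ρ ^ 2)) := by
    intro x hx
    set θ := (1 + x) / 2 with hθ
    have hθ0 : 0 ≤ θ := by rw [hθ]; linarith [hx.1]
    have hθ1 : θ ≤ 1 := by rw [hθ]; linarith [hx.2]
    set r := h * x + μ with hr
    have hrθ : r = (1 - θ) * ρ + θ := by rw [hr, hθ, hh, hμ]; ring
    have hr0 : 0 ≤ r := by
      rw [hrθ]; nlinarith [mul_nonneg (sub_nonneg.2 hθ1) hρ]
    have hpq : 2 * (p * q) ≤ (1 + ρ) * (1 + ρ) + 2 * (2 * ρ) := by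
      nlinarith [sq_nonneg (p * q - (1 + ρ) * (1 + ρ)), mul_nonneg hp0 hq0]
    have hl : ((1 - θ) * p + θ * q) ^ 2 ≤ (1 + r) * (r + ρ) := by
      rw [hrθ]
      have e1 : (1 - θ) ^ 2 * p ^ 2 = (1 - θ) ^ 2 * (2 * ρ * (1 + ρ)) := by rw [hp2]
      have e2 : θ ^ 2 * q ^ 2 = θ ^ 2 * (2 * (1 + ρ)) := by rw [hq2]
      linarith [mul_le_mul_of_nonneg_left hpq (mul_nonneg hθ0 (sub_nonneg.2 hθ1))]
    have e : (1 ^ 2 - r ^ 2) * (r ^ 2 - ρ ^ 2)
        = h ^ 2 * (1 - x ^ 2) * ((1 + r) * (r + ρ)) := by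
      rw [hr, hh, hμ]; ring
    have hx2 : 0 ≤ 1 - x ^ 2 := by nlinarith [hx.1, hx.2]
    rw [e, Real.sqrt_mul (mul_nonneg (sq_nonneg h) hx2), Real.sqrt_mul (sq_nonneg h),
      Real.sqrt_sq hh0]
    have hg : (1 - θ) * p + θ * q ≤ Real.sqrt ((1 + r) * (r + ρ)) := Real.le_sqrt_of_sq_le hl
    refine le_trans (le_of_eq ?_)
      (mul_le_mul_of_nonneg_left hg (mul_nonneg hh0 (Real.sqrt_nonneg _)))
    rw [hθ]; ring
  have hc : Continuous fun r : ℝ => Real.sqrt ((1 ^ 2 - r ^ 2) * (r ^ 2 - ρ ^ 2)) := by fun_prop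
  have hI : h * ∫ x in (-1 : ℝ)..1,
      Real.sqrt ((1 ^ 2 - (h * x + μ) ^ 2) * ((h * x + μ) ^ 2 - ρ ^ 2)) = H ρ 1 := by
    have := intervalIntegral.mul_integral_comp_mul_add (a := (-1 : ℝ)) (b := 1)
      (f := fun r => Real.sqrt ((1 ^ 2 - r ^ 2) * (r ^ 2 - ρ ^ 2))) h μ
    rw [show h * -1 + μ = ρ by rw [hh, hμ]; ring, show h * 1 + μ = 1 by rw [hh, hμ]; ring] at this
    exact this
  have i1 : IntervalIntegrable (fun x : ℝ => (p + q) / 2 * Real.sqrt (1 - x ^ 2)) volume (-1) 1 :=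
    Continuous.intervalIntegrable (by fun_prop) _ _
  have i2 : IntervalIntegrable
      (fun x : ℝ => (q - p) / 2 * (x * Real.sqrt (1 - x ^ 2))) volume (-1) 1 :=
    Continuous.intervalIntegrable (by fun_prop) _ _
  have hm := integral_mono_on (μ := volume) (show (-1 : ℝ) ≤ 1 by norm_num)
    ((i1.add i2).const_mul h)
    ((hc.comp (by fun_prop : Continuous fun x : ℝ => h * x + μ)).intervalIntegrable _ _) hpt
  rw [intervalIntegral.integral_const_mul, integral_add i1 i2,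
    intervalIntegral.integral_const_mul, intervalIntegral.integral_const_mul,
    integral_id_mul_semicircle, integral_sqrt_one_sub_sq] at hm
  have hm' := mul_le_mul_of_nonneg_left hm hh0
  simp only [Function.comp_apply] at hm'
  rw [hI] at hm'
  refine le_trans ?_ hm'
  have key : 1 + 6 / 5 * ρ ≤ 3 * (314 / 100) / 16 * (p + q) := by
    set s := Real.sqrt ρ with hs
    have hs2 : s ^ 2 = ρ := Real.sq_sqrt hρ
    have hs0 : 0 ≤ s := Real.sqrt_nonneg _
    have hslo : 28 / 100 ≤ s := by nlinarith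
    have hshi : s ≤ 1 := Real.sqrt_le_one.2 h1
    have hps : p = s * q := by
      rw [hp, hq, hs, ← Real.sqrt_mul hρ]; ring_nf
    refine le_of_pow_le_pow_left₀ two_ne_zero (by positivity) ?_
    rw [hps, show (3 * (314 / 100) / 16 * (s * q + q) : ℝ) ^ 2
      = (3 * (314 / 100) / 16) ^ 2 * (s + 1) ^ 2 * q ^ 2 by ring, hq2, ← hs2]
    nlinarith [mul_nonneg (sub_nonneg.2 hslo) (sub_nonneg.2 hshi),
      mul_nonneg (mul_nonneg (sub_nonneg.2 hslo) (sub_nonneg.2 hshi)) hs0,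
      mul_nonneg (mul_nonneg (sub_nonneg.2 hslo) (sub_nonneg.2 hshi)) (sq_nonneg s),
      pow_nonneg hs0 3, pow_nonneg hs0 4]
  have hpi : 3 * (314 / 100) / 16 * (p + q) ≤ 3 * Real.pi / 16 * (p + q) := by
    gcongr
    linarith [Real.pi_gt_d2]
  have := mul_le_mul_of_nonneg_left (key.trans hpi) (sq_nonneg h)
  rw [hh] at this ⊢
  linarith

/-- A cubic lower bound for the unduloid integral. -/
theorem H_poly {a t : ℝ} (ha : 0 ≤ a) (hat : a ≤ t) :
    (t - a) ^ 2 * (5 * t + 6 * a) / 15 ≤ H a t := by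
  rcases eq_or_lt_of_le (ha.trans hat) with ht | ht
  · obtain rfl : a = t := by linarith
    simpa using H_nonneg le_rfl
  have hρ : 0 ≤ a / t := by positivity
  have hρ1 : a / t ≤ 1 := (div_le_one ht).2 hat
  have hone : (1 - a / t) ^ 2 * (5 + 6 * (a / t)) / 15 ≤ H (a / t) 1 := by
    rcases le_or_gt (8 / 100) (a / t) with h | h
    · exact H_one_large h hρ1
    rcases eq_or_lt_of_le hρ with h' | h'
    · have e : H 0 1 = ∫ r in (0 : ℝ)..1, r * Real.sqrt (1 - r ^ 2) := by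
        refine integral_congr fun r hr => ?_
        rw [uIcc_of_le zero_le_one] at hr
        rw [show ((1 : ℝ) ^ 2 - r ^ 2) * (r ^ 2 - 0 ^ 2) = r ^ 2 * (1 - r ^ 2) by ring,
          Real.sqrt_mul (sq_nonneg r), Real.sqrt_sq hr.1]
      rw [← h', e, integral_quarter_disc le_rfl zero_le_one]
      norm_num
    · exact H_one_small h' h.le
  have hs := H_scale (a / t) t
  rw [div_mul_cancel₀ a ht.ne'] at hs
  rw [hs]
  refine le_trans (le_of_eq ?_) (mul_le_mul_of_nonneg_left hone (pow_nonneg ht.le 3))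
  field_simp

/-- The gain of the chord calibration, as a function of `a = √(m / v)`. -/
noncomputable def gain (a : ℝ) : ℝ := a * (1 - a) ^ 2 * (13 / 20 - a / 6)

theorem gain_poly {a t : ℝ} (ha : 0 ≤ a) (ha1 : a ≤ 1) (ht : 1 ≤ t) :
    gain a * (a + t) + 9 / 2 * (1 - a) * (t - 1) ≤ 2 * ((t - a) ^ 2 * (5 * t + 6 * a) / 15) := by
  obtain ⟨y, rfl⟩ : ∃ y, t = 3 / 2 - a / 2 + y := ⟨t - 3 / 2 + a / 2, by ring⟩
  set α := 3 / 40 - 3 / 40 * a + a ^ 2 / 12 with hα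
  set β := -(3 / 4) + 49 / 60 * a - a ^ 2 / 6 with hβ
  set A := 8 / 3 - 6 / 5 * a with hA
  have hα0 : 1 / 18 ≤ α := by rw [hα]; nlinarith [sq_nonneg (a - 9 / 20)]
  have hA0 : 14 / 10 ≤ A := by rw [hA]; linarith
  have hβ2 : a * β ^ 2 ≤ 4 * (α * A) := by
    rw [hα, hA, hβ]
    nlinarith [sq_nonneg (a - 2 / 5), mul_nonneg ha (sub_nonneg.2 ha1),
      mul_nonneg (mul_nonneg ha (sub_nonneg.2 ha1)) ha]
  have hq : 0 ≤ A * y ^ 2 + a * (1 - a) * β * y + a * (1 - a) ^ 2 * α := by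
    have : 0 ≤ 4 * A * (A * y ^ 2 + a * (1 - a) * β * y + a * (1 - a) ^ 2 * α) := by
      nlinarith [sq_nonneg (2 * A * y + a * (1 - a) * β),
        mul_le_mul_of_nonneg_left hβ2 (mul_nonneg ha (sq_nonneg (1 - a)))]
    exact nonneg_of_mul_nonneg_right this (by positivity)
  have hy : 0 ≤ (y + (1 - a) / 2) * y ^ 2 := mul_nonneg (by linarith) (sq_nonneg y)
  rw [gain]
  rw [hα, hβ, hA] at hq
  linarith

/-- **The gain.** The chord calibration beats the tube by `v * gain (u / √v)`. -/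
theorem chord_gain {v u w : ℝ} (hv : 4 * Real.pi / 81 ≤ v) (hu : 0 ≤ u)
    (huv : u ≤ Real.sqrt v) (hvw : Real.sqrt v ≤ w) :
    Real.sqrt (Real.pi * v) + v * gain (u / Real.sqrt v)
      ≤ (Real.sqrt Real.pi * (v + u * w) + 2 * H u w) / (u + w) := by
  have hpi := Real.pi_pos
  have hv0 : 0 < v := lt_of_lt_of_le (by positivity) hv
  rw [Real.sqrt_mul hpi.le]
  set p := Real.sqrt Real.pi with hp
  have hp2 : p ^ 2 = Real.pi := Real.sq_sqrt hpi.le
  have hp0 : 0 ≤ p := Real.sqrt_nonneg _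
  set s := Real.sqrt v with hs
  have hs2 : s ^ 2 = v := Real.sq_sqrt hv0.le
  have hs0 : 0 < s := Real.sqrt_pos.2 hv0
  have hps : p ≤ 9 / 2 * s := by nlinarith
  have ha : 0 ≤ u / s := by positivity
  have ha1 : u / s ≤ 1 := (div_le_one hs0).2 huv
  have ht : 1 ≤ w / s := (one_le_div hs0).2 hvw
  have hsc : H u w = s ^ 3 * H (u / s) (w / s) := by
    have hw : 0 < w := hs0.trans_le hvw
    have e1 := H_scale (u / w) w
    have e2 := H_scale (u / w) (w / s)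
    rw [div_mul_cancel₀ u hw.ne'] at e1
    rw [show u / w * (w / s) = u / s by field_simp] at e2
    rw [e1, e2]; field_simp
  rw [le_div_iff₀ (by linarith), hsc, ← hs2]
  obtain ⟨a, rfl⟩ : ∃ a, u = a * s := ⟨u / s, by field_simp⟩
  obtain ⟨t, rfl⟩ : ∃ t, w = t * s := ⟨w / s, by field_simp⟩
  rw [mul_div_cancel_right₀ a hs0.ne'] at ha ha1 ⊢
  rw [mul_div_cancel_right₀ t hs0.ne'] at ht ⊢
  have h2 := (gain_poly ha ha1 ht).trans
    (mul_le_mul_of_nonneg_left (H_poly ha (ha1.trans ht)) zero_le_two)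
  have h3 := mul_le_mul_of_nonneg_left h2 (pow_nonneg hs0.le 3)
  have h4 := mul_le_mul_of_nonneg_left hps
    (show 0 ≤ s ^ 2 * ((1 - a) * (t - 1)) from
      mul_nonneg (sq_nonneg s) (mul_nonneg (by linarith) (by linarith)))
  linarith

/-- The two smaller contacts allowed by the stretch inequality are dominated by the gain. -/
theorem contacts_small {a b c : ℝ} (hb : 0 ≤ b) (hba : b ≤ a) (hc : 0 ≤ c) (hca : c ≤ a)
    (ha1 : a ≤ 1)
    (hsum : (a - a ^ 2 / 2) + (b - b ^ 2 / 2) + (c - c ^ 2 / 2) ≤ 1 / 2) :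
    b ^ 2 + c ^ 2 ≤ gain a := by
  have ha : 0 ≤ a := hb.trans hba
  have hD : (b - b ^ 2 / 2) + (c - c ^ 2 / 2) ≤ (1 - a) ^ 2 / 2 := by linarith
  rw [gain]
  rcases le_or_gt a (3 / 10) with h | h
  · have h1 : (b + c) * (2 - a) ≤ (1 - a) ^ 2 := by
      nlinarith [mul_le_mul_of_nonneg_left hba hb, mul_le_mul_of_nonneg_left hca hc]
    have h2 : b ^ 2 + c ^ 2 ≤ a * (b + c) := by
      nlinarith [mul_le_mul_of_nonneg_left hba hb, mul_le_mul_of_nonneg_left hca hc]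
    have h3 : 1 ≤ (13 / 20 - a / 6) * (2 - a) := by
      nlinarith [mul_nonneg ha (sub_nonneg.2 h)]
    have h4 := mul_le_mul_of_nonneg_left h1 (show 0 ≤ a * (13 / 20 - a / 6) by
      exact mul_nonneg ha (by linarith))
    have h5 := mul_le_mul_of_nonneg_left h3 (mul_nonneg ha (add_nonneg hb hc))
    linarith
  · have hD0 : (1 - a) ^ 2 / 2 ≤ 245 / 1000 := by nlinarith
    have hf : ∀ x, 0 ≤ x → x ≤ 1 → x - x ^ 2 / 2 ≤ (1 - a) ^ 2 / 2 → x ≤ 29 / 100 := by
      intro x hx hx1 hx2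
      by_contra hh
      nlinarith [mul_nonneg (sub_nonneg.2 (not_le.1 hh).le) (sub_nonneg.2 hx1)]
    have hb2 := hf b hb (hba.trans ha1) (by nlinarith [hca.trans ha1])
    have hc2 := hf c hc (hca.trans ha1) (by nlinarith [hba.trans ha1])
    have h1 : (b + c) * (855 / 1000) ≤ (1 - a) ^ 2 / 2 := by
      nlinarith [mul_le_mul_of_nonneg_left hb2 hb, mul_le_mul_of_nonneg_left hc2 hc]
    have h2 : b ^ 2 + c ^ 2 ≤ 343 / 1000 * ((1 - a) ^ 2) ^ 2 := by
      nlinarith [mul_le_mul h1 h1 (mul_nonneg (add_nonneg hb hc) (by norm_num))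
        (by positivity), mul_nonneg hb hc]
    have h3 : 343 / 1000 * (1 - a) ^ 2 ≤ a * (13 / 20 - a / 6) := by
      nlinarith [mul_nonneg (sub_nonneg.2 h.le) (sub_nonneg.2 ha1)]
    have h4 := mul_le_mul_of_nonneg_left h3 (sq_nonneg (1 - a))
    linarith

/-- **The interior of the tube range.** The stretch inequality and the chord bound in every
direction exclude a perimeter below the tube. -/
theorem tube_interior {v P : ℝ} (hv : 4 * Real.pi / 81 ≤ v) (m : Fin 3 → ℝ) (hm0 : ∀ k, 0 ≤ m k)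
    (hmv : ∀ k, m k ≤ v) (hP : P < Real.sqrt (Real.pi * v))
    (hstretch : ∑ k, (Real.sqrt (Real.pi * m k) - P / (2 * v) * m k) ≤ P / 2)
    (hchord : ∀ k, ∃ w, Real.sqrt v ≤ w ∧
      (Real.sqrt Real.pi * (v + Real.sqrt (m k) * w) + 2 * H (Real.sqrt (m k)) w)
        / (Real.sqrt (m k) + w) ≤ P + (∑ j, m j - m k)) : False := by
  have hv0 : 0 < v := lt_of_lt_of_le (by positivity) hv
  set s := Real.sqrt v with hs
  have hs2 : s ^ 2 = v := Real.sq_sqrt hv0.le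
  have hs0 : 0 < s := Real.sqrt_pos.2 hv0
  set J := Real.sqrt (Real.pi * v) with hJ
  set a : Fin 3 → ℝ := fun k => Real.sqrt (m k) / s with ha
  have ha0 : ∀ k, 0 ≤ a k := fun k => by positivity
  have ha1 : ∀ k, a k ≤ 1 := fun k => (div_le_one hs0).2 (Real.sqrt_le_sqrt (hmv k))
  have hma : ∀ k, m k = v * a k ^ 2 := fun k => by
    rw [ha]; simp only [div_pow]; rw [Real.sq_sqrt (hm0 k), hs2]; field_simp
  have hl : ∀ k, Real.sqrt (Real.pi * m k) = J * a k := fun k => by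
    rw [hma k, ← mul_assoc, Real.sqrt_mul (by positivity), Real.sqrt_sq (ha0 k)]
  simp only [hl, Fin.sum_univ_three] at hstretch
  have e : ∀ k, P / (2 * v) * m k = P * (a k ^ 2 / 2) := fun k => by rw [hma k]; field_simp
  simp only [e] at hstretch
  have hf : ∀ k, 0 ≤ a k - a k ^ 2 / 2 := fun k => by nlinarith [ha0 k, ha1 k]
  have hP0 : 0 ≤ P := by
    by_contra h
    nlinarith [ha0 0, ha0 1, ha0 2, mul_nonneg (Real.sqrt_nonneg (Real.pi * v)) (ha0 0),
      mul_nonneg (Real.sqrt_nonneg (Real.pi * v)) (ha0 1),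
      mul_nonneg (Real.sqrt_nonneg (Real.pi * v)) (ha0 2),
      sq_nonneg (a 0), sq_nonneg (a 1), sq_nonneg (a 2)]
  obtain ⟨i, -, hi⟩ := Finset.exists_max_image Finset.univ a ⟨0, Finset.mem_univ 0⟩
  obtain ⟨w, hw, hF⟩ := hchord i
  have hgain := (chord_gain hv (Real.sqrt_nonneg (m i)) (Real.sqrt_le_sqrt (hmv i)) hw).trans hF
  rw [← hs, show Real.sqrt (m i) / s = a i from rfl] at hgain
  rcases eq_or_lt_of_le hP0 with hP' | hP'
  · have hJ0 : 0 < J := Real.sqrt_pos.2 (by positivity)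
    rw [← hP'] at hstretch hgain
    have hz : ∀ k, a k = 0 := by
      intro k
      have h0 := ha0 0; have h1 := ha0 1; have h2 := ha0 2
      have hz' : J * (a 0 + a 1 + a 2) ≤ 0 := by linarith
      have : a 0 + a 1 + a 2 ≤ 0 := nonpos_of_mul_nonpos_right hz' hJ0
      have hk := Finset.single_le_sum (f := a) (fun j _ => ha0 j) (Finset.mem_univ k)
      rw [Fin.sum_univ_three] at hk
      exact le_antisymm (hk.trans this) (ha0 k)
    simp only [hma, hz, gain] at hgain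
    norm_num at hgain
    linarith
  have hsum : (a 0 - a 0 ^ 2 / 2) + (a 1 - a 1 ^ 2 / 2) + (a 2 - a 2 ^ 2 / 2) ≤ 1 / 2 := by
    refine le_of_mul_le_mul_left (a := P) ?_ hP'
    nlinarith [mul_nonneg (sub_nonneg.2 hP.le) (add_nonneg (add_nonneg (ha0 0) (ha0 1)) (ha0 2))]
  rw [Fin.sum_univ_three, hma 0, hma 1, hma 2, hma i] at hgain
  have hsmall : a 0 ^ 2 + a 1 ^ 2 + a 2 ^ 2 - a i ^ 2 ≤ gain (a i) := by
    fin_cases i <;> simp only [Finset.mem_univ, forall_const, Fin.isValue, Fin.zero_eta,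
      Fin.mk_one, Fin.reduceFinMk] at hi ⊢
    · have := contacts_small (ha0 1) (hi 1) (ha0 2) (hi 2) (ha1 0) (by linarith)
      linarith
    · have := contacts_small (ha0 0) (hi 0) (ha0 2) (hi 2) (ha1 1) (by linarith)
      linarith
    · have := contacts_small (ha0 0) (hi 0) (ha0 1) (hi 1) (ha1 2) (by linarith)
      linarith
  nlinarith [mul_le_mul_of_nonneg_left hsmall hv0.le]

/-- **The ball range.** The stretch inequality kills every far contact. -/
theorem ball_contacts_zero {v P : ℝ} (hv : 0 < v) (m : Fin 3 → ℝ) (hm0 : ∀ k, 0 ≤ m k)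
    (hmv : ∀ k, m k ≤ v) (hP0 : 0 ≤ P) (hP : P < Real.sqrt (Real.pi * v))
    (hstretch : ∑ k, (Real.sqrt (Real.pi * m k) - 2 * P / (3 * v) * m k) ≤ 0) (k : Fin 3) :
    m k = 0 := by
  have hterm : ∀ j, (Real.sqrt (Real.pi * v) - P) * (m j / v)
      ≤ Real.sqrt (Real.pi * m j) - 2 * P / (3 * v) * m j := by
    intro j
    set x := m j / v with hx
    have hx0 : 0 ≤ x := div_nonneg (hm0 j) hv.le
    have hx1 : x ≤ 1 := (div_le_one hv).2 (hmv j)
    have hs : x ≤ Real.sqrt x := Real.le_sqrt_of_sq_le (by nlinarith)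
    have e : Real.sqrt (Real.pi * m j) = Real.sqrt (Real.pi * v) * Real.sqrt x := by
      rw [← Real.sqrt_mul (by positivity), hx]; congr 1; field_simp
    have e2 : 2 * P / (3 * v) * m j = 2 / 3 * (P * x) := by rw [hx]; field_simp
    rw [e, e2]
    nlinarith [mul_le_mul_of_nonneg_left hs (Real.sqrt_nonneg (Real.pi * v)),
      mul_nonneg hP0 hx0]
  have hnn : ∀ j, 0 ≤ (Real.sqrt (Real.pi * v) - P) * (m j / v) := fun j =>
    mul_nonneg (sub_nonneg.2 hP.le) (div_nonneg (hm0 j) hv.le)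
  have := Finset.single_le_sum (f := fun j => (Real.sqrt (Real.pi * v) - P) * (m j / v))
    (fun j _ => hnn j) (Finset.mem_univ k)
  have h0 : (Real.sqrt (Real.pi * v) - P) * (m k / v) ≤ 0 :=
    this.trans ((Finset.sum_le_sum fun j _ => hterm j).trans hstretch)
  have : m k / v ≤ 0 := nonpos_of_mul_nonpos_right h0 (sub_pos.2 hP)
  rw [div_le_iff₀ hv, zero_mul] at this
  exact le_antisymm this (hm0 k)

end Vale.Agent.P232.Interior
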