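import Vale.Agent.P232.Plain
import Vale.Agent.P232.Interior

/-!
The interior of the tube range and the ball range for down-sets: given the stretch inequality of
the first variation, no down-set lies below the candidate profile there.
-/

open MeasureTheory Set Function

namespace Vale.Agent.P232

open Cylinder

variable {D : Set R3}

theorem volume_le_first_slice (hD : MeasurableSet D) (hdown : IsDownset D) (k : Fin 3) :
    (volume D).toReal ≤ rightLim (areaExt D k) 0 := by
  have hA := areaExt_antitone hdown k
  rw [volume_eq_integral_areaExt hD hdown k]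
  calc ∫ z in (0 : ℝ)..1, areaExt D k z ≤ ∫ _ in (0 : ℝ)..1, rightLim (areaExt D k) 0 :=
        intervalIntegral.integral_mono_on_of_le_Ioo zero_le_one hA.intervalIntegrable
          intervalIntegrable_const fun z hz => hA.le_rightLim hz.1
    _ = _ := by simp

/-- The chord bound in the direction `k`, in the form used by `Interior.tube_interior`. -/
theorem exists_chord (hD : MeasurableSet D) (hdown : IsDownset D) {P : ℝ} (hP : RelPerLE D P)
    (hv : 0 < (volume D).toReal) (k : Fin 3) :
    ∃ w, Real.sqrt (volume D).toReal ≤ w ∧
      (Real.sqrt Real.pi * ((volume D).toReal + Real.sqrt (faceArea D k) * w)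
        + 2 * H (Real.sqrt (faceArea D k)) w) / (Real.sqrt (faceArea D k) + w)
        ≤ P + (∑ j, faceArea D j - faceArea D k) := by
  have hM := volume_le_first_slice hD hdown k
  have hw : 0 < Real.sqrt (rightLim (areaExt D k) 0) := Real.sqrt_pos.2 (hv.trans_le hM)
  refine ⟨_, Real.sqrt_le_sqrt hM, ?_⟩
  have h := cylinder_bound_end hD hdown hP k (Real.sqrt_nonneg (faceArea D k))
    (Real.sqrt_le_sqrt ((faceArea_le_volume hD hdown k).trans hM)) hw
    (Real.sq_sqrt (faceArea_nonneg hdown k)) (Real.sq_sqrt (hv.le.trans hM)).symm
  rw [Fin.sum_univ_succAbove (fun j => faceArea D j) k, Fin.sum_univ_two]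
  linarith

/-- **The interior of the tube range.** A down-set of volume at least `4π/81` satisfying the
stretch inequality with the slope `P / (2 v)` is not below the quarter tube. -/
theorem tube_le_of_stretch (hD : MeasurableSet D) (hdown : IsDownset D) {P : ℝ}
    (hP : RelPerLE D P) (hv : 4 * Real.pi / 81 ≤ (volume D).toReal)
    (hstretch : ∑ k, (Real.sqrt (Real.pi * faceArea D k)
      - P / (2 * (volume D).toReal) * faceArea D k) ≤ P / 2) :
    Real.sqrt (Real.pi * (volume D).toReal) ≤ P := by
  by_contra h
  exact Interior.tube_interior hv (faceArea D) (faceArea_nonneg hdown)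
    (faceArea_le_volume hD hdown) (not_le.1 h) hstretch
    (exists_chord hD hdown hP (lt_of_lt_of_le (by positivity) hv))

/-- **The ball range.** A down-set satisfying the stretch inequality with the slope
`2 P / (3 v)` is not below the candidate profile. -/
theorem ballTube_le_of_stretch (hD : MeasurableSet D) (hdown : IsDownset D) {P : ℝ}
    (hP : RelPerLE D P) (hP0 : 0 ≤ P) (hv : 0 < (volume D).toReal)
    (hstretch : ∑ k, (Real.sqrt (Real.pi * faceArea D k)
      - 2 * P / (3 * (volume D).toReal) * faceArea D k) ≤ 0) :
    ballTube (volume D).toReal ≤ P := by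
  rcases le_or_gt (Real.sqrt (Real.pi * (volume D).toReal)) P with h | h
  · exact (min_le_right _ _).trans h
  have hz := Interior.ball_contacts_zero hv (faceArea D) (faceArea_nonneg hdown)
    (faceArea_le_volume hD hdown) hP0 h hstretch
  simpa [hz] using cylinder_bound hD hdown hP 0

end Vale.Agent.P232
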