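import Vale.Agent.P232.StretchLimit
import Vale.Agent.P232.InteriorDownset

/-!
The interior of the range: a minimiser of the ratio of perimeter and candidate profile with ratio
below one lies neither inside the ball range nor inside the tube range.
-/

open MeasureTheory Set Filter Function Real
open scoped Topology

namespace Vale.Agent.P232

open Cylinder

/-- The value of half a ball. -/
noncomputable def ballVal (v : ℝ) : ℝ := (9 * π / 2) ^ ((1 : ℝ) / 3) * v ^ ((2 : ℝ) / 3)

theorem ballTube_eq_min (v : ℝ) : ballTube v = min (ballVal v) (Real.sqrt (π * v)) := rfl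

theorem ballVal_pow_six {v : ℝ} (hv : 0 ≤ v) : ballVal v ^ 6 = 81 * π ^ 2 / 4 * v ^ 4 := by
  rw [ballVal, mul_pow, ← Real.rpow_natCast, ← Real.rpow_mul (by positivity),
    ← Real.rpow_natCast, ← Real.rpow_mul hv,
    show (1 : ℝ) / 3 * ((6 : ℕ) : ℝ) = (2 : ℕ) by norm_num,
    show (2 : ℝ) / 3 * ((6 : ℕ) : ℝ) = (4 : ℕ) by norm_num, Real.rpow_natCast, Real.rpow_natCast]
  ring

theorem sqrt_pow_six {v : ℝ} (hv : 0 ≤ v) : Real.sqrt (π * v) ^ 6 = π ^ 3 * v ^ 3 := by
  rw [show Real.sqrt (π * v) ^ 6 = (Real.sqrt (π * v) ^ 2) ^ 3 by ring,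
    Real.sq_sqrt (by positivity)]
  ring

theorem ballTube_eq_tube {v : ℝ} (hv : 4 * π / 81 ≤ v) : ballTube v = Real.sqrt (π * v) := by
  have hv0 : 0 ≤ v := le_trans (by positivity) hv
  refine min_eq_right (le_of_pow_le_pow_left₀ (n := 6) (by norm_num) (by positivity) ?_)
  rw [sqrt_pow_six hv0]
  refine le_trans ?_ (ballVal_pow_six hv0).ge
  have h := mul_le_mul_of_nonneg_right hv (show 0 ≤ 81 * π ^ 2 / 4 * v ^ 3 by positivity)
  linarith

theorem ballTube_eq_ball {v : ℝ} (hv0 : 0 ≤ v) (hv : v ≤ 4 * π / 81) : ballTube v = ballVal v := by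
  refine min_eq_left (le_of_pow_le_pow_left₀ (n := 6) (by norm_num) (Real.sqrt_nonneg _) ?_)
  rw [sqrt_pow_six hv0]
  refine le_trans (ballVal_pow_six hv0).le ?_
  have h := mul_le_mul_of_nonneg_right hv (show 0 ≤ 81 * π ^ 2 / 4 * v ^ 3 by positivity)
  linarith

theorem hasDerivAt_ballVal {v : ℝ} (hv : 0 < v) :
    HasDerivAt ballVal (2 * ballVal v / (3 * v)) v := by
  have h := (Real.hasDerivAt_rpow_const (p := (2:ℝ) / 3) (Or.inl hv.ne')).const_mul
    ((9 * π / 2) ^ ((1 : ℝ) / 3))
  refine h.congr_deriv ?_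
  rw [ballVal, Real.rpow_sub_one hv.ne']
  field_simp

theorem hasDerivAt_tubeVal {v : ℝ} (hv : 0 < v) :
    HasDerivAt (fun w => Real.sqrt (π * w)) (Real.sqrt (π * v) / (2 * v)) v := by
  have h := ((hasDerivAt_id v).const_mul π).sqrt (by positivity : π * id v ≠ 0)
  refine h.congr_deriv ?_
  have hs : 0 < Real.sqrt (π * v) := Real.sqrt_pos.2 (by positivity)
  simp only [id]
  field_simp
  rw [Real.sq_sqrt (by positivity)]

/-- The linear minorant of a differentiable function near a point. -/
theorem eventually_minorant {g : ℝ → ℝ} {d v : ℝ} (hg : HasDerivAt g d v) {η : ℝ} (hη : 0 < η) :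
    ∀ᶠ w in 𝓝 v, g v + d * (w - v) - η * |w - v| ≤ g w := by
  filter_upwards [(hasDerivAt_iff_isLittleO.1 hg).def hη] with w hw
  simp only [Real.norm_eq_abs, smul_eq_mul] at hw
  linarith [(abs_le.1 hw).1, mul_comm (w - v) d]

theorem inv_pi_lt_half : 1 / π < 1 / 2 :=
  one_div_lt_one_div_of_lt (by norm_num) (by linarith [Real.pi_gt_three])

/-- Below `1/π` no down-set minimises the ratio with a value below one. -/
theorem not_minimizer_below {D : Set R3} (hD : MeasurableSet D) (hdown : IsDownset D) {P r : ℝ}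
    (hP : RelPerLE D P) (hv : 0 < (volume D).toReal) (hv1 : (volume D).toReal < 1 / π)
    (hr : P = r * ballTube (volume D).toReal) (hr1 : r < 1)
    (hlo : 1 / 40 < (volume D).toReal)
    (hmin : ∀ D' P', MeasurableSet D' → IsDownset D' → RelPerLE D' P' →
      (volume D').toReal ∈ Icc (1 / 40 : ℝ) (1 / π) →
        r * ballTube (volume D').toReal ≤ P') : False := by
  set v := (volume D).toReal with hvdef
  set f := ballTube with hf
  have hP0 : 0 ≤ P := hP.nonneg
  have hlt : P < f v := hr.trans_lt (mul_lt_of_lt_one_left (ballTube_pos hv) hr1)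
  have hr0 : 0 ≤ r := nonneg_of_mul_nonneg_left (hr ▸ hP0) (ballTube_pos hv)
  have hpi : v ≤ 1 / 2 := by linarith [inv_pi_lt_half]
  have hm2 : ∀ k, faceArea D k ≤ 1 / 2 := fun k =>
    (faceArea_le_volume hD hdown k).trans hpi
  have hmin1 : ∀ k, min (Real.sqrt (π * faceArea D k)) 1 = Real.sqrt (π * faceArea D k) := by
    intro k
    refine min_eq_left (Real.sqrt_le_one.2 ?_)
    calc π * faceArea D k ≤ π * (1 / π) := mul_le_mul_of_nonneg_left
          ((faceArea_le_volume hD hdown k).trans hv1.le) Real.pi_pos.le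
      _ = 1 := by field_simp
  have hopt : ∀ φ : ℝ → ℝ, ∀ δ ≤ min (v - 1 / 40) (1 / π - v), (∀ w, |w - v| < δ → φ w ≤ r * f w) →
      ∀ (E : Set R3) (p : ℝ), MeasurableSet E → IsDownset E → RelPerLE E p →
        |(volume E).toReal - v| < δ → φ (volume E).toReal ≤ p := by
    intro φ δ hδ hφ E p hE hEd hEp hEv
    refine (hφ _ hEv).trans (hmin E p hE hEd hEp ⟨?_, ?_⟩) <;>
      linarith [(abs_lt.1 hEv).1, (abs_lt.1 hEv).2, min_le_left (v - 1 / 40) (1 / π - v),
        min_le_right (v - 1 / 40) (1 / π - v)]
  rcases lt_or_ge v (4 * π / 81) with hb | hb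
  · -- ball range
    have hfv : f v = ballVal v := ballTube_eq_ball hv.le hb.le
    set δ := min (min (v - 1 / 40) (1 / π - v)) (4 * π / 81 - v) with hδ
    have hφP : r * ballVal v = P := by rw [hr, hfv]
    have hd : HasDerivAt (fun w => r * ballVal w) (2 * P / (3 * v)) v :=
      ((hasDerivAt_ballVal hv).const_mul r).congr_deriv (by rw [← hφP]; ring)
    have h := stretch_deriv hD hdown (φ := fun w => r * ballVal w) (hφP.symm ▸ hP)
      (lt_min (lt_min (by linarith) (by linarith)) (by linarith))
      (hopt (fun w => r * ballVal w) δ (min_le_left _ _) fun w hw => by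
        have h1 : δ ≤ 4 * π / 81 - v := min_le_right _ _
        have h2 : δ ≤ v - 1 / 40 := (min_le_left _ _).trans (min_le_left _ _)
        show r * ballVal w ≤ r * ballTube w
        rw [ballTube_eq_ball (by linarith [(abs_lt.1 hw).1]) (by linarith [(abs_lt.1 hw).2])])
      hd (β := fun _ => 1) (fun _ => zero_le_one) (by norm_num) (b := 1) (fun _ => le_rfl) hm2
    simp only [hmin1, ← hvdef, hφP, Fin.sum_univ_three] at h
    refine absurd (ballTube_le_of_stretch hD hdown hP hP0 hv ?_) (not_le.2 hlt)
    rw [Fin.sum_univ_three, ← hvdef]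
    have e : 2 * P / (3 * v) * v = 2 * P / 3 := by field_simp
    linarith
  · -- tube range
    have hfv : f v = Real.sqrt (π * v) := ballTube_eq_tube hb
    set δ := min (v - 1 / 40) (1 / π - v) with hδ
    set d := P / (2 * v) with hddef
    set g := 2 * (r * ballVal v) / (3 * v) with hg
    have hφP : r * f v = P := hr.symm
    have hdt : HasDerivAt (fun w => r * Real.sqrt (π * w)) d v :=
      ((hasDerivAt_tubeVal hv).const_mul r).congr_deriv (by
        rw [hddef, ← hφP, hfv]; ring)
    have hdb : HasDerivAt (fun w => r * ballVal w) g v :=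
      ((hasDerivAt_ballVal hv).const_mul r).congr_deriv (by rw [hg]; ring)
    have h := stretch_sum hD hdown (φ := fun w => r * f w) (hφP.symm ▸ hP) (lt_min (by linarith) (by linarith))
      (hopt _ δ le_rfl fun w _ => le_rfl) (d := d) (K := |d| + |g|) (by positivity)
      (fun η hη => by
        filter_upwards [eventually_minorant hdt hη, eventually_minorant hdb hη] with w ht hb'
        rw [← hvdef]
        have hK : 0 ≤ (|d| + |g|) * max (v - w) 0 := by positivity
        rcases le_or_gt v w with hw | hw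
        · rw [hf, ballTube_eq_tube (hb.trans hw), ← hf, hfv]
          linarith
        · rw [max_eq_left (by linarith : 0 ≤ v - w)] at hK ⊢
          rw [hf, ballTube_eq_min w, mul_min_of_nonneg _ _ hr0]
          refine le_min ?_ ?_
          · have hge : r * f v ≤ r * ballVal v :=
              mul_le_mul_of_nonneg_left (min_le_left _ _) hr0
            have e := mul_le_mul_of_nonneg_right
              (show -(|d| + |g|) ≤ d - g by linarith [neg_abs_le d, le_abs_self g])
              (show 0 ≤ v - w by linarith)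
            linarith
          · rw [← hf, hfv]; linarith)
      (β := fun _ => 1) (fun _ => zero_le_one) (by norm_num) (b := 1) (fun _ => le_rfl)
      (l := fun k => min (Real.sqrt (π * faceArea D k)) 1)
      (fun k η hη => exists_end_field hD hdown k (hm2 k) hη)
    simp only [hmin1, ← hvdef, hφP, Fin.sum_univ_three] at h
    refine absurd (tube_le_of_stretch hD hdown hP hb ?_) (not_le.2 (hfv ▸ hlt))
    rw [Fin.sum_univ_three, ← hvdef]
    have e : P / (2 * v) * v = P / 2 := by field_simp
    rw [hddef] at h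
    linarith

/-- **The interior of the range.** No minimiser of the ratio violates the bound strictly inside
`(1/40, 1/π)`. -/
theorem interiorBound : InteriorBound := by
  rintro D P ⟨hD, hdown, hP, -, -, hmin⟩ hlt hlo hhi
  have hv : 0 < (volume D).toReal := lt_trans (by norm_num) hlo
  refine not_minimizer_below hD hdown hP hv hhi
    (div_mul_cancel₀ P (ballTube_pos hv).ne').symm ((div_lt_one (ballTube_pos hv)).2 hlt) hlo ?_
  exact fun D' P' h1 h2 h3 h4 => hmin D' P' h1 h2 h4 h3

end Vale.Agent.P232
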