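import Vale.Agent.P232.Fold
import Vale.Agent.P232.Polarise
import Vale.Agent.P232.Concave

/-!
The periodic set obtained by reflecting a set of the cube: its volume, and its perimeter at most
twice the perimeter relative to the cube.
-/

open MeasureTheory Set Filter
open scoped Topology NNReal ENNReal

namespace Vale.Agent.P232

variable {D : Set R3}

/-- The field averaged with its reflection in the hyperplane `x i = 0`. -/
noncomputable def symField (i : Fin 3) (X : R3 → R3) (x : R3) : R3 :=
  (2 : ℝ)⁻¹ • (X x + flip i (X (refl i 0 x)))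

theorem symField_apply (i j : Fin 3) (X : R3 → R3) (x : R3) :
    symField i X x j =
      (2 : ℝ)⁻¹ * (X x j + if j = i then -X (refl i 0 x) j else X (refl i 0 x) j) := by
  simp only [symField, PiLp.smul_apply, PiLp.add_apply, flip_apply, smul_eq_mul]

theorem flip_flip (i : Fin 3) (v : R3) : flip i (flip i v) = v := by
  ext j; simp only [flip_apply]; split_ifs <;> simp

theorem isTestField_symField (i : Fin 3) {X : R3 → R3} (hX : IsTestField X) :
    IsTestField (symField i X) := by
  refine ⟨?_, fun j x => ?_, fun x => ?_⟩
  · have hr : ContDiff ℝ 1 (refl i 0) := by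
      unfold refl
      exact (flip i).toContinuousLinearEquiv.contDiff.add contDiff_const
    exact (hX.smooth.add
      ((flip i).toContinuousLinearEquiv.contDiff.comp (hX.smooth.comp hr))).const_smul _
  · simp only [symField, hX.periodic j x, isPer_refl hX.periodic i 0 j x]
  · rw [symField, norm_smul, Real.norm_of_nonneg (by norm_num : (0 : ℝ) ≤ 2⁻¹)]
    have h := norm_add_le (X x) (flip i (X (refl i 0 x)))
    rw [LinearIsometryEquiv.norm_map] at h
    linarith [hX.norm_le x, hX.norm_le (refl i 0 x)]

/-- The field commutes with the reflection. -/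
def IsSymField (i : Fin 3) (X : R3 → R3) : Prop :=
  ∀ x, flip i (X (refl i 0 x)) = X x

theorem isSymField_symField (i : Fin 3) (X : R3 → R3) : IsSymField i (symField i X) := fun x => by
  simp only [symField, map_smul, map_add, flip_flip, refl_refl]
  rw [add_comm]

theorem IsSymField.symField {i j : Fin 3} {X : R3 → R3} (h : IsSymField i X) :
    IsSymField i (symField j X) := fun x => by
  have hc : refl j 0 (refl i 0 x) = refl i 0 (refl j 0 x) := by
    ext l; simp only [refl_apply]; split_ifs <;> ring
  have hf : ∀ v : R3, flip i (flip j v) = flip j (flip i v) := fun v => by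
    ext l; simp only [flip_apply]; split_ifs <;> rfl
  simp only [Vale.Agent.P232.symField, map_smul, map_add, h x, hc, hf, h (refl j 0 x)]

theorem dv_symField (i : Fin 3) {X : R3 → R3} (hX : Differentiable ℝ X) (x : R3) :
    dv (symField i X) x = (2 : ℝ)⁻¹ * (dv X x + dv X (refl i 0 x)) := by
  set A : R3 →L[ℝ] R3 := (flip i).toContinuousLinearEquiv.toContinuousLinearMap with hA
  have h := ((hX x).hasFDerivAt.add
    (A.hasFDerivAt.comp x ((hX _).hasFDerivAt.comp x (hasFDerivAt_refl i 0 x)))).const_smul
      ((2 : ℝ)⁻¹)
  have he : HasFDerivAt (symField i X)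
      ((2 : ℝ)⁻¹ • (fderiv ℝ X x + A.comp ((fderiv ℝ X (refl i 0 x)).comp A))) x := h
  simp only [dv, he.fderiv, ← Finset.sum_add_distrib, Finset.mul_sum]
  refine Finset.sum_congr rfl fun j _ => ?_
  have hAe : A (e j) = (if j = i then (-1 : ℝ) else 1) • e j := by
    ext l
    simp only [hA, PiLp.smul_apply, smul_eq_mul]
    show flip i (e j) l = _
    simp only [flip_apply, e_coord]
    split_ifs with h1 h2 h3 h4 <;> simp_all
  have hAv : ∀ (v : R3), A v j = (if j = i then (-1 : ℝ) else 1) * v j := fun v => by
    show flip i v j = _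
    rw [flip_apply]; split_ifs <;> simp
  simp only [smul_apply, add_apply, ContinuousLinearMap.comp_apply,
    hAe, map_smul, PiLp.smul_apply, PiLp.add_apply, hAv, smul_eq_mul]
  split_ifs <;> ring

theorem tent_refl (i : Fin 3) (x : R3) : fold (refl i 0 x) = fold x := by
  ext j
  simp only [fold_apply, refl_apply]
  split_ifs with h
  · subst h
    have key : ∀ t : ℝ, tent (-t) ≤ tent t := fun t => by
      have h := round_le (-t) (-round t)
      push_cast at h
      rw [show -t - -(round t : ℝ) = -(t - round t) by ring, abs_neg (t - (round t : ℝ))] at h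
      unfold tent
      linarith
    simp only [mul_zero, zero_sub]
    exact le_antisymm (key _) (by simpa using key (-x j))
  · rfl

/-- A periodic function invariant under the three reflections factors through the fold. -/
theorem apply_fold {α : Type*} {f : R3 → α} (hp : IsPer f)
    (hs : ∀ i x, f (refl i 0 x) = f x) (x : R3) : f ((2 : ℝ)⁻¹ • fold x) = f x := by
  have key : ∀ (i : Fin 3) (y : R3), f (y + (tent (y i) / 2 - y i) • e i) = f y := fun i y => by
    have h1 := isPer_smul_int hp i (-round (y i)) y
    set z := y + ((-round (y i) : ℤ) : ℝ) • e i with hz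
    have hzi : z i = y i - round (y i) := by
      simp [hz, e_coord]; ring
    rcases le_total 0 (y i - round (y i)) with h | h
    · rw [← h1]
      congr 1
      rw [hz, tent, abs_of_nonneg h]
      push_cast
      ring_nf
    · rw [← h1, ← hs i z]
      congr 1
      rw [refl_eq, hzi, hz, tent, abs_of_nonpos h, add_assoc, ← add_smul]
      push_cast
      ring_nf
  calc f ((2 : ℝ)⁻¹ • fold x)
      = f (((x + (tent (x 0) / 2 - x 0) • e 0) + (tent (x 1) / 2 - x 1) • e 1) +
          (tent (x 2) / 2 - x 2) • e 2) := by
        congr 1; ext j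
        fin_cases j <;> simp [fold_apply, e_coord] <;> ring
    _ = f ((x + (tent (x 0) / 2 - x 0) • e 0) + (tent (x 1) / 2 - x 1) • e 1) := by
        have := key 2 ((x + (tent (x 0) / 2 - x 0) • e 0) + (tent (x 1) / 2 - x 1) • e 1)
        simpa [e_coord] using this
    _ = f (x + (tent (x 0) / 2 - x 0) • e 0) := by
        have := key 1 (x + (tent (x 0) / 2 - x 0) • e 0)
        simpa [e_coord] using this
    _ = f x := key 0 x

theorem isPeriodicSet_unfold (D : Set R3) : IsPeriodicSet (fold ⁻¹' D) := fun i x => by
  simp [mem_preimage, isPer_fold i x]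

theorem vol_unfold (hD : MeasurableSet D) (hsub : D ⊆ cell) :
    vol (fold ⁻¹' D) = ENNReal.ofReal (volume D).toReal := by
  have h := measurePreserving_fold.measure_preimage hD.nullMeasurableSet
  rw [Measure.restrict_apply (measurePreserving_fold.measurable hD),
    Measure.restrict_apply hD, inter_eq_left.2 hsub] at h
  rw [vol, h, ENNReal.ofReal_toReal]
  exact ((measure_mono hsub).trans_lt (by rw [volume_cell]; simp)).ne

theorem per_unfold_le (hD : MeasurableSet D) (hsub : D ⊆ cell) {P : ℝ} (hP : RelPerLE D P) :
    per (fold ⁻¹' D) ≤ ENNReal.ofReal (2 * P) := by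
  refine iSup_le fun X => iSup_le fun hX => ENNReal.ofReal_le_ofReal ?_
  set E := fold ⁻¹' D with hE
  have hEm : MeasurableSet E := measurePreserving_fold.measurable hD
  set g : R3 → ℝ := E.indicator (1 : R3 → ℝ) with hg
  have hgp : IsPer g := (isPeriodicSet_unfold D).indicator fun _ _ => rfl
  have hgr : ∀ i x, g (refl i 0 x) = g x := fun i x => by
    have : refl i 0 x ∈ E ↔ x ∈ E := by simp [hE, mem_preimage, tent_refl]
    by_cases h : x ∈ E <;> simp [hg, h, this]
  have hint : ∀ Y : R3 → R3, ∫ x in E ∩ cell, dv Y x = ∫ x in cell, g x * dv Y x := fun Y => by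
    rw [inter_comm, ← setIntegral_indicator hEm]
    refine integral_congr_ae (ae_of_all _ fun x => ?_)
    by_cases h : x ∈ E <;> simp [hg, h]
  have hgi : ∀ {F : R3 → ℝ}, Continuous F → Integrable (fun x => g x * F x) (volume.restrict cell) :=
    fun {F} hF => by
      obtain ⟨C, hC⟩ := exists_bound_cell hF
      exact integrable_cell_mul (C := 1) (measurable_const.indicator hEm)
        (abs_indicator_one_le E) hF
  have step : ∀ (i : Fin 3) (Y : R3 → R3), IsTestField Y →
      ∫ x in cell, g x * dv (symField i Y) x = ∫ x in cell, g x * dv Y x := fun i Y hY => by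
    have hd := hY.smooth.differentiable one_ne_zero
    have hc := continuous_dv hY.smooth
    have hper : IsPer (dv Y) := hY.periodic.dv
    have e : ∀ x, g x * dv (symField i Y) x =
        (2 : ℝ)⁻¹ * (g x * dv Y x + g x * dv Y (refl i 0 x)) := fun x => by
      rw [dv_symField i hd]; ring
    simp only [e]
    rw [integral_const_mul, integral_add (hgi hc) (hgi (F := fun x => dv Y (refl i 0 x))
      (hc.comp (continuous_refl i 0))), setIntegral_mul_refl hgp hper (hgr i)]
    ring
  set Y := symField 2 (symField 1 (symField 0 X)) with hY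
  have hY0 := isTestField_symField 0 hX
  have hY1 := isTestField_symField 1 hY0
  have hYt : IsTestField Y := isTestField_symField 2 hY1
  have hsym : ∀ i, IsSymField i Y := fun i => by
    fin_cases i
    · exact ((isSymField_symField 0 X).symField).symField
    · exact (isSymField_symField 1 _).symField
    · exact isSymField_symField 2 _
  rw [hint, ← step 0 X hX, ← step 1 _ hY0, ← step 2 _ hY1, ← hint]
  set Z : R3 → R3 := fun y => Y ((2 : ℝ)⁻¹ • y) with hZ
  obtain ⟨L, -, hL⟩ := (IsPer.fderiv hYt.periodic).bounded
    (hYt.smooth.continuous_fderiv one_ne_zero)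
  have hK : LipschitzWith L.toNNReal Y := lipschitzWith_of_nnnorm_fderiv_le
    (hYt.smooth.differentiable one_ne_zero) fun x => by
      rw [← norm_toNNReal]; exact Real.toNNReal_le_toNNReal (hL x)
  have hcube : IsCubeField Z := by
    refine ⟨⟨_, hK.comp (lipschitzWith_smul ((2 : ℝ)⁻¹))⟩, fun y => hYt.norm_le _, fun y i hy => ?_⟩
    set x := (2 : ℝ)⁻¹ • y with hx
    have h := congrArg (fun v : R3 => v i) (hsym i x)
    simp only [flip_apply, if_true] at h
    rcases hy with hy | hy
    · have e : refl i 0 x = x := by
        ext l; simp only [refl_apply]; split_ifs with hl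
        · subst hl; simp [hx, hy]
        · rfl
      rw [e] at h
      show Y x i = 0
      linarith
    · have e : refl i 0 x + e i = x := by
        ext l; simp only [PiLp.add_apply, refl_apply, e_coord]; split_ifs with hl
        · subst hl; simp [hx, hy]; norm_num
        · simp
      rw [← hYt.periodic i (refl i 0 x), e] at h
      show Y x i = 0
      linarith
  have hdZ : ∀ y, dv Z y = (2 : ℝ)⁻¹ * dv Y ((2 : ℝ)⁻¹ • y) := fun y => by
    have h : HasFDerivAt Z ((fderiv ℝ Y ((2 : ℝ)⁻¹ • y)).comp ((2 : ℝ)⁻¹ • ContinuousLinearMap.id ℝ R3)) y :=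
      ((hYt.smooth.differentiable one_ne_zero) _).hasFDerivAt.comp y
        ((hasFDerivAt_id y).const_smul ((2 : ℝ)⁻¹))
    simp only [dv, h.fderiv, Finset.mul_sum]
    refine Finset.sum_congr rfl fun i _ => ?_
    simp [ContinuousLinearMap.comp_apply]
  have hdsym : ∀ i x, dv Y (refl i 0 x) = dv Y x := fun i x => by
    have e : symField i Y = Y := by
      funext z
      rw [symField, hsym i z, ← two_smul ℝ, smul_smul]
      norm_num
    have := dv_symField i (hYt.smooth.differentiable one_ne_zero) x
    rw [e] at this
    linarith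
  have hfold : ∀ x, dv Y x = 2 * dv Z (fold x) := fun x => by
    rw [hdZ, apply_fold hYt.periodic.dv hdsym x]; ring
  have e : (∫ x in cell, g x * dv Y x) = 2 * ∫ x in D, dv Z x := by
    have h1 : ∀ x, g x * dv Y x = (fun y => D.indicator (fun y => 2 * dv Z y) y) (fold x) := fun x => by
      by_cases h : fold x ∈ D
      · simp [hg, hE, h, hfold x]
      · simp [hg, hE, h]
    have hzm : Measurable (D.indicator fun y => 2 * dv Z y) :=
      ((measurable_dv Z).const_mul 2).indicator hD
    simp only [h1]
    rw [setIntegral_fold (F := fun y => D.indicator (fun y => 2 * dv Z y) y) hzm.aestronglyMeasurable,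
      setIntegral_indicator hD, inter_eq_right.2 hsub, integral_const_mul]
  rw [hint, e]
  exact mul_le_mul_of_nonneg_left (hP Z hcube) (by norm_num)

/-- The profile of the torus is below twice the relative perimeter of a set in the cube. -/
theorem profile_le_two_mul (hD : MeasurableSet D) (hsub : D ⊆ cell) {P : ℝ} (hP : RelPerLE D P) :
    profile (volume D).toReal ≤ ENNReal.ofReal (2 * P) :=
  (profile_le (measurePreserving_fold.measurable hD) (isPeriodicSet_unfold D)
    (vol_unfold hD hsub)).trans (per_unfold_le hD hsub hP)

end Vale.Agent.P232
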