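import Vale.Agent.P232.Variation
import Vale.Agent.P232.InteriorCrux
import Vale.Agent.P232.Unfold
import Vale.Agent.P232.SymmGlue

/-!
The multiplier of a minimiser at volume `1/π`.
-/

open MeasureTheory Set Filter Real
open scoped Topology

namespace Vale.Agent.P232

open Cylinder
open Weighted (wDer wPer relPer)

variable {D : Set R3} {P : ℝ}

/-- The last slice has perimeter at least that of the cheapest planar shape of its area. -/
theorem plain_le_endPer (hD : MeasurableSet D) (hdown : IsDownset D) (k : Fin 3) :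
    min √(π * faceArea D k) (min 1 √(π * (1 - faceArea D k))) ≤ endPer D k := by
  refine le_endPer_of_field hD hdown k fun η hη => ?_
  obtain ⟨p, q, hpq, h⟩ := sq_plain (isSqDown_endSlice hD hdown k) hη
  rw [volume_endSlice hD hdown] at h
  exact ⟨p, q, hpq, h⟩

/-- At volume `1/π`, the last slice has perimeter at least `√(π m)`. -/
theorem sqrt_le_endPer (hD : MeasurableSet D) (hdown : IsDownset D)
    (hv : (volume D).toReal ≤ 1 / π) (k : Fin 3) : √(π * faceArea D k) ≤ endPer D k := by
  have hm := (faceArea_le_volume hD hdown k).trans hv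
  have h := plain_le_endPer hD hdown k
  rwa [min_eq_left ((sqrt_le_one_of_le hm).trans (le_min le_rfl (one_le_sqrt_compl hm)))] at h

theorem IsCritical.eq_relPer (h : IsCritical D P) : P = relPer D := by
  obtain ⟨hD, hdown, hP, hv, -, hmin⟩ := h
  have hFD : Weighted.Finite D := ⟨hD, hdown.1, P, hP⟩
  have hpos : 0 < ballTube (volume D).toReal :=
    ballTube_pos (lt_of_lt_of_le (by norm_num) hv.1)
  have h1 := hmin D _ hD hdown hv (Weighted.relPerLE_relPer hFD)
  rw [div_mul_cancel₀ _ hpos.ne'] at h1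
  exact le_antisymm h1 (Weighted.relPer_le hP)

/-- The multiplier at the end of the range: one number at most `P/(2v)` gives all identities. -/
theorem exists_lagrange_endpoint (h : IsCritical D P) (hv : (volume D).toReal = 1 / π)
    (hm : ∀ k, faceArea D k ≠ 1 / π) :
    ∃ lam ≤ P / (2 * (volume D).toReal), ∀ k, wDer D (horW k) =
      lam * ((volume D).toReal - faceArea D k) + endPer D k := by
  obtain ⟨hD, hdown, hP, hvI, -, hmin⟩ := h
  set v := (volume D).toReal with hvd
  set r := P / ballTube v with hr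
  have hv0 : 0 < v := lt_of_lt_of_le (by norm_num) hvI.1
  have hlt : 4 * π / 81 < v := by
    rw [hv, lt_div_iff₀ Real.pi_pos]
    have h1 := mul_lt_mul'' Real.pi_lt_four Real.pi_lt_four Real.pi_pos.le Real.pi_pos.le
    linarith
  have hf : ballTube v = √(π * v) := ballTube_eq_tube hlt.le
  have h40 : (1 : ℝ) / 40 < v := by
    rw [hv]; exact one_div_lt_one_div_of_lt Real.pi_pos (by linarith [Real.pi_lt_four])
  have hPv : r * ballTube v = P := div_mul_cancel₀ _ (ballTube_pos hv0).ne'
  refine exists_lagrange hD hdown (φ := fun w => r * ballTube w) (hPv.symm ▸ hP)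
    (a := 1 / 40) h40 (fun E p hE hEd hEp hEv => hmin E p hE hEd ⟨hEv.1, hEv.2.trans hvI.2⟩ hEp)
    (fun η hη => ?_) fun k => lt_of_le_of_ne (faceArea_le_volume hD hdown k) (by rw [← hvd, hv]; exact hm k)
  have hder : HasDerivAt (fun w => r * √(π * w)) (P / (2 * v)) v :=
    ((hasDerivAt_tubeVal hv0).const_mul r).congr_deriv (by
      rw [← hPv, hf]; ring)
  filter_upwards [eventually_minorant hder hη, eventually_gt_nhds hlt] with w hw hw' _
  rw [← hvd, ballTube_eq_tube hw'.le, hf]
  exact hw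

/-- A minimiser at volume `1/π` is not beaten by a down-set of larger volume up to `1 - 1/π`:
the profile is symmetric and concave. -/
theorem IsCritical.le_of_mem_slab (h : IsCritical D P) (hv : (volume D).toReal = 1 / π)
    {E : Set R3} (hE : MeasurableSet E) (hEd : IsDownset E) {p : ℝ} (hp : RelPerLE E p)
    (hEv : (volume E).toReal ∈ Icc (1 / π) (1 - 1 / π)) : P ≤ p := by
  obtain ⟨hD, hdown, hP, hvI, -, hmin⟩ := h
  have hpi : (0 : ℝ) < 1 / π := by positivity
  have hc : ENNReal.ofReal (2 * P) ≤ profile (1 / π) := by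
    refine le_iInf fun F => le_iInf fun hF => le_iInf fun hFp => le_iInf fun hV => ?_
    by_cases hfin : per F = ⊤
    · simp [hfin]
    obtain ⟨G, hG, hGd, hGv, hGr⟩ := exists_downset_of_symmDec
      (fun u P hu hu' h01 hP => exists_symmDec hu hu' h01 hP) hF hFp ENNReal.toReal_nonneg
      (ENNReal.ofReal_toReal hfin).ge hpi.le hV
    have h1 := hmin G _ hG hGd (hGv.symm ▸ hv ▸ hvI) hGr
    rw [hGv, ← hv, div_mul_cancel₀ _
      (ballTube_pos (lt_of_lt_of_le (by norm_num) hvI.1)).ne'] at h1
    calc ENNReal.ofReal (2 * P) ≤ ENNReal.ofReal (per F).toReal :=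
          ENNReal.ofReal_le_ofReal (by linarith)
      _ = per F := ENNReal.ofReal_toReal hfin
  have h2 := (profile_slab_range hpi inv_pi_le_half hc hEv).trans
    (profile_le_two_mul hE hEd.1 hp)
  rw [ENNReal.ofReal_le_ofReal_iff (by linarith [hp.nonneg])] at h2
  linarith

/-- Stretching a minimiser at volume `1/π` does not lower the perimeter to first order. -/
theorem IsCritical.endPer_le (h : IsCritical D P) (hv : (volume D).toReal = 1 / π) {k : Fin 3}
    (hm : faceArea D k ≠ 1 / π) : endPer D k ≤ wDer D (horW k) := by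
  have hslab : ∀ {E : Set R3}, MeasurableSet E → IsDownset E → ∀ {p : ℝ}, RelPerLE E p →
      (volume E).toReal ∈ Icc (1 / π) (1 - 1 / π) → P ≤ p := fun {E} hE hEd {p} hp hEv =>
    h.le_of_mem_slab hv hE hEd hp hEv
  obtain ⟨hD, hdown, hP, hvI, -, -⟩ := h
  set v := (volume D).toReal with hvd
  set m := faceArea D k with hmd
  have hFD : Weighted.Finite D := ⟨hD, hdown.1, P, hP⟩
  have hmv : m < v := lt_of_le_of_ne (faceArea_le_volume hD hdown k) (by rw [hv]; exact hm)
  refine le_of_forall_pos_le_add fun e he => ?_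
  set η := min (e / 2) (v - m) with hη
  have hη0 : 0 < η := lt_min (half_pos he) (sub_pos.2 hmv)
  obtain ⟨p, q, hpq, hflux⟩ := exists_field_endPer hD hdown k hη0
  obtain ⟨z₀, hz₀, hz₀'⟩ : ∃ z₀ ∈ Ico (0 : ℝ) 1, ∀ z ∈ Ioo z₀ 1,
      endPer D k - η ≤ Vale.Agent.P232.flux p q (slice D k z) ∧ sliceArea D k z ≤ m + η := by
    have h1 : ∀ᶠ z in 𝓝[<] (1 : ℝ),
        endPer D k - η ≤ Vale.Agent.P232.flux p q (slice D k z) ∧ sliceArea D k z ≤ m + η := by
      refine hflux.and ?_
      filter_upwards [(tendsto_areaExt_faceArea hdown k).eventually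
        (eventually_lt_nhds (show m < m + η by linarith)),
        Ioo_mem_nhdsLT (show (0 : ℝ) < 1 by norm_num)] with z hz h01
      rw [areaExt_eq h01.1.le] at hz
      exact hz.le
    obtain ⟨l0, hl0, hsub⟩ := mem_nhdsLT_iff_exists_Ioo_subset.1 h1
    exact ⟨max l0 0, ⟨le_max_right _ _, max_lt hl0 one_pos⟩,
      fun z hz => hsub ⟨(le_max_left _ _).trans_lt hz.1, hz.2⟩⟩
  set K := |endPer D k - η| + 2 * |P| with hK
  have hgap : 0 < 1 - 2 * v := by
    have hlt := inv_pi_lt_half
    rw [hv]; linarith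
  have ht0' : Tendsto (fun t : ℝ => t) (𝓝[>] 0) (𝓝 0) :=
    tendsto_nhdsWithin_of_tendsto_nhds tendsto_id
  have hτ' : Tendsto (fun t : ℝ => (1 + t)⁻¹) (𝓝[>] 0) (𝓝 1) := by
    simpa using (ht0'.const_add 1).inv₀ (by norm_num : (1 : ℝ) + 0 ≠ 0)
  have hev : ∀ᶠ t in 𝓝[>] (0 : ℝ), ((0 < t ∧ t < 1) ∧ z₀ < (1 + t)⁻¹) ∧
      v * t < 1 - 2 * v ∧ K * t ≤ e / 2 := by
    filter_upwards [Ioo_mem_nhdsGT (show (0 : ℝ) < 1 by norm_num),
      hτ'.eventually (eventually_gt_nhds hz₀.2),
      (ht0'.const_mul v).eventually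
        (eventually_lt_nhds (show v * 0 < 1 - 2 * v by simpa using hgap)),
      (ht0'.const_mul K).eventually
        (eventually_le_nhds (show K * 0 < e / 2 by simpa using half_pos he))] with t h1 h2 h3 h4
    exact ⟨⟨h1, h2⟩, h3, h4⟩
  obtain ⟨t, ⟨⟨ht0, ht1⟩, hzt⟩, htv, htK⟩ := hev.exists
  set τ := (1 + t)⁻¹ with hτd
  have hτ1 : τ ≤ 1 := inv_le_one_of_one_le₀ (by linarith)
  have hτe : (1 + t) * (1 - τ) = t := by rw [hτd]; field_simp; ring
  have hmem : ∀ z ∈ Ioo τ 1, z ∈ Ioo z₀ 1 := fun z hz => ⟨hzt.trans hz.1, hz.2⟩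
  set A := ∫ z in Ici τ, sliceArea D k z
  have hA0 : 0 ≤ A := setIntegral_nonneg measurableSet_Ici fun z _ => sliceArea_nonneg D k z
  have hA2 : -(m + η) * (1 - τ) ≤ ∫ z in Ici τ, -sliceArea D k z :=
    mul_le_integral_Ici (integrable_sliceArea hD hdown.1 k).neg
      (fun z hz => by simp [sliceArea_eq_zero hdown.1 (z := z) fun h => absurd h.2 (not_lt.2 hz)])
      hτ1 fun z hz => neg_le_neg (hz₀' z (hmem z hz)).2
  rw [integral_neg] at hA2
  have hVeq := volume_stretchSet hD hdown (show (1 : ℝ) ≤ 1 + t by linarith) k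
  rw [← hτd] at hVeq
  have hst := relPerLE_stretchSet (k := k) hD hdown hP (show (1 : ℝ) ≤ 1 + t by linarith) hpq
  have hup : (1 + t) * A ≤ t * v := by
    calc (1 + t) * A ≤ (1 + t) * ((m + η) * (1 - τ)) :=
          mul_le_mul_of_nonneg_left (by linarith) (by linarith)
      _ = (m + η) * t := by linear_combination (m + η) * hτe
      _ ≤ t * v := by
          rw [mul_comm]; exact mul_le_mul_of_nonneg_left (by linarith [min_le_right (e / 2) (v - m)]) ht0.le
  have hPle := hslab (measurableSet_stretchSet hD k _)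
    (isDownset_stretchSet hdown (by linarith) k) hst (by
      rw [hVeq, ← hvd, ← hv]
      have hnn : 0 ≤ (1 + t) * A := mul_nonneg (by linarith) hA0
      constructor <;> linarith)
  rw [add_sub_cancel_left, ← hτd] at hPle
  have hF : (endPer D k - η) * (1 - τ) ≤ ∫ z in Ici τ, Vale.Agent.P232.flux p q (slice D k z) :=
    mul_le_integral_Ici (hpq.toSlice.integrable_fluxS hD hdown.1)
      (fun z hz => fluxS_eq_zero hdown.1 _ _ fun h => absurd h.2 (not_lt.2 hz)) hτ1
      fun z hz => (hz₀' z (hmem z hz)).1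
  have hW := Weighted.wPer_upper hFD (isWeight_horW k) zero_le_one
    (fun x i => by unfold horW; split_ifs <;> simp) t
  rw [one_pow, mul_one] at hW
  have hrel := (Weighted.relPer_le hP)
  have h2P : 2 * relPer D * t ^ 2 ≤ 2 * |P| * t ^ 2 :=
    mul_le_mul_of_nonneg_right (by linarith [le_abs_self P]) (sq_nonneg t)
  have hr1 : 1 - τ ≤ t := by
    linarith [mul_nonneg ht0.le (sub_nonneg.2 hτ1)]
  have hsave : t * (endPer D k - η) - t ^ 2 * |endPer D k - η| ≤
      (endPer D k - η) * (1 - τ) := by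
    have e : t * (endPer D k - η) - (endPer D k - η) * (1 - τ) =
        t * (1 - τ) * (endPer D k - η) := by linear_combination (endPer D k - η) * hτe.symm
    have : t * (1 - τ) * (endPer D k - η) ≤ t * t * |endPer D k - η| :=
      (mul_le_mul_of_nonneg_left (le_abs_self _) (mul_nonneg ht0.le (sub_nonneg.2 hτ1))).trans
        (mul_le_mul_of_nonneg_right (mul_le_mul_of_nonneg_left hr1 ht0.le) (abs_nonneg _))
    rw [pow_two]; linarith
  have main : t * endPer D k ≤ t * (wDer D (horW k) + η + K * t) := by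
    rw [hK]; linarith
  have := le_of_mul_le_mul_left main ht0
  linarith [min_le_left (e / 2) (v - m)]

/-- The multiplier at the end of the range: one number in `[0, P/(2v)]` gives all identities. -/
theorem exists_lagrange_endpoint_nonneg (h : IsCritical D P) (hv : (volume D).toReal = 1 / π)
    (hm : ∀ k, faceArea D k ≠ 1 / π) :
    ∃ lam, 0 ≤ lam ∧ lam ≤ P / (2 * (volume D).toReal) ∧ ∀ k, wDer D (horW k) =
      lam * ((volume D).toReal - faceArea D k) + endPer D k := by
  obtain ⟨lam, hlam, hC⟩ := exists_lagrange_endpoint h hv hm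
  refine ⟨lam, ?_, hlam, hC⟩
  have h0 : 0 ≤ lam * ((volume D).toReal - faceArea D 0) := by
    linarith [h.endPer_le hv (hm 0), hC 0]
  have hpos : 0 < (volume D).toReal - faceArea D 0 :=
    sub_pos.2 (lt_of_le_of_ne (faceArea_le_volume h.1 h.2.1 0) (by rw [hv]; exact hm 0))
  exact nonneg_of_mul_nonneg_left h0 hpos

end Vale.Agent.P232
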