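import Vale.Agent.P232.Deform
import Vale.Agent.P232.Lagrange

/-!
The first slice at the end of the range: by the move which clips a direction at both ends, the
planar bound at the first slice area `A` is at most `lam (A - m) + l`.
-/

open MeasureTheory Set Filter Function Real
open scoped Topology NNReal

namespace Vale.Agent.P232.Bottom

open Cylinder
open Weighted (fl wPer wDer relPer)
open Deform

variable {D : Set R3} {P : ℝ}

/-- The union of the slices above height zero. -/
def botSlice (D : Set R3) (k : Fin 3) : Set (ℝ × ℝ) :=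
  ⋃ n : ℕ, slice D k (1 / ((n : ℝ) + 2))

lemma height_mem (n : ℕ) : 1 / ((n : ℝ) + 2) ∈ Ioo (0 : ℝ) 1 := by
  refine ⟨by positivity, ?_⟩
  rw [div_lt_one (by positivity)]
  linarith [n.cast_nonneg (α := ℝ)]

lemma height_anti {a b : ℕ} (h : a ≤ b) : 1 / ((b : ℝ) + 2) ≤ 1 / ((a : ℝ) + 2) :=
  one_div_le_one_div_of_le (by positivity) (by
    have : (a : ℝ) ≤ b := Nat.cast_le.2 h
    linarith)

lemma isSqDown_botSlice (hD : MeasurableSet D) (hdown : IsDownset D) (k : Fin 3) :
    IsSqDown (botSlice D k) := by
  refine ⟨MeasurableSet.iUnion fun n => measurableSet_slice hD k _,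
    iUnion_subset fun n => slice_subset_square hdown.1 k _, fun w hw u h0 h1 h2 h3 => ?_⟩
  obtain ⟨n, hn⟩ := mem_iUnion.1 hw
  exact mem_iUnion.2 ⟨n, (isSqDown_slice hD hdown k _).down w hn u h0 h1 h2 h3⟩

lemma subset_botSlice (hdown : IsDownset D) (k : Fin 3) {z : ℝ} (hz : 0 < z) :
    slice D k z ⊆ botSlice D k := by
  obtain ⟨n, hn⟩ := exists_nat_gt (1 / z)
  refine subset_iUnion_of_subset n (slice_anti hdown (height_mem n).1.le ?_)
  rw [div_le_iff₀ (by positivity)]
  have := (div_lt_iff₀ hz).1 hn
  linarith [mul_comm z ((n : ℝ) + 2)]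

lemma volume_botSlice (hD : MeasurableSet D) (hdown : IsDownset D) (k : Fin 3) :
    volume.real (botSlice D k) = rightLim (areaExt D k) 0 := by
  set s : ℕ → Set (ℝ × ℝ) := fun n => slice D k (1 / ((n : ℝ) + 2)) with hs
  have hmono : Monotone s := fun a b h => slice_anti hdown (height_mem b).1.le (height_anti h)
  have hne : volume (⋃ n, s n) ≠ ⊤ := ne_top_of_le_ne_top (by rw [volume_square]; simp)
    (measure_mono (iUnion_subset fun n => slice_subset_square hdown.1 k _))
  have h1 : Tendsto (fun n => (volume (s n)).toReal) atTop (𝓝 (volume (⋃ n, s n)).toReal) :=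
    (ENNReal.tendsto_toReal hne).comp (tendsto_measure_iUnion_atTop hmono)
  have h2 : Tendsto (fun n => (volume (s n)).toReal) atTop (𝓝 (rightLim (areaExt D k) 0)) := by
    have t : Tendsto (fun n : ℕ => 1 / ((n : ℝ) + 2)) atTop (𝓝[>] 0) := by
      refine tendsto_nhdsWithin_iff.2 ⟨?_, Eventually.of_forall fun n => (height_mem n).1⟩
      have h := (tendsto_const_div_atTop_nhds_zero_nat (1 : ℝ)).comp (tendsto_add_atTop_nat 2)
      simpa [Function.comp_def] using h
    refine (((areaExt_antitone hdown k).tendsto_rightLim 0).comp t).congr fun n => ?_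
    exact areaExt_eq (height_mem n).1.le
  exact tendsto_nhds_unique h1 h2

/-- A planar field keeps its flux on the slices just above the bottom. -/
lemma eventually_flux_bottom (hD : MeasurableSet D) (hdown : IsDownset D) (k : Fin 3)
    {p q : ℝ × ℝ → ℝ} (h : IsSqField p q) {η : ℝ} (hη : 0 < η) :
    ∀ᶠ z in 𝓝[>] (0 : ℝ), flux p q (botSlice D k) - η ≤ flux p q (slice D k z) := by
  obtain ⟨K, hK⟩ := h.toSlice.lip_fst
  obtain ⟨L, hL⟩ := h.toSlice.lip_snd
  set C : ℝ := K + L + 1
  have hC : 0 < C := by positivity
  set B := botSlice D k with hB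
  have hBd := isSqDown_botSlice hD hdown k
  have hev := ((areaExt_antitone hdown k).tendsto_rightLim 0).eventually
    (eventually_gt_nhds (show rightLim (areaExt D k) 0 - η / C < rightLim (areaExt D k) 0 by
      linarith [show 0 < η / C by positivity]))
  filter_upwards [hev, Ioo_mem_nhdsGT (show (0 : ℝ) < 1 by norm_num)] with z hz h01
  have hsub : slice D k z ⊆ B := subset_botSlice hdown k h01.1
  have hBt : volume B ≠ ⊤ :=
    ne_top_of_le_ne_top (by rw [volume_square]; simp) (measure_mono (show B ⊆ square from hBd.sub))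
  have hint : IntegrableOn (dv2 p q) B := (integrableOn_dv2 h).mono_set hBd.sub
  have hd : |∫ w in B \ slice D k z, dv2 p q w| ≤ C * volume.real (B \ slice D k z) := by
    rw [← Real.norm_eq_abs]
    refine norm_setIntegral_le_of_norm_le_const (lt_of_le_of_lt (measure_mono sdiff_subset)
      (lt_top_iff_ne_top.2 hBt)) fun w _ => ?_
    have := norm_dvS_le hK hL ((0 : ℝ), w)
    simp only [C]
    exact le_trans this (by linarith)
  have harea : volume.real (B \ slice D k z) = rightLim (areaExt D k) 0 - sliceArea D k z := by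
    rw [measureReal_sdiff hsub (measurableSet_slice hD k z) hBt, hB, volume_botSlice hD hdown]
    rfl
  rw [areaExt_eq h01.1.le] at hz
  rw [MeasureTheory.setIntegral_sdiff (f := dv2 p q) (measurableSet_slice hD k z) hint hsub,
    harea] at hd
  have h3 : C * (rightLim (areaExt D k) 0 - sliceArea D k z) ≤ η := by
    calc C * (rightLim (areaExt D k) 0 - sliceArea D k z) ≤ C * (η / C) :=
          mul_le_mul_of_nonneg_left (by linarith) hC.le
      _ = η := by field_simp
  simp only [flux]
  linarith [(abs_le.1 hd).2]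

/-- The affine change of coordinate carrying height zero to `-t` and one to `1 + r`. -/
noncomputable def affineProfile (t r : ℝ) (ht : 0 ≤ t) (hr : 0 ≤ r) (h : t + r ≤ 1) :
    Profile where
  φ z := -t + (1 + t + r) * z
  d _ := 1 + t + r
  deriv_eq z := by simpa using ((hasDerivAt_id z).const_mul (1 + t + r)).const_add (-t)
  lip := ⟨0, LipschitzWith.const _⟩
  mem _ := ⟨by linarith, by linarith⟩
  zero_le := by simpa using ht

/-- The integral over the heights clipped by an affine change of coordinate. -/
lemma integral_affine_clip {t r : ℝ} (ht : 0 ≤ t) (hr : 0 ≤ r) (h : t + r ≤ 1) {G : ℝ → ℝ}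
    (hG : Integrable G) (h0 : ∀ z, z ∉ Ico (0 : ℝ) 1 → G z = 0) :
    ∫ z, (if (affineProfile t r ht hr h).φ z ∈ Ico (0 : ℝ) 1 then 0 else G z) =
      (∫ z in Ico 0 (t / (1 + t + r)), G z) + ∫ z in Ico ((1 + t) / (1 + t + r)) 1, G z := by
  set c := 1 + t + r with hc
  have hc0 : 0 < c := by linarith
  have h01 : t / c ≤ (1 + t) / c := by gcongr; linarith
  have h1 : (1 + t) / c ≤ 1 := (div_le_one hc0).2 (by linarith)
  rw [← integral_indicator measurableSet_Ico, ← integral_indicator measurableSet_Ico,
    ← integral_add (hG.indicator measurableSet_Ico) (hG.indicator measurableSet_Ico)]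
  refine integral_congr_ae (Eventually.of_forall fun z => ?_)
  simp only [affineProfile, ← hc, mem_Ico]
  by_cases hz : z ∈ Ico (0 : ℝ) 1
  · by_cases hin : 0 ≤ -t + c * z ∧ -t + c * z < 1
    · have e1 : z ∉ Ico 0 (t / c) := fun hh => by
        have := (lt_div_iff₀ hc0).1 hh.2; linarith [hin.1, mul_comm z c]
      have e2 : z ∉ Ico ((1 + t) / c) 1 := fun hh => by
        have := (div_le_iff₀ hc0).1 hh.1; linarith [hin.2, mul_comm z c]
      rw [if_pos hin, indicator_of_notMem e1, indicator_of_notMem e2, add_zero]
    · rw [if_neg hin]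
      rcases not_and_or.1 hin with hh | hh
      · have e1 : z ∈ Ico 0 (t / c) :=
          ⟨hz.1, (lt_div_iff₀ hc0).2 (by linarith [not_le.1 hh, mul_comm z c])⟩
        have e2 : z ∉ Ico ((1 + t) / c) 1 := fun h2 => absurd (h01.trans h2.1) (not_le.2 e1.2)
        rw [indicator_of_mem e1, indicator_of_notMem e2, add_zero]
      · have e2 : z ∈ Ico ((1 + t) / c) 1 :=
          ⟨(div_le_iff₀ hc0).2 (by linarith [not_lt.1 hh, mul_comm z c]), hz.2⟩
        have e1 : z ∉ Ico 0 (t / c) := fun h2 => absurd (h01.trans e2.1) (not_le.2 h2.2)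
        rw [indicator_of_mem e2, indicator_of_notMem e1, zero_add]
  · have hg := h0 z hz
    simp only [hg, ite_self, indicator, add_zero]

/-- **The translation condition.** The planar bound at the area of the first slice. -/
theorem plain_first_le (h : IsCritical D P) (hv : (volume D).toReal = 1 / π) (k : Fin 3)
    (hm : faceArea D k < (volume D).toReal) {lam l : ℝ} (hlam : 0 ≤ lam)
    (hC : wDer D (horW k) = lam * ((volume D).toReal - faceArea D k) + l)
    (hl : l ≤ endPer D k) :
    min √(π * rightLim (areaExt D k) 0) (min 1 √(π * (1 - rightLim (areaExt D k) 0))) ≤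
      lam * (rightLim (areaExt D k) 0 - faceArea D k) + l := by
  have hPeq := h.eq_relPer
  obtain ⟨hD, hdown, hP, hvI, hPle, hmin⟩ := h
  have hFD : Weighted.Finite D := ⟨hD, hdown.1, P, hP⟩
  have hanti := areaExt_antitone hdown k
  set A := rightLim (areaExt D k) 0 with hA
  set m := faceArea D k with hmd
  set v := (volume D).toReal with hvd
  set W := min √(π * A) (min 1 √(π * (1 - A))) with hW
  have hv0 : 0 < v := lt_of_lt_of_le (by norm_num) hvI.1
  have hAv : v ≤ A := volume_le_first_slice hD hdown k
  have hAt : ∀ z ∈ Ioo (0 : ℝ) 1, areaExt D k z ≤ A := fun z hz => hanti.le_rightLim hz.1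
  rcases hAv.eq_or_lt with hAeq | hAlt
  · exfalso
    -- constant slices would make the face full
    have hm' : ∀ z ∈ Ioo (0 : ℝ) 1, m ≤ areaExt D k z := fun z hz => hanti.leftLim_le hz.2
    have hge : ∀ z ∈ Ioo (0 : ℝ) 1, areaExt D k z = A := by
      intro z hz
      refine le_antisymm (hAt z hz) ?_
      by_contra hlt
      push Not at hlt
      have h3 := intervalIntegral.integral_add_adjacent_intervals
        (hanti.intervalIntegrable (μ := volume) (a := 0) (b := z))
        (hanti.intervalIntegrable (μ := volume) (a := z) (b := 1))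
      rw [← volume_eq_integral_areaExt hD hdown k, ← hvd] at h3
      have h1 : ∫ s in (0 : ℝ)..z, areaExt D k s ≤ ∫ _ in (0 : ℝ)..z, A :=
        intervalIntegral.integral_mono_on_of_le_Ioo hz.1.le hanti.intervalIntegrable
          intervalIntegrable_const fun s hs => hAt s ⟨hs.1, hs.2.trans hz.2⟩
      have h2 : ∫ s in z..1, areaExt D k s ≤ ∫ _ in z..1, areaExt D k z :=
        intervalIntegral.integral_mono_on hz.2.le hanti.intervalIntegrable
          intervalIntegrable_const fun s hs => hanti hs.1
      simp only [intervalIntegral.integral_const, smul_eq_mul, sub_zero] at h1 h2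
      have := mul_lt_mul_of_pos_left hlt (sub_pos.2 hz.2)
      linarith
    have : m = A := by
      rw [hmd, faceArea]
      refine tendsto_nhds_unique (hanti.tendsto_leftLim 1) (tendsto_const_nhds.congr' ?_)
      filter_upwards [Ioo_mem_nhdsLT (show (0 : ℝ) < 1 by norm_num)] with z hz
      exact (hge z hz).symm
    linarith
  refine le_of_forall_pos_le_add fun ε hε => ?_
  -- the parameters
  set b := v - m with hb
  have hb0 : 0 < b := sub_pos.2 hm
  have hP0 : 0 ≤ P := by rw [hPeq]; exact Weighted.relPer_nonneg hFD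
  obtain ⟨κ, hκ0, hκA, hκε⟩ : ∃ κ, 0 < κ ∧ κ ≤ A - v ∧ P * π * κ ≤ ε / 4 := by
    refine ⟨min (A - v) (ε / (4 * (P * π + 1))), lt_min (sub_pos.2 hAlt) (by positivity),
      min_le_left _ _, ?_⟩
    calc P * π * min (A - v) (ε / (4 * (P * π + 1))) ≤ P * π * (ε / (4 * (P * π + 1))) :=
          mul_le_mul_of_nonneg_left (min_le_right _ _) (by positivity)
      _ ≤ (P * π + 1) * (ε / (4 * (P * π + 1))) := by gcongr; linarith
      _ = ε / 4 := by field_simp
  set σ := (A - v - κ) / b with hσ
  have hσ0 : 0 ≤ σ := div_nonneg (by linarith) hb0.le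
  have hσb : σ * b = A - v - κ := div_mul_cancel₀ _ hb0.ne'
  set η := ε / (4 * (1 + σ)) with hηd
  have hη : 0 < η := by positivity
  have hηε : (1 + σ) * η = ε / 4 := by rw [hηd]; field_simp
  obtain ⟨pB, qB, hpB, hfB0⟩ :=
    sq_plain (isSqDown_botSlice hD hdown k) (half_pos hη)
  rw [volume_botSlice hD hdown, ← hA, ← hW] at hfB0
  have hfB : ∀ᶠ z in 𝓝[>] (0 : ℝ), W - η ≤ flux pB qB (slice D k z) :=
    (eventually_flux_bottom hD hdown k hpB (half_pos hη)).mono fun z hz => by linarith
  obtain ⟨pT, qT, hpT, hfT0⟩ := exists_field_endPer hD hdown k hη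
  have hfT : ∀ᶠ z in 𝓝[<] (1 : ℝ), l - η ≤ flux pT qT (slice D k z) :=
    hfT0.mono fun z hz => by linarith
  obtain ⟨zB, hzB, hB⟩ := mem_nhdsGT_iff_exists_Ioo_subset.1 hfB
  obtain ⟨zT, hzT, hT⟩ := mem_nhdsLT_iff_exists_Ioo_subset.1 hfT
  -- the blended field
  set w : ℝ → ℝ := fun z => clamp01 (3 / 2 - 2 * z) with hw
  obtain ⟨Kw, hwK⟩ : ∃ K, LipschitzWith K w := by
    refine ⟨2, LipschitzWith.of_dist_le_mul fun a c => ?_⟩
    refine (lipschitz_clamp01.dist_le_mul _ _).trans ?_
    rw [NNReal.coe_one, one_mul, Real.dist_eq, Real.dist_eq, NNReal.coe_ofNat,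
      show 3 / 2 - 2 * a - (3 / 2 - 2 * c) = 2 * (c - a) by ring, abs_mul, abs_two, abs_sub_comm]
  set PP := blend w (fun u => pB u.2) (fun u => pT u.2) with hPP
  set QQ := blend w (fun u => qB u.2) (fun u => qT u.2) with hQQ
  have hpq : IsSliceField PP QQ := hpB.toSlice.blend hpT.toSlice hwK fun z => clamp01_mem _
  have hflux : ∀ z, fluxS PP QQ D k z =
      w z * flux pB qB (slice D k z) + (1 - w z) * flux pT qT (slice D k z) := fun z => by
    rw [hPP, hQQ, fluxS_blend hpB.toSlice hpT.toSlice hD hdown.1, fluxS_toSlice, fluxS_toSlice]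
  set C := wDer D (horW k) with hCd
  -- one small step
  have step : ∀ᶠ t in 𝓝[>] (0 : ℝ), W + σ * l ≤ (1 + σ) * C + (1 + σ) * η
      + P * π * (κ + ε / (4 * (P * π + 1))) + 2 * P * (1 + σ) ^ 2 * t := by
    have hd0 : 0 < ε / (4 * (P * π + 1)) := by positivity
    have ht0 : Tendsto (fun t : ℝ => t) (𝓝[>] 0) (𝓝 0) :=
      tendsto_nhdsWithin_of_tendsto_nhds tendsto_id
    have hτ0 : Tendsto (fun t : ℝ => t / (1 + t + σ * t)) (𝓝[>] 0) (𝓝[>] 0) := by
      refine tendsto_nhdsWithin_iff.2 ⟨?_, eventually_nhdsWithin_of_forall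
        fun t (ht : 0 < t) => show (0 : ℝ) < t / (1 + t + σ * t) by positivity⟩
      have := ht0.div ((ht0.const_add 1).add (ht0.const_mul σ))
        (show (1 : ℝ) + 0 + σ * 0 ≠ 0 by norm_num)
      simpa [Pi.div_def] using this
    have hτ1 : Tendsto (fun t : ℝ => (1 + t) / (1 + t + σ * t)) (𝓝[>] 0) (𝓝 1) := by
      have := (ht0.const_add 1).div ((ht0.const_add 1).add (ht0.const_mul σ))
        (show (1 : ℝ) + 0 + σ * 0 ≠ 0 by norm_num)
      simpa [Pi.div_def] using this
    have htop : ∀ᶠ z in 𝓝[<] (1 : ℝ), areaExt D k z ≤ m + ε / (4 * (P * π + 1)) / (σ + 1) :=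
      ((hanti.tendsto_leftLim 1).eventually (eventually_lt_nhds (show leftLim (areaExt D k) 1 <
        m + ε / (4 * (P * π + 1)) / (σ + 1) from lt_add_of_pos_right _ (by positivity)))).mono
          fun z hz => hz.le
    obtain ⟨zm, hzm, hM⟩ := mem_nhdsLT_iff_exists_Ioo_subset.1 htop
    have hbot : ∀ᶠ z in 𝓝[>] (0 : ℝ), A - κ < areaExt D k z :=
      (hanti.tendsto_rightLim 0).eventually (eventually_gt_nhds (by linarith))
    have hsmall : ∀ᶠ t in 𝓝[>] (0 : ℝ), t + σ * t < 1 / 2 ∧
        t * (κ + ε / (4 * (P * π + 1))) < v - 4 * π / 81 := by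
      have hvv : 4 * π / 81 < v := by
        rw [hv, lt_div_iff₀ Real.pi_pos]
        linarith [mul_lt_mul'' Real.pi_lt_four Real.pi_lt_four Real.pi_pos.le Real.pi_pos.le]
      refine ((ht0.add (ht0.const_mul σ)).eventually (eventually_lt_nhds (by norm_num))).and
        ((ht0.mul_const _).eventually (eventually_lt_nhds (by simpa using sub_pos.2 hvv)))
    filter_upwards [hsmall, hτ0.eventually (Ioo_mem_nhdsGT hzB),
      hτ0.eventually (Ioo_mem_nhdsGT (show (0 : ℝ) < 1 / 4 by norm_num)), hτ0.eventually hbot,
      hτ1.eventually (eventually_gt_nhds (show max (max zT zm) (3 / 4) < 1 from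
        max_lt (max_lt hzT hzm) (by norm_num))),
      self_mem_nhdsWithin] with t ht htB htq htA htT (ht' : 0 < t)
    have hr0 : 0 ≤ σ * t := mul_nonneg hσ0 ht'.le
    have hsum : t + σ * t ≤ 1 := by linarith [ht.1]
    set p := affineProfile t (σ * t) ht'.le hr0 hsum with hp
    have hend : 1 ≤ p.φ 1 := by simp only [hp, affineProfile]; linarith
    set c := 1 + t + σ * t with hc
    have hc0 : 0 < c := by linarith
    set z0 := t / c with hz0
    set z1 := (1 + t) / c with hz1
    have hz01 : 0 < z0 := by positivity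
    have hz1le : z1 ≤ 1 := (div_le_one hc0).2 (by linarith)
    have hT' : max (max zT zm) (3 / 4) < z1 := htT
    simp only [max_lt_iff] at hT'
    -- the perimeter of the image
    have h1 := wPer_image_gain hFD p k hend Weighted.isWeight_zero (κ := 0) one_pos
      (fun x i => by simp) hpq
    have hE := finite_image hFD p k hend
    have ew : wPull p k 0 = (t + σ * t) • horW k := by
      funext x i
      simp only [wPull, hp, affineProfile, Pi.smul_apply, horW, Pi.zero_apply, smul_eq_mul]
      split_ifs <;> ring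
    have h2 := Weighted.wPer_upper hFD (isWeight_horW k) zero_le_one (C := 1)
      (fun x i => by unfold horW; split_ifs <;> simp) (t + σ * t)
    rw [← hPeq, ← hCd, ← ew] at h2
    -- the clipped gain
    have hFi : Integrable fun z => fluxS PP QQ D k z := hpq.integrable_fluxS hD hdown.1
    have hg : (t * (W - η) + σ * t * (l - η)) ≤
        ∫ z, (if p.φ z ∈ Ico (0 : ℝ) 1 then 0 else p.d z * fluxS PP QQ D k z) := by
      rw [integral_affine_clip ht'.le hr0 hsum (G := fun z => p.d z * fluxS PP QQ D k z)
        (hFi.const_mul c) fun z hz => by simp [fluxS_eq_zero hdown.1 _ _ hz]]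
      refine add_le_add ?_ ?_
      · calc t * (W - η) = ∫ _ in Ico 0 z0, c * (W - η) := by
              rw [setIntegral_const, Measure.real, Real.volume_Ico, sub_zero,
                ENNReal.toReal_ofReal hz01.le, smul_eq_mul, hz0]
              field_simp
          _ ≤ _ := by
              rw [integral_Ico_eq_integral_Ioo, integral_Ico_eq_integral_Ioo]
              refine setIntegral_mono_on (integrableOn_const (by simp))
                (hFi.const_mul c).integrableOn measurableSet_Ioo fun z hz => ?_
              refine mul_le_mul_of_nonneg_left ?_ hc0.le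
              have e : w z = 1 := clamp01_of_one_le (by linarith [hz.2, htq.2])
              rw [hflux, e]
              linarith [show W - η ≤ flux pB qB (slice D k z) from
                hB ⟨hz.1, hz.2.trans htB.2⟩]
      · calc σ * t * (l - η) = ∫ _ in Ico z1 1, c * (l - η) := by
              rw [setIntegral_const, Measure.real, Real.volume_Ico,
                ENNReal.toReal_ofReal (by linarith), smul_eq_mul, hz1]
              field_simp
              ring
          _ ≤ _ := by
              rw [integral_Ico_eq_integral_Ioo, integral_Ico_eq_integral_Ioo]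
              refine setIntegral_mono_on (integrableOn_const (by simp))
                (hFi.const_mul c).integrableOn measurableSet_Ioo fun z hz => ?_
              refine mul_le_mul_of_nonneg_left ?_ hc0.le
              have e : w z = 0 := clamp01_of_nonpos (by linarith [hz.1, hT'.2])
              rw [hflux, e]
              linarith [show l - η ≤ flux pT qT (slice D k z) from
                hT ⟨hT'.1.1.trans hz.1, hz.2⟩]
    -- the volume of the image
    have hS := integrable_sliceArea hD hdown.1 k
    have hvol : (volume (image p k D)).toReal = c * v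
        - c * ((∫ z in Ico 0 z0, sliceArea D k z) + ∫ z in Ico z1 1, sliceArea D k z) := by
      have h3 := setIntegral_image (k := k) hD hdown.1 p (f := fun _ => (1 : ℝ))
        (integrableOn_const (ne_top_of_le_ne_top volume_cell_ne_top
          (measure_mono fun x hx => hx.1)))
      rw [setIntegral_const, smul_eq_mul, mul_one] at h3
      rw [← measureReal_def, h3, ← mul_sub,
        ← integral_affine_clip ht'.le hr0 hsum hS fun z hz => sliceArea_eq_zero hdown.1 hz,
        hvd, volume_eq_integral_sliceArea hD hdown.1 k]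
      rw [← integral_sub hS, ← integral_const_mul]
      · refine integral_congr_ae (Eventually.of_forall fun z => ?_)
        simp only [setIntegral_const, smul_eq_mul, mul_one, ← hp]
        split_ifs
        · simp [sliceArea, Measure.real, show p.d z = c from rfl]
        · simp
      · refine Integrable.mono' hS.norm ((Measurable.ite (measurableSet_Ico.preimage
          p.continuous.measurable) measurable_const (measurable_sliceArea hD k)).aestronglyMeasurable)
          (Eventually.of_forall fun z => ?_)
        rw [← hp]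
        split_ifs <;> simp
    have hbot1 : (A - κ) * z0 ≤ ∫ z in Ico 0 z0, sliceArea D k z := by
      rw [integral_Ico_eq_integral_Ioo]
      calc (A - κ) * z0 = ∫ _ in Ioo 0 z0, (A - κ) := by
            rw [setIntegral_const, Measure.real, Real.volume_Ioo, sub_zero,
              ENNReal.toReal_ofReal hz01.le, smul_eq_mul, mul_comm]
        _ ≤ _ := setIntegral_mono_on (integrableOn_const (by simp)) hS.integrableOn
            measurableSet_Ioo fun z hz => by
              rw [← areaExt_eq hz.1.le]; exact htA.le.trans (hanti hz.2.le)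
    have hbot2 : ∫ z in Ico 0 z0, sliceArea D k z ≤ A * z0 := by
      rw [integral_Ico_eq_integral_Ioo]
      calc _ ≤ ∫ _ in Ioo 0 z0, A := setIntegral_mono_on hS.integrableOn
            (integrableOn_const (by simp)) measurableSet_Ioo fun z hz => by
              rw [← areaExt_eq hz.1.le]; exact hanti.le_rightLim hz.1
        _ = A * z0 := by
            rw [setIntegral_const, Measure.real, Real.volume_Ioo, sub_zero,
              ENNReal.toReal_ofReal hz01.le, smul_eq_mul, mul_comm]
    have htop1 : m * (1 - z1) ≤ ∫ z in Ico z1 1, sliceArea D k z := by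
      rw [integral_Ico_eq_integral_Ioo]
      calc m * (1 - z1) = ∫ _ in Ioo z1 1, m := by
            rw [setIntegral_const, Measure.real, Real.volume_Ioo,
              ENNReal.toReal_ofReal (by linarith), smul_eq_mul, mul_comm]
        _ ≤ _ := setIntegral_mono_on (integrableOn_const (by simp)) hS.integrableOn
            measurableSet_Ioo fun z hz => by
              rw [← areaExt_eq (show 0 ≤ z by linarith [hz.1, hT'.2])]
              exact hanti.leftLim_le hz.2
    have htop2 : ∫ z in Ico z1 1, sliceArea D k z ≤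
        (m + ε / (4 * (P * π + 1)) / (σ + 1)) * (1 - z1) := by
      rw [integral_Ico_eq_integral_Ioo]
      calc _ ≤ ∫ _ in Ioo z1 1, (m + ε / (4 * (P * π + 1)) / (σ + 1)) :=
            setIntegral_mono_on hS.integrableOn (integrableOn_const (by simp)) measurableSet_Ioo
              fun z hz => by
              rw [← areaExt_eq (show 0 ≤ z by linarith [hz.1, hT'.2])]
              exact hM ⟨hT'.1.2.trans hz.1, hz.2⟩
        _ = _ := by
            rw [setIntegral_const, Measure.real, Real.volume_Ioo,
              ENNReal.toReal_ofReal (by linarith), smul_eq_mul, mul_comm]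
    have ec0 : c * z0 = t := mul_div_cancel₀ _ hc0.ne'
    have ec1 : c * (1 - z1) = σ * t := by rw [hz1]; field_simp; ring
    set V := (volume (image p k D)).toReal with hV
    have q1 : t * (A - κ) ≤ c * ∫ z in Ico 0 z0, sliceArea D k z :=
      calc t * (A - κ) = c * ((A - κ) * z0) := by linear_combination (A - κ) * ec0.symm
        _ ≤ _ := mul_le_mul_of_nonneg_left hbot1 hc0.le
    have q2 : c * ∫ z in Ico 0 z0, sliceArea D k z ≤ t * A :=
      (mul_le_mul_of_nonneg_left hbot2 hc0.le).trans_eq (by linear_combination A * ec0)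
    have q3 : σ * t * m ≤ c * ∫ z in Ico z1 1, sliceArea D k z :=
      calc σ * t * m = c * (m * (1 - z1)) := by linear_combination m * ec1.symm
        _ ≤ _ := mul_le_mul_of_nonneg_left htop1 hc0.le
    have q4 : c * ∫ z in Ico z1 1, sliceArea D k z ≤ σ * t * m + t * (ε / (4 * (P * π + 1))) := by
      refine (mul_le_mul_of_nonneg_left htop2 hc0.le).trans ?_
      have e : c * ((m + ε / (4 * (P * π + 1)) / (σ + 1)) * (1 - z1)) =
          σ * t * m + t * (σ / (σ + 1) * (ε / (4 * (P * π + 1)))) := by
        linear_combination (m + ε / (4 * (P * π + 1)) / (σ + 1)) * ec1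
      rw [e]
      gcongr
      exact mul_le_of_le_one_left hd0.le ((div_le_one (by linarith)).2 (by linarith))
    have eV : c * v + σ * t * (-m) = v + t * (A - κ) := by
      rw [hc]; linear_combination t * hσb + (σ * t) * hb
    have hV1 : V ≤ v := by rw [hvol, mul_add]; linarith
    have hV2 : v - t * (κ + ε / (4 * (P * π + 1))) ≤ V := by rw [hvol, mul_add]; linarith
    -- criticality
    have hVr : V ∈ Icc (1 / 40 : ℝ) (1 / π) := by
      refine ⟨?_, hV1.trans hv.le⟩
      linarith [ht.2, Real.pi_gt_three]
    have h4 := hmin _ _ hE.meas (image_downset hdown p k) hVr (Weighted.relPerLE_relPer hE)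
    have hbv : ballTube v = √(π * v) := ballTube_eq_tube (by linarith [ht.2, hV2, hV1])
    have hbV : ballTube V = √(π * V) := ballTube_eq_tube (by linarith [ht.2, hV2])
    have hpv : π * v = 1 := by rw [hv]; field_simp
    rw [hbv, hbV, hpv, Real.sqrt_one, div_one] at h4
    have hsq : π * V ≤ √(π * V) := by
      refine Real.le_sqrt_of_sq_le ?_
      have h01 : π * V ≤ 1 := by rw [← hpv]; gcongr
      exact pow_le_of_le_one (mul_nonneg Real.pi_pos.le (by linarith [hVr.1])) h01 two_ne_zero
    have h5 : P * (π * V) ≤ wPer (image p k D) 0 :=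
      (mul_le_mul_of_nonneg_left hsq hP0).trans h4
    have h6 : P - t * (P * π * (κ + ε / (4 * (P * π + 1)))) ≤ P * (π * V) := by
      have := mul_le_mul_of_nonneg_left hV2 (mul_nonneg hP0 Real.pi_pos.le)
      have e : P * π * v = P := by rw [mul_assoc, hpv, mul_one]
      linarith
    refine le_of_mul_le_mul_left ?_ ht'
    simp only [one_mul, sub_zero] at h1
    linarith
  have hlim : W + σ * l ≤ (1 + σ) * C + (1 + σ) * η + P * π * (κ + ε / (4 * (P * π + 1))) := by
    refine ge_of_tendsto (x := 𝓝[>] (0 : ℝ)) ?_ step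
    have ht0 : Tendsto (fun t : ℝ => t) (𝓝[>] 0) (𝓝 0) :=
      tendsto_nhdsWithin_of_tendsto_nhds tendsto_id
    simpa using (ht0.const_mul (2 * P * (1 + σ) ^ 2)).const_add
      ((1 + σ) * C + (1 + σ) * η + P * π * (κ + ε / (4 * (P * π + 1))))
  have e1 : P * π * (ε / (4 * (P * π + 1))) ≤ ε / 4 := by
    calc P * π * (ε / (4 * (P * π + 1))) ≤ (P * π + 1) * (ε / (4 * (P * π + 1))) := by
          gcongr; linarith
      _ = ε / 4 := by field_simp
  have e2 : (1 + σ) * C = lam * (v - m) + lam * (A - v - κ) + (1 + σ) * l := by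
    rw [hC]; linear_combination lam * hσb
  linarith [mul_nonneg hlam hκ0.le]

end Vale.Agent.P232.Bottom
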