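import Vale.Agent.P232.SliceBasics

/-!
Slice fields: planar fields depending Lipschitz on the height, and the test inequality they give.
-/

open MeasureTheory Set Filter
open scoped NNReal Topology

namespace Vale.Agent.P232

variable {D : Set R3} {k : Fin 3}

/-- A planar field depending on the height, jointly Lipschitz, of length at most one, tangent. -/
structure IsSliceField (p q : ℝ × (ℝ × ℝ) → ℝ) : Prop where
  lip_fst : ∃ K : ℝ≥0, LipschitzWith K p
  lip_snd : ∃ K : ℝ≥0, LipschitzWith K q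
  norm_le : ∀ u, p u ^ 2 + q u ^ 2 ≤ 1
  tangent_fst : ∀ u : ℝ × (ℝ × ℝ), u.2.1 = 0 ∨ u.2.1 = 1 → p u = 0
  tangent_snd : ∀ u : ℝ × (ℝ × ℝ), u.2.2 = 0 ∨ u.2.2 = 1 → q u = 0

/-- The divergence of a slice field at a given height. -/
noncomputable def dvS (p q : ℝ × (ℝ × ℝ) → ℝ) (u : ℝ × (ℝ × ℝ)) : ℝ :=
  deriv (fun s => p (u.1, (s, u.2.2))) u.2.1 + deriv (fun t => q (u.1, (u.2.1, t))) u.2.2

/-- The flux of a slice field through the slice at height `z`. -/
noncomputable def fluxS (p q : ℝ × (ℝ × ℝ) → ℝ) (D : Set R3) (k : Fin 3) (z : ℝ) : ℝ :=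
  flux (fun w => p (z, w)) (fun w => q (z, w)) (slice D k z)

theorem fluxS_eq (p q : ℝ × (ℝ × ℝ) → ℝ) (z : ℝ) :
    fluxS p q D k z = ∫ w in slice D k z, dvS p q (z, w) := rfl

theorem lipschitz_line {K : ℝ≥0} {f : ℝ × (ℝ × ℝ) → ℝ} (hf : LipschitzWith K f) (z y : ℝ) :
    LipschitzWith K (fun s => f (z, (s, y))) ∧ LipschitzWith K (fun t => f (z, (y, t))) := by
  constructor <;>
  · refine LipschitzWith.of_dist_le_mul fun a b => ?_
    refine (hf.dist_le_mul _ _).trans (le_of_eq ?_)
    simp [Prod.dist_eq]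

theorem norm_dvS_le {K L : ℝ≥0} {p q : ℝ × (ℝ × ℝ) → ℝ} (hp : LipschitzWith K p)
    (hq : LipschitzWith L q) (u : ℝ × (ℝ × ℝ)) : ‖dvS p q u‖ ≤ K + L := by
  refine (norm_add_le _ _).trans (add_le_add ?_ ?_)
  · exact norm_deriv_le_of_lipschitz (lipschitz_line hp u.1 u.2.2).1
  · exact norm_deriv_le_of_lipschitz (lipschitz_line hq u.1 u.2.1).2

theorem measurable_dvS {p q : ℝ × (ℝ × ℝ) → ℝ} (hp : Continuous p) (hq : Continuous q) :
    Measurable (dvS p q) := by
  have h1 : Measurable fun a : (ℝ × ℝ) × ℝ => deriv (fun s => p (a.1.1, (s, a.1.2))) a.2 :=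
    measurable_deriv_with_param (f := fun (a : ℝ × ℝ) s => p (a.1, (s, a.2)))
      (hp.comp (by fun_prop))
  have h2 : Measurable fun a : (ℝ × ℝ) × ℝ => deriv (fun t => q (a.1.1, (a.1.2, t))) a.2 :=
    measurable_deriv_with_param (f := fun (a : ℝ × ℝ) t => q (a.1, (a.2, t)))
      (hq.comp (by fun_prop))
  exact (h1.comp (g := _) ((measurable_fst.prodMk (measurable_snd.comp measurable_snd)).prodMk
      (measurable_fst.comp measurable_snd))).add
    (h2.comp ((measurable_fst.prodMk (measurable_fst.comp measurable_snd)).prodMk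
      (measurable_snd.comp measurable_snd)))

theorem IsSliceField.measurable_fluxS {p q : ℝ × (ℝ × ℝ) → ℝ} (h : IsSliceField p q)
    (hD : MeasurableSet D) : Measurable (fluxS p q D k) := by
  obtain ⟨K, hK⟩ := h.lip_fst
  obtain ⟨L, hL⟩ := h.lip_snd
  have hm : StronglyMeasurable (((fun u : ℝ × (ℝ × ℝ) => ins k u.1 u.2) ⁻¹' D).indicator
      (dvS p q)) :=
    ((measurable_dvS hK.continuous hL.continuous).indicator
      ((measurable_ins k) hD)).stronglyMeasurable
  have := (hm.integral_prod_right' (ν := (volume : Measure (ℝ × ℝ)))).measurable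
  convert this using 1
  funext z
  rw [fluxS_eq, ← integral_indicator (measurableSet_slice hD k z)]
  rfl

theorem IsSliceField.exists_bound {p q : ℝ × (ℝ × ℝ) → ℝ} (h : IsSliceField p q)
    (hc : D ⊆ cell) : ∃ C, ∀ z, ‖fluxS p q D k z‖ ≤ C := by
  obtain ⟨K, hK⟩ := h.lip_fst
  obtain ⟨L, hL⟩ := h.lip_snd
  refine ⟨K + L, fun z => ?_⟩
  rw [fluxS_eq]
  refine (norm_setIntegral_le_of_norm_le_const (lt_top_iff_ne_top.2 (volume_slice_ne_top hc k z))
    fun w _ => norm_dvS_le hK hL _).trans ?_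
  calc (K + L : ℝ) * volume.real (slice D k z) ≤ (K + L : ℝ) * 1 :=
        mul_le_mul_of_nonneg_left (sliceArea_le_one hc k z) (by positivity)
    _ = _ := mul_one _

theorem fluxS_eq_zero (hc : D ⊆ cell) (p q : ℝ × (ℝ × ℝ) → ℝ) {z : ℝ}
    (hz : z ∉ Ico (0 : ℝ) 1) : fluxS p q D k z = 0 := by
  simp [fluxS_eq, slice_eq_empty hc hz]

theorem IsSliceField.integrable_fluxS {p q : ℝ × (ℝ × ℝ) → ℝ} (h : IsSliceField p q)
    (hD : MeasurableSet D) (hc : D ⊆ cell) : Integrable (fluxS p q D k) := by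
  obtain ⟨C, hC⟩ := h.exists_bound (k := k) hc
  have h1 : IntegrableOn (fluxS p q D k) (Ico (0 : ℝ) 1) :=
    IntegrableOn.of_bound (by simp [Real.volume_Ico])
      (h.measurable_fluxS hD).aestronglyMeasurable C (Eventually.of_forall fun z => hC z)
  refine h1.integrable_of_forall_notMem_eq_zero fun z hz => fluxS_eq_zero hc p q hz

theorem integrable_sliceArea (hD : MeasurableSet D) (hc : D ⊆ cell) (k : Fin 3) :
    Integrable (sliceArea D k) := by
  have h1 : IntegrableOn (sliceArea D k) (Ico (0 : ℝ) 1) :=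
    IntegrableOn.of_bound (by simp [Real.volume_Ico])
      (measurable_sliceArea hD k).aestronglyMeasurable 1
      (Eventually.of_forall fun z => by
        rw [Real.norm_of_nonneg (sliceArea_nonneg D k z)]; exact sliceArea_le_one hc k z)
  exact h1.integrable_of_forall_notMem_eq_zero fun z hz => sliceArea_eq_zero hc hz

theorem dv_insField {K : ℝ≥0} {g : ℝ → ℝ} {p q : ℝ × (ℝ × ℝ) → ℝ}
    {X : R3 → R3} (_hX : LipschitzWith K X)
    (hXeq : ∀ x, X x = ins k (g (outL k x).1) (p (outL k x), q (outL k x))) {u : ℝ × (ℝ × ℝ)}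
    (hd : DifferentiableAt ℝ X (ins k u.1 u.2)) :
    dv X (ins k u.1 u.2) = deriv g u.1 + dvS p q u := by
  have hX' : HasFDerivAt (fun v => X (insL k v))
      ((fderiv ℝ X (ins k u.1 u.2)).comp (insL k)) u :=
    HasFDerivAt.comp u (by simpa [insL_apply] using hd.hasFDerivAt) (insL k).hasFDerivAt
  have hsimp : ∀ v : ℝ × (ℝ × ℝ), X (insL k v) = ins k (g v.1) (p v, q v) := by
    intro v; rw [hXeq, insL_apply, outL_ins]
  have hcomp : ∀ i, HasFDerivAt (fun v => X (insL k v) i)
      (((EuclideanSpace.proj i : R3 →L[ℝ] ℝ)).comp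
        ((fderiv ℝ X (ins k u.1 u.2)).comp (insL k))) u := by
    intro i
    exact (EuclideanSpace.proj i : R3 →L[ℝ] ℝ).hasFDerivAt.comp u hX'
  -- the three partial derivatives
  have e1 : deriv g u.1 = fderiv ℝ X (ins k u.1 u.2) (e k) k := by
    have hline : HasDerivAt (fun s : ℝ => ((s, u.2) : ℝ × (ℝ × ℝ))) (1, 0) u.1 :=
      (hasDerivAt_id u.1).prodMk (hasDerivAt_const u.1 u.2)
    have h := (hcomp k).comp_hasDerivAt u.1 hline
    simp only [Function.comp_def, hsimp, ins_apply_self] at h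
    rw [h.deriv]
    simp only [ContinuousLinearMap.coe_comp, Function.comp_apply, insL_apply]
    refine congrArg (fun v => fderiv ℝ X (ins k u.1 u.2) v _) ?_
    ext i
    rcases Fin.eq_self_or_eq_succAbove k i with rfl | ⟨j, rfl⟩
    · simp [ins_apply_self, e]
    · fin_cases j <;> simp [ins_apply_succAbove, e, Fin.succAbove_ne]
  have e2 : deriv (fun s => p (u.1, (s, u.2.2))) u.2.1
      = fderiv ℝ X (ins k u.1 u.2) (e (k.succAbove 0)) (k.succAbove 0) := by
    have hline : HasDerivAt (fun s : ℝ => ((u.1, (s, u.2.2)) : ℝ × (ℝ × ℝ))) (0, (1, 0))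
        u.2.1 :=
      (hasDerivAt_const u.2.1 u.1).prodMk ((hasDerivAt_id u.2.1).prodMk (hasDerivAt_const _ _))
    have h := (hcomp (k.succAbove 0)).comp_hasDerivAt u.2.1 hline
    simp only [Function.comp_def, hsimp, ins_apply_succAbove] at h
    simp only [Matrix.cons_val_zero] at h
    rw [h.deriv]
    simp only [ContinuousLinearMap.coe_comp, Function.comp_apply, insL_apply]
    refine congrArg (fun v => fderiv ℝ X (ins k u.1 u.2) v _) ?_
    ext i
    rcases Fin.eq_self_or_eq_succAbove k i with rfl | ⟨j, rfl⟩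
    · simp [ins_apply_self, e, (Fin.succAbove_ne _ 0).symm]
    · fin_cases j <;> simp [ins_apply_succAbove, e]
  have e3 : deriv (fun t => q (u.1, (u.2.1, t))) u.2.2
      = fderiv ℝ X (ins k u.1 u.2) (e (k.succAbove 1)) (k.succAbove 1) := by
    have hline : HasDerivAt (fun t : ℝ => ((u.1, (u.2.1, t)) : ℝ × (ℝ × ℝ))) (0, (0, 1))
        u.2.2 :=
      (hasDerivAt_const u.2.2 u.1).prodMk ((hasDerivAt_const _ _).prodMk (hasDerivAt_id u.2.2))
    have h := (hcomp (k.succAbove 1)).comp_hasDerivAt u.2.2 hline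
    simp only [Function.comp_def, hsimp, ins_apply_succAbove] at h
    simp only [Matrix.cons_val_one, Matrix.cons_val_fin_one] at h
    rw [h.deriv]
    simp only [ContinuousLinearMap.coe_comp, Function.comp_apply, insL_apply]
    refine congrArg (fun v => fderiv ℝ X (ins k u.1 u.2) v _) ?_
    ext i
    rcases Fin.eq_self_or_eq_succAbove k i with rfl | ⟨j, rfl⟩
    · simp [ins_apply_self, e, (Fin.succAbove_ne _ 1).symm]
    · fin_cases j <;> simp [ins_apply_succAbove, e]
  rw [dv, Fin.sum_univ_succAbove _ k, Fin.sum_univ_two, dvS, e1, e2, e3]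

/-- The test inequality given by a vertical profile and a slice field. -/
theorem slice_calib (hD : MeasurableSet D) (hdown : IsDownset D) {P : ℝ} (hP : RelPerLE D P)
    (k : Fin 3) {g : ℝ → ℝ} {p q : ℝ × (ℝ × ℝ) → ℝ} (hg : ∃ K : ℝ≥0, LipschitzWith K g)
    (hg0 : g 0 = 0) (hg1 : g 1 = 0) (h : IsSliceField p q)
    (hn : ∀ u : ℝ × (ℝ × ℝ), g u.1 ^ 2 + (p u ^ 2 + q u ^ 2) ≤ 1) :
    (∫ z, deriv g z * sliceArea D k z) + ∫ z, fluxS p q D k z ≤ P := by
  obtain ⟨Kg, hKg⟩ := hg
  obtain ⟨Kp, hKp⟩ := h.lip_fst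
  obtain ⟨Kq, hKq⟩ := h.lip_snd
  set X : R3 → R3 := fun x => ins k (g (outL k x).1) (p (outL k x), q (outL k x)) with hXdef
  obtain ⟨K, hXL⟩ : ∃ K, LipschitzWith K X := by
    have h1 := (hKg.comp (LipschitzWith.prod_fst (α := ℝ) (β := ℝ × ℝ))).prodMk (hKp.prodMk hKq)
    exact ⟨_, ((insL k).lipschitz.comp h1).comp (outL k).lipschitz⟩
  have hcube : IsCubeField X := by
    refine ⟨⟨K, hXL⟩, fun x => ?_, fun x i hi => ?_⟩
    · have h2 : ‖X x‖ ^ 2 ≤ 1 := by rw [hXdef, norm_ins_sq]; exact hn _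
      nlinarith [norm_nonneg (X x)]
    · rcases Fin.eq_self_or_eq_succAbove k i with rfl | ⟨j, rfl⟩
      · simp only [hXdef, ins_apply_self, outL_apply]
        rcases hi with hi | hi <;> simp [hi, hg0, hg1]
      · fin_cases j
        · simp only [hXdef, ins_apply_succAbove]
          exact h.tangent_fst _ (by simpa [outL_apply] using hi)
        · simp only [hXdef, ins_apply_succAbove]
          exact h.tangent_snd _ (by simpa [outL_apply] using hi)
  have hfin : volume D < ⊤ := by
    have hm := (measurePreserving_ins k).measure_preimage hD.nullMeasurableSet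
    rw [← hm]
    have hsub : (fun u : ℝ × (ℝ × ℝ) => ins k u.1 u.2) ⁻¹' D ⊆ Ico (0 : ℝ) 1 ×ˢ square :=
      fun u hu => ins_mem_cell.1 (hdown.1 hu)
    refine lt_of_le_of_lt (measure_mono hsub) ?_
    rw [Measure.volume_eq_prod, Measure.prod_prod, volume_square, Real.volume_Ico]
    simp
  have hGm : Measurable fun u : ℝ × (ℝ × ℝ) => deriv g u.1 + dvS p q u :=
    ((measurable_deriv g).comp measurable_fst).add (measurable_dvS hKp.continuous hKq.continuous)
  set G : R3 → ℝ := fun x => deriv g (outL k x).1 + dvS p q (outL k x) with hG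
  have hGi : IntegrableOn G D :=
    IntegrableOn.of_bound hfin (hGm.comp (outL k).continuous.measurable).aestronglyMeasurable
      (Kg + (Kp + Kq)) (Eventually.of_forall fun x => (norm_add_le _ _).trans
        (add_le_add (norm_deriv_le_of_lipschitz hKg) (norm_dvS_le hKp hKq _)))
  have hae : ∀ᵐ x : R3, dv X x = G x := by
    filter_upwards [hXL.ae_differentiableAt (μ := volume)] with x hx
    have := dv_insField (k := k) hXL (fun y => rfl) (u := outL k x) (by rwa [ins_outL])
    rwa [ins_outL] at this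
  have h0 := hP X hcube
  rw [setIntegral_congr_ae hD (hae.mono fun x hx _ => hx), setIntegral_eq_slices (k := k) hD hGi]
    at h0
  have hga : Integrable fun z => deriv g z * sliceArea D k z :=
    (integrable_sliceArea hD hdown.1 k).bdd_mul (measurable_deriv g).aestronglyMeasurable
      (Eventually.of_forall fun z => norm_deriv_le_of_lipschitz hKg)
  rw [← integral_add hga (h.integrable_fluxS hD hdown.1)]
  refine le_trans (le_of_eq (integral_congr_ae (Eventually.of_forall fun z => ?_))) h0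
  have hw : IntegrableOn (fun w => dvS p q (z, w)) (slice D k z) :=
    IntegrableOn.of_bound (lt_top_iff_ne_top.2 (volume_slice_ne_top hdown.1 k z))
      ((measurable_dvS hKp.continuous hKq.continuous).comp
        measurable_prodMk_left).aestronglyMeasurable
      (Kp + Kq) (Eventually.of_forall fun w => norm_dvS_le hKp hKq _)
  simp only [hG, outL_ins]
  have hconst : IntegrableOn (fun _ : ℝ × ℝ => deriv g z) (slice D k z) :=
    integrableOn_const (volume_slice_ne_top hdown.1 k z)
  rw [integral_add hconst hw,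
    setIntegral_const, fluxS_eq, sliceArea, smul_eq_mul, measureReal_def]
  ring

end Vale.Agent.P232
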