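import Vale.Agent.P232.Helly
import Vale.Agent.P232.SliceField

/-!
Compactness of down-sets with bounded relative perimeter, and existence of minimisers of the
ratio `P / φ(volume)`.
-/

open MeasureTheory Set Filter Topology

namespace Vale.Agent.P232

theorem volume_cell_ne_top : volume cell ≠ ⊤ := by
  have hcell : MeasurableSet cell := by
    rw [cell, Set.ofPred_forall]
    exact MeasurableSet.iInter fun i =>
      measurableSet_Ico.preimage (EuclideanSpace.proj i : R3 →L[ℝ] ℝ).continuous.measurable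
  rw [← (measurePreserving_ins 0).measure_preimage hcell.nullMeasurableSet]
  have hsub : (fun u : ℝ × (ℝ × ℝ) => ins 0 u.1 u.2) ⁻¹' cell ⊆ Ico (0 : ℝ) 1 ×ˢ square :=
    fun u hu => ins_mem_cell.1 hu
  refine ne_top_of_le_ne_top ?_ (measure_mono hsub)
  rw [Measure.volume_eq_prod, Measure.prod_prod, volume_square, Real.volume_Ico]
  simp

theorem IsCubeField.zero : IsCubeField fun _ => 0 :=
  ⟨⟨0, LipschitzWith.const 0⟩, fun _ => by simp, fun _ _ _ => by simp⟩

theorem RelPerLE.nonneg {D : Set R3} {P : ℝ} (h : RelPerLE D P) : 0 ≤ P := by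
  simpa [dv] using h _ IsCubeField.zero

theorem measurable_dv_min (X : R3 → R3) : Measurable (dv X) :=
  Finset.measurable_sum _ fun i _ =>
    (EuclideanSpace.proj i : R3 →L[ℝ] ℝ).continuous.measurable.comp
      (measurable_fderiv_apply_const ℝ X (e i))

theorem abs_dv_le_lipschitz {X : R3 → R3} {K : NNReal} (hX : LipschitzWith K X) (x : R3) :
    |dv X x| ≤ 3 * K := by
  refine (Finset.abs_sum_le_sum_abs _ _).trans ?_
  calc ∑ i, |fderiv ℝ X x (e i) i| ≤ ∑ _i : Fin 3, (K : ℝ) := Finset.sum_le_sum fun i _ => ?_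
    _ = _ := by simp
  refine le_trans ?_ (((fderiv ℝ X x).le_opNorm (e i)).trans ?_)
  · rw [← Real.norm_eq_abs]; exact PiLp.norm_apply_le _ i
  · rw [show ‖e i‖ = 1 by simp [e], mul_one]; exact norm_fderiv_le_of_lipschitz ℝ hX

/-- Down-sets of converging volume and converging perimeter bound have a limit down-set. -/
theorem exists_limit_downset {D : ℕ → Set R3} (hD : ∀ n, MeasurableSet (D n))
    (hdown : ∀ n, IsDownset (D n)) {v : ℝ}
    (hv : Tendsto (fun n => (volume (D n)).toReal) atTop (𝓝 v)) {P : ℕ → ℝ} {P' : ℝ}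
    (hP : ∀ n, RelPerLE (D n) (P n)) (hP' : Tendsto P atTop (𝓝 P')) :
    ∃ D', MeasurableSet D' ∧ IsDownset D' ∧ (volume D').toReal = v ∧ RelPerLE D' P' := by
  classical
  let lift : (Fin 3 → ℝ) → R3 := fun x => WithLp.toLp 2 fun i => max (x i) 0
  let h : ℕ → (Fin 3 → ℝ) → ℝ := fun n x => if lift x ∈ D n then 1 else 0
  have hlift : ∀ n x y, x ≤ y → lift y ∈ D n → lift x ∈ D n := fun n x y hxy hy =>
    (hdown n).2 _ hy _ (fun i => ⟨le_max_right _ _,
        lt_of_le_of_lt (max_le_max (hxy i) le_rfl) ((hdown n).1 hy i).2⟩)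
      fun i => max_le_max (hxy i) le_rfl
  have ha : ∀ n, Antitone (h n) := fun n x y hxy => by
    simp only [h]
    split_ifs with h1 h2
    exacts [le_rfl, absurd (hlift n x y hxy h1) h2, zero_le_one, le_rfl]
  have h01 : ∀ n x, h n x ∈ Icc (0 : ℝ) 1 := fun n x => by
    simp only [h]; split_ifs <;> simp
  obtain ⟨φ, hφ, f, hf, -, hlim⟩ := exists_ae_tendsto_of_antitone h ha h01
  let S : Set (Fin 3 → ℝ) := {x | (1 / 2 : ℝ) < f x}
  have hlow : IsLowerSet S := fun x y hyx hx => lt_of_lt_of_le hx (hf hyx)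
  let D' : Set R3 := cell ∩ WithLp.ofLp ⁻¹' interior S
  have hcell : MeasurableSet cell := by
    rw [cell, Set.ofPred_forall]
    exact MeasurableSet.iInter fun i =>
      measurableSet_Ico.preimage (EuclideanSpace.proj i : R3 →L[ℝ] ℝ).continuous.measurable
  have hofLp : Measurable (WithLp.ofLp : R3 → Fin 3 → ℝ) :=
    (PiLp.continuous_ofLp 2 _).measurable
  have hD' : MeasurableSet D' := hcell.inter (hofLp isOpen_interior.measurableSet)
  have hdown' : IsDownset D' := ⟨inter_subset_left, fun x hx y hy hyx =>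
    ⟨hy, hlow.interior (a := WithLp.ofLp x) (b := WithLp.ofLp y) hyx hx.2⟩⟩
  -- the indicators converge almost everywhere
  have hae : ∀ᵐ x : R3, Tendsto (fun k => (D (φ k)).indicator (fun _ => (1 : ℝ)) x) atTop
      (𝓝 (D'.indicator (fun _ => (1 : ℝ)) x)) := by
    have hmp : MeasurePreserving (WithLp.ofLp : R3 → Fin 3 → ℝ) :=
      PiLp.volume_preserving_ofLp (Fin 3)
    filter_upwards [hmp.quasiMeasurePreserving.ae hlim,
      hmp.quasiMeasurePreserving.ae (measure_eq_zero_iff_ae_notMem.1 hlow.null_frontier)]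
      with x hx hfr
    by_cases hxc : x ∈ cell
    · have hl : lift (WithLp.ofLp x) = x := by
        ext i; exact max_eq_left (hxc i).1
      have hx' : Tendsto (fun k => (D (φ k)).indicator (fun _ => (1 : ℝ)) x) atTop
          (𝓝 (f (WithLp.ofLp x))) := by
        refine hx.congr fun k => ?_
        simp [h, hl, indicator]
      have hfval : f (WithLp.ofLp x) = 0 ∨ f (WithLp.ofLp x) = 1 := by
        have := ((Set.toFinite ({0, 1} : Set ℝ)).isClosed).mem_of_tendsto hx'
          (Eventually.of_forall fun k => by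
            by_cases hk : x ∈ D (φ k)
            · exact Or.inr (by simp [hk])
            · exact Or.inl (by simp [hk]))
        exact this
      have hiff : x ∈ D' ↔ (1 / 2 : ℝ) < f (WithLp.ofLp x) := by
        refine ⟨fun hh => interior_subset (s := S) hh.2, fun hh => ⟨hxc, ?_⟩⟩
        by_contra hni
        exact hfr ⟨subset_closure hh, hni⟩
      rcases hfval with h0 | h0
      · rw [indicator_of_notMem (fun hh => by have := hiff.1 hh; linarith)]
        rwa [h0] at hx'
      · rw [indicator_of_mem (hiff.2 (by rw [h0]; norm_num))]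
        rwa [h0] at hx'
    · refine tendsto_const_nhds.congr fun k => ?_
      rw [indicator_of_notMem fun hh : x ∈ D' => hxc hh.1,
        indicator_of_notMem fun hh : x ∈ D (φ k) => hxc ((hdown (φ k)).1 hh)]
  have hint : ∀ g : R3 → ℝ, Measurable g → (∃ C, ∀ x, |g x| ≤ C) →
      Tendsto (fun k => ∫ x in D (φ k), g x) atTop (𝓝 (∫ x in D', g x)) := by
    rintro g hg ⟨C, hC⟩
    have e : ∀ s : Set R3, MeasurableSet s → s ⊆ cell →
        ∫ x in s, g x = ∫ x in cell, s.indicator (fun _ => (1 : ℝ)) x * g x := by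
      intro s hs hsc
      rw [← inter_eq_self_of_subset_right hsc, ← setIntegral_indicator hs,
        inter_eq_self_of_subset_right hsc]
      refine setIntegral_congr_fun hcell fun x _ => ?_
      by_cases hxs : x ∈ s <;> simp [hxs]
    simp only [e _ hD' hdown'.1, fun k => e _ (hD (φ k)) (hdown (φ k)).1]
    refine tendsto_integral_of_dominated_convergence (fun _ => C)
      (fun k => ((measurable_const.indicator (hD (φ k))).mul hg).aestronglyMeasurable)
      (integrableOn_const volume_cell_ne_top) (fun k => Eventually.of_forall fun x => ?_)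
      (ae_restrict_of_ae (hae.mono fun x hx => hx.mul_const _))
    have := (abs_nonneg (g x)).trans (hC x)
    by_cases hxs : x ∈ D (φ k)
    · simp [hxs, hC x]
    · simp [hxs, this]
  refine ⟨D', hD', hdown', ?_, fun X hX => ?_⟩
  · have h1 := hint (fun _ => 1) measurable_const ⟨1, fun _ => by simp⟩
    simp only [setIntegral_const, smul_eq_mul, mul_one, measureReal_def] at h1
    exact tendsto_nhds_unique h1 (hv.comp hφ.tendsto_atTop)
  · obtain ⟨K, hK⟩ := hX.lipschitz
    exact le_of_tendsto_of_tendsto' (hint (dv X) (measurable_dv_min X) ⟨_, abs_dv_le_lipschitz hK⟩)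
      (hP'.comp hφ.tendsto_atTop) fun k => hP (φ k) X hX

/-- A down-set minimising `P / φ(v)` over the volumes `v` in `[a, b]`. -/
theorem exists_minimizer {a b : ℝ} {φ : ℝ → ℝ} (hφ : ContinuousOn φ (Icc a b))
    (hpos : ∀ v ∈ Icc a b, 0 < φ v)
    (hne : ∃ D P, MeasurableSet D ∧ IsDownset D ∧ (volume D).toReal ∈ Icc a b ∧ RelPerLE D P) :
    ∃ D P, MeasurableSet D ∧ IsDownset D ∧ (volume D).toReal ∈ Icc a b ∧ RelPerLE D P ∧
      ∀ D' P', MeasurableSet D' → IsDownset D' → (volume D').toReal ∈ Icc a b → RelPerLE D' P' →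
        P / φ (volume D).toReal ≤ P' / φ (volume D').toReal := by
  classical
  let T : Set ℝ := {r | ∃ D P, MeasurableSet D ∧ IsDownset D ∧ (volume D).toReal ∈ Icc a b ∧
    RelPerLE D P ∧ r = P / φ (volume D).toReal}
  have hbdd : BddBelow T := ⟨0, by
    rintro r ⟨D, P, -, -, hv, hP, rfl⟩
    exact div_nonneg hP.nonneg (hpos _ hv).le⟩
  have hneT : T.Nonempty := by
    obtain ⟨D, P, h1, h2, h3, h4⟩ := hne
    exact ⟨_, D, P, h1, h2, h3, h4, rfl⟩
  obtain ⟨r, -, hr, hrT⟩ := exists_seq_tendsto_sInf hneT hbdd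
  choose D P hD hdown hv hP hrP using hrT
  obtain ⟨v, hvI, ψ, hψ, hvlim⟩ := isCompact_Icc.isSeqCompact hv
  have hPlim : Tendsto (fun n => P (ψ n)) atTop (𝓝 (sInf T * φ v)) := by
    have h1 := (hr.comp hψ.tendsto_atTop).mul ((hφ v hvI).tendsto.comp
      (tendsto_nhdsWithin_iff.2 ⟨hvlim, Eventually.of_forall fun n => hv (ψ n)⟩))
    refine h1.congr fun n => ?_
    simp only [Function.comp_apply, hrP]
    rw [div_mul_cancel₀]
    exact (hpos _ (hv (ψ n))).ne'
  obtain ⟨D', h1, h2, h3, h4⟩ := exists_limit_downset (fun n => hD (ψ n)) (fun n => hdown (ψ n))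
    hvlim (fun n => hP (ψ n)) hPlim
  refine ⟨D', _, h1, h2, h3 ▸ hvI, h4, fun D'' P'' k1 k2 k3 k4 => ?_⟩
  rw [h3, mul_div_assoc, div_self (hpos v hvI).ne', mul_one]
  exact csInf_le hbdd ⟨D'', P'', k1, k2, k3, k4, rfl⟩

end Vale.Agent.P232
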