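import Vale.Agent.P232.SliceField

/-!
Choosing a slice field: the flux of some slice field almost dominates, in integral, every bound
that holds slice by slice.
-/

open MeasureTheory Set Filter
open scoped NNReal Topology

namespace Vale.Agent.P232

variable {D : Set R3} {k : Fin 3}

theorem IsSliceField.abs_fst_le {p q : ℝ × (ℝ × ℝ) → ℝ} (h : IsSliceField p q) (u) :
    |p u| ≤ 1 :=
  (sq_le_one_iff_abs_le_one _).1 (by nlinarith [h.norm_le u, sq_nonneg (q u)])

theorem IsSliceField.abs_snd_le {p q : ℝ × (ℝ × ℝ) → ℝ} (h : IsSliceField p q) (u) :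
    |q u| ≤ 1 :=
  (sq_le_one_iff_abs_le_one _).1 (by nlinarith [h.norm_le u, sq_nonneg (p u)])

theorem lipschitz_mul {α : Type*} [PseudoMetricSpace α] {f g : α → ℝ} {K L : ℝ≥0}
    (hf : LipschitzWith K f) (hg : LipschitzWith L g) (hf1 : ∀ x, |f x| ≤ 1)
    (hg1 : ∀ x, |g x| ≤ 1) : LipschitzWith (K + L) fun x => f x * g x := by
  refine LipschitzWith.of_dist_le_mul fun x y => ?_
  rw [Real.dist_eq]
  have h1 := hf.dist_le_mul x y
  have h2 := hg.dist_le_mul x y
  rw [Real.dist_eq] at h1 h2
  calc |f x * g x - f y * g y| = |(f x - f y) * g x + f y * (g x - g y)| := by ring_nf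
    _ ≤ |f x - f y| * |g x| + |f y| * |g x - g y| := by
        rw [← abs_mul, ← abs_mul]; exact abs_add_le _ _
    _ ≤ |f x - f y| * 1 + 1 * |g x - g y| := by
        gcongr
        · exact hg1 x
        · exact hf1 y
    _ ≤ _ := by push_cast; linarith

theorem IsSqField.toSlice {p q : ℝ × ℝ → ℝ} (h : IsSqField p q) :
    IsSliceField (fun u => p u.2) (fun u => q u.2) := by
  obtain ⟨K, hK⟩ := h.lip_fst
  obtain ⟨L, hL⟩ := h.lip_snd
  exact ⟨⟨_, hK.comp LipschitzWith.prod_snd⟩, ⟨_, hL.comp LipschitzWith.prod_snd⟩,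
    fun u => h.norm_le u.2, fun u hu => h.tangent_fst u.2 hu, fun u hu => h.tangent_snd u.2 hu⟩

theorem isSqField_zero : IsSqField (fun _ => 0) (fun _ => 0) :=
  ⟨⟨0, LipschitzWith.const 0⟩, ⟨0, LipschitzWith.const 0⟩, by simp, fun _ _ => rfl, fun _ _ => rfl⟩

theorem fluxS_toSlice (p q : ℝ × ℝ → ℝ) (z : ℝ) :
    fluxS (fun u => p u.2) (fun u => q u.2) D k z = flux p q (slice D k z) := rfl

theorem flux_zero (B : Set (ℝ × ℝ)) : flux (fun _ => 0) (fun _ => 0) B = 0 := by
  simp [flux, dv2]

/-- The blend of two fields with a weight depending on the height. -/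
noncomputable def blend (w : ℝ → ℝ) (p p' : ℝ × (ℝ × ℝ) → ℝ) (u : ℝ × (ℝ × ℝ)) : ℝ :=
  w u.1 * p u + (1 - w u.1) * p' u

theorem IsSliceField.blend {p q p' q' : ℝ × (ℝ × ℝ) → ℝ} (h : IsSliceField p q)
    (h' : IsSliceField p' q') {w : ℝ → ℝ} {K : ℝ≥0} (hw : LipschitzWith K w)
    (hw01 : ∀ z, w z ∈ Icc (0 : ℝ) 1) : IsSliceField (blend w p p') (blend w q q') := by
  have hwu : LipschitzWith (K * 1) fun u : ℝ × (ℝ × ℝ) => w u.1 := hw.comp LipschitzWith.prod_fst
  have hwu' : LipschitzWith (0 + K * 1) fun u : ℝ × (ℝ × ℝ) => 1 - w u.1 :=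
    (LipschitzWith.const (1 : ℝ)).sub hwu
  have hb : ∀ u : ℝ × (ℝ × ℝ), |w u.1| ≤ 1 := fun u =>
    abs_le.2 ⟨by linarith [(hw01 u.1).1], (hw01 u.1).2⟩
  have hb' : ∀ u : ℝ × (ℝ × ℝ), |1 - w u.1| ≤ 1 := fun u =>
    abs_le.2 ⟨by linarith [(hw01 u.1).2], by linarith [(hw01 u.1).1]⟩
  obtain ⟨A, hA⟩ := h.lip_fst
  obtain ⟨B, hB⟩ := h.lip_snd
  obtain ⟨A', hA'⟩ := h'.lip_fst
  obtain ⟨B', hB'⟩ := h'.lip_snd
  refine ⟨⟨_, (lipschitz_mul hwu hA hb h.abs_fst_le).add (lipschitz_mul hwu' hA' hb' h'.abs_fst_le)⟩,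
    ⟨_, (lipschitz_mul hwu hB hb h.abs_snd_le).add (lipschitz_mul hwu' hB' hb' h'.abs_snd_le)⟩,
    fun u => ?_, fun u hu => ?_, fun u hu => ?_⟩
  · have hp := h.norm_le u
    have hp' := h'.norm_le u
    have h0 := (hw01 u.1).1
    have h1 := (hw01 u.1).2
    have hi : (p u * p' u + q u * q' u) ≤ 1 := by
      nlinarith [sq_nonneg (p u - p' u), sq_nonneg (q u - q' u)]
    simp only [Vale.Agent.P232.blend]
    nlinarith [mul_le_mul_of_nonneg_left hp (sq_nonneg (w u.1)),
      mul_le_mul_of_nonneg_left hp' (sq_nonneg (1 - w u.1)),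
      mul_le_mul_of_nonneg_left hi (mul_nonneg h0 (sub_nonneg.2 h1))]
  · simp [Vale.Agent.P232.blend, h.tangent_fst u hu, h'.tangent_fst u hu]
  · simp [Vale.Agent.P232.blend, h.tangent_snd u hu, h'.tangent_snd u hu]

theorem ae_differentiable_partials {p : ℝ × ℝ → ℝ} {K : ℝ≥0} (hp : LipschitzWith K p) :
    ∀ᵐ w : ℝ × ℝ, DifferentiableAt ℝ (fun s => p (s, w.2)) w.1 ∧
      DifferentiableAt ℝ (fun t => p (w.1, t)) w.2 := by
  filter_upwards [hp.ae_differentiableAt (μ := volume)] with w hw
  exact ⟨DifferentiableAt.comp (f := fun s : ℝ => (s, w.2)) w.1 hw (by fun_prop),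
    DifferentiableAt.comp (f := fun t : ℝ => (w.1, t)) w.2 hw (by fun_prop)⟩

theorem fluxS_blend {p q p' q' : ℝ × (ℝ × ℝ) → ℝ} (h : IsSliceField p q)
    (h' : IsSliceField p' q') (hD : MeasurableSet D) (hc : D ⊆ cell) (w : ℝ → ℝ) (z : ℝ) :
    fluxS (blend w p p') (blend w q q') D k z
      = w z * fluxS p q D k z + (1 - w z) * fluxS p' q' D k z := by
  obtain ⟨A, hA⟩ := h.lip_fst
  obtain ⟨B, hB⟩ := h.lip_snd
  obtain ⟨A', hA'⟩ := h'.lip_fst
  obtain ⟨B', hB'⟩ := h'.lip_snd
  have hz : LipschitzWith 1 fun v : ℝ × ℝ => ((z, v) : ℝ × (ℝ × ℝ)) :=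
    LipschitzWith.of_dist_le_mul fun a b => by simp [Prod.dist_eq]
  have hi : ∀ {p q : ℝ × (ℝ × ℝ) → ℝ} {A B : ℝ≥0}, LipschitzWith A p → LipschitzWith B q →
      IntegrableOn (fun v => dvS p q (z, v)) (slice D k z) := fun hA hB =>
    IntegrableOn.of_bound (lt_top_iff_ne_top.2 (volume_slice_ne_top hc k z))
      ((measurable_dvS hA.continuous hB.continuous).comp measurable_prodMk_left).aestronglyMeasurable
      _ (Eventually.of_forall fun v => norm_dvS_le hA hB _)
  simp only [fluxS_eq]
  rw [← MeasureTheory.integral_const_mul, ← MeasureTheory.integral_const_mul,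
    ← integral_add ((hi hA hB).const_mul _) ((hi hA' hB').const_mul _)]
  refine setIntegral_congr_ae (measurableSet_slice hD k z) ?_
  filter_upwards [ae_differentiable_partials (hA.comp hz), ae_differentiable_partials (hB.comp hz),
    ae_differentiable_partials (hA'.comp hz), ae_differentiable_partials (hB'.comp hz)]
    with v a b a' b' _
  simp only [Function.comp_def] at a b a' b'
  have e1 := ((a.1.hasDerivAt.const_mul (w z)).fun_add (a'.1.hasDerivAt.const_mul (1 - w z))).deriv
  have e2 := ((b.2.hasDerivAt.const_mul (w z)).fun_add (b'.2.hasDerivAt.const_mul (1 - w z))).deriv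
  simp only [dvS, blend]
  rw [e1, e2]
  ring

/-- Two slice fields can be blended to have, in integral, almost the larger flux. -/
theorem exists_blend_ge {p q p' q' : ℝ × (ℝ × ℝ) → ℝ} (h : IsSliceField p q)
    (h' : IsSliceField p' q') (hD : MeasurableSet D) (hc : D ⊆ cell) {u v ε : ℝ} (hε : 0 < ε) :
    ∃ P Q, IsSliceField P Q ∧
      (∀ z, fluxS P Q D k z ≤ max (fluxS p q D k z) (fluxS p' q' D k z)) ∧
      ∫ z in Ioo u v, max (fluxS p q D k z) (fluxS p' q' D k z)
        ≤ (∫ z in Ioo u v, fluxS P Q D k z) + ε := by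
  set F := fluxS p q D k with hF
  set G := fluxS p' q' D k with hG
  have hFi : Integrable F := h.integrable_fluxS hD hc
  have hGi : Integrable G := h'.integrable_fluxS hD hc
  set I := Ioo u v with hI
  have hIm : (volume.restrict I).real univ = volume.real I := by simp [Measure.real]
  obtain ⟨η, hη, hηlen⟩ : ∃ η > 0, η * volume.real I ≤ ε / 2 := by
    refine ⟨ε / 2 / (volume.real I + 1), by positivity, ?_⟩
    rw [div_mul_eq_mul_div, div_le_iff₀ (by positivity)]
    nlinarith [measureReal_nonneg (μ := volume) (s := I)]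
  obtain ⟨φ, hφc, hφs, hφ⟩ := MemLp.exist_eLpNorm_sub_le (μ := volume) ENNReal.one_ne_top le_rfl
    (f := F - G) (memLp_one_iff_integrable.2 (hFi.sub hGi)) (half_pos hε)
  obtain ⟨K, hK⟩ : ∃ K, LipschitzWith K φ :=
    hφs.lipschitzWith_of_hasCompactSupport hφc (by simp)
  set w : ℝ → ℝ := fun z => max 0 (min 1 (φ z * η⁻¹)) with hw
  have hw01 : ∀ z, w z ∈ Icc (0 : ℝ) 1 := fun z =>
    ⟨le_max_left _ _, max_le zero_le_one (min_le_left _ _)⟩
  obtain ⟨L, hwL⟩ : ∃ L, LipschitzWith L w :=
    ⟨_, (((lipschitzWith_smul η⁻¹).comp hK).const_min 1).const_max 0 |>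
      fun hh => (by
        have heq : w = fun z => max 0 (min 1 ((fun x => η⁻¹ • φ x) z)) := by
          funext z; simp [hw, mul_comm]
        rw [heq]; exact hh)⟩
  have hB := h.blend h' hwL hw01
  refine ⟨_, _, hB, fun z => ?_, ?_⟩
  · rw [fluxS_blend h h' hD hc]
    have := hw01 z
    nlinarith [le_max_left (F z) (G z), le_max_right (F z) (G z), this.1, this.2,
      mul_le_mul_of_nonneg_left (le_max_left (F z) (G z)) this.1,
      mul_le_mul_of_nonneg_left (le_max_right (F z) (G z)) (sub_nonneg.2 this.2)]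
  · set H := fluxS (blend w p p') (blend w q q') D k with hH
    have hHi : Integrable H := hB.integrable_fluxS hD hc
    have hφi : Integrable φ := hK.continuous.integrable_of_hasCompactSupport hφc
    have hn : ∫ z, |F z - G z - φ z| ≤ ε / 2 := by
      have h1 := ENNReal.toReal_le_of_le_ofReal (half_pos hε).le hφ
      rw [eLpNorm_one_eq_lintegral_enorm] at h1
      have hi2 : Integrable fun z => |F z - G z - φ z| := ((hFi.sub hGi).sub hφi).abs
      rw [integral_eq_lintegral_of_nonneg_ae (Eventually.of_forall fun z => abs_nonneg _)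
        hi2.aestronglyMeasurable]
      refine le_trans (le_of_eq ?_) h1
      congr 1
      refine lintegral_congr fun z => ?_
      simp [Real.enorm_eq_ofReal_abs]
    have hpt : ∀ z, max (F z) (G z) - H z ≤ |F z - G z - φ z| + η := by
      intro z
      rw [hH, fluxS_blend h h' hD hc]
      simp only [← hF, ← hG]
      set b := F z - G z with hb
      have hmax : max (F z) (G z) = G z + max b 0 := by
        rw [← max_add_add_left]; simp [b]
      rw [hmax]
      have h0 := (hw01 z).1
      have h1 := (hw01 z).2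
      have a1 := le_abs_self (b - φ z)
      have a2 := neg_abs_le (b - φ z)
      rcases le_or_gt η (φ z) with hc1 | hc1
      · have hone : w z = 1 := by
          simp only [hw]
          rw [min_eq_left, max_eq_right zero_le_one]
          rw [← div_eq_mul_inv, le_div_iff₀ hη]; linarith
        rw [hone]
        rcases max_cases b 0 with ⟨e, _⟩ | ⟨e, _⟩ <;> rw [e] <;> linarith
      · rcases le_or_gt (φ z) 0 with hc2 | hc2
        · have hzero : w z = 0 := by
            simp only [hw]
            rw [max_eq_left]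
            exact (min_le_right _ _).trans (mul_nonpos_of_nonpos_of_nonneg hc2 (by positivity))
          rw [hzero]
          rcases max_cases b 0 with ⟨e, _⟩ | ⟨e, _⟩ <;> rw [e] <;> linarith
        · rcases max_cases b 0 with ⟨e, _⟩ | ⟨e, _⟩ <;> rw [e] <;>
            nlinarith [mul_nonneg h0 (abs_nonneg (b - φ z)),
              mul_nonneg (sub_nonneg.2 h1) (abs_nonneg (b - φ z))]
    have hmI : Integrable (fun z => max (F z) (G z)) (volume.restrict I) :=
      (hFi.sup hGi).restrict
    have hint : ∫ z in I, (max (F z) (G z) - H z) ≤ ∫ z in I, (|F z - G z - φ z| + η) :=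
      integral_mono (hmI.sub hHi.restrict) ((((hFi.sub hGi).sub hφi).abs.restrict).add
        (integrable_const _)) hpt
    have hi3 : Integrable (fun z => |F z - G z - φ z|) (volume.restrict I) :=
      ((hFi.sub hGi).sub hφi).abs.restrict
    rw [integral_sub hmI hHi.restrict, integral_add hi3
      (integrable_const _), setIntegral_const, smul_eq_mul] at hint
    have hsub : ∫ z in I, |F z - G z - φ z| ≤ ∫ z, |F z - G z - φ z| :=
      setIntegral_le_integral ((hFi.sub hGi).sub hφi).abs (Eventually.of_forall fun z => abs_nonneg _)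
    linarith [mul_comm η (volume.real I)]

/-- A countable family of square fields whose fluxes approximate all fluxes, uniformly in the
planar set. -/
theorem exists_countable_fields : ∃ F : ℕ → (ℝ × ℝ → ℝ) × (ℝ × ℝ → ℝ),
    (∀ n, IsSqField (F n).1 (F n).2) ∧ (F 0 = (fun _ => 0, fun _ => 0)) ∧
    ∀ p q, IsSqField p q → ∀ ε > 0, ∃ n, ∀ B : Set (ℝ × ℝ), MeasurableSet B → B ⊆ square →
      flux p q B ≤ flux (F n).1 (F n).2 B + ε := by
  set μ := (volume : Measure (ℝ × ℝ)).restrict square with hμ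
  have : IsFiniteMeasure μ := ⟨by rw [hμ, Measure.restrict_apply_univ, volume_square]; simp⟩
  have : Fact ((1 : ENNReal) ≤ 1) := ⟨le_rfl⟩
  have : Fact ((1 : ENNReal) ≠ ⊤) := ⟨ENNReal.one_ne_top⟩
  let T := {F : (ℝ × ℝ → ℝ) × (ℝ × ℝ → ℝ) // IsSqField F.1 F.2}
  have : Nonempty T := ⟨⟨(fun _ => 0, fun _ => 0), isSqField_zero⟩⟩
  have hint : ∀ F : T, Integrable (dv2 F.1.1 F.1.2) μ := fun F => by
    obtain ⟨A, hA⟩ := F.2.toSlice.lip_fst
    obtain ⟨B, hB⟩ := F.2.toSlice.lip_snd
    exact Integrable.of_bound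
      ((measurable_dvS hA.continuous hB.continuous).comp
        (measurable_prodMk_left (x := (0 : ℝ)))).aestronglyMeasurable _
      (Eventually.of_forall fun v => norm_dvS_le hA hB (0, v))
  let Φ : T → Lp ℝ 1 μ := fun F => (hint F).toL1 _
  have : SecondCountableTopology (Lp ℝ 1 μ) := inferInstance
  have : TopologicalSpace.SeparableSpace (range Φ) := inferInstance
  have : Nonempty (range Φ) := (range_nonempty Φ).to_subtype
  choose G hG using fun n => (TopologicalSpace.denseSeq (range Φ) n).2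
  refine ⟨fun n => n.casesOn (fun _ => 0, fun _ => 0) fun m => (G m).1,
    fun n => by cases n with | zero => exact isSqField_zero | succ m => exact (G m).2, rfl,
    fun p q h ε hε => ?_⟩
  obtain ⟨m, hm⟩ := (TopologicalSpace.denseRange_denseSeq (range Φ)).exists_dist_lt
    ⟨Φ ⟨(p, q), h⟩, mem_range_self _⟩ hε
  refine ⟨m + 1, fun B hB hBs => ?_⟩
  rw [Subtype.dist_eq, ← hG m, L1.dist_eq_integral_dist] at hm
  have hae : (fun v => dist ((Φ ⟨(p, q), h⟩ : ℝ × ℝ → ℝ) v) ((Φ (G m) : ℝ × ℝ → ℝ) v))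
      =ᵐ[μ] fun v => |dv2 p q v - dv2 (G m).1.1 (G m).1.2 v| := by
    filter_upwards [Integrable.coeFn_toL1 (hint ⟨(p, q), h⟩), Integrable.coeFn_toL1 (hint (G m))]
      with v a b
    simp only [Φ, a, b, Real.dist_eq]
  rw [integral_congr_ae hae] at hm
  have hres : (volume : Measure (ℝ × ℝ)).restrict B = μ.restrict B := by
    rw [hμ, Measure.restrict_restrict hB, inter_eq_self_of_subset_left hBs]
  have i1 : IntegrableOn (dv2 p q) B := by
    rw [IntegrableOn, hres]; exact (hint ⟨(p, q), h⟩).restrict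
  have i2 : IntegrableOn (dv2 (G m).1.1 (G m).1.2) B := by
    rw [IntegrableOn, hres]; exact (hint (G m)).restrict
  have hle : flux p q B - flux (G m).1.1 (G m).1.2 B < ε := by
    refine lt_of_le_of_lt ?_ hm
    rw [flux, flux, ← integral_sub i1 i2]
    refine (integral_mono (i1.sub i2) (i1.sub i2).abs fun v => le_abs_self _).trans ?_
    rw [hres]
    exact setIntegral_le_integral ((hint ⟨(p, q), h⟩).sub (hint (G m))).abs
      (Eventually.of_forall fun v => abs_nonneg _)
  linarith

/-- A bound holding slice by slice is almost met in the mean by one slice field. -/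
theorem exists_sliceField_near (hD : MeasurableSet D) (hc : D ⊆ cell) {u v : ℝ} {f : ℝ → ℝ}
    (hf : IntegrableOn f (Ioo u v))
    (hb : ∀ᵐ z, z ∈ Ioo u v → ∀ ε > 0, ∃ p q, IsSqField p q ∧
      f z ≤ flux p q (slice D k z) + ε)
    {ε : ℝ} (hε : 0 < ε) :
    ∃ p q, IsSliceField p q ∧ ∫ z in Ioo u v, max (f z - fluxS p q D k z) 0 ≤ ε := by
  obtain ⟨F, hF, hF0, hdense⟩ := exists_countable_fields
  let E : ℕ → ℝ → ℝ := fun n z => flux (F n).1 (F n).2 (slice D k z)
  let M : ℕ → ℝ → ℝ := fun N z => Nat.rec (E 0 z) (fun n a => max a (E (n + 1) z)) N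
  have hMi : ∀ N, Integrable (M N) := by
    intro N
    induction N with
    | zero => exact ((hF 0).toSlice.integrable_fluxS hD hc)
    | succ n ih => exact ih.sup ((hF (n + 1)).toSlice.integrable_fluxS hD hc)
  have hapx : ∀ N, ∀ δ > 0, ∃ p q, IsSliceField p q ∧ (∀ z, fluxS p q D k z ≤ M N z) ∧
      ∫ z in Ioo u v, M N z ≤ (∫ z in Ioo u v, fluxS p q D k z) + δ := by
    intro N
    induction N with
    | zero =>
      intro δ hδ
      refine ⟨_, _, (hF 0).toSlice, fun z => le_rfl, ?_⟩
      have heq : fluxS (fun u => (F 0).1 u.2) (fun u => (F 0).2 u.2) D k = M 0 := rfl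
      rw [heq]
      linarith
    | succ n ih =>
      intro δ hδ
      obtain ⟨p, q, hpq, hle, hint⟩ := ih (δ / 2) (half_pos hδ)
      obtain ⟨P, Q, hPQ, hle', hint'⟩ := exists_blend_ge (k := k) hpq (hF (n + 1)).toSlice hD hc
        (u := u) (v := v) (half_pos hδ)
      refine ⟨P, Q, hPQ, fun z => (hle' z).trans (max_le_max (hle z) le_rfl), ?_⟩
      have hp1 : ∀ z, M (n + 1) z - max (fluxS p q D k z) (E (n + 1) z)
          ≤ M n z - fluxS p q D k z := by
        intro z
        have := hle z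
        show max (M n z) (E (n + 1) z) - _ ≤ _
        rcases max_cases (M n z) (E (n + 1) z) with ⟨e, _⟩ | ⟨e, _⟩ <;> rw [e] <;>
          linarith [le_max_left (fluxS p q D k z) (E (n + 1) z),
            le_max_right (fluxS p q D k z) (E (n + 1) z)]
      have hpi := (hpq.integrable_fluxS (k := k) hD hc).restrict (s := Ioo u v)
      have hmax : Integrable (fun z => max (fluxS p q D k z) (E (n + 1) z))
          (volume.restrict (Ioo u v)) :=
        hpi.sup ((hF (n + 1)).toSlice.integrable_fluxS hD hc).restrict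
      have h1 := integral_mono ((hMi (n + 1)).restrict.sub hmax) ((hMi n).restrict.sub hpi) hp1
      simp only [Pi.sub_apply] at h1
      rw [integral_sub (hMi (n + 1)).restrict hmax, integral_sub (hMi n).restrict hpi] at h1
      have h2 : ∫ z in Ioo u v, max (fluxS p q D k z) (E (n + 1) z)
          ≤ (∫ z in Ioo u v, fluxS P Q D k z) + δ / 2 := hint'
      linarith
  have hM0 : ∀ N z, 0 ≤ M N z := by
    intro N z
    induction N with
    | zero => show (0 : ℝ) ≤ E 0 z; simp only [E, hF0, flux_zero]; exact le_rfl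
    | succ n ih => exact le_max_of_le_left ih
  have hmono : ∀ z, Monotone fun N => M N z :=
    fun z => monotone_nat_of_le_succ fun n => le_max_left _ _
  have hEle : ∀ n z, E n z ≤ M n z := fun n z => by
    cases n with
    | zero => exact le_rfl
    | succ m => exact le_max_right _ _
  have hlim : Tendsto (fun N => ∫ z in Ioo u v, min (f z) (M N z)) atTop
      (𝓝 (∫ z in Ioo u v, f z)) := by
    refine tendsto_integral_of_dominated_convergence (fun z => |f z|)
      (fun N => (hf.inf (hMi N).restrict).aestronglyMeasurable) hf.abs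
      (fun N => Eventually.of_forall fun z => ?_) ?_
    · simp only [Real.norm_eq_abs]
      rcases min_cases (f z) (M N z) with ⟨e, _⟩ | ⟨e, hh⟩ <;> rw [e]
      rw [abs_of_nonneg (hM0 N z)]
      exact hh.le.trans (le_abs_self _)
    · filter_upwards [(ae_restrict_iff' measurableSet_Ioo).2 hb] with z hz
      rw [Metric.tendsto_atTop]
      intro δ hδ
      obtain ⟨p, q, hpq, hle⟩ := hz (δ / 3) (by positivity)
      obtain ⟨n, hn⟩ := hdense p q hpq (δ / 3) (by positivity)
      have := hn _ (measurableSet_slice hD k z) (slice_subset_square hc k z)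
      refine ⟨n, fun N hN => ?_⟩
      have h1 : E n z ≤ M N z := (hEle n z).trans (hmono z hN)
      rw [Real.dist_eq, abs_lt]
      constructor
      · rcases min_cases (f z) (M N z) with ⟨e, _⟩ | ⟨e, _⟩ <;> rw [e] <;>
          linarith [show E n z = flux (F n).1 (F n).2 (slice D k z) from rfl]
      · linarith [min_le_left (f z) (M N z)]
  obtain ⟨N, hN⟩ := (hlim.eventually (lt_mem_nhds (by linarith :
    (∫ z in Ioo u v, f z) - ε / 2 < ∫ z in Ioo u v, f z))).exists
  obtain ⟨p, q, hpq, hle, hint⟩ := hapx N (ε / 2) (half_pos hε)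
  refine ⟨p, q, hpq, ?_⟩
  have hmn : Integrable (fun z => min (f z) (M N z)) (volume.restrict (Ioo u v)) :=
    hf.inf (hMi N).restrict
  have hF' := (hpq.integrable_fluxS (k := k) hD hc).restrict (s := Ioo u v)
  have h1 : ∫ z in Ioo u v, max (f z - fluxS p q D k z) 0 ≤
      ∫ z in Ioo u v, ((f z - min (f z) (M N z)) + (M N z - fluxS p q D k z)) :=
    integral_mono ((hf.sub hF').sup (integrable_const 0))
      ((hf.sub hmn).add ((hMi N).restrict.sub hF')) fun z =>
        max_le (by linarith [min_le_right (f z) (M N z)])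
          (by linarith [min_le_left (f z) (M N z), hle z])
  rw [integral_add (f := fun z => f z - min (f z) (M N z))
    (g := fun z => M N z - fluxS p q D k z) (hf.sub hmn)
    ((hMi N).restrict.sub hF'), integral_sub hf hmn, integral_sub (hMi N).restrict hF'] at h1
  linarith

/-- A bound holding slice by slice is almost met, in integral, by one slice field. -/
theorem exists_sliceField_ge (hD : MeasurableSet D) (hc : D ⊆ cell) {u v : ℝ} {f : ℝ → ℝ}
    (hf : IntegrableOn f (Ioo u v))
    (hb : ∀ᵐ z, z ∈ Ioo u v → ∀ ε > 0, ∃ p q, IsSqField p q ∧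
      f z ≤ flux p q (slice D k z) + ε)
    {ε : ℝ} (hε : 0 < ε) :
    ∃ p q, IsSliceField p q ∧ ∫ z in Ioo u v, f z ≤ (∫ z in Ioo u v, fluxS p q D k z) + ε := by
  obtain ⟨p, q, hpq, h⟩ := exists_sliceField_near hD hc hf hb hε
  refine ⟨p, q, hpq, ?_⟩
  have hF' := (hpq.integrable_fluxS (k := k) hD hc).restrict (s := Ioo u v)
  have h1 : ∫ z in Ioo u v, (f z - fluxS p q D k z) ≤
      ∫ z in Ioo u v, max (f z - fluxS p q D k z) 0 :=
    integral_mono (hf.sub hF') ((hf.sub hF').sup (integrable_const 0)) fun z => le_max_left _ _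
  rw [integral_sub hf hF'] at h1
  linarith

end Vale.Agent.P232
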