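import Vale.Agent.P232.Defs

/-! Down-sets in the unit cube and their relative perimeter; the candidate profile. -/

open MeasureTheory Set

namespace Vale.Agent.P232

/-- `D` is a down-set in the unit cube. -/
def IsDownset (D : Set R3) : Prop :=
  D ⊆ cell ∧ ∀ x ∈ D, ∀ y ∈ cell, (∀ i, y i ≤ x i) → y ∈ D

/-- Test fields for the relative perimeter in the unit cube: Lipschitz, of length at most one and
tangent to the faces. -/
structure IsCubeField (X : R3 → R3) : Prop where
  lipschitz : ∃ K, LipschitzWith K X
  norm_le : ∀ x, ‖X x‖ ≤ 1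
  tangent : ∀ x i, x i = 0 ∨ x i = 1 → X x i = 0

/-- `P` bounds the perimeter of `D` relative to the unit cube. -/
def RelPerLE (D : Set R3) (P : ℝ) : Prop :=
  ∀ X, IsCubeField X → (∫ x in D, dv X x) ≤ P

/-- The candidate profile of the torus: ball, tube or slab. -/
noncomputable def profileJ (V : ℝ) : ℝ :=
  min ((36 * Real.pi) ^ ((1 : ℝ) / 3) * (min V (1 - V)) ^ ((2 : ℝ) / 3))
    (min (2 * Real.sqrt (Real.pi * min V (1 - V))) 2)

end Vale.Agent.P232
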