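import Vale.Agent.P232.Perimeter
import Vale.Agent.P232.Cube

/-!
The folding map of the torus onto the cube, the reflection of a field of the cube to the torus,
and Lipschitz test fields.
-/

open MeasureTheory Set Filter Topology
open scoped ENNReal NNReal RealInnerProductSpace Convolution ContDiff

namespace Vale.Agent.P232

/-- Twice the distance to the nearest integer. -/
noncomputable def tent (t : ℝ) : ℝ := 2 * |t - round t|

/-- The slope sign of the tent. -/
noncomputable def sgn (t : ℝ) : ℝ := if Even ⌊2 * t⌋ then 1 else -1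

lemma tent_mem (t : ℝ) : tent t ∈ Icc (0 : ℝ) 1 :=
  ⟨by unfold tent; positivity, by unfold tent; linarith [abs_sub_round t]⟩

lemma tent_add_one (t : ℝ) : tent (t + 1) = tent t := by
  unfold tent; rw [round_add_one]; push_cast; ring_nf

lemma sgn_add_one (t : ℝ) : sgn (t + 1) = sgn t := by
  have h : ⌊2 * (t + 1)⌋ = ⌊2 * t⌋ + 2 := by
    rw [show 2 * (t + 1) = 2 * t + ((2 : ℤ) : ℝ) by push_cast; ring, Int.floor_add_intCast]
  simp only [sgn, h, Int.even_add, show Even (2 : ℤ) from even_two, iff_true]

lemma abs_tent_sub (a b : ℝ) : |tent a - tent b| ≤ 2 * |a - b| := by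
  have h : ∀ a b : ℝ, |a - round a| ≤ |a - b| + |b - round b| := fun a b =>
    (round_le a (round b)).trans ((abs_sub_le a b _))
  have h1 := h a b
  have h2 := h b a
  rw [abs_sub_comm b a] at h2
  unfold tent
  rw [abs_le]; constructor <;> linarith

lemma tent_eq {k : ℤ} {t : ℝ} (h0 : (k : ℝ) ≤ 2 * t) (h1 : 2 * t ≤ k + 1) :
    tent t = if Even k then 2 * t - k else k + 1 - 2 * t := by
  rw [tent, abs_sub_round_eq_min]
  rcases Int.even_or_odd k with ⟨m, rfl⟩ | ⟨m, rfl⟩
  · push_cast at h0 h1
    rw [if_pos ⟨m, rfl⟩, show Int.fract t = t - m from Int.fract_eq_iff.2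
      ⟨by linarith, by linarith, m, by ring⟩, min_eq_left (by linarith)]
    push_cast; ring
  · push_cast at h0 h1
    rw [if_neg (by simp [parity_simps])]
    rcases h1.lt_or_eq with h | h
    · rw [show Int.fract t = t - m from Int.fract_eq_iff.2
        ⟨by linarith, by linarith, m, by ring⟩, min_eq_right (by linarith)]
      push_cast; ring
    · rw [show t = ((m + 1 : ℤ) : ℝ) by push_cast; linarith, Int.fract_intCast]
      push_cast; norm_num; ring

lemma tent_half_int (k : ℤ) : tent (k / 2) = 0 ∨ tent (k / 2) = 1 := by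
  rw [tent_eq (k := k) (by linarith) (by linarith)]
  split_ifs
  · left; ring
  · right; ring

lemma map_two_sub : Measure.map (fun t : ℝ => 2 - 2 * t) volume =
    ENNReal.ofReal |(2 : ℝ)⁻¹| • volume := by
  rw [show (fun t : ℝ => 2 - 2 * t) = (fun u => 2 - u) ∘ fun t => 2 * t from rfl,
    ← Measure.map_map (by fun_prop) (by fun_prop), Real.map_volume_mul_left two_ne_zero,
    Measure.map_smul, (Measure.measurePreserving_sub_left volume (2 : ℝ)).map_eq]

lemma measurable_tent : Measurable tent :=
  (LipschitzWith.of_dist_le_mul (K := 2) fun a b => by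
    simpa [Real.dist_eq] using abs_tent_sub a b).continuous.measurable

/-- The tent preserves the measure of the unit interval. -/
theorem measurePreserving_tent :
    MeasurePreserving tent (volume.restrict (Ico 0 1)) (volume.restrict (Ico 0 1)) := by
  refine ⟨measurable_tent, ?_⟩
  have hpos : ENNReal.ofReal |(2 : ℝ)⁻¹| + ENNReal.ofReal |(2 : ℝ)⁻¹| = 1 := by
    rw [← ENNReal.ofReal_add (abs_nonneg _) (abs_nonneg _)]; norm_num
  have e1 : (volume.restrict (Ico (0 : ℝ) (1 / 2))).map tent =
      ENNReal.ofReal |(2 : ℝ)⁻¹| • volume.restrict (Ico 0 1) := by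
    rw [Measure.map_congr (g := fun t : ℝ => 2 * t) ((ae_restrict_iff' measurableSet_Ico).2
      (ae_of_all _ fun t ht => by
        obtain ⟨h0, h1⟩ := ht
        rw [tent_eq (k := 0) (by push_cast; linarith) (by push_cast; linarith)]; simp)),
      ← Measure.restrict_smul, ← Real.map_volume_mul_left two_ne_zero,
      Measure.restrict_map (by fun_prop) measurableSet_Ico]
    congr 2; ext t; simp only [mem_Ico, mem_preimage]
    constructor <;> rintro ⟨h0, h1⟩ <;> constructor <;> linarith
  have e2 : (volume.restrict (Ico (1 / 2 : ℝ) 1)).map tent =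
      ENNReal.ofReal |(2 : ℝ)⁻¹| • volume.restrict (Ico 0 1) := by
    rw [Measure.restrict_congr_set Ico_ae_eq_Ioc, Measure.map_congr (g := fun t : ℝ => 2 - 2 * t)
      ((ae_restrict_iff' measurableSet_Ioc).2 (ae_of_all _ fun t ht => by
        obtain ⟨h0, h1⟩ := ht
        rw [tent_eq (k := 1) (by push_cast; linarith) (by push_cast; linarith),
          if_neg (by decide)]
        push_cast; ring)),
      ← Measure.restrict_smul, ← map_two_sub,
      Measure.restrict_map (by fun_prop) measurableSet_Ico]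
    congr 2; ext t; simp only [mem_Ico, mem_Ioc, mem_preimage]
    constructor <;> rintro ⟨h0, h1⟩ <;> constructor <;> linarith
  conv_lhs => rw [← Ico_union_Ico_eq_Ico (show (0 : ℝ) ≤ 1 / 2 by norm_num)
    (show (1 / 2 : ℝ) ≤ 1 by norm_num)]
  rw [Measure.restrict_union (Ico_disjoint_Ico_same) measurableSet_Ico,
    Measure.map_add _ _ measurable_tent, e1, e2, ← add_smul, hpos, one_smul]

/-- The folding of the torus onto the cube. -/
noncomputable def fold (x : R3) : R3 := WithLp.toLp 2 fun i => tent (x i)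

lemma fold_apply (x : R3) (i : Fin 3) : fold x i = tent (x i) := rfl

lemma norm_le_of_coord {a b : R3} {c : ℝ} (hc : 0 ≤ c) (h : ∀ i, |a i| ≤ c * |b i|) :
    ‖a‖ ≤ c * ‖b‖ := by
  rw [EuclideanSpace.norm_eq, EuclideanSpace.norm_eq, ← Real.sqrt_sq hc,
    ← Real.sqrt_mul (sq_nonneg c), Finset.mul_sum]
  refine Real.sqrt_le_sqrt (Finset.sum_le_sum fun i _ => ?_)
  rw [Real.norm_eq_abs, Real.norm_eq_abs, ← mul_pow]
  exact pow_le_pow_left₀ (abs_nonneg _) (h i) 2

lemma lipschitz_fold : LipschitzWith 2 fold := LipschitzWith.of_dist_le_mul fun a b => by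
  rw [dist_eq_norm, dist_eq_norm]
  exact norm_le_of_coord (by norm_num) fun i => by
    simpa [fold] using abs_tent_sub (a i) (b i)

lemma e_apply (i j : Fin 3) : e i j = if j = i then 1 else 0 := by simp [e]

lemma isPer_fold : IsPer fold := fun i x => by
  ext j
  simp only [fold_apply, PiLp.add_apply, e_apply]
  split_ifs
  · exact tent_add_one _
  · rw [add_zero]

lemma cell_eq_preimage : cell = (WithLp.ofLp : R3 → Fin 3 → ℝ) ⁻¹' (univ.pi fun _ => Ico 0 1) := by
  ext x; simp [cell]

lemma measurePreserving_ofLp_cell :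
    MeasurePreserving (WithLp.ofLp : R3 → Fin 3 → ℝ) (volume.restrict cell)
      (Measure.pi fun _ => volume.restrict (Ico (0 : ℝ) 1)) := by
  rw [cell_eq_preimage, ← Measure.restrict_pi_pi]
  exact (PiLp.volume_preserving_ofLp (Fin 3)).restrict_preimage
    (MeasurableSet.univ_pi fun _ => measurableSet_Ico)

/-- Folding preserves the measure of the cell. -/
theorem measurePreserving_fold :
    MeasurePreserving fold (volume.restrict cell) (volume.restrict cell) := by
  have h := measurePreserving_ofLp_cell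
  have h2 : MeasurePreserving (WithLp.toLp 2 : (Fin 3 → ℝ) → R3)
      (Measure.pi fun _ => volume.restrict (Ico (0 : ℝ) 1)) (volume.restrict cell) :=
    h.symm (MeasurableEquiv.toLp 2 (Fin 3 → ℝ)).symm
  exact h2.comp ((measurePreserving_pi _ _ fun _ => measurePreserving_tent).comp h)

lemma setIntegral_fold {F : R3 → ℝ} (hF : AEStronglyMeasurable F (volume.restrict cell)) :
    ∫ x in cell, F (fold x) = ∫ x in cell, F x := by
  have h := measurePreserving_fold
  conv_rhs => rw [← h.map_eq]
  exact (integral_map h.measurable.aemeasurable (by rwa [h.map_eq])).symm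

/-! ### The reflected field -/

/-- The reflection of a field of the cube to the torus. -/
noncomputable def reflField (X : R3 → R3) (x : R3) : R3 :=
  WithLp.toLp 2 fun i => sgn (x i) * X (fold x) i

lemma reflField_apply (X : R3 → R3) (x : R3) (i : Fin 3) : reflField X x i = sgn (x i) * X (fold x) i := rfl

lemma sgn_sq (t : ℝ) : sgn t ^ 2 = 1 := by unfold sgn; split_ifs <;> norm_num

lemma abs_sgn_mul (t a : ℝ) : |sgn t * a| = |a| := by
  rw [abs_mul, show |sgn t| = 1 by unfold sgn; split_ifs <;> norm_num, one_mul]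

lemma norm_refl_le {X : R3 → R3} (hX : IsCubeField X) (x : R3) : ‖reflField X x‖ ≤ 1 := by
  refine le_trans (le_of_eq ?_) (hX.norm_le (fold x))
  rw [EuclideanSpace.norm_eq, EuclideanSpace.norm_eq]
  congr 1; refine Finset.sum_congr rfl fun i _ => ?_
  rw [reflField_apply, Real.norm_eq_abs, abs_sgn_mul, Real.norm_eq_abs]

lemma isPer_reflField (X : R3 → R3) : IsPer (reflField X) := fun i x => by
  ext j
  rw [reflField_apply, reflField_apply, isPer_fold i x, PiLp.add_apply, e_apply]
  split_ifs
  · rw [sgn_add_one]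
  · rw [add_zero]

lemma norm_le_sum_abs (v : R3) : ‖v‖ ≤ ∑ i, |v i| := by
  conv_lhs => rw [← sum_smul_e v]
  refine (norm_sum_le _ _).trans (Finset.sum_le_sum fun i _ => ?_)
  simp [e, norm_smul]

lemma lipschitz_refl {X : R3 → R3} (hX : IsCubeField X) : ∃ K, LipschitzWith K (reflField X) := by
  obtain ⟨K, hK⟩ := hX.lipschitz
  refine ⟨3 * (K * 2), LipschitzWith.of_dist_le_mul fun a b => ?_⟩
  have hu : ∀ (i : Fin 3) (x y : R3), |X (fold x) i - X (fold y) i| ≤ (K * 2 : ℝ) * ‖x - y‖ := by
    intro i x y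
    have := (hK.comp lipschitz_fold).dist_le_mul x y
    rw [dist_eq_norm, dist_eq_norm] at this
    refine le_trans ?_ (by simpa using this)
    simpa [Real.norm_eq_abs] using PiLp.norm_apply_le (X (fold x) - X (fold y)) i
  have key : ∀ i : Fin 3, |reflField X a i - reflField X b i| ≤ (K * 2 : ℝ) * ‖a - b‖ := by
    intro i
    by_cases hs : sgn (a i) = sgn (b i)
    · rw [reflField_apply, reflField_apply, hs, ← mul_sub, abs_sgn_mul]; exact hu i a b
    have hk : ∃ k : ℤ, |a i - k / 2| + |b i - k / 2| = |a i - b i| := by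
      have hne : ⌊2 * a i⌋ ≠ ⌊2 * b i⌋ := fun h => hs (by simp [sgn, h])
      rcases hne.lt_or_gt with h | h
      · refine ⟨⌊2 * b i⌋, ?_⟩
        have h1 := Int.floor_le (2 * b i)
        have h2 : 2 * a i < (⌊2 * b i⌋ : ℤ) := Int.floor_lt.1 h
        rw [abs_of_nonpos (by linarith), abs_of_nonneg (by linarith),
          abs_of_nonpos (by linarith)]; ring
      · refine ⟨⌊2 * a i⌋, ?_⟩
        have h1 := Int.floor_le (2 * a i)
        have h2 : 2 * b i < (⌊2 * a i⌋ : ℤ) := Int.floor_lt.1 h
        rw [abs_of_nonneg (by linarith), abs_of_nonpos (by linarith),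
          abs_of_nonneg (by linarith)]; ring
    obtain ⟨k, hk⟩ := hk
    have h0 : ∀ x : R3, |X (fold x) i| ≤ (K * 2 : ℝ) * |x i - k / 2| := by
      intro x
      set y := x + ((k : ℝ) / 2 - x i) • e i with hy
      have hyi : y i = k / 2 := by simp [hy, e_apply]
      have hz : X (fold y) i = 0 := hX.tangent _ i (by rw [fold_apply, hyi]; exact tent_half_int k)
      have h := hu i x y
      rw [hz, sub_zero] at h
      refine h.trans_eq ?_
      rw [show x - y = (x i - k / 2) • e i from by rw [hy]; module, norm_smul, Real.norm_eq_abs]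
      simp [e]
    calc |reflField X a i - reflField X b i| ≤ |reflField X a i| + |reflField X b i| := abs_sub _ _
      _ ≤ (K * 2 : ℝ) * |a i - k / 2| + (K * 2 : ℝ) * |b i - k / 2| := by
        rw [reflField_apply, reflField_apply, abs_sgn_mul, abs_sgn_mul]; exact add_le_add (h0 a) (h0 b)
      _ ≤ _ := by
        rw [← mul_add, hk]
        refine mul_le_mul_of_nonneg_left ?_ (by positivity)
        simpa using PiLp.norm_apply_le (a - b) i
  rw [dist_eq_norm, dist_eq_norm]
  refine (norm_le_sum_abs _).trans ((Finset.sum_le_sum fun i _ => (key i)).trans_eq ?_)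
  simp; ring

/-- The trace as a linear functional. -/
noncomputable def trL : (R3 →L[ℝ] R3) →L[ℝ] ℝ :=
  ∑ i, (EuclideanSpace.proj i : R3 →L[ℝ] ℝ) ∘L (ContinuousLinearMap.apply ℝ R3 (e i))

lemma dv_eq_trL (X : R3 → R3) (x : R3) : dv X x = trL (fderiv ℝ X x) := by simp [dv, trL]

lemma abs_dv_le {X : R3 → R3} {K : ℝ≥0} (hX : LipschitzWith K X) (x : R3) :
    |dv X x| ≤ 3 * K := by
  refine (Finset.abs_sum_le_sum_abs _ _).trans ((Finset.sum_le_sum fun i _ =>
    (?_ : |fderiv ℝ X x (e i) i| ≤ (K : ℝ))).trans_eq (by simp))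
  refine le_trans (by simpa using PiLp.norm_apply_le (fderiv ℝ X x (e i)) i)
    (((fderiv ℝ X x).le_opNorm (e i)).trans ?_)
  simpa [e] using norm_fderiv_le_of_lipschitz ℝ hX

lemma measurable_dv (X : R3 → R3) : Measurable (dv X) := by
  unfold dv
  exact Finset.measurable_sum _ fun i _ => (PiLp.continuous_apply 2 _ i).measurable.comp
    (measurable_fderiv_apply_const ℝ X (e i))

lemma integrable_dv {X : R3 → R3} {K : ℝ≥0} (hX : LipschitzWith K X) :
    Integrable (dv X) (volume.restrict cell) :=
  Integrable.of_bound (measurable_dv X).aestronglyMeasurable (3 * K)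
    (ae_of_all _ fun x => abs_dv_le hX x)

/-- The divergence of the reflected field. -/
theorem dv_refl {X : R3 → R3} (hX : IsCubeField X) :
    ∀ᵐ x ∂volume.restrict cell, dv (reflField X) x = 2 * dv X (fold x) := by
  obtain ⟨K, hK⟩ := hX.lipschitz
  have hgood : ∀ᵐ x : R3, ∀ i, ∀ k : ℤ, x i ≠ k / 2 := by
    refine (PiLp.volume_preserving_ofLp (Fin 3)).quasiMeasurePreserving.ae
      (p := fun v : Fin 3 → ℝ => ∀ i, ∀ k : ℤ, v i ≠ k / 2) ?_
    exact ae_all_iff.2 fun i => ae_all_iff.2 fun k =>
      (Measure.quasiMeasurePreserving_eval (fun _ => volume) i).ae (Measure.ae_ne volume _)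
  have hdiff : ∀ᵐ x ∂volume.restrict cell, DifferentiableAt ℝ X (fold x) :=
    measurePreserving_fold.quasiMeasurePreserving.ae (ae_restrict_of_ae hK.ae_differentiableAt)
  filter_upwards [ae_restrict_of_ae hgood, hdiff] with x hx hd
  set k : Fin 3 → ℤ := fun i => ⌊2 * x i⌋
  set σ : Fin 3 → ℝ := fun i => if Even (k i) then 1 else -1 with hσ
  set c : R3 := WithLp.toLp 2 fun i => if Even (k i) then -(k i : ℝ) else k i + 1 with hc
  set A : R3 →L[ℝ] R3 := ∑ i, σ i • (EuclideanSpace.proj i : R3 →L[ℝ] ℝ).smulRight (e i) with hA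
  have hAi : ∀ (v : R3) (j : Fin 3), A v j = σ j * v j := fun v j => by
    simp [hA, e_apply, Finset.sum_apply]
  have hnear : ∀ᶠ y : R3 in 𝓝 x, ∀ i, (k i : ℝ) < 2 * y i ∧ 2 * y i < k i + 1 := by
    refine eventually_all.2 fun i => ?_
    have hc' : ContinuousAt (fun y : R3 => 2 * y i) x := by fun_prop
    refine hc'.eventually (Ioo_mem_nhds (lt_of_le_of_ne (Int.floor_le _) fun h => hx i (k i) ?_)
      (Int.lt_floor_add_one _))
    linarith
  have heq : reflField X =ᶠ[𝓝 x] fun y => A (X ((2 : ℝ) • A y + c)) := by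
    filter_upwards [hnear] with y hy
    have hf : fold y = (2 : ℝ) • A y + c := by
      ext i
      rw [fold_apply, tent_eq (hy i).1.le (hy i).2.le]
      simp only [PiLp.add_apply, PiLp.smul_apply, hAi, hc, hσ, smul_eq_mul]
      split_ifs <;> ring
    ext i
    rw [hAi, ← hf, reflField_apply]
    congr 1
    simp only [sgn, hσ, Int.floor_eq_iff.2 ⟨(hy i).1.le, (hy i).2⟩]
  have hfx : fold x = (2 : ℝ) • A x + c := by
    ext i
    rw [fold_apply, tent_eq (hnear.self_of_nhds i).1.le (hnear.self_of_nhds i).2.le]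
    simp only [PiLp.add_apply, PiLp.smul_apply, hAi, hc, hσ, smul_eq_mul]
    split_ifs <;> ring
  have hder : HasFDerivAt (reflField X) (A ∘L ((fderiv ℝ X (fold x)) ∘L ((2 : ℝ) • A))) x := by
    refine HasFDerivAt.congr_of_eventuallyEq ?_ heq
    have h1 : HasFDerivAt (fun y => (2 : ℝ) • A y + c) ((2 : ℝ) • A) x :=
      (((2 : ℝ) • A).hasFDerivAt).add_const c
    have h2 : HasFDerivAt X (fderiv ℝ X (fold x)) ((2 : ℝ) • A x + c) := by
      rw [← hfx]; exact hd.hasFDerivAt
    exact A.hasFDerivAt.comp x (h2.comp x h1)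
  simp only [dv, Finset.mul_sum, hder.fderiv]
  refine Finset.sum_congr rfl fun i _ => ?_
  have hAe : A (e i) = σ i • e i := by
    ext j; rw [hAi]; simp only [PiLp.smul_apply, e_apply, smul_eq_mul]; split_ifs <;> simp [*]
  simp only [ContinuousLinearMap.comp_apply, FunLike.coe_smul, Pi.smul_apply, hAe, map_smul,
    PiLp.smul_apply, hAi, smul_eq_mul]
  have : σ i * σ i = 1 := by simp only [hσ]; split_ifs <;> norm_num
  linear_combination 2 * fderiv ℝ X (fold x) (e i) i * this

/-! ### Lipschitz test fields -/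

/-- An inequality valid for all test fields holds for the Lipschitz ones. -/
theorem test_lipschitz {g : R3 → ℝ} (hg : AEStronglyMeasurable g (volume.restrict cell))
    {G : ℝ} (hgb : ∀ x, |g x| ≤ G) {P : ℝ}
    (h : ∀ X, IsTestField X → ∫ x in cell, g x * dv X x ≤ P) {Y : R3 → R3} {K : ℝ≥0}
    (hY : LipschitzWith K Y) (hp : IsPer Y) (h1 : ∀ x, ‖Y x‖ ≤ 1) :
    ∫ x in cell, g x * dv Y x ≤ P := by
  have hG : 0 ≤ G := (abs_nonneg _).trans (hgb 0)
  set w : ℕ → R3 → ℝ := fun n => (bump n).normed volume with hw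
  set Z : ℕ → R3 → R3 := fun n => w n ⋆[ContinuousLinearMap.lsmul ℝ ℝ, volume] Y with hZ
  have hZa : ∀ n x, Z n x = ∫ t, w n t • Y (x - t) := fun n x => rfl
  have hwint : ∀ n, Integrable (w n) := fun n => (bump n).integrable_normed
  have hw0 : ∀ n t, 0 ≤ w n t := fun n t => (bump n).nonneg_normed t
  have hnb : ∀ n x, ∀ t, ‖w n t • Y (x - t)‖ ≤ w n t := fun n x t => by
    rw [norm_smul, Real.norm_of_nonneg (hw0 n t)]
    exact mul_le_of_le_one_right (hw0 n t) (h1 _)
  have hint : ∀ n x, Integrable (fun t => w n t • Y (x - t)) := fun n x =>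
    (hwint n).mono' ((bump n).continuous_normed.smul
      (hY.continuous.comp (by fun_prop))).aestronglyMeasurable (ae_of_all _ (hnb n x))
  have hZt : ∀ n, IsTestField (Z n) := fun n => by
    refine ⟨(bump n).hasCompactSupport_normed.contDiff_convolution_left _
      (bump n).contDiff_normed hY.continuous.locallyIntegrable, fun i x => ?_, fun x => ?_⟩
    · simp only [hZa]; congr 1; ext1 t; exact congrArg (w n t • ·) (hp.comp_sub t i x)
    · rw [hZa]
      exact (norm_integral_le_of_norm_le (hwint n) (ae_of_all _ (hnb n x))).trans_eq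
        (bump n).integral_normed
  have hdv : ∀ n x, dv (Z n) x = ∫ t, w n t * dv Y (x - t) := by
    intro n x
    have hd : Integrable (fun t => w n t • fderiv ℝ Y (x - t)) ∧ HasFDerivAt (fun y => ∫ t, w n t • Y (y - t))
        (∫ t, w n t • fderiv ℝ Y (x - t)) x := by
      refine hasFDerivAt_integral_of_dominated_loc_of_lip (bound := fun t => (K : ℝ) * w n t)
        univ_mem (Eventually.of_forall fun y => (hint n y).1) (hint n x) ?_ (ae_of_all _ fun t => ?_)
        ((hwint n).const_mul _) ?_
      · exact ((bump n).continuous_normed.measurable.smul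
          ((measurable_fderiv ℝ Y).comp (by fun_prop))).aestronglyMeasurable
      · refine LipschitzWith.lipschitzOnWith (LipschitzWith.of_dist_le_mul fun a b => ?_)
        rw [dist_smul₀, Real.coe_nnabs, abs_of_nonneg (mul_nonneg K.coe_nonneg (hw0 n t)),
          Real.norm_of_nonneg (hw0 n t)]
        have h := hY.dist_le_mul (a - t) (b - t)
        rw [dist_sub_right] at h
        nlinarith [hw0 n t]
      · filter_upwards [(Measure.measurePreserving_sub_left volume x).quasiMeasurePreserving.ae
          hY.ae_differentiableAt] with t ht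
        exact (ht.hasFDerivAt.comp x ((hasFDerivAt_id x).sub_const t)).const_smul (w n t)
    rw [dv_eq_trL, show Z n = fun y => ∫ t, w n t • Y (y - t) from funext (hZa n), hd.2.fderiv,
      ← trL.integral_comp_comm hd.1]
    simp [dv_eq_trL]
  have hloc : LocallyIntegrable (dv Y) volume :=
    (locallyIntegrable_const (3 * K : ℝ)).mono (measurable_dv Y).aestronglyMeasurable
      (ae_of_all _ fun x => by
        rw [Real.norm_of_nonneg (by positivity : (0 : ℝ) ≤ 3 * K)]; exact abs_dv_le hY x)
  have hae : ∀ᵐ x, Tendsto (fun n => dv (Z n) x) atTop (𝓝 (dv Y x)) := by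
    have hr : Tendsto (fun n => (bump n).rOut) atTop (𝓝 0) :=
      tendsto_one_div_add_atTop_nhds_zero_nat
    have hK2 : ∀ᶠ n in atTop, (bump n).rOut ≤ 2 * (bump n).rIn :=
      Eventually.of_forall fun n => le_of_eq (by simp only [bump]; field_simp)
    refine (ContDiffBump.ae_convolution_tendsto_right_of_locallyIntegrable hr hK2 hloc).mono
      fun x hx => ?_
    refine hx.congr fun n => ?_
    rw [hdv n x]; rfl
  refine le_of_tendsto (tendsto_integral_of_dominated_convergence (μ := volume.restrict cell)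
    (fun _ => G * (3 * K)) (fun n => hg.mul (continuous_dv (hZt n).smooth).aestronglyMeasurable)
    (integrable_const _) (fun n => ae_of_all _ fun x => ?_)
    ((ae_restrict_of_ae hae).mono fun x hx => hx.const_mul (g x)))
    (Eventually.of_forall fun n => h _ (hZt n))
  rw [Pi.mul_apply, norm_mul, Real.norm_eq_abs, Real.norm_eq_abs]
  refine mul_le_mul (hgb x) ?_ (abs_nonneg _) hG
  rw [hdv n x, ← Real.norm_eq_abs]
  refine (norm_integral_le_of_norm_le ((hwint n).const_mul (3 * (K : ℝ)))
    (ae_of_all _ fun t => ?_)).trans_eq (by rw [integral_const_mul, (bump n).integral_normed, mul_one])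
  rw [norm_mul, Real.norm_of_nonneg (hw0 n t), mul_comm (3 * (K : ℝ))]
  exact mul_le_mul_of_nonneg_left (abs_dv_le hY _) (hw0 n t)

end Vale.Agent.P232
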