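import Vale.Agent.P232.SliceSelect
import Vale.Agent.P232.Fold

/-!
Stretching a down-set in one direction: the stretched set and the pulled back test field.
-/

open MeasureTheory Set Filter
open scoped NNReal Topology

namespace Vale.Agent.P232

variable {D : Set R3} {k : Fin 3}

/-- A ramp: `0` for `t ≤ 0`, `1` for `t ≥ 1`. -/
noncomputable def clamp01 (t : ℝ) : ℝ := max 0 (min 1 t)

theorem clamp01_mem (t : ℝ) : clamp01 t ∈ Icc (0 : ℝ) 1 :=
  ⟨le_max_left _ _, max_le zero_le_one (min_le_left _ _)⟩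

theorem abs_clamp01_le (t : ℝ) : |clamp01 t| ≤ 1 := by
  rw [abs_of_nonneg (clamp01_mem t).1]; exact (clamp01_mem t).2

theorem clamp01_of_nonpos {t : ℝ} (h : t ≤ 0) : clamp01 t = 0 :=
  max_eq_left ((min_le_right _ _).trans h)

theorem clamp01_of_one_le {t : ℝ} (h : 1 ≤ t) : clamp01 t = 1 := by
  simp [clamp01, min_eq_left h]

theorem lipschitz_clamp01 : LipschitzWith 1 clamp01 :=
  (LipschitzWith.id.const_min 1).const_max 0

/-- The dilation of the `k`-th coordinate. -/
noncomputable def scaleL (k : Fin 3) (c : ℝ) : R3 →L[ℝ] R3 :=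
  (insL k).comp (((c • ContinuousLinearMap.fst ℝ ℝ (ℝ × ℝ)).prod
    (ContinuousLinearMap.snd ℝ ℝ (ℝ × ℝ))).comp (outL k))

theorem scaleL_apply (k : Fin 3) (c : ℝ) (x : R3) :
    scaleL k c x = ins k (c * x k) (x (k.succAbove 0), x (k.succAbove 1)) := by
  simp [scaleL, insL_apply, outL_apply]

theorem scaleL_ins (k : Fin 3) (c z : ℝ) (w : ℝ × ℝ) :
    scaleL k c (ins k z w) = ins k (c * z) w := by
  simp [scaleL_apply, ins_apply_self, ins_apply_succAbove]

theorem scaleL_coord (k : Fin 3) (c : ℝ) (x : R3) (i : Fin 3) :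
    scaleL k c x i = if i = k then c * x i else x i := by
  rw [scaleL_apply]
  rcases Fin.eq_self_or_eq_succAbove k i with rfl | ⟨j, rfl⟩
  · simp [ins_apply_self]
  · rw [if_neg (Fin.succAbove_ne k j), ins_apply_succAbove]
    fin_cases j <;> rfl

/-- `D` stretched by `c` in direction `k` and cut back to the cube. -/
def stretchSet (D : Set R3) (k : Fin 3) (c : ℝ) : Set R3 := cell ∩ scaleL k c⁻¹ ⁻¹' D

theorem measurableSet_stretchSet (hD : MeasurableSet D) (k : Fin 3) (c : ℝ) :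
    MeasurableSet (stretchSet D k c) :=
  measurableSet_cell.inter ((scaleL k c⁻¹).continuous.measurable hD)

theorem scaleL_inv_mem_cell {c : ℝ} (hc : 1 ≤ c) {y : R3} (hy : y ∈ cell) :
    scaleL k c⁻¹ y ∈ cell := fun i => by
  rw [scaleL_coord]
  split_ifs with h
  · exact ⟨mul_nonneg (by positivity) (hy i).1,
      lt_of_le_of_lt (mul_le_of_le_one_left (hy i).1 (inv_le_one_of_one_le₀ hc)) (hy i).2⟩
  · exact hy i

theorem isDownset_stretchSet (hdown : IsDownset D) {c : ℝ} (hc : 1 ≤ c) (k : Fin 3) :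
    IsDownset (stretchSet D k c) := by
  refine ⟨inter_subset_left, fun x hx y hy h => ⟨hy, ?_⟩⟩
  refine hdown.2 _ hx.2 _ (scaleL_inv_mem_cell hc hy) fun i => ?_
  simp only [scaleL_coord]
  split_ifs
  · exact mul_le_mul_of_nonneg_left (h i) (by positivity)
  · exact h i

theorem slice_stretchSet (hdown : IsDownset D) (k : Fin 3) (c z : ℝ) :
    slice (stretchSet D k c) k z = if z ∈ Ico (0 : ℝ) 1 then slice D k (c⁻¹ * z) else ∅ := by
  ext w
  simp only [slice, stretchSet, mem_inter_iff, mem_preimage, mem_ofPred_eq, scaleL_ins]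
  split_ifs with h
  · exact ⟨fun h' => h'.2, fun h' => ⟨ins_mem_cell.2 ⟨h, (ins_mem_cell.1 (hdown.1 h')).2⟩, h'⟩⟩
  · exact ⟨fun h' => (h (ins_mem_cell.1 h'.1).1).elim, fun h' => h'.elim⟩

theorem stretch_integral_aux {G : ℝ → ℝ} {c : ℝ} (hc : 0 < c) :
    (∫ z, G (c * z)) = c⁻¹ * ∫ z, G z := by
  rw [Measure.integral_comp_mul_left, abs_of_pos (inv_pos.2 hc), smul_eq_mul]

/-- The volume of the stretched set. -/
theorem volume_stretchSet (hD : MeasurableSet D) (hdown : IsDownset D) {c : ℝ} (hc : 1 ≤ c)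
    (k : Fin 3) :
    (volume (stretchSet D k c)).toReal =
      c * ((volume D).toReal - ∫ z in Ici c⁻¹, sliceArea D k z) := by
  have hc0 : 0 < c := by linarith
  rw [volume_eq_integral_sliceArea (measurableSet_stretchSet hD k c) inter_subset_left k,
    volume_eq_integral_sliceArea hD hdown.1 k]
  have h1 : ∀ z, sliceArea (stretchSet D k c) k z =
      (Iio c⁻¹).indicator (sliceArea D k) (c⁻¹ * z) := fun z => by
    have hiff : c⁻¹ * z < c⁻¹ ↔ z < 1 := by
      constructor <;> intro h <;> nlinarith [inv_pos.2 hc0]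
    simp only [sliceArea, slice_stretchSet hdown, indicator, mem_Iio, hiff, mem_Ico]
    by_cases h0 : 0 ≤ z <;> by_cases h2 : z < 1 <;> simp [h0, h2]
    rw [slice_eq_empty hdown.1 (fun h => h0 (by nlinarith [h.1, inv_pos.2 hc0]))]
    simp
  simp only [h1]
  rw [stretch_integral_aux (G := (Iio c⁻¹).indicator (sliceArea D k)) (inv_pos.2 hc0), inv_inv,
    integral_indicator measurableSet_Iio,
    ← integral_add_compl (s := Iio c⁻¹) measurableSet_Iio (integrable_sliceArea hD hdown.1 k),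
    compl_Iio, add_sub_cancel_right]

/-- The fall-off of the pulled back field below the height `c⁻¹`. -/
noncomputable def lowCut (c δ z : ℝ) : ℝ := clamp01 (δ⁻¹ * (c⁻¹ - z))

/-- The rise of the top field above the height `c⁻¹`. -/
noncomputable def highCut (c δ z : ℝ) : ℝ := clamp01 (δ⁻¹ * (z - c⁻¹))

/-- The pull back of a field on the stretched set. -/
noncomputable def pullField (Y : R3 → R3) (k : Fin 3) (c δ : ℝ) (x : R3) : R3 :=
  ins k (Y (ins k (min (c * x k) 1) (x (k.succAbove 0), x (k.succAbove 1))) k)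
    (c * lowCut c δ (x k) *
        Y (ins k (min (c * x k) 1) (x (k.succAbove 0), x (k.succAbove 1))) (k.succAbove 0),
      c * lowCut c δ (x k) *
        Y (ins k (min (c * x k) 1) (x (k.succAbove 0), x (k.succAbove 1))) (k.succAbove 1))

theorem abs_cubeField_le {Y : R3 → R3} (hY : IsCubeField Y) (x : R3) (i : Fin 3) :
    |Y x i| ≤ 1 :=
  (PiLp.norm_apply_le (Y x) i).trans (hY.norm_le x)

theorem exists_lipschitz_pullField {Y : R3 → R3} (hY : IsCubeField Y) (k : Fin 3) (c δ : ℝ) :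
    ∃ K, LipschitzWith K (pullField Y k c δ) := by
  obtain ⟨K, hK⟩ := hY.lipschitz
  have hz : LipschitzWith (‖(EuclideanSpace.proj k : R3 →L[ℝ] ℝ)‖₊) fun x : R3 => x k :=
    (EuclideanSpace.proj k : R3 →L[ℝ] ℝ).lipschitz
  have hw : ∃ L, LipschitzWith L fun x : R3 => (x (k.succAbove 0), x (k.succAbove 1)) :=
    ⟨_, ((EuclideanSpace.proj (k.succAbove 0) : R3 →L[ℝ] ℝ).lipschitz).prodMk
      ((EuclideanSpace.proj (k.succAbove 1) : R3 →L[ℝ] ℝ).lipschitz)⟩
  obtain ⟨L, hL⟩ := hw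
  have hcz := (lipschitzWith_smul c).comp hz
  have hC := hK.comp ((insL k).lipschitz.comp ((hcz.min_const 1).prodMk hL))
  have hcut : ∃ M, LipschitzWith M fun x : R3 => lowCut c δ (x k) :=
    ⟨_, lipschitz_clamp01.comp ((lipschitzWith_smul δ⁻¹).comp ((LipschitzWith.const c⁻¹).sub hz))⟩
  obtain ⟨M, hM⟩ := hcut
  have hcomp : ∀ i, ∃ N, LipschitzWith N fun x : R3 =>
      Y (ins k (min (c * x k) 1) (x (k.succAbove 0), x (k.succAbove 1))) i :=
    fun i => ⟨_, (EuclideanSpace.proj i : R3 →L[ℝ] ℝ).lipschitz.comp hC⟩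
  obtain ⟨N, hN⟩ := hcomp k
  obtain ⟨N0, hN0⟩ := hcomp (k.succAbove 0)
  obtain ⟨N1, hN1⟩ := hcomp (k.succAbove 1)
  have h0 := lipschitz_mul hM hN0 (fun x => abs_clamp01_le _) (fun x => abs_cubeField_le hY _ _)
  have h1 := lipschitz_mul hM hN1 (fun x => abs_clamp01_le _) (fun x => abs_cubeField_le hY _ _)
  obtain ⟨R, hR⟩ : ∃ R, LipschitzWith R _ := ⟨_, (insL k).lipschitz.comp
    (hN.prodMk (((lipschitzWith_smul c).comp h0).prodMk ((lipschitzWith_smul c).comp h1)))⟩
  refine ⟨R, ?_⟩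
  convert hR using 1
  funext x
  simp [pullField, insL_apply, mul_assoc]

theorem pullField_tangent {Y : R3 → R3} (hY : IsCubeField Y) (k : Fin 3) {c : ℝ} (hc : 1 ≤ c)
    (δ : ℝ) (x : R3) (i : Fin 3) (hi : x i = 0 ∨ x i = 1) : pullField Y k c δ x i = 0 := by
  rcases Fin.eq_self_or_eq_succAbove k i with rfl | ⟨j, rfl⟩
  · rw [pullField, ins_apply_self]
    refine hY.tangent _ _ ?_
    rw [ins_apply_self]
    rcases hi with h | h
    · left; simp [h]
    · right; rw [h, mul_one, min_eq_right hc]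
  · fin_cases j <;> simp only [pullField, ins_apply_succAbove] <;>
    · simp
      exact Or.inr (hY.tangent _ _ (by simpa [ins_apply_succAbove] using hi))

theorem pullField_weighted_le {Y : R3 → R3} (hY : IsCubeField Y) (k : Fin 3) {c : ℝ} (hc : 0 < c)
    (δ : ℝ) (x : R3) :
    pullField Y k c δ x k ^ 2 + (pullField Y k c δ x (k.succAbove 0) ^ 2 +
      pullField Y k c δ x (k.succAbove 1) ^ 2) / c ^ 2 ≤ 1 := by
  simp only [pullField, ins_apply_self, ins_apply_succAbove, Matrix.cons_val_zero,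
    Matrix.cons_val_one, Matrix.cons_val_fin_one]
  set y := Y (ins k (min (c * x k) 1) (x (k.succAbove 0), x (k.succAbove 1)))
  have h1 : ‖y‖ ^ 2 ≤ 1 := by
    nlinarith [hY.norm_le (ins k (min (c * x k) 1) (x (k.succAbove 0), x (k.succAbove 1))),
      norm_nonneg y]
  rw [EuclideanSpace.norm_sq_eq, Fin.sum_univ_succAbove _ k, Fin.sum_univ_two] at h1
  simp only [Real.norm_eq_abs, sq_abs] at h1
  have hl : lowCut c δ (x k) ^ 2 ≤ 1 := (sq_le_one_iff_abs_le_one _).2 (abs_clamp01_le _)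
  have e : ((c * lowCut c δ (x k) * y (k.succAbove 0)) ^ 2 +
      (c * lowCut c δ (x k) * y (k.succAbove 1)) ^ 2) / c ^ 2 =
      lowCut c δ (x k) ^ 2 * (y (k.succAbove 0) ^ 2 + y (k.succAbove 1) ^ 2) := by
    field_simp
  rw [e]
  nlinarith [mul_le_mul_of_nonneg_right hl
    (add_nonneg (sq_nonneg (y (k.succAbove 0))) (sq_nonneg (y (k.succAbove 1))))]

theorem pullField_eq_of_lt {Y : R3 → R3} (k : Fin 3) {c δ : ℝ} (hc : 0 < c) (hδ : 0 < δ)
    {x : R3} (hx : x k ≤ c⁻¹ - δ) (i : Fin 3) :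
    pullField Y k c δ x i = (if i = k then 1 else c) * Y (scaleL k c x) i := by
  have hmin : min (c * x k) 1 = c * x k := by
    refine min_eq_left ?_
    have := mul_le_mul_of_nonneg_left (show x k ≤ c⁻¹ by linarith) hc.le
    rwa [mul_inv_cancel₀ hc.ne'] at this
  have hcut : lowCut c δ (x k) = 1 := clamp01_of_one_le (by
    calc (1:ℝ) = δ⁻¹ * δ := (inv_mul_cancel₀ hδ.ne').symm
      _ ≤ δ⁻¹ * (c⁻¹ - x k) := mul_le_mul_of_nonneg_left (by linarith) (by positivity))
  rcases Fin.eq_self_or_eq_succAbove k i with rfl | ⟨j, rfl⟩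
  · simp [pullField, hmin, ins_apply_self, scaleL_apply]
  · rw [if_neg (Fin.succAbove_ne k j)]
    fin_cases j <;> simp [pullField, hmin, hcut, ins_apply_succAbove, scaleL_apply]

theorem pullField_eq_zero_of_gt {Y : R3 → R3} (hY : IsCubeField Y) (k : Fin 3) {c δ : ℝ}
    (hc : 0 < c) (hδ : 0 < δ) {x : R3} (hx : c⁻¹ ≤ x k) : pullField Y k c δ x = 0 := by
  have hmin : min (c * x k) 1 = 1 := by
    refine min_eq_right ?_
    have := mul_le_mul_of_nonneg_left hx hc.le
    rwa [mul_inv_cancel₀ hc.ne'] at this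
  have hcut : lowCut c δ (x k) = 0 := clamp01_of_nonpos
    (mul_nonpos_of_nonneg_of_nonpos (by positivity) (by linarith))
  ext i
  rcases Fin.eq_self_or_eq_succAbove k i with rfl | ⟨j, rfl⟩
  · simp only [pullField, hmin, ins_apply_self, PiLp.zero_apply]
    exact hY.tangent _ _ (Or.inr (ins_apply_self _ _ _))
  · fin_cases j <;> simp [pullField, hcut, ins_apply_succAbove]

theorem dv_pullField_lt {Y : R3 → R3} (k : Fin 3) {c δ : ℝ} (hc : 0 < c) (hδ : 0 < δ) {x : R3}
    (hx : x k < c⁻¹ - δ) (hd : DifferentiableAt ℝ Y (scaleL k c x)) :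
    dv (pullField Y k c δ) x = c * dv Y (scaleL k c x) := by
  set A : R3 →L[ℝ] R3 := c • scaleL k c⁻¹ with hA
  have hAi : ∀ (v : R3) (j : Fin 3), A v j = (if j = k then 1 else c) * v j := fun v j => by
    simp only [hA, smul_apply, PiLp.smul_apply, scaleL_coord, smul_eq_mul]
    split_ifs <;> field_simp
  have hev : pullField Y k c δ =ᶠ[𝓝 x] fun y => A (Y (scaleL k c y)) := by
    have hc' : ContinuousAt (fun y : R3 => y k) x := by fun_prop
    filter_upwards [hc'.eventually (Iio_mem_nhds hx)] with y hy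
    ext i
    rw [hAi, pullField_eq_of_lt k hc hδ (le_of_lt hy)]
  have hder : HasFDerivAt (pullField Y k c δ)
      (A ∘L (fderiv ℝ Y (scaleL k c x) ∘L scaleL k c)) x :=
    (A.hasFDerivAt.comp x (hd.hasFDerivAt.comp x (scaleL k c).hasFDerivAt)).congr_of_eventuallyEq
      hev
  simp only [dv, Finset.mul_sum, hder.fderiv]
  refine Finset.sum_congr rfl fun i _ => ?_
  have hse : scaleL k c (e i) = (if i = k then c else (1 : ℝ)) • e i := by
    ext j
    simp only [scaleL_coord, PiLp.smul_apply, smul_eq_mul, e_apply]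
    by_cases h : j = i
    · subst h; simp
    · simp [h]
  simp only [ContinuousLinearMap.comp_apply, hse, map_smul, PiLp.smul_apply, hAi, smul_eq_mul]
  split_ifs <;> ring

theorem dv_pullField_gt {Y : R3 → R3} (hY : IsCubeField Y) (k : Fin 3) {c δ : ℝ} (hc : 0 < c)
    (hδ : 0 < δ) {x : R3} (hx : c⁻¹ < x k) : dv (pullField Y k c δ) x = 0 := by
  have hc' : ContinuousAt (fun y : R3 => y k) x := by fun_prop
  have hev : pullField Y k c δ =ᶠ[𝓝 x] fun _ => (0 : R3) := by
    filter_upwards [hc'.eventually (Ioi_mem_nhds hx)] with y hy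
    exact pullField_eq_zero_of_gt hY k hc hδ (le_of_lt hy)
  simp [dv, hev.fderiv_eq]

end Vale.Agent.P232
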