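import Vale.Agent.P232.Variation
import Vale.Agent.P232.SliceSelect
import Vale.Agent.P232.Minimizer
import Vale.Agent.P232.StretchField

/-!
The calibrated slice inequality in weighted form.

A vertical profile `β (a)` and a horizontal profile `α (a)`, both functions of the slice area `a`
with `α² + β² ≤ ρ²`, are averaged in height to give a test field of length at most the averaged
`ρ (a)`. The vertical part contributes exactly the primitive of `β`, jumps included.
-/

open MeasureTheory Set Filter Function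
open scoped Topology NNReal

namespace Vale.Agent.P232.Calib

open Weighted (fl wDer relPer IsWeight iso)

variable {D : Set R3} {k : Fin 3}

/-- The weight `u` of the height on the two coordinates other than `k`. -/
noncomputable def horU (k : Fin 3) (u : ℝ → ℝ) : R3 → Fin 3 → ℝ :=
  fun x i => if i = k then 0 else u (x k)

/-- The weight `u` of the height on the coordinate `k`. -/
noncomputable def vertU (k : Fin 3) (u : ℝ → ℝ) : R3 → Fin 3 → ℝ :=
  fun x i => if i = k then u (x k) else 0

lemma isWeight_horU (k : Fin 3) {u : ℝ → ℝ} {K : ℝ≥0} (hu : LipschitzWith K u)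
    (hu1 : ∀ z, u z ∈ Icc (0 : ℝ) 1) : IsWeight (horU k u) := by
  refine ⟨fun i => ?_, 1, zero_le_one, fun x i => ?_⟩
  · by_cases h : i = k
    · exact ⟨0, by simpa [horU, h] using LipschitzWith.const (0 : ℝ)⟩
    · refine ⟨K * 1, ?_⟩
      simpa [horU, h, Function.comp_def] using hu.comp (Weighted.lip_coord LipschitzWith.id k)
  · simp only [horU]
    split_ifs
    · simp
    · rw [abs_of_nonneg (hu1 _).1]; exact (hu1 _).2

lemma isWeight_vertU (k : Fin 3) {u : ℝ → ℝ} {K : ℝ≥0} (hu : LipschitzWith K u)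
    (hu1 : ∀ z, u z ∈ Icc (0 : ℝ) 1) : IsWeight (vertU k u) := by
  refine ⟨fun i => ?_, 1, zero_le_one, fun x i => ?_⟩
  · by_cases h : i = k
    · refine ⟨K * 1, ?_⟩
      simpa [vertU, h, Function.comp_def] using hu.comp (Weighted.lip_coord LipschitzWith.id k)
    · exact ⟨0, by simpa [vertU, h] using LipschitzWith.const (0 : ℝ)⟩
  · simp only [vertU]
    split_ifs
    · rw [abs_of_nonneg (hu1 _).1]; exact (hu1 _).2
    · simp

/-- The derivative in a weight of the height splits, and the vertical part is at most all of it. -/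
theorem wDer_iso_le (hD : Weighted.Finite D) (k : Fin 3) {u : ℝ → ℝ} {K : ℝ≥0}
    (hu : LipschitzWith K u) (hu1 : ∀ z, u z ∈ Icc (0 : ℝ) 1) :
    wDer D (iso fun x => u (x k)) ≤ wDer D (horU k u) + (relPer D - wDer D (horW k)) := by
  have hv1 : ∀ z, (1 : ℝ) - u z ∈ Icc (0 : ℝ) 1 := fun z =>
    ⟨by linarith [(hu1 z).2], by linarith [(hu1 z).1]⟩
  have hw := isWeight_horU k hu hu1
  have hv := isWeight_vertU k hu hu1
  have hv' := isWeight_vertU k ((LipschitzWith.const (1 : ℝ)).sub hu) hv1
  have e1 : horU k u + vertU k u = iso fun x => u (x k) := by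
    funext x i
    by_cases h : i = k <;> simp [horU, vertU, iso, h]
  have e2 : horW k + (vertU k u + vertU k fun z => 1 - u z) = iso fun _ => (1 : ℝ) := by
    funext x i
    by_cases h : i = k <;> simp [horW, vertU, iso, h]
  have h1 := congrArg (wDer D) e1
  have h2 := congrArg (wDer D) e2
  rw [Weighted.wDer_add hD hw hv] at h1
  rw [Weighted.wDer_add hD (isWeight_horW k) (hv.add hv'), Weighted.wDer_add hD hv hv',
    Weighted.wDer_one hD] at h2
  have h3 := Weighted.wDer_nonneg hD hv' fun x i => by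
    simp only [vertU]; split_ifs
    · exact (hv1 _).1
    · exact le_rfl
  linarith

/-- The test inequality with a weight of the height. -/
theorem calib_field (hD : Weighted.Finite D) (k : Fin 3) {g φ u : ℝ → ℝ} {Kg Kφ Ku : ℝ≥0}
    (hg : LipschitzWith Kg g) (hφ : LipschitzWith Kφ φ) (hu : LipschitzWith Ku u)
    (hg0 : g 0 = 0) (hg1 : g 1 = 0) (hu1 : ∀ z, u z ∈ Icc (0 : ℝ) 1)
    (hn : ∀ z, g z ^ 2 + φ z ^ 2 ≤ u z ^ 2) {pp qq : ℝ × (ℝ × ℝ) → ℝ}
    (hpq : IsSliceField pp qq) :
    (∫ z, deriv g z * sliceArea D k z) + ∫ z, φ z * fluxS pp qq D k z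
      ≤ wDer D (iso fun x => u (x k)) := by
  obtain ⟨Kp, hKp⟩ := hpq.lip_fst
  obtain ⟨Kq, hKq⟩ := hpq.lip_snd
  have hDm := hD.meas
  have hDc := hD.sub
  have hφ1 : ∀ z, |φ z| ≤ 1 := fun z => by
    refine abs_le_one_iff_mul_self_le_one.2 ?_
    have := hn z
    have := pow_le_one₀ (n := 2) (hu1 z).1 (hu1 z).2
    linarith [sq_nonneg (g z), sq (φ z)]
  have hz : LipschitzWith (Kφ * 1) fun v : ℝ × (ℝ × ℝ) => φ v.1 :=
    hφ.comp LipschitzWith.prod_fst
  set p' : ℝ × (ℝ × ℝ) → ℝ := fun v => φ v.1 * pp v with hp'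
  set q' : ℝ × (ℝ × ℝ) → ℝ := fun v => φ v.1 * qq v with hq'
  have hp'l := lipschitz_mul hz hKp (fun v => hφ1 _) hpq.abs_fst_le
  have hq'l := lipschitz_mul hz hKq (fun v => hφ1 _) hpq.abs_snd_le
  set Y : R3 → R3 := fun x => ins k (g (outL k x).1) (p' (outL k x), q' (outL k x)) with hY
  obtain ⟨KY, hKY⟩ : ∃ K, LipschitzWith K Y := by
    have h1 := (hg.comp (LipschitzWith.prod_fst (α := ℝ) (β := ℝ × ℝ))).prodMk
      (hp'l.prodMk hq'l)
    exact ⟨_, ((insL k).lipschitz.comp h1).comp (outL k).lipschitz⟩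
  have hle : fl D Y ≤ wDer D (iso fun x => u (x k)) := by
    refine Weighted.fl_le_wDer hD (hu.comp (Weighted.lip_coord LipschitzWith.id k))
      (fun x => (hu1 _).1) (C := 1) (fun x => (hu1 _).2) hKY (fun x => ?_) (fun x i hi => ?_)
    · have h2 : ‖Y x‖ ^ 2 ≤ u (x k) ^ 2 := by
        rw [hY, norm_ins_sq]
        simp only [hp', hq', outL_apply]
        have := hn (x k)
        have hpn := hpq.norm_le (outL k x)
        simp only [outL_apply] at hpn
        calc _ = g (x k) ^ 2 + φ (x k) ^ 2 * (pp (x k, x (k.succAbove 0), x (k.succAbove 1)) ^ 2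
              + qq (x k, x (k.succAbove 0), x (k.succAbove 1)) ^ 2) := by ring
          _ ≤ g (x k) ^ 2 + φ (x k) ^ 2 * 1 := by gcongr
          _ ≤ u (x k) ^ 2 := by linarith
      exact (pow_le_pow_iff_left₀ (norm_nonneg _) (hu1 _).1 two_ne_zero).1 h2
    · rcases Fin.eq_self_or_eq_succAbove k i with rfl | ⟨j, rfl⟩
      · simp only [hY, ins_apply_self, outL_apply]
        rcases hi with hi | hi <;> simp [hi, hg0, hg1]
      · fin_cases j
        · simp only [hY, ins_apply_succAbove]
          simp [hp', hpq.tangent_fst (outL k x) (by simpa [outL_apply] using hi)]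
        · simp only [hY, ins_apply_succAbove]
          simp [hq', hpq.tangent_snd (outL k x) (by simpa [outL_apply] using hi)]
  refine le_trans (le_of_eq ?_) hle
  have hfin : volume D < ⊤ :=
    (measure_mono hDc).trans_lt (lt_top_iff_ne_top.2 volume_cell_ne_top)
  set G : R3 → ℝ := fun x => deriv g (outL k x).1 + dvS p' q' (outL k x) with hG
  have hGi : IntegrableOn G D :=
    IntegrableOn.of_bound hfin ((((measurable_deriv g).comp measurable_fst).add
      (measurable_dvS hp'l.continuous hq'l.continuous)).comp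
        (outL k).continuous.measurable).aestronglyMeasurable
      _ (Eventually.of_forall fun x => (norm_add_le _ _).trans
        (add_le_add (norm_deriv_le_of_lipschitz hg) (norm_dvS_le hp'l hq'l _)))
  have hae : ∀ᵐ x : R3, dv Y x = G x := by
    filter_upwards [hKY.ae_differentiableAt (μ := volume)] with x hx
    have := dv_insField (k := k) hKY (fun y => rfl) (u := outL k x) (by rwa [ins_outL])
    rwa [ins_outL] at this
  have hga : Integrable fun z => deriv g z * sliceArea D k z :=
    (integrable_sliceArea hDm hDc k).bdd_mul (measurable_deriv g).aestronglyMeasurable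
      (Eventually.of_forall fun z => norm_deriv_le_of_lipschitz hg)
  have hfi : Integrable fun z => φ z * fluxS pp qq D k z :=
    (hpq.integrable_fluxS hDm hDc).bdd_mul hφ.continuous.aestronglyMeasurable
      (Eventually.of_forall fun z => (Real.norm_eq_abs _).trans_le (hφ1 z))
  rw [← integral_add hga hfi, fl, setIntegral_congr_ae hDm (hae.mono fun x hx _ => hx),
    setIntegral_eq_slices (k := k) hDm hGi]
  refine integral_congr_ae (Eventually.of_forall fun z => ?_)
  have hw : IntegrableOn (fun w => dvS p' q' (z, w)) (slice D k z) :=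
    IntegrableOn.of_bound (lt_top_iff_ne_top.2 (volume_slice_ne_top hDc k z))
      ((measurable_dvS hp'l.continuous hq'l.continuous).comp
        measurable_prodMk_left).aestronglyMeasurable
      _ (Eventually.of_forall fun w => norm_dvS_le hp'l hq'l _)
  simp only [hG, outL_ins]
  have hconst : IntegrableOn (fun _ : ℝ × ℝ => deriv g z) (slice D k z) :=
    integrableOn_const (volume_slice_ne_top hDc k z)
  rw [integral_add hconst hw, setIntegral_const,
    smul_eq_mul, sliceArea, measureReal_def, fluxS_eq, ← MeasureTheory.integral_const_mul,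
    mul_comm]
  congr 1
  refine integral_congr_ae (Eventually.of_forall fun w => ?_)
  simp only [dvS, hp', hq', deriv_const_mul_field]
  ring

/-- The mean over the interval of length `δ` before `z`. -/
noncomputable def avgBack (δ : ℝ) (h : ℝ → ℝ) (z : ℝ) : ℝ := δ⁻¹ * ∫ s in (z - δ)..z, h s

lemma hasDerivAt_avgBack {δ : ℝ} {h : ℝ → ℝ} (hc : Continuous h) (z : ℝ) :
    HasDerivAt (avgBack δ h) (δ⁻¹ * (h z - h (z - δ))) z := by
  have h1 : ∀ w, HasDerivAt (fun t => ∫ s in (0 : ℝ)..t, h s) (h w) w :=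
    fun w => hc.integral_hasStrictDerivAt 0 w |>.hasDerivAt
  have h2 := ((h1 z).sub ((h1 (z - δ)).comp_sub_const z δ)).const_mul δ⁻¹
  refine h2.congr_of_eventuallyEq (Eventually.of_forall fun w => ?_)
  simp only [avgBack, Pi.sub_apply]
  rw [intervalIntegral.integral_interval_sub_left (hc.intervalIntegrable _ _)
    (hc.intervalIntegrable _ _)]

lemma exists_lip_avgBack {δ : ℝ} (hδ : 0 < δ) {h : ℝ → ℝ} (hc : Continuous h)
    (hb : ∀ s, |h s| ≤ 1) : ∃ K, LipschitzWith K (avgBack δ h) := by
  refine ⟨(δ⁻¹ * 2).toNNReal, lipschitzWith_of_nnnorm_deriv_le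
    (fun z => (hasDerivAt_avgBack hc z).differentiableAt) fun z => ?_⟩
  rw [← NNReal.coe_le_coe, coe_nnnorm, (hasDerivAt_avgBack hc z).deriv,
    Real.coe_toNNReal _ (by positivity), Real.norm_eq_abs, abs_mul, abs_of_pos (inv_pos.2 hδ)]
  gcongr
  exact (abs_sub _ _).trans (by linarith [hb z, hb (z - δ)])

lemma avgBack_mem {δ : ℝ} (hδ : 0 < δ) {h : ℝ → ℝ} (hc : Continuous h)
    (hb : ∀ s, h s ∈ Icc (0 : ℝ) 1) (z : ℝ) : avgBack δ h z ∈ Icc (0 : ℝ) 1 := by
  have hle : z - δ ≤ z := by linarith
  refine ⟨mul_nonneg (inv_nonneg.2 hδ.le)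
    (intervalIntegral.integral_nonneg hle fun s _ => (hb s).1), ?_⟩
  rw [avgBack, inv_mul_le_iff₀ hδ, mul_one]
  calc ∫ s in (z - δ)..z, h s ≤ ∫ _ in (z - δ)..z, (1 : ℝ) :=
        intervalIntegral.integral_mono_on hle (hc.intervalIntegrable _ _)
          intervalIntegrable_const fun s _ => (hb s).2
    _ = δ := by simp

lemma avgBack_sq_add {δ : ℝ} (hδ : 0 < δ) {f g r : ℝ → ℝ} (hf : Continuous f) (hg : Continuous g)
    (hr : Continuous r) (hr0 : ∀ s, 0 ≤ r s) (h : ∀ s, f s ^ 2 + g s ^ 2 ≤ r s ^ 2) (z : ℝ) :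
    avgBack δ f z ^ 2 + avgBack δ g z ^ 2 ≤ avgBack δ r z ^ 2 := by
  set a := avgBack δ f z with ha
  set b := avgBack δ g z with hb
  set c := avgBack δ r z with hc
  have hle : z - δ ≤ z := by linarith
  set N := √(a ^ 2 + b ^ 2) with hN
  have hN2 : N ^ 2 = a ^ 2 + b ^ 2 := Real.sq_sqrt (by positivity)
  have key : a * a + b * b ≤ N * c := by
    have e : a * a + b * b = δ⁻¹ * ∫ s in (z - δ)..z, (a * f s + b * g s) := by
      have hadd := intervalIntegral.integral_add ((hf.intervalIntegrable (z - δ) z).const_mul a)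
        ((hg.intervalIntegrable (μ := volume) (z - δ) z).const_mul b)
      rw [hadd, intervalIntegral.integral_const_mul, intervalIntegral.integral_const_mul, ha, hb,
        avgBack, avgBack]
      ring
    rw [e, hc, avgBack, show N * (δ⁻¹ * ∫ s in (z - δ)..z, r s)
      = δ⁻¹ * ∫ s in (z - δ)..z, N * r s by rw [intervalIntegral.integral_const_mul]; ring]
    refine mul_le_mul_of_nonneg_left (intervalIntegral.integral_mono_on hle
      (((continuous_const.mul hf).add (continuous_const.mul hg)).intervalIntegrable _ _)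
      ((continuous_const.mul hr).intervalIntegrable _ _) fun s _ => ?_) (inv_nonneg.2 hδ.le)
    have h1 : (a * f s + b * g s) ^ 2 ≤ (N * r s) ^ 2 := by
      rw [mul_pow, hN2]
      calc (a * f s + b * g s) ^ 2 ≤ (a ^ 2 + b ^ 2) * (f s ^ 2 + g s ^ 2) := by
            linarith [sq_nonneg (a * g s - b * f s)]
        _ ≤ _ := by gcongr; exact h s
    exact (le_abs_self _).trans (abs_le_of_sq_le_sq h1 (mul_nonneg (Real.sqrt_nonneg _) (hr0 s)))
  have hc0 : 0 ≤ c := mul_nonneg (inv_nonneg.2 hδ.le)
    (intervalIntegral.integral_nonneg hle fun s _ => hr0 s)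
  rcases (Real.sqrt_nonneg (a ^ 2 + b ^ 2)).eq_or_lt with h0 | h0
  · have : N ^ 2 = 0 := by rw [hN, ← h0]; norm_num
    linarith [sq_nonneg c]
  · have h2 : N ≤ c := le_of_mul_le_mul_left (by
      calc N * N = N ^ 2 := (sq N).symm
        _ = a * a + b * b := by rw [hN2]; ring
        _ ≤ N * c := key) h0
    have := pow_le_pow_left₀ h0.le h2 2
    linarith

/-- The mean of the slice area over the interval of length `δ` after `z`. -/
noncomputable def avgArea (D : Set R3) (k : Fin 3) (δ z : ℝ) : ℝ :=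
  δ⁻¹ * ∫ s in z..(z + δ), areaExt D k s

lemma continuous_avgArea (hdown : IsDownset D) (δ : ℝ) : Continuous (avgArea D k δ) := by
  have hi : ∀ a b, IntervalIntegrable (areaExt D k) volume a b := fun a b =>
    (areaExt_antitone hdown k).intervalIntegrable
  have h0 := intervalIntegral.continuous_primitive hi 0
  have e : avgArea D k δ = fun z =>
      δ⁻¹ * ((∫ s in (0 : ℝ)..(z + δ), areaExt D k s) - ∫ s in (0 : ℝ)..z, areaExt D k s) := by
    funext z
    rw [avgArea, intervalIntegral.integral_interval_sub_left (hi _ _) (hi _ _)]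
  rw [e]
  exact continuous_const.mul ((h0.comp (continuous_add_const δ)).sub h0)

lemma avgArea_bounds (hdown : IsDownset D) {δ : ℝ} (hδ : 0 < δ) (z : ℝ) :
    avgArea D k δ z ∈ Icc (areaExt D k (z + δ)) (areaExt D k z) := by
  have hA := areaExt_antitone hdown k
  have hle : z ≤ z + δ := by linarith
  constructor
  · rw [avgArea, le_inv_mul_iff₀ hδ]
    calc δ * areaExt D k (z + δ) = ∫ _ in z..(z + δ), areaExt D k (z + δ) := by simp
      _ ≤ _ := intervalIntegral.integral_mono_on hle intervalIntegrable_const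
          hA.intervalIntegrable fun s hs => hA hs.2
  · rw [avgArea, inv_mul_le_iff₀ hδ]
    calc _ ≤ ∫ _ in z..(z + δ), areaExt D k z :=
          intervalIntegral.integral_mono_on hle hA.intervalIntegrable intervalIntegrable_const
            fun s hs => hA hs.1
      _ = _ := by simp

/-- The vertical part: for a step `δ` it gives the primitive of `β` between two averaged areas. -/
theorem vertical_ge (hD : Weighted.Finite D) (hdown : IsDownset D) (k : Fin 3) {β : ℝ → ℝ}
    (hβ : Continuous β) (hβ0 : ∀ a, 0 ≤ β a) {δ : ℝ} (hδ : 0 < δ) (hδ1 : 5 * δ ≤ 1) :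
    ∫ a in (avgArea D k δ (1 - 3 * δ))..(avgArea D k δ δ), β a ≤
      ∫ z, deriv (avgBack δ fun s =>
        clamp01 (min (s / δ) ((1 - 2 * δ - s) / δ)) * β (avgArea D k δ s)) z * sliceArea D k z := by
  have hA := areaExt_antitone hdown k
  set A := areaExt D k with hAd
  set an := avgArea D k δ with han
  set c : ℝ → ℝ := fun s => clamp01 (min (s / δ) ((1 - 2 * δ - s) / δ)) with hc
  set h : ℝ → ℝ := fun s => c s * β (an s) with hh
  have hanc : Continuous an := continuous_avgArea hdown δ
  have hcc : Continuous c := lipschitz_clamp01.continuous.comp (by fun_prop)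
  have hhc : Continuous h := hcc.mul (hβ.comp hanc)
  have hh0 : ∀ s, 0 ≤ h s := fun s => mul_nonneg (clamp01_mem _).1 (hβ0 _)
  have hsupp : ∀ s, s ≤ 0 ∨ 1 - 2 * δ ≤ s → h s = 0 := fun s hs => by
    have : c s = 0 := clamp01_of_nonpos (by
      rcases hs with h | h
      · exact (min_le_left _ _).trans (div_nonpos_of_nonpos_of_nonneg h hδ.le)
      · exact (min_le_right _ _).trans (div_nonpos_of_nonpos_of_nonneg (by linarith) hδ.le))
    simp [hh, this]
  have hcs : HasCompactSupport h :=
    HasCompactSupport.intro (isCompact_Icc (a := (0 : ℝ)) (b := 1 - 2 * δ)) fun s hs =>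
      hsupp s (by
        simp only [mem_Icc, not_and_or, not_le] at hs
        rcases hs with h | h
        · exact Or.inl h.le
        · exact Or.inr h.le)
  obtain ⟨M, hM⟩ := hcs.exists_bound_of_continuous hhc
  have hS := integrable_sliceArea hD.meas hD.sub k
  have i1 : Integrable fun z => h z * sliceArea D k z :=
    hS.bdd_mul hhc.aestronglyMeasurable (Eventually.of_forall hM)
  have i2 : Integrable fun z => h (z - δ) * sliceArea D k z :=
    hS.bdd_mul (hhc.comp (show Continuous fun z : ℝ => z - δ by fun_prop)).aestronglyMeasurable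
      (Eventually.of_forall fun z => hM _)
  have i3 : Integrable fun z => h z * sliceArea D k (z + δ) := by
    have := i2.comp_add_right δ
    simpa using this
  have e1 : ∫ z, deriv (avgBack δ h) z * sliceArea D k z =
      ∫ z, h z * (δ⁻¹ * (sliceArea D k z - sliceArea D k (z + δ))) := by
    have e2 : ∀ z, deriv (avgBack δ h) z * sliceArea D k z =
        δ⁻¹ * (h z * sliceArea D k z) - δ⁻¹ * (h (z - δ) * sliceArea D k z) := fun z => by
      rw [(hasDerivAt_avgBack hhc z).deriv]; ring
    have e3 : ∀ z, h z * (δ⁻¹ * (sliceArea D k z - sliceArea D k (z + δ))) =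
        δ⁻¹ * (h z * sliceArea D k z) - δ⁻¹ * (h z * sliceArea D k (z + δ)) := fun z => by ring
    simp only [e2, e3]
    rw [integral_sub (i1.const_mul _) (i2.const_mul _),
      integral_sub (i1.const_mul _) (i3.const_mul _)]
    have := integral_add_right_eq_self (μ := volume)
      (fun z => δ⁻¹ * (h (z - δ) * sliceArea D k z)) δ
    simp only [add_sub_cancel_right] at this
    rw [this]
  rw [e1]
  set b0 := 1 - 3 * δ with hb0
  have hab : δ ≤ b0 := by linarith
  have hFTC : ∫ s in δ..b0, β (an s) * (δ⁻¹ * (A s - A (s + δ))) =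
      (∫ a in (0 : ℝ)..an δ, β a) - ∫ a in (0 : ℝ)..an b0, β a := by
    have hcount : (Set.Countable {s | ¬ContinuousAt A s} ∧
        Set.Countable ((fun s => s + δ) ⁻¹' {s | ¬ContinuousAt A s})) :=
      ⟨hA.countable_not_continuousAt,
        hA.countable_not_continuousAt.preimage (add_left_injective δ)⟩
    have hB : ∀ w, HasDerivAt (fun t => ∫ a in (0 : ℝ)..t, β a) (β w) w :=
      fun w => (hβ.integral_hasStrictDerivAt 0 w).hasDerivAt
    have hBc : Continuous fun t => ∫ a in (0 : ℝ)..t, β a :=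
      intervalIntegral.continuous_primitive (fun a b => hβ.intervalIntegrable a b) 0
    have hder : ∀ s ∈ Ioo δ b0 \ ({s | ¬ContinuousAt A s} ∪
        (fun s => s + δ) ⁻¹' {s | ¬ContinuousAt A s}),
        HasDerivAt (fun t => -∫ a in (0 : ℝ)..an t, β a)
          (β (an s) * (δ⁻¹ * (A s - A (s + δ)))) s := by
      rintro s ⟨-, hs⟩
      simp only [mem_union, mem_preimage, mem_ofPred_eq, not_or, not_not] at hs
      have hp : ∀ w, ContinuousAt A w → HasDerivAt (fun t => ∫ r in (0 : ℝ)..t, A r) (A w) w :=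
        fun w hw => intervalIntegral.integral_hasDerivAt_right hA.intervalIntegrable
          hA.measurable.stronglyMeasurable.stronglyMeasurableAtFilter hw
      have h1 : HasDerivAt an (δ⁻¹ * (A (s + δ) - A s)) s := by
        refine ((((hp (s + δ) hs.2).comp_add_const s δ).sub (hp s hs.1)).const_mul
          δ⁻¹).congr_of_eventuallyEq (Eventually.of_forall fun t => ?_)
        simp only [han, avgArea, Pi.sub_apply, ← hAd]
        rw [intervalIntegral.integral_interval_sub_left hA.intervalIntegrable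
          hA.intervalIntegrable]
      refine (((hB (an s)).comp s h1).neg).congr_deriv ?_
      ring
    have hint : IntervalIntegrable (fun s => β (an s) * (δ⁻¹ * (A s - A (s + δ)))) volume δ b0 := by
      have h1 : IntervalIntegrable (fun s => A (s + δ)) volume δ b0 :=
        Antitone.intervalIntegrable fun x y hxy => hA (by linarith)
      exact ((hA.intervalIntegrable.sub h1).const_mul δ⁻¹).continuousOn_mul
        (hβ.comp hanc).continuousOn
    rw [integral_eq_of_hasDerivAt_off_countable_of_le _ _ hab (hcount.1.union hcount.2)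
      ((hBc.comp hanc).neg).continuousOn hder hint]
    simp only [Pi.neg_apply, Function.comp_apply]
    ring
  rw [← intervalIntegral.integral_interval_sub_left (hβ.intervalIntegrable 0 _)
    (hβ.intervalIntegrable 0 _), ← hFTC, intervalIntegral.integral_of_le hab]
  have hi : Integrable fun z => h z * (δ⁻¹ * (sliceArea D k z - sliceArea D k (z + δ))) :=
    ((i1.sub i3).const_mul δ⁻¹).congr (Eventually.of_forall fun z => by
      simp only [Pi.sub_apply]; ring)
  have hnn : ∀ z, 0 ≤ h z * (δ⁻¹ * (sliceArea D k z - sliceArea D k (z + δ))) := by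
    intro z
    rcases le_or_gt z 0 with hz | hz
    · rw [hsupp z (Or.inl hz), zero_mul]
    · refine mul_nonneg (hh0 z) (mul_nonneg (inv_nonneg.2 hδ.le) (sub_nonneg.2 ?_))
      rw [← areaExt_eq hz.le, ← areaExt_eq (by linarith : 0 ≤ z + δ)]
      exact hA (by linarith)
  refine le_trans (le_of_eq (setIntegral_congr_fun measurableSet_Ioc fun z hz => ?_))
    (setIntegral_le_integral hi (Eventually.of_forall hnn))
  have hc1 : c z = 1 := clamp01_of_one_le (le_min (by rw [le_div_iff₀ hδ]; linarith [hz.1])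
    (by rw [le_div_iff₀ hδ]; linarith [hz.2]))
  simp only [hh, hc1, one_mul, hAd, areaExt_eq (show 0 ≤ z by linarith [hz.1]),
    areaExt_eq (show 0 ≤ z + δ by linarith [hz.1])]

/-- The averaged profile tends to the profile of the area at the points of continuity. -/
theorem tendsto_avgBack (hdown : IsDownset D) (k : Fin 3) {α : ℝ → ℝ} (hα : Continuous α)
    {z : ℝ} (hz : ContinuousAt (areaExt D k) z) {δ : ℕ → ℝ} (hδ : ∀ n, 0 < δ n)
    (hδ0 : Tendsto δ atTop (𝓝 0)) :
    Tendsto (fun n => avgBack (δ n) (fun s => α (avgArea D k (δ n) s)) z) atTop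
      (𝓝 (α (areaExt D k z))) := by
  have hA := areaExt_antitone hdown k
  rw [Metric.tendsto_nhds]
  intro e he
  obtain ⟨r, hr, hrα⟩ := Metric.continuousAt_iff.1 (hα.continuousAt (x := areaExt D k z))
    (e / 2) (half_pos he)
  obtain ⟨d, hd, hdA⟩ := Metric.continuousAt_iff.1 hz r hr
  filter_upwards [hδ0.eventually (eventually_lt_nhds hd)] with n hn
  have hp := hδ n
  have hbound : ∀ s ∈ uIoc (z - δ n) z,
      ‖α (avgArea D k (δ n) s) - α (areaExt D k z)‖ ≤ e / 2 := by
    intro s hs
    rw [uIoc_of_le (by linarith : z - δ n ≤ z)] at hs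
    have hb := avgArea_bounds (k := k) hdown hp s
    have u1 : dist (areaExt D k (z - δ n)) (areaExt D k z) < r :=
      hdA (by rw [Real.dist_eq, abs_lt]; constructor <;> linarith)
    have u2 : dist (areaExt D k (z + δ n)) (areaExt D k z) < r :=
      hdA (by rw [Real.dist_eq, abs_lt]; constructor <;> linarith)
    rw [Real.dist_eq, abs_lt] at u1 u2
    have b1 := hA hs.1.le
    have b2 := hA (show s + δ n ≤ z + δ n by linarith [hs.2])
    refine (le_of_lt ?_).trans le_rfl
    rw [← dist_eq_norm]
    refine hrα ?_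
    rw [Real.dist_eq, abs_lt]
    constructor <;> linarith [hb.1, hb.2]
  have hc : Continuous fun s => α (avgArea D k (δ n) s) := hα.comp (continuous_avgArea hdown _)
  have h := intervalIntegral.norm_integral_le_of_norm_le_const hbound
  rw [intervalIntegral.integral_sub (hc.intervalIntegrable _ _) intervalIntegrable_const,
    intervalIntegral.integral_const, smul_eq_mul, sub_sub_cancel, abs_of_pos hp,
    Real.norm_eq_abs] at h
  rw [Real.dist_eq, avgBack]
  have e1 : (δ n)⁻¹ * (∫ s in (z - δ n)..z, α (avgArea D k (δ n) s)) - α (areaExt D k z) =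
      (δ n)⁻¹ * ((∫ s in (z - δ n)..z, α (avgArea D k (δ n) s)) - δ n * α (areaExt D k z)) := by
    field_simp
  rw [e1, abs_mul, abs_of_pos (inv_pos.2 hp)]
  calc (δ n)⁻¹ * |(∫ s in (z - δ n)..z, α (avgArea D k (δ n) s)) - δ n * α (areaExt D k z)|
      ≤ (δ n)⁻¹ * (e / 2 * δ n) := mul_le_mul_of_nonneg_left h (inv_nonneg.2 hp.le)
    _ = e / 2 := by field_simp
    _ < e := half_lt_self he

/-- The calibrated inequality: the excess of the perimeter over its horizontal derivative
dominates the primitive of `β` and the gain `α f - ρ (lam (a - m) + l)` of the slices. -/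
theorem calib (hD : Weighted.Finite D) (hdown : IsDownset D) (k : Fin 3) {α β ρ : ℝ → ℝ}
    (hαc : Continuous α) (hβc : Continuous β) (hρc : Continuous ρ) (hα : ∀ a, 0 ≤ α a)
    (hβ : ∀ a, 0 ≤ β a) (hρ : ∀ a, ρ a ∈ Icc (0 : ℝ) 1)
    (hab : ∀ a, α a ^ 2 + β a ^ 2 ≤ ρ a ^ 2)
    {f : ℝ → ℝ} (hf : IntegrableOn f (Ioo (0 : ℝ) 1))
    (hb : ∀ᵐ z, z ∈ Ioo (0 : ℝ) 1 → ∀ ε > 0, ∃ p q, IsSqField p q ∧
      f z ≤ flux p q (slice D k z) + ε)
    {lam l : ℝ} (hC : ∀ u : ℝ → ℝ, (∃ K, LipschitzWith K u) → (∀ z, u z ∈ Icc (0 : ℝ) 1) →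
      wDer D (horU k u) ≤ lam * ((∫ z in Ioo (0 : ℝ) 1, u z * areaExt D k z)
        - faceArea D k * ∫ z in Ioo (0 : ℝ) 1, u z) + l * ∫ z in Ioo (0 : ℝ) 1, u z) :
    (∫ a in (faceArea D k)..(rightLim (areaExt D k) 0), β a) +
        ∫ z in Ioo (0 : ℝ) 1, (α (areaExt D k z) * f z
          - ρ (areaExt D k z) * (lam * (areaExt D k z - faceArea D k) + l))
      ≤ relPer D - wDer D (horW k) := by
  have hA := areaExt_antitone hdown k
  set A := areaExt D k with hAd
  set I := Ioo (0 : ℝ) 1 with hI
  set R := relPer D - wDer D (horW k) with hR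
  have hα1 : ∀ a, α a ≤ 1 := fun a =>
    ((abs_of_nonneg (hα a)).symm.le.trans (abs_le_of_sq_le_sq (by linarith [hab a, sq_nonneg (β a)])
      (hρ a).1)).trans (hρ a).2
  have hβ1 : ∀ a, β a ≤ 1 := fun a =>
    ((abs_of_nonneg (hβ a)).symm.le.trans (abs_le_of_sq_le_sq (by linarith [hab a, sq_nonneg (α a)])
      (hρ a).1)).trans (hρ a).2
  have hfinI : IsFiniteMeasure (volume.restrict I) := ⟨by simp [hI]⟩
  have hmA : Measurable A := hA.measurable
  have hAb : ∀ z, |A z| ≤ 1 := fun z =>
    abs_le.2 ⟨by linarith [sliceArea_nonneg D k (max z 0), show A z = sliceArea D k (max z 0) from rfl],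
      sliceArea_le_one hdown.1 k _⟩
  have icmp : ∀ {g : ℝ → ℝ}, Continuous g → (∀ a, g a ∈ Icc (0 : ℝ) 1) →
      Integrable (fun z => g (A z)) (volume.restrict I) := fun hg hg1 =>
    Integrable.of_bound (hg.measurable.comp hmA).aestronglyMeasurable 1
      (Eventually.of_forall fun z => by rw [Real.norm_of_nonneg (hg1 _).1]; exact (hg1 _).2)
  have iρ := icmp hρc hρ
  have iα := icmp hαc fun a => ⟨hα a, hα1 a⟩
  have iρA : Integrable (fun z => ρ (A z) * A z) (volume.restrict I) :=
    iρ.mul_bdd (c := 1) hmA.aestronglyMeasurable (Eventually.of_forall fun z => hAb z)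
  refine le_of_forall_pos_le_add fun ε hε => ?_
  obtain ⟨pp, qq, hpq, hsel⟩ :=
    exists_sliceField_near (k := k) hD.meas hD.sub hf hb hε
  set F := fluxS pp qq D k with hF
  have hFi : Integrable F := hpq.integrable_fluxS hD.meas hD.sub
  -- the averaged fields
  set δ : ℕ → ℝ := fun n => 1 / ((n : ℝ) + 5) with hδd
  have hδ : ∀ n, 0 < δ n := fun n => by positivity
  have hδ1 : ∀ n, 5 * δ n ≤ 1 := fun n => by
    rw [hδd]; rw [mul_one_div, div_le_one (by positivity)]; linarith [n.cast_nonneg (α := ℝ)]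
  have hδ0 : Tendsto δ atTop (𝓝 0) := by
    have h := tendsto_const_div_atTop_nhds_zero_nat (1 : ℝ)
    have h2 := h.comp (tendsto_add_atTop_nat 5)
    simpa [Function.comp_def, hδd] using h2
  set hn : ℕ → ℝ → ℝ := fun n s =>
    clamp01 (min (s / δ n) ((1 - 2 * δ n - s) / δ n)) * β (avgArea D k (δ n) s) with hhn
  set φ : ℕ → ℝ → ℝ := fun n => avgBack (δ n) fun s => α (avgArea D k (δ n) s) with hφd
  set u : ℕ → ℝ → ℝ := fun n => avgBack (δ n) fun s => ρ (avgArea D k (δ n) s) with hud
  have hanc : ∀ n, Continuous (avgArea D k (δ n)) := fun n => continuous_avgArea hdown _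
  have hhc : ∀ n, Continuous (hn n) := fun n =>
    (lipschitz_clamp01.continuous.comp (by fun_prop)).mul (hβc.comp (hanc n))
  have hhb : ∀ n s, hn n s ∈ Icc (0 : ℝ) 1 := fun n s =>
    ⟨mul_nonneg (clamp01_mem _).1 (hβ _), mul_le_one₀ (clamp01_mem _).2 (hβ _) (hβ1 _)⟩
  have hsn : ∀ n s, s ≤ 0 ∨ 1 - 2 * δ n ≤ s → hn n s = 0 := fun n s hs => by
    simp only [hhn]
    rw [clamp01_of_nonpos, zero_mul]
    rcases hs with h | h
    · exact (min_le_left _ _).trans (div_nonpos_of_nonpos_of_nonneg h (hδ n).le)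
    · exact (min_le_right _ _).trans
        (div_nonpos_of_nonpos_of_nonneg (by linarith) (hδ n).le)
  have hu1 : ∀ n z, u n z ∈ Icc (0 : ℝ) 1 := fun n =>
    avgBack_mem (hδ n) (hρc.comp (hanc n)) fun s => hρ _
  have hφ1 : ∀ n z, φ n z ∈ Icc (0 : ℝ) 1 := fun n =>
    avgBack_mem (hδ n) (hαc.comp (hanc n)) fun s => ⟨hα _, hα1 _⟩
  have key : ∀ n, (∫ a in (avgArea D k (δ n) (1 - 3 * δ n))..(avgArea D k (δ n) (δ n)), β a) +
      ∫ z in I, φ n z * F z ≤ lam * ((∫ z in I, u n z * A z)
        - faceArea D k * ∫ z in I, u n z) + l * (∫ z in I, u n z) + R := fun n => by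
    obtain ⟨Kg, hKg⟩ := exists_lip_avgBack (hδ n) (hhc n)
      fun s => abs_le.2 ⟨by linarith [(hhb n s).1], (hhb n s).2⟩
    obtain ⟨Kφ, hKφ⟩ := exists_lip_avgBack (hδ n) (hαc.comp (hanc n))
      fun s => abs_le.2 ⟨by simp only [Function.comp_apply]; linarith [hα (avgArea D k (δ n) s)], hα1 _⟩
    obtain ⟨Ku, hKu⟩ := exists_lip_avgBack (hδ n) (hρc.comp (hanc n))
      fun s => abs_le.2 ⟨by simp only [Function.comp_apply]; linarith [(hρ (avgArea D k (δ n) s)).1], (hρ _).2⟩
    have hg0 : avgBack (δ n) (hn n) 0 = 0 := by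
      rw [avgBack, intervalIntegral.integral_congr (g := fun _ => (0 : ℝ))]
      · simp
      · intro s hs
        rw [uIcc_of_le (show (0 : ℝ) - δ n ≤ 0 by linarith [hδ n])] at hs
        exact hsn n s (Or.inl hs.2)
    have hg1 : avgBack (δ n) (hn n) 1 = 0 := by
      rw [avgBack, intervalIntegral.integral_congr (g := fun _ => (0 : ℝ))]
      · simp
      · intro s hs
        rw [uIcc_of_le (show (1 : ℝ) - δ n ≤ 1 by linarith [hδ n])] at hs
        exact hsn n s (Or.inr (by linarith [hs.1, hδ n]))
    have h1 := calib_field hD k (g := avgBack (δ n) (hn n)) (φ := φ n) (u := u n) hKg hKφ hKu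
      hg0 hg1 (hu1 n) (fun z => avgBack_sq_add (hδ n) (hhc n) (hαc.comp (hanc n))
        (hρc.comp (hanc n)) (fun s => (hρ _).1) (fun s => by
          simp only [hhn, Function.comp_apply]
          have := hab (avgArea D k (δ n) s)
          have hc := clamp01_mem (min (s / δ n) ((1 - 2 * δ n - s) / δ n))
          have : (clamp01 (min (s / δ n) ((1 - 2 * δ n - s) / δ n))
              * β (avgArea D k (δ n) s)) ^ 2 ≤ β (avgArea D k (δ n) s) ^ 2 :=
            pow_le_pow_left₀ (mul_nonneg hc.1 (hβ _)) (mul_le_of_le_one_left (hβ _) hc.2) 2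
          linarith) z) hpq
    have h2 := wDer_iso_le hD k (u := u n) hKu (hu1 n)
    have h3 := hC (u n) ⟨Ku, hKu⟩ (hu1 n)
    have h4 : ∫ a in (avgArea D k (δ n) (1 - 3 * δ n))..(avgArea D k (δ n) (δ n)), β a ≤
        ∫ z, deriv (avgBack (δ n) (hn n)) z * sliceArea D k z :=
      vertical_ge hD hdown k hβc hβ (hδ n) (hδ1 n)
    have h5 : ∫ z, φ n z * F z = ∫ z in I, φ n z * F z := by
      rw [hI, ← integral_Ico_eq_integral_Ioo, ← integral_indicator measurableSet_Ico]
      refine integral_congr_ae (Eventually.of_forall fun z => ?_)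
      by_cases hz : z ∈ Ico (0 : ℝ) 1
      · simp [hz]
      · simp [hz, hF, fluxS_eq_zero hD.sub pp qq hz]
    linarith
  -- the limit
  have hcont : ∀ᵐ z ∂(volume.restrict I), ContinuousAt A z :=
    ae_restrict_of_ae (hA.countable_not_continuousAt.ae_notMem volume |>.mono fun z hz =>
      not_not.1 hz)
  have lφ : Tendsto (fun n => ∫ z in I, φ n z * F z) atTop (𝓝 (∫ z in I, α (A z) * F z)) := by
    refine tendsto_integral_of_dominated_convergence (fun z => |F z|)
      (fun n => ((exists_lip_avgBack (hδ n) (hαc.comp (hanc n)) (fun s => abs_le.2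
        ⟨by simp only [Function.comp_apply]; linarith [hα (avgArea D k (δ n) s)], hα1 _⟩)).choose_spec.continuous.aestronglyMeasurable.mul
          hFi.aestronglyMeasurable.restrict)) hFi.abs.restrict
      (fun n => Eventually.of_forall fun z => ?_)
      (hcont.mono fun z hz => (tendsto_avgBack hdown k hαc hz hδ hδ0).mul_const _)
    rw [norm_mul, Real.norm_of_nonneg (hφ1 n z).1, Real.norm_eq_abs]
    exact mul_le_of_le_one_left (abs_nonneg _) (hφ1 n z).2
  have hum : ∀ n, AEStronglyMeasurable (u n) (volume.restrict I) := fun n =>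
    (exists_lip_avgBack (hδ n) (hρc.comp (hanc n)) fun s => abs_le.2
      ⟨by simp only [Function.comp_apply]; linarith [(hρ (avgArea D k (δ n) s)).1],
        (hρ _).2⟩).choose_spec.continuous.aestronglyMeasurable
  have lu : Tendsto (fun n => ∫ z in I, u n z) atTop (𝓝 (∫ z in I, ρ (A z))) := by
    refine tendsto_integral_of_dominated_convergence (fun _ => (1 : ℝ)) hum (integrable_const _)
      (fun n => Eventually.of_forall fun z => ?_)
      (hcont.mono fun z hz => tendsto_avgBack hdown k hρc hz hδ hδ0)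
    rw [Real.norm_of_nonneg (hu1 n z).1]; exact (hu1 n z).2
  have luA : Tendsto (fun n => ∫ z in I, u n z * A z) atTop (𝓝 (∫ z in I, ρ (A z) * A z)) := by
    refine tendsto_integral_of_dominated_convergence (fun _ => (1 : ℝ))
      (fun n => (hum n).mul hmA.aestronglyMeasurable) (integrable_const _)
      (fun n => Eventually.of_forall fun z => ?_)
      (hcont.mono fun z hz => (tendsto_avgBack hdown k hρc hz hδ hδ0).mul_const _)
    rw [norm_mul, Real.norm_of_nonneg (hu1 n z).1, Real.norm_eq_abs]
    exact mul_le_one₀ (hu1 n z).2 (abs_nonneg _) (hAb z)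
  have hB : Continuous fun t => ∫ a in (0 : ℝ)..t, β a :=
    intervalIntegral.continuous_primitive (fun a b => hβc.intervalIntegrable a b) 0
  have lA0 : Tendsto (fun n => avgArea D k (δ n) (δ n)) atTop (𝓝 (rightLim A 0)) := by
    have t1 : ∀ c : ℝ, 0 < c → Tendsto (fun n => A (c * δ n)) atTop (𝓝 (rightLim A 0)) :=
      fun c hc => (hA.tendsto_rightLim 0).comp (tendsto_nhdsWithin_iff.2
        ⟨by simpa using hδ0.const_mul c, Eventually.of_forall fun n => mul_pos hc (hδ n)⟩)
    refine tendsto_of_tendsto_of_tendsto_of_le_of_le (t1 2 two_pos) (t1 1 one_pos)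
      (fun n => ?_) (fun n => ?_)
    · have := (avgArea_bounds (k := k) hdown (hδ n) (δ n)).1
      rw [show δ n + δ n = 2 * δ n by ring] at this
      exact this
    · simpa using (avgArea_bounds (k := k) hdown (hδ n) (δ n)).2
  have lA1 : Tendsto (fun n => avgArea D k (δ n) (1 - 3 * δ n)) atTop (𝓝 (faceArea D k)) := by
    have t1 : ∀ c : ℝ, 0 < c → Tendsto (fun n => A (1 - c * δ n)) atTop (𝓝 (leftLim A 1)) :=
      fun c hc => (hA.tendsto_leftLim 1).comp (tendsto_nhdsWithin_iff.2
        ⟨by simpa using (hδ0.const_mul c).const_sub 1,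
          Eventually.of_forall fun n => sub_lt_self 1 (mul_pos hc (hδ n))⟩)
    refine tendsto_of_tendsto_of_tendsto_of_le_of_le (t1 2 two_pos) (t1 3 three_pos)
      (fun n => ?_) (fun n => ?_)
    · have := (avgArea_bounds (k := k) hdown (hδ n) (1 - 3 * δ n)).1
      rw [show 1 - 3 * δ n + δ n = 1 - 2 * δ n by ring] at this
      exact this
    · exact (avgArea_bounds (k := k) hdown (hδ n) (1 - 3 * δ n)).2
  have lβ : Tendsto (fun n => ∫ a in (avgArea D k (δ n) (1 - 3 * δ n))..(avgArea D k (δ n) (δ n)), β a)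
      atTop (𝓝 (∫ a in (faceArea D k)..(rightLim A 0), β a)) := by
    rw [← intervalIntegral.integral_interval_sub_left (hβc.intervalIntegrable 0 _)
      (hβc.intervalIntegrable 0 _)]
    exact (((hB.tendsto _).comp lA0).sub ((hB.tendsto _).comp lA1)).congr fun n =>
      intervalIntegral.integral_interval_sub_left (hβc.intervalIntegrable 0 _)
        (hβc.intervalIntegrable 0 _)
  have hlim := le_of_tendsto_of_tendsto' (lβ.add lφ)
    ((((luA.sub (lu.const_mul (faceArea D k))).const_mul lam).add (lu.const_mul l)).add_const R) key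
  -- the selected field
  have iαf : Integrable (fun z => α (A z) * f z) (volume.restrict I) :=
    hf.bdd_mul (hαc.measurable.comp hmA).aestronglyMeasurable
      (Eventually.of_forall fun z => by rw [Real.norm_of_nonneg (hα _)]; exact hα1 _)
  have iαF : Integrable (fun z => α (A z) * F z) (volume.restrict I) :=
    hFi.restrict.bdd_mul (hαc.measurable.comp hmA).aestronglyMeasurable
      (Eventually.of_forall fun z => by rw [Real.norm_of_nonneg (hα _)]; exact hα1 _)
  have hsel' : ∫ z in I, α (A z) * f z ≤ (∫ z in I, α (A z) * F z) + ε := by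
    have hm : Integrable (fun z => max (f z - F z) 0) (volume.restrict I) :=
      (Integrable.sub hf hFi.restrict).sup (integrable_const 0)
    have h1 : ∫ z in I, (α (A z) * f z - α (A z) * F z) ≤ ∫ z in I, max (f z - F z) 0 :=
      integral_mono (iαf.sub iαF) hm fun z => by
        rw [← mul_sub]
        exact (mul_le_mul_of_nonneg_left (le_max_left _ _) (hα _)).trans
          (mul_le_of_le_one_left (le_max_right _ _) (hα1 _))
    rw [integral_sub iαf iαF] at h1
    linarith
  have e : ∫ z in I, (α (A z) * f z - ρ (A z) * (lam * (A z - faceArea D k) + l)) =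
      (∫ z in I, α (A z) * f z) - (lam * (∫ z in I, ρ (A z) * A z)
        + (l - lam * faceArea D k) * ∫ z in I, ρ (A z)) := by
    have hs : (fun z => ρ (A z) * (lam * (A z - faceArea D k) + l)) =
        fun z => lam * (ρ (A z) * A z) + (l - lam * faceArea D k) * ρ (A z) := by
      funext z; ring
    have hi : Integrable (fun z => ρ (A z) * (lam * (A z - faceArea D k) + l))
        (volume.restrict I) := by
      rw [hs]; exact (iρA.const_mul _).add (iρ.const_mul _)
    rw [integral_sub iαf hi, hs, integral_add (iρA.const_mul _) (iρ.const_mul _),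
      MeasureTheory.integral_const_mul, MeasureTheory.integral_const_mul]
  rw [e]
  linarith

end Vale.Agent.P232.Calib
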