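import Vale.Agent.P232.Defs

/-!
Tools for the concavity of the profile: a minimum principle for functions satisfying the local
midpoint inequality, and smooth substitutes of maximum and minimum that do not increase the sum
of the lengths of the gradients.
-/

open MeasureTheory Set Filter
open scoped ENNReal Topology

namespace Vale.Agent.P232

/-- A real function that is bounded below, symmetric about `1/2` and satisfies the midpoint
inequality up to distance `V (1 - V)` is at least `f a` between `a` and `1 - a`. -/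
lemma real_slab_min (f : ℝ → ℝ) (a : ℝ) (ha0 : 0 < a) (ha : a ≤ 1/2) (hb : ∀ x, 0 ≤ f x)
    (hs : ∀ x, 0 < x → x < 1 → f (1 - x) = f x)
    (hm : ∀ x d, 0 < x → x < 1 → 0 ≤ d → d ≤ x * (1 - x) → f (x + d) + f (x - d) ≤ 2 * f x)
    (x : ℝ) (hx : x ∈ Icc a (1 - a)) : f a ≤ f x := by
  have hne : (f '' Icc a (1 - a)).Nonempty := ⟨f x, x, hx, rfl⟩
  have hbdd : BddBelow (f '' Icc a (1 - a)) := ⟨0, by rintro _ ⟨y, _, rfl⟩; exact hb y⟩
  set m := sInf (f '' Icc a (1 - a)) with hmdef
  have hlow : ∀ y ∈ Icc a (1 - a), m ≤ f y := fun y hy => csInf_le hbdd ⟨y, hy, rfl⟩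
  set cap := a * (1 - a) with hcap
  have hcap0 : 0 < cap := mul_pos ha0 (by linarith)
  have hcapx : ∀ y ∈ Icc a (1 - a), cap ≤ y * (1 - y) := fun y hy => by
    rcases hy with ⟨h1, h2⟩
    nlinarith
  have step : ∀ k : ℕ, ∀ y ∈ Icc a (1/2 : ℝ), y - a ≤ k * cap → ∀ η : ℝ,
      f y ≤ m + η → f a ≤ m + 2 ^ k * η := by
    intro k
    induction k with
    | zero =>
      intro y hy hk η hη
      have : y = a := le_antisymm (by simpa using hk) hy.1
      subst this
      simpa using hη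
    | succ k ih =>
      intro y hy hk η hη
      obtain ⟨h1, h2⟩ := hy
      push_cast at hk
      have hyI : y ∈ Icc a (1 - a) := ⟨h1, by linarith⟩
      set d := min (y - a) cap with hd
      have hd0 : 0 ≤ d := le_min (by linarith) hcap0.le
      have hd1 : d ≤ y - a := min_le_left _ _
      have hd2 : d ≤ cap := min_le_right _ _
      have hsum := hm y d (by linarith) (by linarith) hd0 (hd2.trans (hcapx y hyI))
      have hup : m ≤ f (y + d) := hlow _ ⟨by linarith, by linarith⟩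
      have hdn : f (y - d) ≤ m + 2 * η := by linarith
      have hk' : y - d - a ≤ k * cap := by
        rcases min_cases (y - a) cap with ⟨h, -⟩ | ⟨h, -⟩
        · rw [hd, h]
          have : (0:ℝ) ≤ k * cap := by positivity
          linarith
        · rw [hd, h]
          linarith
      have := ih (y - d) ⟨by linarith, by linarith⟩ hk' (2 * η) hdn
      calc f a ≤ m + 2 ^ k * (2 * η) := this
        _ = m + 2 ^ (k + 1) * η := by ring
  obtain ⟨K, hK⟩ := exists_nat_ge ((1/2 - a) / cap)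
  have hK' : 1/2 - a ≤ K * cap := by rw [← div_le_iff₀ hcap0]; exact hK
  have key : f a ≤ m := by
    refine le_of_forall_pos_le_add (fun ε hε => ?_)
    have hη : 0 < ε / 2 ^ K := by positivity
    obtain ⟨_, ⟨y, hy, rfl⟩, hylt⟩ :=
      exists_lt_of_csInf_lt hne (lt_add_of_pos_right m hη)
    obtain ⟨z, hz, hzlt⟩ : ∃ z ∈ Icc a (1/2 : ℝ), f z ≤ m + ε / 2 ^ K := by
      rcases le_total y (1/2) with h | h
      · exact ⟨y, ⟨hy.1, h⟩, hylt.le⟩
      · exact ⟨1 - y, ⟨by linarith [hy.2], by linarith⟩,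
          (hs y (by linarith [hy.1]) (by linarith [hy.2])) ▸ hylt.le⟩
    have := step K z hz (by linarith [hz.2]) _ hzlt
    rwa [mul_div_cancel₀ ε (by positivity)] at this
  exact key.trans (hlow x hx)

/-- The same with values in `ℝ≥0∞`. -/
lemma ennreal_slab_min (F : ℝ → ℝ≥0∞) (a : ℝ) (ha0 : 0 < a) (ha : a ≤ 1/2)
    (hs : ∀ x, 0 < x → x < 1 → F (1 - x) = F x)
    (hm : ∀ x d, 0 < x → x < 1 → 0 ≤ d → d ≤ x * (1 - x) → F (x + d) + F (x - d) ≤ 2 * F x)
    (c : ℝ≥0∞) (hc : c ≤ F a) (x : ℝ) (hx : x ∈ Icc a (1 - a)) : c ≤ F x := by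
  refine ENNReal.le_of_forall_nnreal_lt (fun r hr => ?_)
  have hra : (r : ℝ≥0∞) ≤ F a := hr.le.trans hc
  set g : ℝ → ℝ≥0∞ := fun y => min (F y) r with hg
  have hgt : ∀ y, g y ≠ ∞ := fun y => ne_top_of_le_ne_top ENNReal.coe_ne_top (min_le_right _ _)
  have key := real_slab_min (fun y => (g y).toReal) a ha0 ha (fun y => ENNReal.toReal_nonneg)
    (fun y h1 h2 => by simp only [hg, hs y h1 h2]) (fun y d h1 h2 h3 h4 => by
      have h := hm y d h1 h2 h3 h4
      have h' : g (y + d) + g (y - d) ≤ 2 * g y := by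
        rcases le_total (r : ℝ≥0∞) (F y) with hle | hle
        · simp only [hg, min_eq_right hle, two_mul]
          exact add_le_add (min_le_right _ _) (min_le_right _ _)
        · simp only [hg, min_eq_left hle]
          exact (add_le_add (min_le_left _ _) (min_le_left _ _)).trans h
      have h'' := ENNReal.toReal_mono (ENNReal.mul_ne_top (by simp) (hgt y)) h'
      rw [ENNReal.toReal_add (hgt _) (hgt _), ENNReal.toReal_mul] at h''
      simpa using h'') x hx
  have := (ENNReal.toReal_le_toReal (hgt a) (hgt x)).1 key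
  simp only [hg, min_eq_right hra] at this
  exact this.trans (min_le_left _ _)

/-- A smooth substitute of the absolute value. -/
noncomputable def sabs (ε t : ℝ) : ℝ := Real.sqrt (t ^ 2 + ε ^ 2)

/-- Smooth maximum. -/
noncomputable def smax (ε : ℝ) (u v : R3 → ℝ) : R3 → ℝ :=
  fun x => (u x + v x + sabs ε (u x - v x)) / 2

/-- Smooth minimum. -/
noncomputable def smin (ε : ℝ) (u v : R3 → ℝ) : R3 → ℝ :=
  fun x => (u x + v x - sabs ε (u x - v x)) / 2

lemma sabs_sub_abs (ε t : ℝ) : abs (sabs ε t - |t|) ≤ |ε| := by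
  have h1 : |t| ≤ sabs ε t := by
    rw [← Real.sqrt_sq_eq_abs]
    exact Real.sqrt_le_sqrt (by nlinarith)
  have h2 : sabs ε t ≤ |t| + |ε| := by
    rw [sabs, Real.sqrt_le_iff]
    refine ⟨by positivity, ?_⟩
    nlinarith [sq_abs t, sq_abs ε, abs_nonneg t, abs_nonneg ε]
  rw [abs_of_nonneg (by linarith)]
  linarith

lemma smax_sub_max (ε : ℝ) (u v : R3 → ℝ) (x : R3) :
    |smax ε u v x - max (u x) (v x)| ≤ |ε| := by
  have h := sabs_sub_abs ε (u x - v x)
  have e : max (u x) (v x) = (u x + v x + |u x - v x|) / 2 := by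
    rcases le_total (u x) (v x) with h' | h'
    · rw [max_eq_right h', abs_of_nonpos (by linarith)]; ring
    · rw [max_eq_left h', abs_of_nonneg (by linarith)]; ring
  rw [e, smax, abs_le]
  rw [abs_le] at h
  constructor <;> linarith [abs_nonneg ε]

lemma smin_sub_min (ε : ℝ) (u v : R3 → ℝ) (x : R3) :
    |smin ε u v x - min (u x) (v x)| ≤ |ε| := by
  have h := sabs_sub_abs ε (u x - v x)
  have e : min (u x) (v x) = (u x + v x - |u x - v x|) / 2 := by
    rcases le_total (u x) (v x) with h' | h'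
    · rw [min_eq_left h', abs_of_nonpos (by linarith)]; ring
    · rw [min_eq_right h', abs_of_nonneg (by linarith)]; ring
  rw [e, smin, abs_le]
  rw [abs_le] at h
  constructor <;> linarith [abs_nonneg ε]

lemma contDiff_sabs_sub {n : WithTop ℕ∞} {ε : ℝ} (hε : ε ≠ 0) {u v : R3 → ℝ}
    (hu : ContDiff ℝ n u) (hv : ContDiff ℝ n v) :
    ContDiff ℝ n (fun x => sabs ε (u x - v x)) :=
  (((hu.sub hv).pow 2).add contDiff_const).sqrt (fun x => by positivity)

lemma contDiff_smax {n : WithTop ℕ∞} {ε : ℝ} (hε : ε ≠ 0) {u v : R3 → ℝ}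
    (hu : ContDiff ℝ n u) (hv : ContDiff ℝ n v) : ContDiff ℝ n (smax ε u v) :=
  ((hu.add hv).add (contDiff_sabs_sub hε hu hv)).div_const 2

lemma contDiff_smin {n : WithTop ℕ∞} {ε : ℝ} (hε : ε ≠ 0) {u v : R3 → ℝ}
    (hu : ContDiff ℝ n u) (hv : ContDiff ℝ n v) : ContDiff ℝ n (smin ε u v) :=
  ((hu.add hv).sub (contDiff_sabs_sub hε hu hv)).div_const 2

/-- The sum of the gradient lengths of the smooth maximum and minimum is at most that of the two
functions. -/
lemma norm_fderiv_smax_add_smin {ε : ℝ} (hε : ε ≠ 0) {u v : R3 → ℝ} {x : R3}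
    (hu : DifferentiableAt ℝ u x) (hv : DifferentiableAt ℝ v x) :
    ‖fderiv ℝ (smax ε u v) x‖ + ‖fderiv ℝ (smin ε u v) x‖
      ≤ ‖fderiv ℝ u x‖ + ‖fderiv ℝ v x‖ := by
  set d := u x - v x with hd
  set s := d / sabs ε d with hs
  have hpos : 0 < sabs ε d := Real.sqrt_pos.2 (by positivity)
  have hs1 : |s| ≤ 1 := by
    rw [hs, abs_div, abs_of_pos hpos, div_le_one hpos, ← Real.sqrt_sq_eq_abs]
    exact Real.sqrt_le_sqrt (by nlinarith)
  set A := fderiv ℝ u x with hA
  set B := fderiv ℝ v x with hB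
  have hder : HasFDerivAt (fun y => sabs ε (u y - v y)) (s • (A - B)) x := by
    have h1 : HasDerivAt (sabs ε) s (u x - v x) := by
      have h : HasDerivAt (fun t : ℝ => Real.sqrt (t ^ 2 + ε ^ 2))
          ((2 * d ^ (2 - 1) * 1) / (2 * Real.sqrt (d ^ 2 + ε ^ 2))) d :=
        (((hasDerivAt_id d).pow 2).add_const (ε ^ 2)).sqrt (by simp only [Pi.pow_apply, id_eq]; positivity)
      refine h.congr_deriv ?_
      simp only [hs, sabs, Nat.add_one_sub_one, pow_one]
      field_simp
    exact HasDerivAt.comp_hasFDerivAt (h₂ := sabs ε) (f := fun y => u y - v y) x h1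
      (hu.hasFDerivAt.sub hv.hasFDerivAt)
  have hM : fderiv ℝ (smax ε u v) x = ((1 + s) / 2) • A + ((1 - s) / 2) • B := by
    have h := (((hu.hasFDerivAt.add hv.hasFDerivAt).add hder).mul_const (2⁻¹ : ℝ))
    have h' : HasFDerivAt (smax ε u v) ((2⁻¹ : ℝ) • (A + B + s • (A - B))) x := h
    rw [h'.fderiv]
    module
  have hN : fderiv ℝ (smin ε u v) x = ((1 - s) / 2) • A + ((1 + s) / 2) • B := by
    have h := (((hu.hasFDerivAt.add hv.hasFDerivAt).sub hder).mul_const (2⁻¹ : ℝ))
    have h' : HasFDerivAt (smin ε u v) ((2⁻¹ : ℝ) • (A + B - s • (A - B))) x := h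
    rw [h'.fderiv]
    module
  obtain ⟨h1, h2⟩ := abs_le.1 hs1
  rw [hM, hN]
  have e1 : |(1 + s) / 2| = (1 + s) / 2 := abs_of_nonneg (by linarith)
  have e2 : |(1 - s) / 2| = (1 - s) / 2 := abs_of_nonneg (by linarith)
  calc _ ≤ (‖((1 + s) / 2) • A‖ + ‖((1 - s) / 2) • B‖)
        + (‖((1 - s) / 2) • A‖ + ‖((1 + s) / 2) • B‖) :=
        add_le_add (norm_add_le _ _) (norm_add_le _ _)
    _ = ‖A‖ + ‖B‖ := by simp only [norm_smul, Real.norm_eq_abs, e1, e2]; ring

end Vale.Agent.P232
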