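import Mathlib

/-!
Calibrations for down-sets in the unit square (Schmidt's fields).

A down-set is described by its height `g`. A field is `(f x * η y, k x * η y)`; it has length at
most one, is tangent to the sides of the square, and `flux` is the integral of its divergence
over the region under `g`. Every bound below gives, up to `ε`, a field whose flux is at least
the bound.
-/

open MeasureTheory Set intervalIntegral Filter
open scoped Topology

namespace Vale.Agent.P232.Planar

/-- A test field on the square in product form. -/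
structure Field where
  f : ℝ → ℝ
  k : ℝ → ℝ
  η : ℝ → ℝ
  smooth_f : ContDiff ℝ 1 f
  smooth_k : ContDiff ℝ 1 k
  smooth_η : ContDiff ℝ 1 η
  norm_le : ∀ x ∈ Icc (0 : ℝ) 1, f x ^ 2 + k x ^ 2 ≤ 1
  abs_η : ∀ y ∈ Icc (0 : ℝ) 1, |η y| ≤ 1
  f_zero : f 0 = 0
  f_one : f 1 = 0
  η_zero : η 0 = 0
  η_one : η 1 = 0

/-- The integral of the divergence of `F` over the region under `g`. -/
noncomputable def flux (F : Field) (g : ℝ → ℝ) : ℝ :=
  ∫ x in (0 : ℝ)..1, (deriv F.f x * (∫ y in (0 : ℝ)..g x, F.η y) + F.k x * F.η (g x))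

/-- The height of a down-set in the unit square. -/
structure IsHeight (g : ℝ → ℝ) : Prop where
  anti : AntitoneOn g (Ioo 0 1)
  mem : ∀ x ∈ Ioo (0 : ℝ) 1, g x ∈ Icc (0 : ℝ) 1

/-- The area under `g`. -/
noncomputable def area (g : ℝ → ℝ) : ℝ := ∫ x in (0 : ℝ)..1, g x

/-- `g` gets within every `ε` of at most `ex` before the side `x = 1`. -/
def EndsBelow (g : ℝ → ℝ) (ex : ℝ) : Prop :=
  ∀ ε > 0, ∃ x ∈ Ioo (0 : ℝ) 1, g x ≤ ex + ε

/-- The cut-off which is one on the middle of `[0,1]`. -/
noncomputable def bump (δ y : ℝ) : ℝ :=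
  Real.smoothTransition (y / δ) * Real.smoothTransition ((1 - y) / δ)

lemma contDiff_bump (δ : ℝ) : ContDiff ℝ 1 (bump δ) :=
  (Real.smoothTransition.contDiff.comp (contDiff_id.div_const δ)).mul
    (Real.smoothTransition.contDiff.comp ((contDiff_const.sub contDiff_id).div_const δ))

lemma bump_zero (δ : ℝ) : bump δ 0 = 0 := by simp [bump]

lemma bump_one (δ : ℝ) : bump δ 1 = 0 := by simp [bump]

lemma bump_nonneg (δ y : ℝ) : 0 ≤ bump δ y :=
  mul_nonneg (Real.smoothTransition.nonneg _) (Real.smoothTransition.nonneg _)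

lemma bump_le_one (δ y : ℝ) : bump δ y ≤ 1 :=
  mul_le_one₀ (Real.smoothTransition.le_one _) (Real.smoothTransition.nonneg _)
    (Real.smoothTransition.le_one _)

lemma bump_eq_one {δ y : ℝ} (hδ : 0 < δ) (h : y ∈ Icc δ (1 - δ)) : bump δ y = 1 := by
  unfold bump
  rw [Real.smoothTransition.one_of_one_le, Real.smoothTransition.one_of_one_le, mul_one]
  · rw [le_div_iff₀ hδ]; linarith [h.2]
  · rw [le_div_iff₀ hδ]; linarith [h.1]

/-- The integral of the cut-off from zero loses at most `2 δ`. -/
lemma integral_bump_mem {δ t : ℝ} (hδ : 0 < δ) (ht : t ∈ Icc (0 : ℝ) 1) :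
    (∫ y in (0 : ℝ)..t, bump δ y) ∈ Icc (t - 2 * δ) t := by
  have hc : Continuous (bump δ) := (contDiff_bump δ).continuous
  have up : ∀ a b : ℝ, a ≤ b → (∫ y in a..b, bump δ y) ≤ b - a := by
    intro a b hab
    calc (∫ y in a..b, bump δ y) ≤ ∫ _ in a..b, (1 : ℝ) :=
          integral_mono_on hab (hc.intervalIntegrable a b) (by simp) fun y _ => bump_le_one δ y
      _ = b - a := by simp
  refine ⟨?_, by simpa using up 0 t ht.1⟩
  by_cases h : δ ≤ min t (1 - δ)
  · have hm : min t (1 - δ) ≤ t := min_le_left _ _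
    have e1 := integral_add_adjacent_intervals (hc.intervalIntegrable (μ := volume) 0 δ)
      (hc.intervalIntegrable δ (min t (1 - δ)))
    have e2 := integral_add_adjacent_intervals (hc.intervalIntegrable (μ := volume) 0 (min t (1 - δ)))
      (hc.intervalIntegrable (min t (1 - δ)) t)
    have mid : (∫ y in δ..min t (1 - δ), bump δ y) = min t (1 - δ) - δ := by
      rw [integral_congr (g := fun _ => (1 : ℝ))]
      · simp
      · intro y hy
        rw [uIcc_of_le h] at hy
        exact bump_eq_one hδ ⟨hy.1, hy.2.trans (min_le_right _ _)⟩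
    have n1 : 0 ≤ ∫ y in (0 : ℝ)..δ, bump δ y :=
      integral_nonneg hδ.le fun y _ => bump_nonneg δ y
    have n2 : 0 ≤ ∫ y in min t (1 - δ)..t, bump δ y :=
      integral_nonneg hm fun y _ => bump_nonneg δ y
    rcases min_cases t (1 - δ) with ⟨he, _⟩ | ⟨he, _⟩ <;> linarith [ht.2]
  · have n1 : 0 ≤ ∫ y in (0 : ℝ)..t, bump δ y := integral_nonneg ht.1 fun y _ => bump_nonneg δ y
    rcases min_cases t (1 - δ) with ⟨he, _⟩ | ⟨he, _⟩ <;> rw [he] at h <;> linarith [ht.2]

variable {g : ℝ → ℝ}

lemma IsHeight.intervalIntegrable (hg : IsHeight g) : IntervalIntegrable g volume 0 1 := by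
  rw [intervalIntegrable_iff_integrableOn_Ioo_of_le zero_le_one]
  refine IntegrableOn.of_bound (by simp) ?_ 1 ?_
  · exact (aemeasurable_restrict_of_antitoneOn measurableSet_Ioo hg.anti).aestronglyMeasurable
  · refine (ae_restrict_mem measurableSet_Ioo).mono fun x hx => ?_
    rw [Real.norm_eq_abs, abs_of_nonneg (hg.mem x hx).1]
    exact (hg.mem x hx).2

lemma IsHeight.aemeasurable (hg : IsHeight g) : AEMeasurable g (volume.restrict (Ioc 0 1)) := by
  rw [← Measure.restrict_congr_set Ioo_ae_eq_Ioc]
  exact aemeasurable_restrict_of_antitoneOn measurableSet_Ioo hg.anti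

lemma IsHeight.comp (hg : IsHeight g) {H : ℝ → ℝ} (hH : Continuous H) :
    IntervalIntegrable (fun x => H (g x)) volume 0 1 := by
  obtain ⟨C, hC⟩ := (isCompact_Icc (a := (0 : ℝ)) (b := 1)).exists_bound_of_continuousOn hH.continuousOn
  rw [intervalIntegrable_iff_integrableOn_Ioc_of_le zero_le_one]
  refine IntegrableOn.of_bound (by simp)
    (hH.measurable.comp_aemeasurable hg.aemeasurable).aestronglyMeasurable C ?_
  rw [← Measure.restrict_congr_set Ioo_ae_eq_Ioc]
  exact (ae_restrict_mem measurableSet_Ioo).mono fun x hx => hC _ (hg.mem x hx)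

lemma integrable_flux (F : Field) (hg : IsHeight g) :
    IntervalIntegrable (fun x => deriv F.f x * (∫ y in (0 : ℝ)..g x, F.η y)) volume 0 1 ∧
    IntervalIntegrable (fun x => F.k x * F.η (g x)) volume 0 1 := by
  have hη := F.smooth_η.continuous
  constructor
  · exact (hg.comp (continuous_primitive (fun a b => hη.intervalIntegrable a b) 0)).continuousOn_mul
      (F.smooth_f.continuous_deriv_one).continuousOn
  · exact (hg.comp hη).continuousOn_mul F.smooth_k.continuous.continuousOn

/-- Almost every point of the interval of integration is inside and differs from `c`. -/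
lemma ae_interior (c : ℝ) : ∀ᵐ x ∂(volume.restrict (Icc (0 : ℝ) 1)), x ∈ Ioo 0 1 ∧ x ≠ c := by
  rw [← Measure.restrict_congr_set Ioo_ae_eq_Icc]
  exact (ae_restrict_mem measurableSet_Ioo).and (ae_restrict_of_ae (volume.ae_ne c))

/-- Schmidt's calibration with slope `s`, on a region supported over `(0,q)`. -/
theorem exists_schmidt (hg : IsHeight g) {s q p ex ε : ℝ} (hs : 0 ≤ s) (hsq : s * q < 1)
    (hq : q ∈ Icc (0 : ℝ) 1) (hpos : ∀ x ∈ Ioo 0 q, 0 < g x) (hzero : ∀ x ∈ Ioo q 1, g x = 0)
    (hp : 0 ≤ p) (htop : ∀ x ∈ Ioo p 1, g x < 1) (hex : EndsBelow g ex) (hε : 0 < ε) :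
    ∃ F : Field, s * area g + (∫ x in (0 : ℝ)..q, Real.sqrt (1 - (s * x) ^ 2)) - p - s * ex - ε
      ≤ flux F g := by
  -- the cut points
  obtain ⟨e, he, hes⟩ : ∃ e > 0, (4 * s + 6) * e ≤ ε :=
    ⟨ε / (4 * s + 6), by positivity, le_of_eq (by field_simp)⟩
  obtain ⟨x0, hx0, hgx0⟩ := hex e he
  -- heights stay inside on (p + e, q - e)
  obtain ⟨d1, hd1, hd1'⟩ : ∃ d > 0, ∀ x ∈ Ioo 0 1, x < q - e → d ≤ g x := by
    by_cases h : e < q
    · have hm : q - e ∈ Ioo (0 : ℝ) q := ⟨by linarith, by linarith⟩
      exact ⟨g (q - e), hpos _ hm, fun x hx hxe =>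
        hg.anti hx ⟨hm.1, by linarith [hq.2]⟩ hxe.le⟩
    · exact ⟨1, one_pos, fun x hx hxe => by linarith [hx.1]⟩
  obtain ⟨d2, hd2, hd2'⟩ : ∃ d > 0, ∀ x ∈ Ioo 0 1, p + e < x → g x ≤ 1 - d := by
    by_cases h : p + e < 1
    · have hm : p + e ∈ Ioo p 1 := ⟨by linarith, h⟩
      exact ⟨1 - g (p + e), by linarith [htop _ hm], fun x hx hxe => by
        linarith [hg.anti ⟨by linarith, h⟩ hx hxe.le]⟩
    · exact ⟨1, one_pos, fun x hx hxe => by linarith [hx.2]⟩
  obtain ⟨δ, hδ, hδe, hδ1, hδ2, hδx, hδs⟩ :
      ∃ δ > 0, δ ≤ e ∧ δ ≤ d1 ∧ δ ≤ d2 ∧ δ ≤ 1 - x0 ∧ s * δ < 1 := by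
    refine ⟨min (min (min e d1) (min d2 (1 - x0))) (1 / (s + 1)),
      lt_min (lt_min (lt_min he hd1) (lt_min hd2 (by linarith [hx0.2]))) (by positivity),
      ?_, ?_, ?_, ?_, ?_⟩
    · exact ((min_le_left _ _).trans (min_le_left _ _)).trans (min_le_left _ _)
    · exact ((min_le_left _ _).trans (min_le_left _ _)).trans (min_le_right _ _)
    · exact ((min_le_left _ _).trans (min_le_right _ _)).trans (min_le_left _ _)
    · exact ((min_le_left _ _).trans (min_le_right _ _)).trans (min_le_right _ _)
    · calc s * _ ≤ s * (1 / (s + 1)) := mul_le_mul_of_nonneg_left (min_le_right _ _) hs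
        _ < 1 := by rw [mul_one_div, div_lt_one (by positivity)]; linarith
  obtain ⟨c, hqc, hsc⟩ : ∃ c, q < c ∧ s * c < 1 := by
    have key : s * ((1 - s * q) / (2 * (s + 1))) ≤ (1 - s * q) / 2 := by
      rw [mul_div_assoc', div_le_iff₀ (by positivity)]
      nlinarith
    refine ⟨q + (1 - s * q) / (2 * (s + 1)),
      lt_add_of_pos_right q (div_pos (by linarith) (by positivity)), ?_⟩
    rw [mul_add]
    linarith
  -- the functions
  let R : ℝ → ℝ := fun x => Real.smoothTransition ((1 - x) / δ)
  let r : ℝ → ℝ := fun x => Real.smoothTransition ((c - x) / (c - q)) *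
    Real.smoothTransition (x + 1)
  let t : ℝ → ℝ := fun x => s * x * R x * r x
  have hR : ContDiff ℝ 1 R :=
    Real.smoothTransition.contDiff.comp ((contDiff_const.sub contDiff_id).div_const δ)
  have hr : ContDiff ℝ 1 r :=
    (Real.smoothTransition.contDiff.comp ((contDiff_const.sub contDiff_id).div_const _)).mul
      (Real.smoothTransition.contDiff.comp (contDiff_id.add contDiff_const))
  have ht : ContDiff ℝ 1 t := ((contDiff_const.mul contDiff_id).mul hR).mul hr
  have hR01 : ∀ x, R x ∈ Icc (0 : ℝ) 1 := fun x =>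
    ⟨Real.smoothTransition.nonneg _, Real.smoothTransition.le_one _⟩
  have hr01 : ∀ x, r x ∈ Icc (0 : ℝ) 1 := fun x =>
    ⟨mul_nonneg (Real.smoothTransition.nonneg _) (Real.smoothTransition.nonneg _),
      mul_le_one₀ (Real.smoothTransition.le_one _) (Real.smoothTransition.nonneg _)
        (Real.smoothTransition.le_one _)⟩
  have hrone : ∀ x, 0 ≤ x → x ≤ q → r x = 1 := by
    intro x h0 hxq
    show Real.smoothTransition _ * Real.smoothTransition _ = 1
    rw [Real.smoothTransition.one_of_one_le, Real.smoothTransition.one_of_one_le (by linarith),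
      mul_one]
    rw [le_div_iff₀ (by linarith)]; linarith
  have hRone : ∀ x, x ≤ 1 - δ → R x = 1 := fun x hx =>
    Real.smoothTransition.one_of_one_le (by rw [le_div_iff₀ hδ]; linarith)
  have htabs : ∀ x, 0 ≤ x → t x < 1 ∧ 0 ≤ t x := by
    intro x h0
    have h3 : 0 ≤ s * x := mul_nonneg hs h0
    refine ⟨?_, mul_nonneg (mul_nonneg h3 (hR01 x).1) (hr01 x).1⟩
    by_cases hxc : x ≤ c
    · calc t x ≤ s * x * 1 * 1 := by
            apply mul_le_mul (mul_le_mul_of_nonneg_left (hR01 x).2 h3) (hr01 x).2 (hr01 x).1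
            linarith
        _ ≤ s * c := by nlinarith
        _ < 1 := hsc
    · have : r x = 0 := by
        show Real.smoothTransition _ * _ = 0
        rw [Real.smoothTransition.zero_of_nonpos, zero_mul]
        exact div_nonpos_of_nonpos_of_nonneg (by linarith) (by linarith)
      simp [t, this]
  -- the root is smooth once its argument is kept positive
  let u : ℝ → ℝ := fun x => t x * Real.smoothTransition (x / δ + 1)
  have hu : ContDiff ℝ 1 u :=
    ht.mul (Real.smoothTransition.contDiff.comp ((contDiff_id.div_const δ).add contDiff_const))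
  have hu_eq : ∀ x, 0 ≤ x → u x = t x := by
    intro x h0
    show t x * _ = t x
    rw [Real.smoothTransition.one_of_one_le, mul_one]
    linarith [div_nonneg h0 hδ.le]
  have hu_lt : ∀ x, u x ^ 2 < 1 := by
    intro x
    by_cases h0 : 0 ≤ x
    · rw [hu_eq x h0]; nlinarith [htabs x h0]
    · have hxc : x < 0 := not_le.1 h0
      by_cases hx1 : x ≤ -δ
      · have : Real.smoothTransition (x / δ + 1) = 0 :=
          Real.smoothTransition.zero_of_nonpos (by linarith [(div_le_iff₀ hδ).2 (show x ≤ -1 * δ by linarith)])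
        simp [u, this]
      · have hb : |u x| ≤ s * δ := by
          have e1 := (hR01 x); have e2 := (hr01 x)
          have e3 := Real.smoothTransition.nonneg (x / δ + 1)
          have e4 := Real.smoothTransition.le_one (x / δ + 1)
          show |s * x * R x * r x * _| ≤ _
          rw [abs_mul, abs_mul, abs_mul, abs_mul, abs_of_nonneg hs, abs_of_neg hxc,
            abs_of_nonneg e1.1, abs_of_nonneg e2.1, abs_of_nonneg e3]
          calc s * -x * R x * r x * Real.smoothTransition (x / δ + 1)
              = (s * -x) * (R x * r x * Real.smoothTransition (x / δ + 1)) := by ring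
            _ ≤ (s * δ) * 1 := mul_le_mul (mul_le_mul_of_nonneg_left (by linarith) hs)
                (mul_le_one₀ (mul_le_one₀ e1.2 e2.1 e2.2) e3 e4)
                (mul_nonneg (mul_nonneg e1.1 e2.1) e3) (mul_nonneg hs hδ.le)
            _ = s * δ := mul_one _
        nlinarith [abs_nonneg (u x), sq_abs (u x)]
  let F : Field :=
    { f := t
      k := fun x => R x * r x * Real.sqrt (1 - u x ^ 2)
      η := bump δ
      smooth_f := ht
      smooth_k := (hR.mul hr).mul
        ((contDiff_const.sub (hu.pow 2)).sqrt fun x => (sub_pos.2 (hu_lt x)).ne')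
      smooth_η := contDiff_bump δ
      norm_le := fun x hx => by
        have h1 := Real.sq_sqrt (sub_nonneg.2 (hu_lt x).le)
        have h2 : R x * r x ≤ 1 := mul_le_one₀ (hR01 x).2 (hr01 x).1 (hr01 x).2
        have h3 : 0 ≤ R x * r x := mul_nonneg (hR01 x).1 (hr01 x).1
        show t x ^ 2 + (R x * r x * Real.sqrt (1 - u x ^ 2)) ^ 2 ≤ 1
        rw [mul_pow (R x * r x), h1, hu_eq x hx.1]
        have h4 : (R x * r x) ^ 2 ≤ 1 := pow_le_one₀ h3 h2
        have h5 : 0 ≤ 1 - t x ^ 2 := by have := htabs x hx.1; nlinarith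
        nlinarith
      abs_η := fun y _ => abs_le.2 ⟨by linarith [bump_nonneg δ y], bump_le_one δ y⟩
      f_zero := by simp [t]
      f_one := by simp [t, R]
      η_zero := bump_zero δ
      η_one := bump_one δ }
  refine ⟨F, ?_⟩
  have hm : 0 ≤ ex + e := (hg.mem x0 hx0).1.trans hgx0
  have hRa : Antitone R := fun a b hab =>
    Real.smoothTransition.monotone (div_le_div_of_nonneg_right (by linarith) hδ.le)
  -- the horizontal part
  obtain ⟨I1, I2⟩ := integrable_flux F hg
  have hR' : Continuous (deriv R) := hR.continuous_deriv_one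
  have part1 : s * area g - s * ex - 4 * s * e ≤
      ∫ x in (0 : ℝ)..1, deriv t x * (∫ y in (0 : ℝ)..g x, bump δ y) := by
    have J1 : IntervalIntegrable (fun x => s * g x - 2 * δ * s - s * (1 - R x)) volume 0 1 :=
      ((hg.intervalIntegrable.const_mul s).sub intervalIntegrable_const).sub
        ((continuous_const.mul (continuous_const.sub hR.continuous)).intervalIntegrable 0 1)
    have K1 : IntervalIntegrable (fun x => s * (1 - R x)) volume 0 1 :=
      (continuous_const.mul (continuous_const.sub hR.continuous)).intervalIntegrable 0 1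
    have J2 : IntervalIntegrable (fun x => s * (ex + e) * deriv R x) volume 0 1 :=
      (hR'.const_mul _).intervalIntegrable 0 1
    have key : ∫ x in (0 : ℝ)..1, (s * g x - 2 * δ * s - s * (1 - R x) + s * (ex + e) * deriv R x)
        ≤ ∫ x in (0 : ℝ)..1, deriv t x * (∫ y in (0 : ℝ)..g x, bump δ y) := by
      refine integral_mono_ae_restrict zero_le_one (J1.add J2) I1 ?_
      filter_upwards [ae_interior q] with x ⟨hx, hxq⟩
      have hG := integral_bump_mem hδ (hg.mem x hx)
      have hR'0 : deriv R x ≤ 0 := hRa.deriv_nonpos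
      obtain ⟨hR1, hR2⟩ := hR01 x
      rcases lt_or_gt_of_ne hxq with h | h
      · have hev : t =ᶠ[𝓝 x] fun y => s * y * R y := by
          filter_upwards [Ioo_mem_nhds hx.1 h] with y hy
          simp [t, hrone y hy.1.le hy.2.le]
        have hd : deriv t x = s * R x + s * x * deriv R x := by
          rw [hev.deriv_eq]
          have := (((hasDerivAt_id' x).const_mul s).mul
            ((hR.differentiable one_ne_zero x).hasDerivAt)).deriv
          rw [show (fun y => s * y * R y) = (fun y => s * y) * R from rfl, this]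
          simp
        rw [hd]
        have hG0 : 0 ≤ ∫ y in (0 : ℝ)..g x, bump δ y :=
          integral_nonneg (hg.mem x hx).1 fun y _ => bump_nonneg δ y
        have hd2 : (ex + e) * deriv R x ≤ x * deriv R x * ∫ y in (0 : ℝ)..g x, bump δ y := by
          by_cases hxe : x < 1 - δ
          · have : R =ᶠ[𝓝 x] fun _ => 1 := by
              filter_upwards [Iio_mem_nhds hxe] with y hy using hRone y hy.le
            simp [this.deriv_eq]
          · have : g x ≤ g x0 := hg.anti hx0 hx (by linarith [not_lt.1 hxe])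
            have hxG : x * ∫ y in (0 : ℝ)..g x, bump δ y ≤ ex + e :=
              (mul_le_of_le_one_left hG0 hx.2.le).trans (by linarith [hG.2])
            calc (ex + e) * deriv R x ≤ (x * ∫ y in (0 : ℝ)..g x, bump δ y) * deriv R x :=
                  mul_le_mul_of_nonpos_right hxG hR'0
              _ = _ := by ring
        have hG1 : (∫ y in (0 : ℝ)..g x, bump δ y) ≤ 1 := hG.2.trans (hg.mem x hx).2
        have e1 : g x - 2 * δ - (1 - R x) ≤ R x * ∫ y in (0 : ℝ)..g x, bump δ y := by
          nlinarith [hG.1, mul_nonneg (sub_nonneg.2 hR2) (sub_nonneg.2 hG1)]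
        linarith [mul_le_mul_of_nonneg_left e1 hs, mul_le_mul_of_nonneg_left hd2 hs]
      · have : g x = 0 := hzero x ⟨h, hx.2⟩
        rw [this, integral_same, mul_zero, mul_zero]
        nlinarith [mul_nonneg hs hδ.le, mul_nonneg hs (sub_nonneg.2 hR2),
          mul_nonpos_of_nonneg_of_nonpos (mul_nonneg hs hm) hR'0]
    have e2 : (∫ x in (0 : ℝ)..1, (1 - R x)) ≤ δ := by
      have hc : Continuous fun x => 1 - R x := continuous_const.sub hR.continuous
      rw [← integral_add_adjacent_intervals (hc.intervalIntegrable (μ := volume) 0 (1 - δ))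
        (hc.intervalIntegrable (1 - δ) 1)]
      have z : (∫ x in (0 : ℝ)..1 - δ, (1 - R x)) = 0 := by
        rw [integral_congr (g := fun _ => (0 : ℝ))]
        · simp
        · intro x hx'
          rw [uIcc_of_le (by linarith [hx0.1])] at hx'
          simp [hRone x hx'.2]
      have w : (∫ x in (1 - δ)..1, (1 - R x)) ≤ ∫ _ in (1 - δ)..1, (1 : ℝ) :=
        integral_mono_on (by linarith) (hc.intervalIntegrable _ _) (by simp)
          fun x _ => by linarith [(hR01 x).1]
      simp at w
      linarith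
    have e3 : (∫ x in (0 : ℝ)..1, deriv R x) = -1 := by
      rw [integral_deriv_eq_sub (fun x _ => hR.differentiable one_ne_zero x)
        (hR'.intervalIntegrable _ _), hRone 0 (by linarith [hx0.1])]
      simp [R]
    rw [integral_add J1 J2, integral_sub ((hg.intervalIntegrable.const_mul s).sub
        intervalIntegrable_const)
      K1,
      integral_sub (hg.intervalIntegrable.const_mul s) intervalIntegrable_const,
      intervalIntegral.integral_const_mul, intervalIntegral.integral_const,
      intervalIntegral.integral_const_mul, intervalIntegral.integral_const_mul, e3] at key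
    simp only [sub_zero, one_smul] at key
    unfold area
    nlinarith [mul_le_mul_of_nonneg_left e2 hs, mul_le_mul_of_nonneg_left hδe hs]
  -- the vertical part
  have part2 : (∫ x in (0 : ℝ)..q, Real.sqrt (1 - (s * x) ^ 2)) - (p + 3 * e) ≤
      ∫ x in (0 : ℝ)..1, F.k x * bump δ (g x) := by
    let S : Set ℝ := Icc 0 (p + e) ∪ Icc (q - e) q ∪ Icc (1 - δ) 1
    let φ : ℝ → ℝ := fun x => Real.sqrt (1 - (s * x) ^ 2)
    have hφ : Continuous φ := by fun_prop
    have hS : MeasurableSet S :=
      (measurableSet_Icc.union measurableSet_Icc).union measurableSet_Icc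
    have A1 : Integrable ((Icc 0 q).indicator φ) (volume.restrict (Ioc (0 : ℝ) 1)) :=
      Integrable.indicator (hφ.integrableOn_Ioc) measurableSet_Icc
    have A2 : Integrable (S.indicator fun _ => (1 : ℝ)) (volume.restrict (Ioc (0 : ℝ) 1)) :=
      (integrable_const 1).indicator hS
    have key : ∫ x in (0 : ℝ)..1, ((Icc 0 q).indicator φ x - S.indicator (fun _ => (1 : ℝ)) x)
        ≤ ∫ x in (0 : ℝ)..1, F.k x * bump δ (g x) := by
      refine integral_mono_ae_restrict zero_le_one
        ((intervalIntegrable_iff_integrableOn_Ioc_of_le zero_le_one).2 (A1.sub A2)) I2 ?_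
      filter_upwards [ae_interior q] with x ⟨hx, _⟩
      have hk : 0 ≤ F.k x * bump δ (g x) :=
        mul_nonneg (mul_nonneg (mul_nonneg (hR01 x).1 (hr01 x).1) (Real.sqrt_nonneg _))
          (bump_nonneg _ _)
      have hφ1 : φ x ≤ 1 := Real.sqrt_le_one.2 (by nlinarith)
      by_cases hxS : x ∈ S
      · rw [indicator_of_mem hxS]
        by_cases hxq : x ∈ Icc 0 q
        · rw [indicator_of_mem hxq]; linarith
        · rw [indicator_of_notMem hxq]; linarith
      · rw [indicator_of_notMem hxS]
        by_cases hxq : x ∈ Icc 0 q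
        · rw [indicator_of_mem hxq, sub_zero]
          simp only [S, mem_union, mem_Icc, not_or, not_and_or, not_le] at hxS
          have l1 : p + e < x := by rcases hxS.1.1 with h | h <;> linarith [hx.1]
          have l2 : x < q - e := by rcases hxS.1.2 with h | h <;> linarith [hxq.2]
          have l3 : x < 1 - δ := by rcases hxS.2 with h | h <;> linarith [hx.2]
          have hb : bump δ (g x) = 1 := bump_eq_one hδ
            ⟨hδ1.trans (hd1' x hx l2), (hd2' x hx l1).trans (by linarith)⟩
          have hRr : R x = 1 ∧ r x = 1 := ⟨hRone x l3.le, hrone x hx.1.le hxq.2⟩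
          have hk' : F.k x = φ x := by
            show R x * r x * Real.sqrt (1 - u x ^ 2) = Real.sqrt (1 - (s * x) ^ 2)
            rw [hu_eq x hx.1.le]
            simp [t, hRr.1, hRr.2]
          rw [hb, hk', mul_one]
        · rw [indicator_of_notMem hxq, sub_zero]; exact hk
    rw [integral_of_le zero_le_one, MeasureTheory.integral_sub A1 A2] at key
    have v1 : ∫ x in Ioc 0 1, (Icc 0 q).indicator φ x = ∫ x in (0 : ℝ)..q, φ x := by
      rw [setIntegral_indicator measurableSet_Icc, integral_of_le hq.1]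
      have : Ioc (0 : ℝ) 1 ∩ Icc 0 q = Ioc 0 q := by
        ext x
        simp only [mem_inter_iff, mem_Ioc, mem_Icc]
        constructor
        · rintro ⟨h, _, h'⟩; exact ⟨h.1, h'⟩
        · rintro ⟨h, h'⟩; exact ⟨⟨h, h'.trans hq.2⟩, h.le, h'⟩
      rw [this]
    have v2 : ∫ x in Ioc 0 1, S.indicator (fun _ => (1 : ℝ)) x ≤ p + 3 * e := by
      rw [setIntegral_indicator hS, setIntegral_const, smul_eq_mul, mul_one]
      refine (measureReal_mono inter_subset_right (by simp [S])).trans ?_
      refine (measureReal_union_le _ _).trans ?_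
      have := measureReal_union_le (μ := volume) (Icc 0 (p + e)) (Icc (q - e) q)
      rw [Real.volume_real_Icc_of_le (by linarith), Real.volume_real_Icc_of_le (by linarith)] at this
      rw [Real.volume_real_Icc_of_le (by linarith : 1 - δ ≤ 1)]
      linarith
    linarith
  have hflux : flux F g = (∫ x in (0 : ℝ)..1, deriv t x * (∫ y in (0 : ℝ)..g x, bump δ y)) +
      ∫ x in (0 : ℝ)..1, F.k x * bump δ (g x) := integral_add I1 I2
  rw [hflux]
  linarith

/-- The length of Schmidt's arc of slope `s` over the unit interval. -/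
noncomputable def arc (s : ℝ) : ℝ := ∫ x in (0 : ℝ)..1, Real.sqrt (1 - (s * x) ^ 2)

lemma endsBelow_one (hg : IsHeight g) : EndsBelow g 1 := fun ε hε =>
  ⟨1 / 2, by norm_num, by linarith [(hg.mem (1 / 2) (by norm_num)).2]⟩

lemma area_le_one (hg : IsHeight g) : area g ≤ 1 := by
  have := integral_mono_ae_restrict (f := g) (g := fun _ => (1 : ℝ)) zero_le_one hg.intervalIntegrable
    intervalIntegrable_const ((ae_interior 0).mono fun x hx => (hg.mem x hx.1).2)
  simpa [area] using this

lemma area_nonneg (hg : IsHeight g) : 0 ≤ area g := by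
  have := integral_mono_ae_restrict (f := fun _ => (0 : ℝ)) (g := g) zero_le_one
    intervalIntegrable_const hg.intervalIntegrable ((ae_interior 0).mono fun x hx => (hg.mem x hx.1).1)
  simpa [area] using this

/-- A slice spanning the floor: Dido's bound with slope `s`. -/
theorem exists_strip (hg : IsHeight g) {s p ex ε : ℝ} (hs : s ∈ Icc (0 : ℝ) 1)
    (hpos : ∀ x ∈ Ioo (0 : ℝ) 1, 0 < g x) (hp : 0 ≤ p) (htop : ∀ x ∈ Ioo p 1, g x < 1)
    (hex : EndsBelow g ex) (hex0 : 0 ≤ ex) (hε : 0 < ε) :
    ∃ F : Field, s * area g + arc s - p - s * ex - ε ≤ flux F g := by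
  obtain ⟨e, he, he1, hee⟩ : ∃ e > 0, e ≤ 1 ∧ e ≤ ε / 2 :=
    ⟨min 1 (ε / 2), lt_min one_pos (by linarith), min_le_left _ _, min_le_right _ _⟩
  obtain ⟨t, ht0, ht1, hts, hst⟩ : ∃ t, 0 ≤ t ∧ t * 1 < 1 ∧ t ≤ s ∧ s - e ≤ t := by
    by_cases h : s < 1
    · exact ⟨s, hs.1, by linarith, le_rfl, by linarith⟩
    · exact ⟨1 - e, by linarith, by linarith, by linarith [not_lt.1 h], by linarith [hs.2]⟩
  obtain ⟨F, hF⟩ := exists_schmidt hg ht0 ht1 ⟨zero_le_one, le_rfl⟩ hpos
    (fun x hx => absurd hx.1 (not_lt.2 hx.2.le)) hp htop hex (half_pos hε)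
  refine ⟨F, le_trans ?_ hF⟩
  have mono : arc s ≤ ∫ x in (0 : ℝ)..1, Real.sqrt (1 - (t * x) ^ 2) := by
    refine integral_mono_on zero_le_one (Continuous.intervalIntegrable (by fun_prop) _ _)
      (Continuous.intervalIntegrable (by fun_prop) _ _) fun x hx => Real.sqrt_le_sqrt ?_
    nlinarith [mul_nonneg ht0 hx.1, mul_le_mul_of_nonneg_right hts hx.1]
  have a1 := area_le_one hg
  have a0 := area_nonneg hg
  have b1 : (s - t) * area g ≤ e * 1 := mul_le_mul (by linarith) a1 a0 he.le
  nlinarith [mul_le_mul_of_nonneg_right hts hex0]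

/-- A slice spanning the floor has length at least one, less its contact with the ceiling. -/
theorem exists_floor (hg : IsHeight g) {p ε : ℝ} (hpos : ∀ x ∈ Ioo (0 : ℝ) 1, 0 < g x)
    (hp : 0 ≤ p) (htop : ∀ x ∈ Ioo p 1, g x < 1) (hε : 0 < ε) :
    ∃ F : Field, 1 - p - ε ≤ flux F g := by
  obtain ⟨F, hF⟩ := exists_strip hg (s := 0) ⟨le_rfl, zero_le_one⟩ hpos hp htop
    (endsBelow_one hg) zero_le_one hε
  refine ⟨F, ?_⟩
  simpa [arc] using hF

/-- The zero field. -/
noncomputable def Field.zero : Field where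
  f := fun _ => 0
  k := fun _ => 0
  η := fun _ => 0
  smooth_f := contDiff_const
  smooth_k := contDiff_const
  smooth_η := contDiff_const
  norm_le := fun x _ => by norm_num
  abs_η := fun y _ => by norm_num
  f_zero := rfl
  f_one := rfl
  η_zero := rfl
  η_one := rfl

lemma integral_quarter : ∫ x in (0 : ℝ)..1, Real.sqrt (1 - x ^ 2) = Real.pi / 4 := by
  have hc : Continuous fun x : ℝ => Real.sqrt (1 - x ^ 2) := by fun_prop
  have h := integral_add_adjacent_intervals (hc.intervalIntegrable (μ := volume) (-1) 0)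
    (hc.intervalIntegrable 0 1)
  have h' : (∫ x in (-1 : ℝ)..0, Real.sqrt (1 - x ^ 2)) = ∫ x in (0 : ℝ)..1, Real.sqrt (1 - x ^ 2) := by
    have := integral_comp_neg (f := fun x : ℝ => Real.sqrt (1 - x ^ 2)) (a := (0 : ℝ)) (b := 1)
    simpa using this.symm
  rw [h', integral_sqrt_one_sub_sq] at h
  linarith

lemma integral_quarter_scaled {q : ℝ} (hq : 0 < q) :
    ∫ x in (0 : ℝ)..q, Real.sqrt (1 - (x / q) ^ 2) = Real.pi * q / 4 := by
  rw [integral_comp_div (fun x => Real.sqrt (1 - x ^ 2)) hq.ne', zero_div, div_self hq.ne',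
    integral_quarter, smul_eq_mul]
  ring

/-- The bound of every slice: `√(π a)` less the two far contacts. -/
theorem exists_quarter (hg : IsHeight g) {p ex ε : ℝ} (hp : 0 ≤ p)
    (htop : ∀ x ∈ Ioo p 1, g x < 1) (hex : EndsBelow g ex) (hex0 : 0 ≤ ex) (hε : 0 < ε) :
    ∃ F : Field, Real.sqrt (Real.pi * area g) - p - ex - ε ≤ flux F g := by
  set T : Set ℝ := insert 0 {x | x ∈ Ioo (0 : ℝ) 1 ∧ 0 < g x} with hT
  have hTb : ∀ x ∈ T, x ≤ 1 := by
    rintro x (rfl | hx)
    · exact zero_le_one
    · exact hx.1.2.le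
  have hTbd : BddAbove T := ⟨1, hTb⟩
  have hq : sSup T ∈ Icc (0 : ℝ) 1 :=
    ⟨le_csSup hTbd (mem_insert _ _), csSup_le ⟨0, mem_insert _ _⟩ hTb⟩
  have hzero : ∀ x ∈ Ioo (sSup T) 1, g x = 0 := by
    intro x hx
    have hx' : x ∈ Ioo (0 : ℝ) 1 := ⟨hq.1.trans_lt hx.1, hx.2⟩
    refine le_antisymm (le_of_not_gt fun h => ?_) (hg.mem x hx').1
    linarith [hx.1, le_csSup hTbd (show x ∈ T from Or.inr ⟨hx', h⟩)]
  have hpos : ∀ x ∈ Ioo 0 (sSup T), 0 < g x := by
    intro x hx
    obtain ⟨y, hy, hxy⟩ := exists_lt_of_lt_csSup (⟨0, mem_insert _ _⟩ : T.Nonempty) hx.2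
    rcases hy with rfl | hy
    · linarith [hx.1]
    · exact hy.2.trans_le (hg.anti ⟨hx.1, hxy.trans hy.1.2⟩ hy.1 hxy.le)
  have ha : area g ≤ sSup T := by
    have h := integral_mono_ae_restrict (f := g) (g := (Iic (sSup T)).indicator fun _ => (1 : ℝ))
      zero_le_one hg.intervalIntegrable
      ((intervalIntegrable_iff_integrableOn_Ioc_of_le zero_le_one).2
        ((integrable_const 1).indicator measurableSet_Iic))
      ((ae_interior (sSup T)).mono fun x hx => ?_)
    · rw [area]
      refine h.trans (le_of_eq ?_)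
      rw [integral_of_le zero_le_one, setIntegral_indicator measurableSet_Iic, setIntegral_const,
        smul_eq_mul, mul_one]
      have e : Ioc (0 : ℝ) 1 ∩ Iic (sSup T) = Ioc 0 (sSup T) := by
        ext x
        simp only [mem_inter_iff, mem_Ioc, mem_Iic]
        exact ⟨fun h => ⟨h.1.1, h.2⟩, fun h => ⟨⟨h.1, h.2.trans hq.2⟩, h.2⟩⟩
      rw [e, Real.volume_real_Ioc_of_le hq.1, sub_zero]
    · by_cases hxq : x ≤ sSup T
      · rw [indicator_of_mem (show x ∈ Iic (sSup T) from hxq)]
        exact (hg.mem x hx.1).2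
      · rw [indicator_of_notMem (show x ∉ Iic (sSup T) from hxq),
          hzero x ⟨not_le.1 hxq, hx.1.2⟩]
  have a0 := area_nonneg hg
  rcases hq.1.eq_or_lt with hq0 | hq0
  · refine ⟨Field.zero, ?_⟩
    have : area g = 0 := le_antisymm (ha.trans hq0.symm.le) a0
    simp [flux, Field.zero, this]
    linarith
  obtain ⟨e, he, he1, hee⟩ : ∃ e > 0, e ≤ 1 ∧ e ≤ ε / 2 :=
    ⟨min 1 (ε / 2), lt_min one_pos (by linarith), min_le_left _ _, min_le_right _ _⟩
  set q := sSup T with hqdef
  have hs : 0 ≤ (1 - e) / q := div_nonneg (by linarith) hq.1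
  have hsq : (1 - e) / q * q < 1 := by rw [div_mul_cancel₀ _ hq0.ne']; linarith
  obtain ⟨ex', hex', hle⟩ : ∃ ex', EndsBelow g ex' ∧ (1 - e) / q * ex' ≤ ex := by
    rcases hq.2.eq_or_lt with h | h
    · exact ⟨ex, hex, by rw [h, div_one]; nlinarith⟩
    · refine ⟨0, fun d hd => ⟨(q + 1) / 2, ⟨by linarith, by linarith⟩, ?_⟩, by simpa using hex0⟩
      rw [hzero _ ⟨by linarith, by linarith⟩]
      linarith
  obtain ⟨F, hF⟩ := exists_schmidt hg hs hsq hq hpos hzero hp htop hex' (half_pos hε)
  refine ⟨F, le_trans ?_ hF⟩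
  have mono : Real.pi * q / 4 ≤ ∫ x in (0 : ℝ)..q, Real.sqrt (1 - ((1 - e) / q * x) ^ 2) := by
    rw [← integral_quarter_scaled hq0]
    refine integral_mono_on hq.1 (Continuous.intervalIntegrable (by fun_prop) _ _)
      (Continuous.intervalIntegrable (by fun_prop) _ _) fun x hx => Real.sqrt_le_sqrt ?_
    have h1 : 0 ≤ x / q := div_nonneg hx.1 hq.1
    rw [show (1 - e) / q * x = (1 - e) * (x / q) by ring]
    nlinarith [mul_nonneg (sub_nonneg.2 he1) h1, mul_nonneg he.le h1]
  have am : Real.sqrt (Real.pi * area g) ≤ area g / q + Real.pi * q / 4 := by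
    rw [Real.sqrt_le_iff]
    refine ⟨by positivity, ?_⟩
    have : Real.pi * area g = 4 * (area g / q) * (Real.pi * q / 4) := by field_simp
    nlinarith [sq_nonneg (area g / q - Real.pi * q / 4)]
  have aq : area g / q ≤ 1 := (div_le_one hq0).2 ha
  have : (1 - e) / q * area g = area g / q - e * (area g / q) := by ring
  nlinarith

/-- A monotone drop calibrated by a horizontal field. -/
theorem exists_drop (hg : IsHeight g) {a b ε : ℝ} (ha : a ∈ Ioo (0 : ℝ) 1) (hb : b ∈ Ioo (0 : ℝ) 1)
    (hab : a ≤ b) (hε : 0 < ε) : ∃ F : Field, g a - g b - ε ≤ flux F g := by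
  let L : ℝ → ℝ := fun x => Real.smoothTransition (x / a)
  let R : ℝ → ℝ := fun x => Real.smoothTransition ((1 - x) / (1 - b))
  have hL : ContDiff ℝ 1 L := Real.smoothTransition.contDiff.comp (contDiff_id.div_const a)
  have hR : ContDiff ℝ 1 R :=
    Real.smoothTransition.contDiff.comp ((contDiff_const.sub contDiff_id).div_const (1 - b))
  have hL' : ∀ x, 0 ≤ deriv L x := fun x => Monotone.deriv_nonneg
    fun u v huv => Real.smoothTransition.monotone (div_le_div_of_nonneg_right huv ha.1.le)
  have hR' : ∀ x, deriv R x ≤ 0 := fun x => Antitone.deriv_nonpos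
    fun u v huv => Real.smoothTransition.monotone
      (div_le_div_of_nonneg_right (by linarith) (by linarith [hb.2]))
  let F : Field :=
    { f := fun x => L x + R x - 1
      k := fun _ => 0
      η := bump (ε / 2)
      smooth_f := (hL.add hR).sub contDiff_const
      smooth_k := contDiff_const
      smooth_η := contDiff_bump _
      norm_le := fun x _ => by
        have l0 : 0 ≤ L x := Real.smoothTransition.nonneg _
        have l1 : L x ≤ 1 := Real.smoothTransition.le_one _
        have r0 : 0 ≤ R x := Real.smoothTransition.nonneg _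
        have r1 : R x ≤ 1 := Real.smoothTransition.le_one _
        nlinarith
      abs_η := fun y _ => abs_le.2 ⟨by linarith [bump_nonneg (ε / 2) y], bump_le_one _ y⟩
      f_zero := by
        have : R 0 = 1 := Real.smoothTransition.one_of_one_le (by
          rw [le_div_iff₀ (by linarith [hb.2])]; linarith [hb.1])
        simp [L, this]
      f_one := by
        have : L 1 = 1 := Real.smoothTransition.one_of_one_le (by
          rw [le_div_iff₀ ha.1]; linarith [ha.2])
        simp [R, this]
      η_zero := bump_zero _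
      η_one := bump_one _ }
  refine ⟨F, ?_⟩
  let G : ℝ → ℝ := fun x => ∫ y in (0 : ℝ)..g x, bump (ε / 2) y
  have hG : ∀ {x y}, x ∈ Ioo (0 : ℝ) 1 → y ∈ Ioo (0 : ℝ) 1 → x ≤ y → G y ≤ G x := by
    intro x y hx hy hxy
    exact integral_mono_interval le_rfl (hg.mem y hy).1 (hg.anti hx hy hxy)
      (Filter.Eventually.of_forall fun z => bump_nonneg _ z)
      ((contDiff_bump _).continuous.intervalIntegrable _ _)
  have cL : Continuous (deriv L) := hL.continuous_deriv_one
  have cR : Continuous (deriv R) := hR.continuous_deriv_one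
  obtain ⟨I1, I2⟩ := integrable_flux F hg
  have J1 : IntervalIntegrable (fun x => deriv L x * G a) volume 0 1 :=
    (cL.mul_const _).intervalIntegrable _ _
  have J2 : IntervalIntegrable (fun x => deriv R x * G b) volume 0 1 :=
    (cR.mul_const _).intervalIntegrable _ _
  have key : ∫ x in (0 : ℝ)..1, (deriv L x * G a + deriv R x * G b) ≤ flux F g := by
    refine integral_mono_ae_restrict zero_le_one (J1.add J2) (I1.add I2) ?_
    filter_upwards [ae_interior a] with x ⟨hx, _⟩
    have hd : deriv F.f x = deriv L x + deriv R x := by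
      show deriv (fun x => L x + R x - 1) x = _
      rw [deriv_sub_const]
      exact deriv_add (hL.differentiable one_ne_zero x) (hR.differentiable one_ne_zero x)
    have e1 : deriv L x * G a ≤ deriv L x * G x := by
      by_cases h : x ≤ a
      · exact mul_le_mul_of_nonneg_left (hG hx ha h) (hL' x)
      · have : L =ᶠ[𝓝 x] fun _ => 1 := by
          filter_upwards [Ioi_mem_nhds (not_le.1 h)] with y hy
          exact Real.smoothTransition.one_of_one_le ((le_div_iff₀ ha.1).2 (by linarith [mem_Ioi.1 hy]))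
        simp [this.deriv_eq]
    have e2 : deriv R x * G b ≤ deriv R x * G x := by
      by_cases h : b ≤ x
      · exact mul_le_mul_of_nonpos_left (hG hb hx h) (hR' x)
      · have : R =ᶠ[𝓝 x] fun _ => 1 := by
          filter_upwards [Iio_mem_nhds (not_le.1 h)] with y hy
          exact Real.smoothTransition.one_of_one_le
            ((le_div_iff₀ (by linarith [hb.2])).2 (by linarith [mem_Iio.1 hy]))
        simp [this.deriv_eq]
    show deriv L x * G a + deriv R x * G b ≤ deriv F.f x * G x + F.k x * F.η (g x)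
    rw [hd, show F.k x = 0 from rfl]
    linarith
  rw [integral_add J1 J2, intervalIntegral.integral_mul_const, intervalIntegral.integral_mul_const,
    integral_deriv_eq_sub (fun x _ => hL.differentiable one_ne_zero x) (cL.intervalIntegrable _ _),
    integral_deriv_eq_sub (fun x _ => hR.differentiable one_ne_zero x) (cR.intervalIntegrable _ _)]
    at key
  have l0 : L 0 = 0 := by simp [L]
  have l1 : L 1 = 1 := Real.smoothTransition.one_of_one_le ((le_div_iff₀ ha.1).2 (by linarith [ha.2]))
  have r0 : R 0 = 1 := Real.smoothTransition.one_of_one_le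
    ((le_div_iff₀ (by linarith [hb.2])).2 (by linarith [hb.1]))
  have r1 : R 1 = 0 := by simp [R]
  have ga := integral_bump_mem (half_pos hε) (hg.mem a ha)
  have gb := integral_bump_mem (half_pos hε) (hg.mem b hb)
  rw [l0, l1, r0, r1] at key
  linarith [ga.1, gb.2]

/-- The height of the complement, read from the opposite corner. -/
def flip' (g : ℝ → ℝ) (x : ℝ) : ℝ := 1 - g (1 - x)

lemma IsHeight.flip' (hg : IsHeight g) : IsHeight (flip' g) := by
  have h : ∀ x ∈ Ioo (0 : ℝ) 1, 1 - x ∈ Ioo (0 : ℝ) 1 := fun x hx =>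
    ⟨by linarith [hx.2], by linarith [hx.1]⟩
  refine ⟨fun x hx y hy hxy => ?_, fun x hx => ?_⟩
  · simp only [Planar.flip']
    linarith [hg.anti (h y hy) (h x hx) (by linarith)]
  · exact ⟨sub_nonneg.2 (hg.mem _ (h x hx)).2, sub_le_self _ (hg.mem _ (h x hx)).1⟩

lemma area_flip' (hg : IsHeight g) : area (flip' g) = 1 - area g := by
  have := integral_comp_sub_left (f := fun x => 1 - g x) (a := (0 : ℝ)) (b := 1) 1
  simp only [sub_self, sub_zero] at this
  rw [area, area]
  simp only [flip']
  rw [this, integral_sub intervalIntegrable_const hg.intervalIntegrable]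
  simp

/-- A field for the complement gives one for the set. -/
theorem exists_flip' (hg : IsHeight g) (F : Field) :
    ∃ F' : Field, flux F' g = flux F (flip' g) := by
  have hm : ∀ x ∈ Icc (0 : ℝ) 1, 1 - x ∈ Icc (0 : ℝ) 1 := fun x hx =>
    ⟨by linarith [hx.2], by linarith [hx.1]⟩
  let F' : Field :=
    { f := fun x => F.f (1 - x)
      k := fun x => F.k (1 - x)
      η := fun y => F.η (1 - y)
      smooth_f := F.smooth_f.comp (contDiff_const.sub contDiff_id)
      smooth_k := F.smooth_k.comp (contDiff_const.sub contDiff_id)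
      smooth_η := F.smooth_η.comp (contDiff_const.sub contDiff_id)
      norm_le := fun x hx => F.norm_le _ (hm x hx)
      abs_η := fun y hy => F.abs_η _ (hm y hy)
      f_zero := by simpa using F.f_one
      f_one := by simpa using F.f_zero
      η_zero := by simpa using F.η_one
      η_one := by simpa using F.η_zero }
  refine ⟨F', ?_⟩
  have hη := F.smooth_η.continuous
  obtain ⟨I1, I2⟩ := integrable_flux F' hg
  obtain ⟨J1, J2⟩ := integrable_flux F hg.flip'
  have hdf : ∀ x, deriv F'.f x = -deriv F.f (1 - x) := fun x => deriv_comp_const_sub _ _ _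
  have hi : ∀ c, (∫ y in (0 : ℝ)..c, F'.η y) =
      (∫ y in (0 : ℝ)..1, F.η y) - ∫ y in (0 : ℝ)..(1 - c), F.η y := by
    intro c
    show (∫ y in (0 : ℝ)..c, F.η (1 - y)) = _
    rw [integral_comp_sub_left F.η 1, sub_zero,
      integral_interval_sub_left (hη.intervalIntegrable _ _) (hη.intervalIntegrable _ _)]
  have e1 : ∀ x, deriv F'.f x * (∫ y in (0 : ℝ)..g x, F'.η y) + F'.k x * F'.η (g x) =
      (fun u => deriv F.f u * (∫ y in (0 : ℝ)..flip' g u, F.η y) + F.k u * F.η (flip' g u)
        - deriv F.f u * ∫ y in (0 : ℝ)..1, F.η y) (1 - x) := by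
    intro x
    rw [hdf, hi]
    show _ + F.k (1 - x) * F.η (1 - g x) = _
    simp only [flip', sub_sub_cancel]
    ring
  have hd : (∫ u in (0 : ℝ)..1, deriv F.f u * ∫ y in (0 : ℝ)..1, F.η y) = 0 := by
    rw [intervalIntegral.integral_mul_const, integral_deriv_eq_sub
      (fun x _ => F.smooth_f.differentiable one_ne_zero x)
      (F.smooth_f.continuous_deriv_one.intervalIntegrable _ _), F.f_one, F.f_zero]
    simp
  show (∫ x in (0 : ℝ)..1, _) = _
  rw [integral_congr fun x _ => e1 x, integral_comp_sub_left (f := fun u =>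
    deriv F.f u * (∫ y in (0 : ℝ)..flip' g u, F.η y) + F.k u * F.η (flip' g u)
      - deriv F.f u * ∫ y in (0 : ℝ)..1, F.η y), sub_self, sub_zero, integral_sub (J1.add J2)
    ((F.smooth_f.continuous_deriv_one.mul_const _).intervalIntegrable _ _), hd, sub_zero]
  rfl

/-- A slice with both axes full: the complement is a corner set. -/
theorem exists_both (hg : IsHeight g) {ε : ℝ} (hpos : ∀ x ∈ Ioo (0 : ℝ) 1, 0 < g x)
    (hsup : ∀ d > 0, ∃ x ∈ Ioo (0 : ℝ) 1, 1 - d ≤ g x) (hε : 0 < ε) :
    ∃ F : Field, Real.sqrt (Real.pi * (1 - area g)) - ε ≤ flux F g := by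
  have htop : ∀ x ∈ Ioo (0 : ℝ) 1, flip' g x < 1 := fun x hx => by
    have := hpos (1 - x) ⟨by linarith [hx.2], by linarith [hx.1]⟩
    simp only [flip']; linarith
  have hex : EndsBelow (flip' g) 0 := fun d hd => by
    obtain ⟨x, hx, h⟩ := hsup d hd
    refine ⟨1 - x, ⟨by linarith [hx.2], by linarith [hx.1]⟩, ?_⟩
    simp only [flip', sub_sub_cancel]; linarith
  obtain ⟨F, hF⟩ := exists_quarter hg.flip' le_rfl htop hex le_rfl hε
  obtain ⟨F', hF'⟩ := exists_flip' hg F
  refine ⟨F', ?_⟩
  rw [hF', ← area_flip' hg]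
  simpa using hF

end Vale.Agent.P232.Planar
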