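import Vale.Agent.P232.SliceDefs
import Vale.Agent.P232.Planar

/-!
The planar bounds stated for down-sets of the unit square and fields `IsSqField`, and one
countable family of fields which realises all of them.
-/

open MeasureTheory Set intervalIntegral Filter
open scoped Topology NNReal

namespace Vale.Agent.P232

open Planar (Field IsHeight EndsBelow arc area flip')

/-- A measurable down-set of the half-open unit square. -/
structure IsSqDown (B : Set (ℝ × ℝ)) : Prop where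
  meas : MeasurableSet B
  sub : B ⊆ Ico 0 1 ×ˢ Ico 0 1
  down : ∀ w ∈ B, ∀ u : ℝ × ℝ, 0 ≤ u.1 → 0 ≤ u.2 → u.1 ≤ w.1 → u.2 ≤ w.2 → u ∈ B

/-- The height of a planar set over `x`. -/
noncomputable def height (B : Set (ℝ × ℝ)) (x : ℝ) : ℝ := (volume (Prod.mk x ⁻¹' B)).toReal

/-- The length of the contact of a down-set with the side `x = 1`. -/
noncomputable def contactX (B : Set (ℝ × ℝ)) : ℝ := sInf (height B '' Ioo 0 1)

/-- The length of the contact of a down-set with the side `y = 1`. -/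
noncomputable def contactY (B : Set (ℝ × ℝ)) : ℝ :=
  volume.real {x | x ∈ Ioo (0 : ℝ) 1 ∧ height B x = 1}

variable {B : Set (ℝ × ℝ)}

lemma IsSqDown.fib_sub (hB : IsSqDown B) (x : ℝ) : Prod.mk x ⁻¹' B ⊆ Ico 0 1 :=
  fun _ hy => (hB.sub hy).2

lemma IsSqDown.fib_finite (hB : IsSqDown B) (x : ℝ) : volume (Prod.mk x ⁻¹' B) ≠ ⊤ :=
  ((measure_mono (hB.fib_sub x)).trans_lt measure_Ico_lt_top).ne

lemma IsSqDown.height_mem (hB : IsSqDown B) (x : ℝ) : height B x ∈ Icc (0 : ℝ) 1 := by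
  refine ⟨ENNReal.toReal_nonneg, ?_⟩
  refine (ENNReal.toReal_mono measure_Ico_lt_top.ne (measure_mono (hB.fib_sub x))).trans ?_
  simp

lemma IsSqDown.fib_bounds (hB : IsSqDown B) (x : ℝ) :
    Ioo 0 (height B x) ⊆ Prod.mk x ⁻¹' B ∧ Prod.mk x ⁻¹' B ⊆ Icc 0 (height B x) := by
  constructor
  · intro y hy
    by_contra hn
    have hs : Prod.mk x ⁻¹' B ⊆ Icc 0 y := by
      refine fun z hz => ⟨(hB.sub hz).2.1, le_of_not_gt fun h => hn ?_⟩
      exact hB.down _ hz (x, y) (hB.sub hz).1.1 hy.1.le le_rfl h.le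
    have : height B x ≤ y := by
      refine (ENNReal.toReal_mono measure_Icc_lt_top.ne (measure_mono hs)).trans ?_
      simp [hy.1.le]
    linarith [hy.2]
  · intro y hy
    refine ⟨(hB.sub hy).2.1, ?_⟩
    have hs : Ico 0 y ⊆ Prod.mk x ⁻¹' B := fun z hz =>
      hB.down _ hy (x, z) (hB.sub hy).1.1 hz.1 le_rfl hz.2.le
    refine le_trans ?_ (ENNReal.toReal_mono (hB.fib_finite x) (measure_mono hs))
    simp [(hB.sub hy).2.1]

lemma IsSqDown.isHeight (hB : IsSqDown B) : IsHeight (height B) := by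
  refine ⟨fun x hx y _ hxy => ?_, fun x _ => hB.height_mem x⟩
  refine ENNReal.toReal_mono (hB.fib_finite x) (measure_mono fun t ht => ?_)
  exact hB.down _ ht (x, t) hx.1.le (hB.sub ht).2.1 hxy le_rfl

/-- Integrals over a down-set, as iterated integrals below its height. -/
lemma IsSqDown.setIntegral_eq (hB : IsSqDown B) {H : ℝ × ℝ → ℝ}
    (hH : IntegrableOn H B) :
    ∫ w in B, H w = ∫ x in (0 : ℝ)..1, ∫ y in (0 : ℝ)..height B x, H (x, y) := by
  rw [← MeasureTheory.integral_indicator hB.meas, Measure.volume_eq_prod,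
    integral_prod _ (hH.integrable_indicator hB.meas), integral_of_le zero_le_one,
    ← MeasureTheory.integral_indicator (measurableSet_Ioc)]
  refine integral_congr_ae ?_
  filter_upwards [volume.ae_ne 0, volume.ae_ne 1] with x hx0 hx1
  have hf : (fun y => B.indicator H (x, y)) = (Prod.mk x ⁻¹' B).indicator fun y => H (x, y) := rfl
  rw [hf, MeasureTheory.integral_indicator (measurable_prodMk_left hB.meas)]
  by_cases hx : x ∈ Ioc (0 : ℝ) 1
  · rw [indicator_of_mem hx, integral_of_le (hB.height_mem x).1]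
    obtain ⟨l, u⟩ := hB.fib_bounds x
    refine setIntegral_congr_set ?_
    refine (HasSubset.Subset.eventuallyLE l).antisymm ?_ |>.symm.trans Ioo_ae_eq_Ioc
    exact (HasSubset.Subset.eventuallyLE u).trans Ioo_ae_eq_Icc.symm.le
  · rw [indicator_of_notMem hx]
    have he : Prod.mk x ⁻¹' B = ∅ := by
      refine eq_empty_of_forall_notMem fun y hy => hx ?_
      exact ⟨lt_of_le_of_ne (hB.sub hy).1.1 (Ne.symm hx0), (hB.sub hy).1.2.le⟩
    simp [he]

lemma sq_finite : volume (Ico (0 : ℝ) 1 ×ˢ Ico (0 : ℝ) 1) < ⊤ := by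
  rw [Measure.volume_eq_prod, Measure.prod_prod]
  simp

lemma IsSqDown.area_eq (hB : IsSqDown B) : area (height B) = volume.real B := by
  have h := hB.setIntegral_eq (H := fun _ => (1 : ℝ))
    (integrableOn_const ((measure_mono hB.sub).trans_lt sq_finite).ne)
  simp at h
  exact h.symm

/-- The clamp of the line to the unit interval. -/
noncomputable def cl (x : ℝ) : ℝ := (projIcc (0 : ℝ) 1 zero_le_one x : ℝ)

lemma cl_mem (x : ℝ) : cl x ∈ Icc (0 : ℝ) 1 := (projIcc (0 : ℝ) 1 zero_le_one x).2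

lemma cl_of_mem {x : ℝ} (hx : x ∈ Icc (0 : ℝ) 1) : cl x = x := by
  rw [cl, projIcc_of_mem zero_le_one hx]

lemma lipschitz_cl : LipschitzWith 1 cl := by
  have h := (LipschitzWith.subtype_val (Icc (0 : ℝ) 1)).comp (LipschitzWith.projIcc zero_le_one)
  rw [one_mul] at h
  exact h

lemma exists_lipschitz_comp_cl {u : ℝ → ℝ} (hu : ContDiff ℝ 1 u) :
    ∃ K, LipschitzWith K fun x => u (cl x) := by
  obtain ⟨K, hK⟩ := hu.contDiffOn.exists_lipschitzOnWith one_ne_zero (convex_Icc (0 : ℝ) 1)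
    isCompact_Icc
  refine ⟨K, LipschitzWith.of_dist_le_mul fun x y => ?_⟩
  refine (hK.dist_le_mul _ (cl_mem x) _ (cl_mem y)).trans ?_
  gcongr
  simpa using lipschitz_cl.dist_le_mul x y

lemma exists_lipschitz_mul {u v : ℝ → ℝ} {Ku Kv : ℝ≥0} (hu : LipschitzWith Ku u)
    (hv : LipschitzWith Kv v) (bu : ∀ x, |u x| ≤ 1) (bv : ∀ x, |v x| ≤ 1) :
    ∃ K, LipschitzWith K fun w : ℝ × ℝ => u w.1 * v w.2 := by
  refine ⟨Ku + Kv, LipschitzWith.of_dist_le_mul fun a b => ?_⟩
  have d1 : dist a.1 b.1 ≤ dist a b := le_max_left _ _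
  have d2 : dist a.2 b.2 ≤ dist a b := le_max_right _ _
  rw [Real.dist_eq, NNReal.coe_add]
  calc |u a.1 * v a.2 - u b.1 * v b.2|
      = |(u a.1 - u b.1) * v a.2 + u b.1 * (v a.2 - v b.2)| := by ring_nf
    _ ≤ |u a.1 - u b.1| * |v a.2| + |u b.1| * |v a.2 - v b.2| := by
        rw [← abs_mul, ← abs_mul]; exact abs_add_le _ _
    _ ≤ (Ku * dist a b) * 1 + 1 * (Kv * dist a b) := by
        gcongr
        · exact (Real.dist_eq _ _ ▸ hu.dist_le_mul _ _).trans (by gcongr)
        · exact bv _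
        · exact bu _
        · exact (Real.dist_eq _ _ ▸ hv.dist_le_mul _ _).trans (by gcongr)
    _ = _ := by ring

lemma abs_le_one_of_sq_add {a b : ℝ} (h : a ^ 2 + b ^ 2 ≤ 1) : |a| ≤ 1 ∧ |b| ≤ 1 :=
  ⟨abs_le_one_iff_mul_self_le_one.2 (by nlinarith), abs_le_one_iff_mul_self_le_one.2 (by nlinarith)⟩

/-- The horizontal component of a product field on the whole plane. -/
noncomputable def prodFst (F : Field) (w : ℝ × ℝ) : ℝ := F.f (cl w.1) * F.η (cl w.2)

/-- The vertical component of a product field on the whole plane. -/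
noncomputable def prodSnd (F : Field) (w : ℝ × ℝ) : ℝ := F.k (cl w.1) * F.η (cl w.2)

lemma isSqField_prod (F : Field) : IsSqField (prodFst F) (prodSnd F) := by
  obtain ⟨K1, h1⟩ := exists_lipschitz_comp_cl F.smooth_f
  obtain ⟨K2, h2⟩ := exists_lipschitz_comp_cl F.smooth_k
  obtain ⟨K3, h3⟩ := exists_lipschitz_comp_cl F.smooth_η
  have b1 : ∀ x, |F.f (cl x)| ≤ 1 := fun x => (abs_le_one_of_sq_add (F.norm_le _ (cl_mem x))).1
  have b2 : ∀ x, |F.k (cl x)| ≤ 1 := fun x => (abs_le_one_of_sq_add (F.norm_le _ (cl_mem x))).2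
  have b3 : ∀ x, |F.η (cl x)| ≤ 1 := fun x => F.abs_η _ (cl_mem x)
  refine ⟨exists_lipschitz_mul h1 h3 b1 b3, exists_lipschitz_mul h2 h3 b2 b3, fun w => ?_, ?_, ?_⟩
  · have e1 := F.norm_le _ (cl_mem w.1)
    have e2 : F.η (cl w.2) ^ 2 ≤ 1 := (sq_le_one_iff_abs_le_one _).2 (b3 _)
    simp only [prodFst, prodSnd]
    nlinarith [sq_nonneg (F.η (cl w.2))]
  · rintro w (h | h) <;>
      simp [prodFst, h, cl_of_mem (left_mem_Icc.2 zero_le_one),
        cl_of_mem (right_mem_Icc.2 zero_le_one), F.f_zero, F.f_one]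
  · rintro w (h | h) <;>
      simp [prodSnd, h, cl_of_mem (left_mem_Icc.2 zero_le_one),
        cl_of_mem (right_mem_Icc.2 zero_le_one), F.η_zero, F.η_one]

lemma deriv_comp_cl (u : ℝ → ℝ) {x : ℝ} (hx : x ∈ Ioo (0 : ℝ) 1) :
    deriv (fun s => u (cl s)) x = deriv u x := by
  refine Filter.EventuallyEq.deriv_eq ?_
  filter_upwards [Ioo_mem_nhds hx.1 hx.2] with s hs
  rw [cl_of_mem (Ioo_subset_Icc_self hs)]

lemma flux_prod (hB : IsSqDown B) (F : Field) :
    flux (prodFst F) (prodSnd F) B = Planar.flux F (height B) := by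
  let H : ℝ × ℝ → ℝ := fun w => deriv F.f w.1 * F.η w.2 + F.k w.1 * deriv F.η w.2
  have hf := F.smooth_f.continuous_deriv_one
  have hη' := F.smooth_η.continuous_deriv_one
  have hη := F.smooth_η.continuous
  have hk := F.smooth_k.continuous
  have hH : Continuous H := by fun_prop
  have hcpt : IntegrableOn H B :=
    (hH.continuousOn.integrableOn_compact (isCompact_Icc.prod isCompact_Icc)).mono_set
      (hB.sub.trans (prod_mono Ico_subset_Icc_self Ico_subset_Icc_self))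
  have e : ∫ w in B, dv2 (prodFst F) (prodSnd F) w = ∫ w in B, H w := by
    refine setIntegral_congr_ae hB.meas ?_
    have a1 : ∀ᵐ w : ℝ × ℝ, w.1 ≠ 0 :=
      Measure.quasiMeasurePreserving_fst.ae (volume.ae_ne (0 : ℝ))
    have a2 : ∀ᵐ w : ℝ × ℝ, w.2 ≠ 0 :=
      Measure.quasiMeasurePreserving_snd.ae (volume.ae_ne (0 : ℝ))
    filter_upwards [a1, a2] with w h1 h2 hw
    obtain ⟨w1, w2⟩ := hB.sub hw
    have i1 : w.1 ∈ Ioo (0 : ℝ) 1 := ⟨lt_of_le_of_ne w1.1 (Ne.symm h1), w1.2⟩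
    have i2 : w.2 ∈ Ioo (0 : ℝ) 1 := ⟨lt_of_le_of_ne w2.1 (Ne.symm h2), w2.2⟩
    simp only [dv2, prodFst, prodSnd, H]
    rw [deriv_mul_const_field, deriv_const_mul_field, deriv_comp_cl _ i1, deriv_comp_cl _ i2,
      cl_of_mem (Ioo_subset_Icc_self i1), cl_of_mem (Ioo_subset_Icc_self i2)]
  rw [flux, e, hB.setIntegral_eq hcpt, Planar.flux]
  refine intervalIntegral.integral_congr fun x _ => ?_
  show (∫ y in (0 : ℝ)..height B x, (deriv F.f x * F.η y + F.k x * deriv F.η y)) = _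
  rw [intervalIntegral.integral_add ((hη.const_mul _).intervalIntegrable _ _)
      ((hη'.const_mul _).intervalIntegrable _ _),
    intervalIntegral.integral_const_mul, intervalIntegral.integral_const_mul,
    integral_deriv_eq_sub (fun y _ => F.smooth_η.differentiable one_ne_zero y)
      (hη'.intervalIntegrable _ _), F.η_zero, sub_zero]

lemma IsSqDown.height_lt_one (hB : IsSqDown B) :
    ∀ x ∈ Ioo (contactY B) 1, height B x < 1 := by
  intro x hx
  have h0 : 0 < x := lt_of_le_of_lt measureReal_nonneg hx.1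
  refine lt_of_le_of_ne (hB.height_mem x).2 fun h => ?_
  have hs : Ioo 0 x ⊆ {t | t ∈ Ioo (0 : ℝ) 1 ∧ height B t = 1} := fun t ht =>
    ⟨⟨ht.1, ht.2.trans hx.2⟩, le_antisymm (hB.height_mem t).2
      (h ▸ hB.isHeight.anti ⟨ht.1, ht.2.trans hx.2⟩ ⟨h0, hx.2⟩ ht.2.le)⟩
  have := measureReal_mono (μ := volume) hs
    ((measure_mono fun t ht => ht.1).trans_lt measure_Ioo_lt_top).ne
  rw [Real.volume_real_Ioo_of_le h0.le, sub_zero] at this
  exact absurd hx.1 (not_lt.2 this)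

lemma IsSqDown.endsBelow (hB : IsSqDown B) : EndsBelow (height B) (contactX B) := by
  intro d hd
  obtain ⟨_, ⟨x, hx, rfl⟩, h⟩ := Real.lt_sInf_add_pos
    (s := height B '' Ioo 0 1) ((nonempty_Ioo.2 one_pos).image _) hd
  exact ⟨x, hx, h.le⟩

lemma IsSqDown.contactX_le (hB : IsSqDown B) {x : ℝ} (hx : x ∈ Ioo (0 : ℝ) 1) :
    contactX B ≤ height B x :=
  csInf_le ⟨0, forall_mem_image.2 fun t _ => (hB.height_mem t).1⟩ (mem_image_of_mem _ hx)

lemma IsSqDown.contactX_nonneg (hB : IsSqDown B) : 0 ≤ contactX B :=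
  le_csInf ((nonempty_Ioo.2 one_pos).image _) (forall_mem_image.2 fun t _ => (hB.height_mem t).1)

lemma IsSqDown.exists_height_one (hB : IsSqDown B) (hy : 0 < contactY B) :
    ∃ x ∈ Ioo (0 : ℝ) 1, height B x = 1 := by
  by_contra h
  have : {x | x ∈ Ioo (0 : ℝ) 1 ∧ height B x = 1} = ∅ :=
    eq_empty_of_forall_notMem fun x hx => h ⟨x, hx.1, hx.2⟩
  rw [contactY, this] at hy
  simp at hy

/-- Every slice: `√(π a)` less its contacts with the far sides. -/
theorem sq_quarter (hB : IsSqDown B) {ε : ℝ} (hε : 0 < ε) : ∃ p q, IsSqField p q ∧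
    Real.sqrt (Real.pi * volume.real B) - contactY B - contactX B - ε ≤ flux p q B := by
  obtain ⟨F, hF⟩ := Planar.exists_quarter hB.isHeight measureReal_nonneg hB.height_lt_one
    hB.endsBelow hB.contactX_nonneg hε
  exact ⟨_, _, isSqField_prod F, by rwa [flux_prod hB, ← hB.area_eq]⟩

/-- A slice reaching `x = 1`: Dido's bound with slope `s`. -/
theorem sq_strip (hB : IsSqDown B) (hx : 0 < contactX B) {s ε : ℝ} (hs : s ∈ Icc (0 : ℝ) 1)
    (hε : 0 < ε) : ∃ p q, IsSqField p q ∧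
    s * volume.real B + arc s - contactY B - s * contactX B - ε ≤ flux p q B := by
  obtain ⟨F, hF⟩ := Planar.exists_strip hB.isHeight hs
    (fun x hx' => hx.trans_le (hB.contactX_le hx')) measureReal_nonneg hB.height_lt_one
    hB.endsBelow hB.contactX_nonneg hε
  exact ⟨_, _, isSqField_prod F, by rwa [flux_prod hB, ← hB.area_eq]⟩

/-- A slice reaching `x = 1` has length at least one, less its contact with `y = 1`. -/
theorem sq_floor (hB : IsSqDown B) (hx : 0 < contactX B) {ε : ℝ} (hε : 0 < ε) :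
    ∃ p q, IsSqField p q ∧ 1 - contactY B - ε ≤ flux p q B := by
  obtain ⟨F, hF⟩ := Planar.exists_floor hB.isHeight
    (fun x hx' => hx.trans_le (hB.contactX_le hx')) measureReal_nonneg hB.height_lt_one hε
  exact ⟨_, _, isSqField_prod F, by rwa [flux_prod hB]⟩

/-- A slice reaching `y = 1` has length at least one, less its contact with `x = 1`. -/
theorem sq_wall (hB : IsSqDown B) (hy : 0 < contactY B) {ε : ℝ} (hε : 0 < ε) :
    ∃ p q, IsSqField p q ∧ 1 - contactX B - ε ≤ flux p q B := by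
  obtain ⟨a, ha, hga⟩ := hB.exists_height_one hy
  obtain ⟨b, hb, hgb⟩ := hB.endsBelow (ε / 2) (half_pos hε)
  have hb' : max a b ∈ Ioo (0 : ℝ) 1 := ⟨lt_max_of_lt_left ha.1, max_lt ha.2 hb.2⟩
  obtain ⟨F, hF⟩ := Planar.exists_drop hB.isHeight ha hb' (le_max_left _ _) (half_pos hε)
  refine ⟨_, _, isSqField_prod F, ?_⟩
  rw [flux_prod hB]
  linarith [hB.isHeight.anti hb hb' (le_max_right _ _)]

/-- A slice reaching both far sides: the complement is a corner set. -/
theorem sq_both (hB : IsSqDown B) (hx : 0 < contactX B) (hy : 0 < contactY B) {ε : ℝ}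
    (hε : 0 < ε) : ∃ p q, IsSqField p q ∧
    Real.sqrt (Real.pi * (1 - volume.real B)) - ε ≤ flux p q B := by
  obtain ⟨a, ha, hga⟩ := hB.exists_height_one hy
  obtain ⟨F, hF⟩ := Planar.exists_both hB.isHeight
    (fun x hx' => hx.trans_le (hB.contactX_le hx'))
    (fun d hd => ⟨a, ha, by linarith⟩) hε
  exact ⟨_, _, isSqField_prod F, by rwa [flux_prod hB, ← hB.area_eq]⟩

lemma integrableOn_dv2 {p q : ℝ × ℝ → ℝ} (h : IsSqField p q) :
    IntegrableOn (dv2 p q) (Ico 0 1 ×ˢ Ico 0 1) := by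
  obtain ⟨K, hp⟩ := h.lip_fst
  obtain ⟨L, hq⟩ := h.lip_snd
  have m1 : Measurable fun w : ℝ × ℝ => deriv (fun s => p (s, w.2)) w.1 :=
    (measurable_deriv_with_param (f := fun y s => p (s, y))
      (hp.continuous.comp continuous_swap)).comp measurable_swap
  have m2 : Measurable fun w : ℝ × ℝ => deriv (fun t => q (w.1, t)) w.2 :=
    measurable_deriv_with_param (f := fun x t => q (x, t)) hq.continuous
  refine IntegrableOn.of_bound sq_finite (m1.add m2).aestronglyMeasurable (K + L : ℝ)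
    (ae_of_all _ fun w => ?_)
  refine (norm_add_le _ _).trans (add_le_add ?_ ?_)
  · exact norm_deriv_le_of_lipschitz (by simpa [Function.comp_def] using hp.comp (LipschitzWith.prodMk_right w.2))
  · exact norm_deriv_le_of_lipschitz (by simpa [Function.comp_def] using hq.comp (LipschitzWith.prodMk_left w.1))

/-- One countable family of square fields is as good as all of them. -/
theorem exists_sqFamily : ∃ P Q : ℕ → ℝ × ℝ → ℝ, (∀ i, IsSqField (P i) (Q i)) ∧
    ∀ p q, IsSqField p q → ∀ ε > 0, ∃ i, ∀ B, B ⊆ Ico (0 : ℝ) 1 ×ˢ Ico (0 : ℝ) 1 →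
      flux p q B ≤ flux (P i) (Q i) B + ε := by
  set Q' : Set (ℝ × ℝ) := Ico 0 1 ×ˢ Ico 0 1 with hQ'
  let T := {pq : (ℝ × ℝ → ℝ) × (ℝ × ℝ → ℝ) // IsSqField pq.1 pq.2}
  let Φ : T → ℝ × ℝ →₁[volume.restrict Q'] ℝ := fun t => (integrableOn_dv2 t.2).toL1 _
  haveI : Fact ((1 : ENNReal) ≠ ⊤) := ⟨ENNReal.one_ne_top⟩
  obtain ⟨C, hC, hcount, hdense⟩ :=
    (TopologicalSpace.IsSeparable.of_separableSpace (range Φ)).exists_countable_dense_subset
  have h0 : IsSqField (0 : ℝ × ℝ → ℝ) 0 :=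
    ⟨⟨0, LipschitzWith.const 0⟩, ⟨0, LipschitzWith.const 0⟩, fun _ => by simp, fun _ _ => rfl,
      fun _ _ => rfl⟩
  have hne : C.Nonempty := by
    rcases C.eq_empty_or_nonempty with h | h
    · have := hdense ⟨⟨((0 : ℝ × ℝ → ℝ), (0 : ℝ × ℝ → ℝ)), h0⟩, rfl⟩
      simp [h] at this
    · exact h
  obtain ⟨c, hc⟩ := hcount.exists_eq_range hne
  have hsel : ∀ i, ∃ t, Φ t = c i := fun i => hC (hc ▸ mem_range_self i)
  choose t ht using hsel
  refine ⟨fun i => (t i).1.1, fun i => (t i).1.2, fun i => (t i).2, fun p q hpq ε hε => ?_⟩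
  obtain ⟨y, hy, hd⟩ := Metric.mem_closure_iff.1 (hdense ⟨⟨(p, q), hpq⟩, rfl⟩) ε hε
  obtain ⟨i, rfl⟩ := hc ▸ hy
  refine ⟨i, fun B hB => ?_⟩
  have i1 := (integrableOn_dv2 hpq).mono_set hB
  have i2 := (integrableOn_dv2 (t i).2).mono_set hB
  have i3 := ((integrableOn_dv2 hpq).sub (integrableOn_dv2 (t i).2)).norm
  rw [← ht i, L1.dist_eq_integral_dist] at hd
  have hd' : ∫ w in Q', ‖dv2 p q w - dv2 (t i).1.1 (t i).1.2 w‖ < ε := by
    refine lt_of_eq_of_lt (integral_congr_ae ?_) hd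
    filter_upwards [Integrable.coeFn_toL1 (integrableOn_dv2 hpq),
      Integrable.coeFn_toL1 (integrableOn_dv2 (t i).2)] with w h1 h2
    show _ = dist ((Φ ⟨(p, q), hpq⟩ : ℝ × ℝ → ℝ) w) ((Φ (t i) : ℝ × ℝ → ℝ) w)
    rw [dist_eq_norm, h1, h2]
  have hmono := setIntegral_mono_set i3 (ae_of_all _ fun w => norm_nonneg _)
    (HasSubset.Subset.eventuallyLE hB)
  have hle := (le_abs_self _).trans (norm_integral_le_integral_norm (μ := volume.restrict B)
    (fun w => dv2 p q w - dv2 (t i).1.1 (t i).1.2 w))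
  rw [MeasureTheory.integral_sub i1 i2] at hle
  have hmono' : (∫ w in B, ‖dv2 p q w - dv2 (t i).1.1 (t i).1.2 w‖) ≤
      ∫ w in Q', ‖dv2 p q w - dv2 (t i).1.1 (t i).1.2 w‖ := hmono
  simp only [flux]
  linarith

end Vale.Agent.P232
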