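import Vale.Agent.P232.SliceBasics
import Vale.Agent.P232.PlanarSet

/-!
The contacts of the slices with the far sides integrate to the areas of the far faces.
-/

open MeasureTheory Set Filter Function
open scoped Topology

namespace Vale.Agent.P232

variable {D : Set R3} {k : Fin 3} {B : Set (ℝ × ℝ)}

/-- The area of the trace of a down-set on the face where the `i`-th coordinate is one. -/
noncomputable def faceArea (D : Set R3) (i : Fin 3) : ℝ := leftLim (areaExt D i) 1

lemma isSqDown_slice (hD : MeasurableSet D) (hdown : IsDownset D) (k : Fin 3) (z : ℝ) :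
    IsSqDown (slice D k z) := by
  refine ⟨measurableSet_slice hD k z, slice_subset_square hdown.1 k z,
    fun w hw u h1 h2 h3 h4 => slice_downset hdown hw ⟨⟨h1, ?_⟩, h2, ?_⟩ h3 h4⟩
  · exact h3.trans_lt ((slice_subset_square hdown.1 k z hw).1).2
  · exact h4.trans_lt ((slice_subset_square hdown.1 k z hw).2).2

lemma IsSqDown.swap (hB : IsSqDown B) : IsSqDown (Prod.swap ⁻¹' B) :=
  ⟨measurable_swap hB.meas, fun _ hw => ⟨(hB.sub hw).2, (hB.sub hw).1⟩,
    fun w hw u h1 h2 h3 h4 => hB.down w.swap hw u.swap h2 h1 h4 h3⟩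

/-- Points increasing to one. -/
noncomputable def near (n : ℕ) : ℝ := 1 - 1 / ((n : ℝ) + 2)

lemma near_mem (n : ℕ) : near n ∈ Ioo (0 : ℝ) 1 := by
  have h : (1 : ℝ) / ((n : ℝ) + 2) < 1 := by
    rw [div_lt_one (by positivity)]; linarith [n.cast_nonneg (α := ℝ)]
  exact ⟨by simp only [near]; linarith, by simp only [near]; linarith [show (0:ℝ) < 1 / ((n : ℝ) + 2) by positivity]⟩

lemma near_mono : Monotone near := fun m n h => by
  simp only [near]
  gcongr

lemma tendsto_near : Tendsto near atTop (𝓝[<] 1) := by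
  refine tendsto_nhdsWithin_iff.2 ⟨?_, Eventually.of_forall fun n => (near_mem n).2⟩
  have h : Tendsto (fun n : ℕ => (1 : ℝ) / ((n : ℝ) + 2)) atTop (𝓝 0) :=
    tendsto_const_nhds.div_atTop (tendsto_atTop_add_const_right _ _ tendsto_natCast_atTop_atTop)
  show Tendsto (fun n : ℕ => 1 - 1 / ((n : ℝ) + 2)) atTop (𝓝 1)
  simpa using (tendsto_const_nhds (x := (1 : ℝ))).sub h

lemma IsSqDown.tendsto_height (hB : IsSqDown B) :
    Tendsto (fun n => height B (near n)) atTop (𝓝 (contactX B)) := by
  rw [Metric.tendsto_atTop]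
  intro ε hε
  obtain ⟨x, hx, hgx⟩ := hB.endsBelow (ε / 2) (half_pos hε)
  obtain ⟨N, hN⟩ := eventually_atTop.1
    ((tendsto_nhdsWithin_iff.1 tendsto_near).1.eventually_const_le hx.2)
  refine ⟨N, fun n hn => ?_⟩
  have h1 := hB.contactX_le (near_mem n)
  have h2 := hB.isHeight.anti hx (near_mem n) (hN n hn)
  rw [Real.dist_eq, abs_of_nonneg (by linarith)]
  linarith

lemma IsSqDown.contactY_eq_swap (hB : IsSqDown B) : contactY B = contactX (Prod.swap ⁻¹' B) := by
  let T : ℕ → Set ℝ := fun n => Prod.mk (near n) ⁻¹' (Prod.swap ⁻¹' B)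
  have hT : ∀ n x, x ∈ T n ↔ (x, near n) ∈ B := fun _ _ => Iff.rfl
  have hlim : Tendsto (fun n => height (Prod.swap ⁻¹' B) (near n)) atTop (𝓝 (volume (⋂ n, T n)).toReal) := by
    refine (ENNReal.continuousAt_toReal ?_).tendsto.comp (tendsto_measure_iInter_atTop
      (fun n => (measurable_prodMk_left hB.swap.meas).nullMeasurableSet) ?_ ⟨0, hB.swap.fib_finite _⟩)
    · exact ((measure_mono (iInter_subset T 0)).trans_lt (lt_top_iff_ne_top.2 (hB.swap.fib_finite _))).ne
    · intro m n h x hx
      exact hB.down _ hx (x, near m) (hB.sub hx).1.1 (near_mem m).1.le le_rfl (near_mono h)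
  rw [← tendsto_nhds_unique hlim hB.swap.tendsto_height, contactY]
  refine congrArg ENNReal.toReal (measure_congr ?_)
  filter_upwards [volume.ae_ne 0] with x hx0
  apply propext
  show (x ∈ Ioo (0 : ℝ) 1 ∧ height B x = 1) ↔ x ∈ ⋂ n, T n
  rw [mem_iInter]
  constructor
  · rintro ⟨_, h⟩ n
    exact (hT n x).2 ((hB.fib_bounds x).1 (by rw [h]; exact near_mem n))
  · intro h
    obtain ⟨h1, _⟩ := hB.sub ((hT 0 x).1 (h 0))
    refine ⟨⟨lt_of_le_of_ne h1.1 (Ne.symm hx0), h1.2⟩, le_antisymm (hB.height_mem x).2 ?_⟩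
    refine le_of_tendsto' (tendsto_nhdsWithin_iff.1 tendsto_near).1 fun n => ?_
    exact ((hB.fib_bounds x).2 ((hT n x).1 (h n))).2

/-- Re-reading a slice in the coordinates of another direction. -/
lemma sliceArea_eq_of_fst (D : Set R3) (k : Fin 3) (x : ℝ) :
    sliceArea D (k.succAbove 0) x =
      (volume {u : ℝ × ℝ | ins k u.1 (x, u.2) ∈ D}).toReal := by
  have key : (∀ a b, ins (k.succAbove 0) x (a, b) = ins k a (x, b)) ∨
      (∀ a b, ins (k.succAbove 0) x (a, b) = ins k b (x, a)) := by
    fin_cases k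
    · left; intro a b; ext j; fin_cases j <;> rfl
    · left; intro a b; ext j; fin_cases j <;> rfl
    · right; intro a b; ext j; fin_cases j <;> rfl
  rcases key with h | h
  · simp only [sliceArea, slice, ← h]
  · unfold sliceArea
    congr 1
    have e : slice D (k.succAbove 0) x = MeasurableEquiv.prodComm ⁻¹'
        {u : ℝ × ℝ | ins k u.1 (x, u.2) ∈ D} := by
      ext ⟨a, b⟩
      simp [slice, ← h, MeasurableEquiv.prodComm]
    rw [e]
    exact Measure.measurePreserving_swap.measure_preimage_equiv _

lemma sliceArea_eq_of_snd (D : Set R3) (k : Fin 3) (y : ℝ) :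
    sliceArea D (k.succAbove 1) y =
      (volume {u : ℝ × ℝ | ins k u.1 (u.2, y) ∈ D}).toReal := by
  have key : (∀ a b, ins (k.succAbove 1) y (a, b) = ins k a (b, y)) ∨
      (∀ a b, ins (k.succAbove 1) y (a, b) = ins k b (a, y)) := by
    fin_cases k
    · left; intro a b; ext j; fin_cases j <;> rfl
    · right; intro a b; ext j; fin_cases j <;> rfl
    · right; intro a b; ext j; fin_cases j <;> rfl
  rcases key with h | h
  · simp only [sliceArea, slice, ← h]
  · unfold sliceArea
    congr 1
    have e : slice D (k.succAbove 1) y = MeasurableEquiv.prodComm ⁻¹'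
        {u : ℝ × ℝ | ins k u.1 (u.2, y) ∈ D} := by
      ext ⟨a, b⟩
      simp [slice, ← h, MeasurableEquiv.prodComm]
    rw [e]
    exact Measure.measurePreserving_swap.measure_preimage_equiv _

/-- The common step: sections of `S`, whose areas are the slice areas in direction `i`. -/
lemma integral_contact_aux (hdown : IsDownset D) (i : Fin 3) (C : ℝ → Set (ℝ × ℝ))
    (hC : ∀ z, IsSqDown (C z)) (hout : ∀ z, z ∉ Ico (0 : ℝ) 1 → C z = ∅)
    (hmeas : ∀ x, MeasurableSet {u : ℝ × ℝ | (x, u.2) ∈ C u.1})
    (hvol : ∀ x, sliceArea D i x = (volume {u : ℝ × ℝ | (x, u.2) ∈ C u.1}).toReal) :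
    Measurable (fun z => contactX (C z)) ∧
      ∫ z in Ioo (0 : ℝ) 1, contactX (C z) = faceArea D i := by
  have hm : ∀ n, Measurable fun z => height (C z) (near n) := fun n =>
    (measurable_measure_prodMk_left (hmeas (near n))).ennreal_toReal
  refine ⟨measurable_of_tendsto_metrizable hm
    (tendsto_pi_nhds.2 fun z => (hC z).tendsto_height), ?_⟩
  have hlim : Tendsto (fun n => ∫ z in Ioo (0 : ℝ) 1, height (C z) (near n)) atTop
      (𝓝 (∫ z in Ioo (0 : ℝ) 1, contactX (C z))) := by
    refine tendsto_integral_of_dominated_convergence (fun _ => 1)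
      (fun n => (hm n).aestronglyMeasurable) (integrable_const 1) (fun n => ae_of_all _ fun z => ?_)
      (ae_of_all _ fun z => (hC z).tendsto_height)
    rw [Real.norm_eq_abs, abs_of_nonneg ((hC z).height_mem _).1]
    exact ((hC z).height_mem _).2
  have hev : ∀ n, ∫ z in Ioo (0 : ℝ) 1, height (C z) (near n) = areaExt D i (near n) := by
    intro n
    rw [areaExt_eq (near_mem n).1.le, hvol, Measure.volume_eq_prod,
      Measure.prod_apply (hmeas (near n))]
    simp only [height]
    show ∫ z in Ioo (0 : ℝ) 1,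
      (volume (Prod.mk z ⁻¹' {u : ℝ × ℝ | (near n, u.2) ∈ C u.1})).toReal = _
    rw [integral_toReal (measurable_measure_prodMk_left (hmeas (near n))).aemeasurable]
    · congr 1
      rw [← lintegral_indicator measurableSet_Ioo]
      refine lintegral_congr_ae ?_
      filter_upwards [volume.ae_ne 0] with z hz0
      by_cases hz : z ∈ Ioo (0 : ℝ) 1
      · rw [indicator_of_mem hz]
      · rw [indicator_of_notMem hz]
        have : C z = ∅ := hout z fun h => hz ⟨lt_of_le_of_ne h.1 (Ne.symm hz0), h.2⟩
        simp [this]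
    · exact ae_of_all _ fun z => lt_top_iff_ne_top.2 ((hC z).fib_finite _)
  refine tendsto_nhds_unique hlim (Tendsto.congr (fun n => (hev n).symm) ?_)
  exact ((areaExt_antitone hdown i).tendsto_leftLim 1).comp tendsto_near

/-- The contacts with `x = 1` integrate to the area of that face. -/
theorem integral_contactX (hD : MeasurableSet D) (hdown : IsDownset D) (k : Fin 3) :
    Measurable (fun z => contactX (slice D k z)) ∧
      ∫ z in Ioo (0 : ℝ) 1, contactX (slice D k z) = faceArea D (k.succAbove 0) :=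
  integral_contact_aux hdown _ (fun z => slice D k z) (fun z => isSqDown_slice hD hdown k z)
    (fun _ hz => slice_eq_empty hdown.1 hz)
    (fun _ => (measurable_ins k).comp
      (measurable_fst.prodMk (measurable_const.prodMk measurable_snd)) hD)
    (fun x => sliceArea_eq_of_fst D k x)

/-- The contacts with `y = 1` integrate to the area of that face. -/
theorem integral_contactY (hD : MeasurableSet D) (hdown : IsDownset D) (k : Fin 3) :
    Measurable (fun z => contactY (slice D k z)) ∧
      ∫ z in Ioo (0 : ℝ) 1, contactY (slice D k z) = faceArea D (k.succAbove 1) := by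
  simp only [(isSqDown_slice hD hdown k _).contactY_eq_swap]
  exact integral_contact_aux hdown _ (fun z => Prod.swap ⁻¹' slice D k z)
    (fun z => (isSqDown_slice hD hdown k z).swap)
    (fun _ hz => by simp [slice_eq_empty hdown.1 hz])
    (fun _ => (measurable_ins k).comp
      (measurable_fst.prodMk (measurable_snd.prodMk measurable_const)) hD)
    (fun x => sliceArea_eq_of_snd D k x)

/-- The contacts of higher slices are smaller. -/
theorem contact_anti (hD : MeasurableSet D) (hdown : IsDownset D) (k : Fin 3) {z z' : ℝ}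
    (hz : 0 ≤ z) (hzz : z ≤ z') :
    contactX (slice D k z') ≤ contactX (slice D k z) ∧
      contactY (slice D k z') ≤ contactY (slice D k z) := by
  have hs := slice_anti hdown (k := k) hz hzz
  have h1 := isSqDown_slice hD hdown k z
  have h2 := isSqDown_slice hD hdown k z'
  have key : ∀ {A A' : Set (ℝ × ℝ)}, IsSqDown A → IsSqDown A' → A' ⊆ A →
      contactX A' ≤ contactX A := fun hA hA' h =>
    le_of_tendsto_of_tendsto' hA'.tendsto_height hA.tendsto_height fun n =>
      ENNReal.toReal_mono (hA.fib_finite _) (measure_mono (preimage_mono h))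
  refine ⟨key h1 h2 hs, ?_⟩
  rw [h1.contactY_eq_swap, h2.contactY_eq_swap]
  exact key h1.swap h2.swap (preimage_mono hs)

end Vale.Agent.P232
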