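import Vale.Agent.P232.Slice

/-!
The slicing inequality with the jumps of the slice area at the partition points.
-/

open MeasureTheory Set Filter Function
open scoped NNReal Topology

namespace Vale.Agent.P232

variable {D : Set R3}

theorem sum_range_two_mul_succ (F : ℕ → ℝ) (M : ℕ) :
    ∑ j ∈ Finset.range (2 * M + 1), F j
      = ∑ i ∈ Finset.range (M + 1), F (2 * i) + ∑ i ∈ Finset.range M, F (2 * i + 1) := by
  induction M with
  | zero => simp
  | succ n ih =>
    rw [show 2 * (n + 1) + 1 = 2 * n + 1 + 1 + 1 by ring, Finset.sum_range_succ,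
      Finset.sum_range_succ, ih, Finset.sum_range_succ (fun i => F (2 * i)) (n + 1),
      Finset.sum_range_succ (fun i => F (2 * i + 1)) n, show 2 * n + 1 + 1 = 2 * (n + 1) by ring]
    ring

/-- **The slicing inequality with jumps.** As `slice_partition`, with the jump of the slice area
at each interior point of the partition added. -/
theorem slice_partition_jumps (hD : MeasurableSet D) (hdown : IsDownset D) {P : ℝ}
    (hP : RelPerLE D P) (k : Fin 3) {M : ℕ} {t : ℕ → ℝ} (ht : ∀ i ≤ M, t i < t (i + 1))
    (h0 : 0 ≤ t 0) (h1 : t (M + 1) ≤ 1) {f : ℝ → ℝ}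
    (hf : ∀ i ≤ M, IntegrableOn f (Ioo (t i) (t (i + 1))))
    (hb : ∀ i ≤ M, ∀ᵐ z, z ∈ Ioo (t i) (t (i + 1)) → ∀ ε > 0, ∃ p q, IsSqField p q ∧
      f z ≤ flux p q (slice D k z) + ε) :
    ∑ i ∈ Finset.range (M + 1),
      Real.sqrt (max (∫ z in Ioo (t i) (t (i + 1)), f z) 0 ^ 2
        + (rightLim (areaExt D k) (t i) - leftLim (areaExt D k) (t (i + 1))) ^ 2)
      + ∑ i ∈ Finset.range M,
        (leftLim (areaExt D k) (t (i + 1)) - rightLim (areaExt D k) (t (i + 1))) ≤ P := by
  have hA := areaExt_antitone hdown k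
  obtain ⟨d0, hd0, hgap⟩ : ∃ d0 > 0, ∀ i ≤ M, 4 * d0 < t (i + 1) - t i := by
    have : ∀ᶠ d : ℝ in 𝓝[>] 0, ∀ i ∈ Finset.range (M + 1), 4 * d < t (i + 1) - t i := by
      rw [eventually_all_finset]
      intro i hi
      have hpos := ht i (by have := Finset.mem_range.1 hi; omega)
      refine mem_of_superset (Ioo_mem_nhdsGT (show (0 : ℝ) < (t (i + 1) - t i) / 4 by linarith))
        fun d hd => ?_
      simp only [Set.mem_ofPred_eq]
      linarith [hd.2]
    obtain ⟨d, hd, hd0⟩ := (this.and self_mem_nhdsWithin).exists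
    exact ⟨d, hd0, fun i hi => hd i (Finset.mem_range.2 (by omega))⟩
  set A := areaExt D k with hAdef
  have key : ∀ d ∈ Ioc 0 d0, ∑ i ∈ Finset.range (M + 1),
      Real.sqrt (max (∫ z in Ioo (t i + d) (t (i + 1) - d), f z) 0 ^ 2
        + (A (t i + 2 * d) - A (t (i + 1) - 2 * d)) ^ 2)
      + ∑ i ∈ Finset.range M, (leftLim A (t (i + 1)) - rightLim A (t (i + 1))) ≤ P := by
    intro d hd
    set t' : ℕ → ℝ := fun j => if j % 2 = 0 then t (j / 2) + d else t (j / 2 + 1) - d with ht'
    have te : ∀ i, t' (2 * i) = t i + d := fun i => by simp [ht']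
    have to' : ∀ i, t' (2 * i + 1) = t (i + 1) - d := fun i => by
      simp [ht', show (2 * i + 1) % 2 = 1 by omega, show (2 * i + 1) / 2 = i by omega]
    set S : Set ℝ := ⋃ i ∈ Finset.range (M + 1), Ioo (t i + d) (t (i + 1) - d) with hS
    have hSm : MeasurableSet S :=
      Finset.measurableSet_biUnion _ fun i _ => measurableSet_Ioo
    have hord : ∀ i j, i ≤ j → j ≤ M + 1 → t i ≤ t j := by
      intro i j hij
      induction j, hij using Nat.le_induction with
      | base => intro _; exact le_rfl
      | succ j _ ih => intro hj; exact (ih (by omega)).trans (ht j (by omega)).le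
    have hodd : ∀ i < M, ∀ z ∈ Ioo (t' (2 * i + 1)) (t' (2 * i + 1 + 1)), z ∉ S := by
      intro i hi z hz
      rw [to', show 2 * i + 1 + 1 = 2 * (i + 1) by ring, te] at hz
      simp only [hS, mem_iUnion, Finset.mem_range, not_exists]
      intro j hj hzj
      rcases le_or_gt j i with h | h
      · have := hord (j + 1) (i + 1) (by omega) (by omega)
        linarith [hz.1, hzj.2]
      · have := hord (i + 1) j (by omega) (by omega)
        linarith [hz.2, hzj.1]
    have hstep : ∀ j < 2 * M + 1, t' j < t' (j + 1) := by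
      intro j hj
      obtain ⟨i, rfl | rfl⟩ : ∃ i, j = 2 * i ∨ j = 2 * i + 1 := ⟨j / 2, by omega⟩
      · rw [te, to']; linarith [hgap i (by omega), hd.2, hd.1]
      · rw [to', show 2 * i + 1 + 1 = 2 * (i + 1) by ring, te]; linarith [hd.1]
    have hsub : ∀ i, Ioo (t i + d) (t (i + 1) - d) ⊆ Ioo (t i) (t (i + 1)) := fun i =>
      Ioo_subset_Ioo (by linarith [hd.1]) (by linarith [hd.1])
    have hmem : ∀ i ≤ M, ∀ z ∈ Ioo (t i + d) (t (i + 1) - d), z ∈ S := fun i hi z hz =>
      mem_biUnion (Finset.mem_range.2 (Nat.lt_succ_of_le hi)) hz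
    have h := slice_partition hD hdown hP k (t := t') (N := 2 * M + 1) hstep
      (by rw [show (0 : ℕ) = 2 * 0 from rfl, te]; linarith [hd.1])
      (by rw [to']; linarith [hd.1]) (f := S.indicator f) ?_ ?_
    · rw [sum_range_two_mul_succ] at h
      refine le_trans (add_le_add (Finset.sum_le_sum fun i hi => ?_)
        (Finset.sum_le_sum fun i hi => ?_)) h
      · replace hi : i ≤ M := by have := Finset.mem_range.1 hi; omega
        rw [te, to', setIntegral_congr_fun measurableSet_Ioo
          (fun z hz => indicator_of_mem (hmem i hi z hz) f)]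
        refine Real.sqrt_le_sqrt (add_le_add le_rfl ?_)
        have hd1 := hd.1
        have l1 : A (t i + 2 * d) ≤ rightLim A (t i + d) := hA.le_rightLim (by linarith)
        have l2 : leftLim A (t (i + 1) - d) ≤ A (t (i + 1) - 2 * d) := hA.leftLim_le (by linarith)
        have l3 : A (t (i + 1) - 2 * d) ≤ A (t i + 2 * d) := hA (by linarith [hgap i hi, hd.2])
        exact pow_le_pow_left₀ (by linarith) (by linarith) 2
      · replace hi : i < M := Finset.mem_range.1 hi
        refine le_trans ?_ (Real.le_sqrt_of_sq_le (le_add_of_nonneg_left (sq_nonneg _)))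
        rw [to', show 2 * i + 1 + 1 = 2 * (i + 1) by ring, te]
        have hd1 := hd.1
        have l1 := hA.leftLim_le (show t (i + 1) - d / 2 < t (i + 1) by linarith)
        have l2 := hA.le_rightLim (show t (i + 1) - d < t (i + 1) - d / 2 by linarith)
        have l3 := hA.le_rightLim (show t (i + 1) < t (i + 1) + d / 2 by linarith)
        have l4 := hA.leftLim_le (show t (i + 1) + d / 2 < t (i + 1) + d by linarith)
        linarith
    · intro j hj
      obtain ⟨i, rfl | rfl⟩ : ∃ i, j = 2 * i ∨ j = 2 * i + 1 := ⟨j / 2, by omega⟩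
      · rw [te, to']
        exact ((hf i (by omega)).mono_set (hsub i)).indicator hSm
      · exact integrableOn_zero.congr_fun (fun z hz => (indicator_of_notMem
          (hodd i (by omega) z hz) f).symm) measurableSet_Ioo
    · intro j hj
      obtain ⟨i, rfl | rfl⟩ : ∃ i, j = 2 * i ∨ j = 2 * i + 1 := ⟨j / 2, by omega⟩
      · rw [te, to']
        filter_upwards [hb i (by omega)] with z hz hzi ε hε
        rw [indicator_of_mem (hmem i (by omega) z hzi)]
        exact hz (hsub i hzi) ε hε
      · refine Eventually.of_forall fun z hz ε hε => ⟨_, _, isSqField_zero, ?_⟩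
        rw [indicator_of_notMem (hodd i (by omega) z hz), flux_zero]
        linarith
  refine le_of_tendsto (x := 𝓝[>] (0 : ℝ)) ?_ (mem_of_superset (Ioc_mem_nhdsGT hd0) key)
  refine Tendsto.add_const _ (tendsto_finsetSum _ fun i hi => ?_)
  replace hi : i ≤ M := by have := Finset.mem_range.1 hi; omega
  refine (Real.continuous_sqrt.tendsto _).comp (Tendsto.add (Tendsto.pow ?_ 2)
    (Tendsto.pow (Tendsto.sub ?_ ?_) 2))
  · refine Tendsto.max ?_ tendsto_const_nhds
    rw [show (∫ z in Ioo (t i) (t (i + 1)), f z)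
      = ∫ z, (Ioo (t i) (t (i + 1))).indicator f z from (integral_indicator measurableSet_Ioo).symm]
    simp only [← integral_indicator measurableSet_Ioo]
    refine tendsto_integral_filter_of_dominated_convergence
      (fun z => |(Ioo (t i) (t (i + 1))).indicator f z|) ?_ ?_
      ((integrable_indicator_iff measurableSet_Ioo).2 (hf i hi)).abs ?_
    · filter_upwards [self_mem_nhdsWithin] with d (hd : 0 < d)
      exact ((integrable_indicator_iff measurableSet_Ioo).2 ((hf i hi).mono_set
        (Ioo_subset_Ioo (by linarith) (by linarith)))).aestronglyMeasurable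
    · filter_upwards [self_mem_nhdsWithin] with d (hd : 0 < d)
      refine Eventually.of_forall fun z => ?_
      by_cases hz : z ∈ Ioo (t i + d) (t (i + 1) - d)
      · rw [indicator_of_mem hz, indicator_of_mem
          (show z ∈ Ioo (t i) (t (i + 1)) from ⟨by linarith [hz.1], by linarith [hz.2]⟩),
          Real.norm_eq_abs]
      · rw [indicator_of_notMem hz, norm_zero]; exact abs_nonneg _
    · refine Eventually.of_forall fun z => ?_
      refine tendsto_const_nhds.congr' ?_
      by_cases hz : z ∈ Ioo (t i) (t (i + 1))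
      · filter_upwards [Ioo_mem_nhdsGT (lt_min (sub_pos.2 hz.1) (sub_pos.2 hz.2))] with d hd
        rw [indicator_of_mem hz, indicator_of_mem]
        exact ⟨by linarith [hd.2, min_le_left (z - t i) (t (i + 1) - z)],
          by linarith [hd.2, min_le_right (z - t i) (t (i + 1) - z)]⟩
      · filter_upwards [self_mem_nhdsWithin] with d (hd : 0 < d)
        rw [indicator_of_notMem hz, indicator_of_notMem]
        exact fun h => hz ⟨by linarith [h.1], by linarith [h.2]⟩
  · refine (hA.tendsto_rightLim _).comp (tendsto_nhdsWithin_iff.2 ⟨?_, ?_⟩)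
    · have hc : Tendsto (fun x : ℝ => t i + 2 * x) (𝓝 0) (𝓝 (t i + 2 * 0)) :=
        Continuous.tendsto (by fun_prop) 0
      rw [mul_zero, add_zero] at hc
      exact hc.mono_left nhdsWithin_le_nhds
    · exact eventually_nhdsWithin_of_forall fun x (hx : 0 < x) =>
        show t i < t i + 2 * x by linarith
  · refine (hA.tendsto_leftLim _).comp (tendsto_nhdsWithin_iff.2 ⟨?_, ?_⟩)
    · have hc : Tendsto (fun x : ℝ => t (i + 1) - 2 * x) (𝓝 0) (𝓝 (t (i + 1) - 2 * 0)) :=
        Continuous.tendsto (by fun_prop) 0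
      rw [mul_zero, sub_zero] at hc
      exact hc.mono_left nhdsWithin_le_nhds
    · exact eventually_nhdsWithin_of_forall fun x (hx : 0 < x) =>
        show t (i + 1) - 2 * x < t (i + 1) by linarith

end Vale.Agent.P232
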