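import Vale.Agent.P232.CylinderKey
import Vale.Agent.P232.SliceJump
import Vale.Agent.P232.SliceContacts

/-!
The one-dimensional inequality of the quarter cylinder, and the resulting bound for down-sets:
in every direction the relative perimeter plus the two far contacts is at least the smaller of
half a ball and a quarter tube.
-/

open MeasureTheory Set Filter Function
open scoped Topology

namespace Vale.Agent.P232.Cylinder

/-- The value of half a ball and of a quarter tube at relative volume `v`. -/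
noncomputable def ballTube (v : ℝ) : ℝ :=
  min ((9 * Real.pi / 2) ^ ((1 : ℝ) / 3) * v ^ ((2 : ℝ) / 3)) (Real.sqrt (Real.pi * v))

/-- The cosine of the chord calibration between the slice areas `u²` and `w²`. -/
noncomputable def cosC (u w a : ℝ) : ℝ := (Real.sqrt a + u * w / Real.sqrt a) / (u + w)

/-- The sine of the chord calibration. -/
noncomputable def sinC (u w a : ℝ) : ℝ := Real.sqrt (1 - cosC u w a ^ 2)

theorem cosC_mem {u w a : ℝ} (hu : 0 ≤ u) (huw : u ≤ w) (ha : a ∈ Icc (u ^ 2) (w ^ 2)) :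
    cosC u w a ∈ Icc (0 : ℝ) 1 := by
  have hw : 0 ≤ w := hu.trans huw
  refine ⟨by unfold cosC; positivity, ?_⟩
  unfold cosC
  refine div_le_one_of_le₀ ?_ (add_nonneg hu hw)
  have h1 : u ≤ Real.sqrt a := Real.le_sqrt_of_sq_le ha.1
  have h2 : Real.sqrt a ≤ w := by
    rw [← Real.sqrt_sq hw]; exact Real.sqrt_le_sqrt ha.2
  rcases eq_or_lt_of_le (Real.sqrt_nonneg a) with h | h
  · rw [← h]; simp; linarith
  · rw [← le_sub_iff_add_le', div_le_iff₀ h]
    nlinarith [mul_nonneg (sub_nonneg.2 h1) (sub_nonneg.2 h2)]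

theorem continuousOn_sinC {u w : ℝ} (hu : 0 ≤ u) :
    ContinuousOn (sinC u w) (Icc (u ^ 2) (w ^ 2)) := by
  unfold sinC cosC
  rcases eq_or_lt_of_le hu with rfl | hu
  · simp only [zero_mul, zero_div, add_zero]
    fun_prop
  · refine ContinuousOn.sqrt (continuousOn_const.sub (ContinuousOn.pow
      (ContinuousOn.div_const (Real.continuous_sqrt.continuousOn.add
        (continuousOn_const.div Real.continuous_sqrt.continuousOn fun a ha => ?_)) _) _))
    exact (Real.sqrt_pos.2 (lt_of_lt_of_le (pow_pos hu 2) ha.1)).ne'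

theorem sinC_le_one (u w a : ℝ) : sinC u w a ≤ 1 :=
  Real.sqrt_le_one.2 (by nlinarith [sq_nonneg (cosC u w a)])

theorem integral_sinC {u w : ℝ} (hu : 0 ≤ u) (huw : u ≤ w) (hw : 0 < w) :
    ∫ a in u ^ 2..w ^ 2, sinC u w a = 2 * H u w / (u + w) := by
  have himg : (fun r : ℝ => r ^ 2) '' uIcc u w ⊆ Icc (u ^ 2) (w ^ 2) := by
    rintro _ ⟨r, hr, rfl⟩
    rw [uIcc_of_le huw] at hr
    exact ⟨pow_le_pow_left₀ hu hr.1 2, pow_le_pow_left₀ (hu.trans hr.1) hr.2 2⟩
  have h := intervalIntegral.integral_comp_mul_deriv' (a := u) (b := w) (f := fun r => r ^ 2)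
    (f' := fun r => 2 * r) (g := sinC u w) (fun r _ => by simpa using hasDerivAt_pow 2 r)
    (by fun_prop) ((continuousOn_sinC hu).mono himg)
  rw [← h, H, ← intervalIntegral.integral_const_mul, ← intervalIntegral.integral_div]
  refine intervalIntegral.integral_congr fun r hr => ?_
  rw [uIcc_of_le huw] at hr
  have hr0 : 0 ≤ r := hu.trans hr.1
  simp only [Function.comp_apply]
  rcases eq_or_lt_of_le hr0 with h0 | h0
  · have : u = 0 := by linarith [hr.1]
    subst this
    subst h0
    simp
  · unfold sinC cosC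
    rw [Real.sqrt_sq hr0]
    have e : 1 - ((r + u * w / r) / (u + w)) ^ 2
        = ((w ^ 2 - r ^ 2) * (r ^ 2 - u ^ 2)) / (r * (u + w)) ^ 2 := by
      field_simp
      ring
    have hp : 0 ≤ (w ^ 2 - r ^ 2) * (r ^ 2 - u ^ 2) := mul_nonneg
      (sub_nonneg.2 (pow_le_pow_left₀ hr0 hr.2 2)) (sub_nonneg.2 (pow_le_pow_left₀ hu hr.1 2))
    rw [e, Real.sqrt_div hp, Real.sqrt_sq (by positivity)]
    field_simp

/-- One interval of the calibration: a cut `[L, R]` of the areas over a step of height `h`. -/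
theorem step_bound {u w L R X h : ℝ} (hu : 0 ≤ u) (huw : u ≤ w) (hw : 0 < w) (hh : 0 ≤ h)
    (hL : u ^ 2 ≤ L) (hLR : L ≤ R) (hR : R ≤ w ^ 2) (hX : h * Real.sqrt (Real.pi * L) ≤ X) :
    Real.sqrt Real.pi / (u + w) * (h * (L + u * w) - h * (w / u) * (R - L))
      + (∫ a in L..R, sinC u w a) ≤ Real.sqrt (X ^ 2 + (R - L) ^ 2) := by
  have hsub : Icc L R ⊆ Icc (u ^ 2) (w ^ 2) := Icc_subset_Icc hL hR
  obtain ⟨q, hq, hmax⟩ := isCompact_Icc.exists_isMaxOn (nonempty_Icc.2 hLR)
    ((continuousOn_sinC (w := w) hu).mono hsub)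
  have hint : ∫ a in L..R, sinC u w a ≤ sinC u w q * (R - L) := by
    calc ∫ a in L..R, sinC u w a ≤ ∫ _ in L..R, sinC u w q :=
          intervalIntegral.integral_mono_on hLR
            (((continuousOn_sinC hu).mono hsub).intervalIntegrable_of_Icc hLR)
            intervalIntegrable_const fun a ha => hmax ha
      _ = _ := by simp [mul_comm]
  have hc := cosC_mem hu huw (hsub hq)
  have hs0 : 0 ≤ sinC u w q := Real.sqrt_nonneg _
  have hcs : sinC u w q ^ 2 + cosC u w q ^ 2 = 1 := by
    unfold sinC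
    rw [Real.sq_sqrt (by nlinarith [hc.1, hc.2])]; ring
  have hL0 : 0 ≤ L := (sq_nonneg u).trans hL
  have hX0 : 0 ≤ X := le_trans (by positivity) hX
  have hcsb : cosC u w q * X + sinC u w q * (R - L) ≤ Real.sqrt (X ^ 2 + (R - L) ^ 2) := by
    refine Real.le_sqrt_of_sq_le ?_
    nlinarith [sq_nonneg (cosC u w q * (R - L) - sinC u w q * X)]
  have hloss : L + u * w - w / u * (R - L) ≤ cosC u w q * (u + w) * Real.sqrt L := by
    have huw0 : (u + w) ≠ 0 := by linarith
    rw [cosC, div_mul_cancel₀ _ huw0]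
    have h1 : L ≤ Real.sqrt q * Real.sqrt L := by
      rw [← Real.sqrt_mul (hL0.trans hq.1)]
      exact Real.le_sqrt_of_sq_le (by nlinarith [hq.1])
    rcases eq_or_lt_of_le hu with hu0 | hu0
    · subst hu0; simp only [zero_mul, zero_div, div_zero, add_zero, sub_zero]; exact h1
    · have hLp : 0 < L := lt_of_lt_of_le (pow_pos hu0 2) hL
      have hqp : 0 < q := lt_of_lt_of_le hLp hq.1
      have h2 : u * w - w / u * (R - L) ≤ u * w / Real.sqrt q * Real.sqrt L := by
        have h3 : L / q ≤ Real.sqrt L / Real.sqrt q := by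
          rw [← Real.sqrt_div hL0]
          refine Real.le_sqrt_of_sq_le ?_
          rw [sq]
          exact mul_le_of_le_one_left (by positivity) ((div_le_one hqp).2 hq.1)
        have h4 : 1 - (R - L) / u ^ 2 ≤ L / q := by
          rw [le_div_iff₀ hqp, sub_mul, one_mul, div_mul_eq_mul_div]
          have : R - L ≤ (R - L) * q / u ^ 2 := by
            rw [le_div_iff₀ (by positivity)]
            exact mul_le_mul_of_nonneg_left (hL.trans hq.1) (sub_nonneg.2 hLR)
          linarith [hq.2]
        have h5 := mul_le_mul_of_nonneg_left (h4.trans h3) (show 0 ≤ u * w by positivity)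
        refine le_trans (le_of_eq ?_) (h5.trans (le_of_eq (by ring)))
        field_simp
      linarith [show (Real.sqrt q + u * w / Real.sqrt q) * Real.sqrt L
        = Real.sqrt q * Real.sqrt L + u * w / Real.sqrt q * Real.sqrt L by ring]
  have hmain : Real.sqrt Real.pi / (u + w) * (h * (L + u * w) - h * (w / u) * (R - L))
      ≤ cosC u w q * X := by
    refine le_trans ?_ (mul_le_mul_of_nonneg_left hX hc.1)
    rw [Real.sqrt_mul Real.pi_nonneg, div_mul_eq_mul_div, div_le_iff₀ (by linarith)]
    calc Real.sqrt Real.pi * (h * (L + u * w) - h * (w / u) * (R - L))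
        = Real.sqrt Real.pi * h * (L + u * w - w / u * (R - L)) := by ring
      _ ≤ Real.sqrt Real.pi * h * (cosC u w q * (u + w) * Real.sqrt L) := by gcongr
      _ = _ := by ring
  linarith

/-- The arithmetic end of the proof. -/
theorem ballTube_le {u w v : ℝ} (hu : 0 ≤ u) (huw : u ≤ w) (hw : 0 < w) (hv : 0 ≤ v) :
    ballTube v ≤ (Real.sqrt Real.pi * (v + u * w) + 2 * H u w) / (u + w) := by
  have hpi := Real.pi_pos
  set p := Real.sqrt Real.pi with hp
  have hp2 : p ^ 2 = Real.pi := Real.sq_sqrt hpi.le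
  have hp0 : 0 ≤ p := Real.sqrt_nonneg _
  rcases le_or_gt (4 * Real.pi / 81) v with hv0 | hv0
  · refine le_trans (min_le_right _ _) ?_
    rw [le_div_iff₀ (by linarith), Real.sqrt_mul hpi.le, ← hp]
    set s := Real.sqrt v with hs
    have hs2 : s ^ 2 = v := Real.sq_sqrt hv
    have hs0 : 0 ≤ s := Real.sqrt_nonneg _
    have hps : p ≤ 9 / 2 * s := by nlinarith
    by_cases hprod : 0 ≤ (s - u) * (w - s)
    · nlinarith [key hu huw hs0, mul_le_mul_of_nonneg_right hps hprod]
    · nlinarith [H_nonneg huw, mul_nonpos_of_nonneg_of_nonpos hp0 (not_le.1 hprod).le]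
  · refine le_trans (min_le_left _ _) ?_
    rw [le_div_iff₀ (by linarith)]
    set σ := (v / (4 * Real.pi / 81)) ^ ((1 : ℝ) / 3) with hσ
    have hσ0 : 0 ≤ σ := by positivity
    have hσ3 : σ ^ 3 = v / (4 * Real.pi / 81) := by
      rw [hσ, ← Real.rpow_natCast, ← Real.rpow_mul (by positivity)]; norm_num
    have hσ1 : σ ≤ 1 := by
      rw [hσ]
      exact Real.rpow_le_one (by positivity) ((div_le_one (by positivity)).2 hv0.le) (by norm_num)
    have hval : (9 * Real.pi / 2) ^ ((1 : ℝ) / 3) * v ^ ((2 : ℝ) / 3)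
        = 2 * Real.pi / 9 * σ ^ 2 := by
      refine (pow_left_inj₀ (by positivity) (by positivity) (three_ne_zero)).1 ?_
      rw [mul_pow, mul_pow, ← pow_mul, show 2 * 3 = 3 * 2 by norm_num, pow_mul, hσ3,
        ← Real.rpow_natCast, ← Real.rpow_mul (by positivity), ← Real.rpow_natCast,
        ← Real.rpow_mul hv]
      norm_num
      field_simp
      ring
    rw [hval]
    set s := σ * (2 * p / 9) with hs
    have hs0 : 0 ≤ s := by positivity
    have hvs : v = σ * s ^ 2 := by
      have : v = σ ^ 3 * (4 * Real.pi / 81) := by rw [hσ3]; field_simp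
      rw [hs, this, ← hp2]; ring
    have hsq : 2 * Real.pi / 9 * σ ^ 2 = p * σ * s := by rw [hs, ← hp2]; ring
    have hs9 : p * σ = 9 / 2 * s := by rw [hs]; ring
    rw [hsq, hvs]
    have e : p * (σ * s ^ 2 + u * w) - p * σ * s * (u + w)
        = p * σ * ((s - u) * (s - w)) + p * (1 - σ) * (u * w) := by ring
    rw [hs9] at e ⊢
    linarith [key hu huw hs0, mul_nonneg (mul_nonneg hp0 (sub_nonneg.2 hσ1)) (mul_nonneg hu hw.le),
      show 9 / 2 * s * ((s - u) * (s - w)) = -(2 * (9 / 4 * s * (s - u) * (w - s))) by ring]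

/-- The calibration bound of a chord containing the range of the slice areas. -/
theorem cylinder_1d_gen {A : ℝ → ℝ} (hA : Antitone A) {v Q u w : ℝ} (hu : 0 ≤ u) (huw : u ≤ w)
    (hw0 : 0 < w) (hum : u ^ 2 ≤ leftLim A 1) (hMw : rightLim A 0 ≤ w ^ 2)
    (hvA : v ≤ ∫ z in (0 : ℝ)..1, A z)
    (hQ : ∀ n : ℕ, ∀ t : ℕ → ℝ, (∀ i, t i = i / ((n : ℝ) + 1)) →
      ∑ i ∈ Finset.range (n + 1), Real.sqrt ((1 / ((n : ℝ) + 1)
          * Real.sqrt (Real.pi * leftLim A (t (i + 1)))) ^ 2
          + (rightLim A (t i) - leftLim A (t (i + 1))) ^ 2)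
        + ∑ i ∈ Finset.range n, (leftLim A (t (i + 1)) - rightLim A (t (i + 1))) ≤ Q) :
    Real.sqrt Real.pi * (v + u * w) / (u + w)
      + (∫ a in leftLim A 1..rightLim A 0, sinC u w a) ≤ Q := by
  have hint : ∀ a b, IntervalIntegrable A volume a b := fun a b => hA.intervalIntegrable
  set K := Real.sqrt Real.pi / (u + w) * (1 + w / u) * (w ^ 2 - u ^ 2) with hK
  refine le_of_tendsto' (x := atTop)
    (f := fun n : ℕ => Real.sqrt Real.pi * (v + u * w) / (u + w)
      + (∫ a in leftLim A 1..rightLim A 0, sinC u w a) - 1 / ((n : ℝ) + 1) * K) ?_ fun n => ?_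
  · simpa using ((tendsto_one_div_add_atTop_nhds_zero_nat (𝕜 := ℝ)).mul_const K).const_sub
      (Real.sqrt Real.pi * (v + u * w) / (u + w)
        + ∫ a in leftLim A 1..rightLim A 0, sinC u w a)
  set t : ℕ → ℝ := fun i => i / ((n : ℝ) + 1) with ht
  set h := 1 / ((n : ℝ) + 1) with hh
  set L : ℕ → ℝ := fun i => leftLim A (t (i + 1)) with hL
  set R : ℕ → ℝ := fun i => rightLim A (t i) with hR
  have hstep : ∀ i, t (i + 1) - t i = h := fun i => by simp only [ht, hh]; push_cast; ring
  have hh0 : 0 < h := by positivity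
  have htlt : ∀ i, t i < t (i + 1) := fun i => by linarith [hstep i]
  have ht0 : t 0 = 0 := by simp [ht]
  have htn : t (n + 1) = 1 := by
    simp only [ht]; push_cast
    exact div_self (by positivity)
  have hR0 : R 0 = rightLim A 0 := by simp [hR, ht0]
  have hLn : L n = leftLim A 1 := by simp [hL, htn]
  have hLR : ∀ i, L i ≤ R i := fun i => by
    obtain ⟨m, hm1, hm2⟩ := exists_between (htlt i)
    exact (hA.leftLim_le hm2).trans (hA.le_rightLim hm1)
  have hRL : ∀ i, R (i + 1) ≤ L i := fun i => hA.rightLim_le_leftLim le_rfl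
  have hmono : ∀ i j, i ≤ j → L j ≤ L i ∧ R j ≤ R i := by
    intro i j hij
    induction j, hij using Nat.le_induction with
    | base => exact ⟨le_rfl, le_rfl⟩
    | succ j _ ih => exact ⟨((hLR (j + 1)).trans (hRL j)).trans ih.1,
        ((hRL j).trans (hLR j)).trans ih.2⟩
  have hrange : ∀ i ≤ n, u ^ 2 ≤ L i ∧ R i ≤ w ^ 2 := fun i hi =>
    ⟨hum.trans (hLn ▸ (hmono i n hi).1), (hR0 ▸ (hmono 0 i (Nat.zero_le _)).2).trans hMw⟩
  have hcont : ∀ a b, u ^ 2 ≤ a → a ≤ b → b ≤ w ^ 2 →
      IntervalIntegrable (sinC u w) volume a b := fun a b ha hab hb =>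
    ((continuousOn_sinC hu).mono (Icc_subset_Icc ha hb)).intervalIntegrable_of_Icc hab
  -- the calibration splits over the drops and the jumps
  have hsplit : ∀ m ≤ n, ∫ a in L m..R 0, sinC u w a
      = ∑ i ∈ Finset.range (m + 1), (∫ a in L i..R i, sinC u w a)
        + ∑ i ∈ Finset.range m, ∫ a in R (i + 1)..L i, sinC u w a := by
    intro m hm
    induction m with
    | zero => simp
    | succ m ih =>
      rw [Finset.sum_range_succ (fun i => ∫ a in L i..R i, sinC u w a),
        Finset.sum_range_succ (fun i => ∫ a in R (i + 1)..L i, sinC u w a)]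
      have i1 := hrange (m + 1) hm
      have i2 := hrange m (by omega)
      have e1 := intervalIntegral.integral_add_adjacent_intervals
        (hcont _ _ i1.1 (hLR (m + 1)) i1.2)
        (hcont _ _ (i1.1.trans (hLR (m + 1))) (hRL m) ((hLR m).trans i2.2))
      have hLm : L m ≤ R 0 := (hLR m).trans (hmono 0 m (Nat.zero_le _)).2
      have e2 := intervalIntegral.integral_add_adjacent_intervals
        (hcont _ _ i1.1 ((hLR (m + 1)).trans (hRL m)) ((hLR m).trans i2.2))
        (hcont _ _ i2.1 hLm (hR0 ▸ hMw))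
      linarith [ih (by omega)]
  have hv' : v ≤ ∑ i ∈ Finset.range (n + 1), h * R i := by
    refine hvA.trans ?_
    rw [← ht0, ← htn, ← intervalIntegral.sum_integral_adjacent_intervals fun i _ => hint _ _]
    refine Finset.sum_le_sum fun i _ => ?_
    calc ∫ z in t i..t (i + 1), A z ≤ ∫ _ in t i..t (i + 1), R i :=
          intervalIntegral.integral_mono_on_of_le_Ioo (htlt i).le (hint _ _)
            intervalIntegrable_const fun z hz => hA.le_rightLim hz.1
      _ = _ := by simp [hstep i]
  have hdrop : ∑ i ∈ Finset.range (n + 1), (R i - L i) ≤ w ^ 2 - u ^ 2 := by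
    have : ∀ m, ∑ i ∈ Finset.range (m + 1), (R i - L i) ≤ R 0 - L m := by
      intro m
      induction m with
      | zero => simp
      | succ m ih => rw [Finset.sum_range_succ]; linarith [hRL m]
    linarith [this n, hum, hMw]
  have h1 := hQ n t (fun i => rfl)
  have h2 : ∑ i ∈ Finset.range (n + 1),
      (Real.sqrt Real.pi / (u + w) * (h * (L i + u * w) - h * (w / u) * (R i - L i))
        + ∫ a in L i..R i, sinC u w a)
      ≤ ∑ i ∈ Finset.range (n + 1),
        Real.sqrt ((h * Real.sqrt (Real.pi * L i)) ^ 2 + (R i - L i) ^ 2) := by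
    refine Finset.sum_le_sum fun i hi => ?_
    have hi' := hrange i (by have := Finset.mem_range.1 hi; omega)
    exact step_bound hu huw hw0 hh0.le hi'.1 (hLR i) hi'.2 le_rfl
  have h3 : ∑ i ∈ Finset.range n, (∫ a in R (i + 1)..L i, sinC u w a)
      ≤ ∑ i ∈ Finset.range n, (L i - R (i + 1)) := by
    refine Finset.sum_le_sum fun i hi => ?_
    have i1 := hrange (i + 1) (by have := Finset.mem_range.1 hi; omega)
    have i2 := hrange i (by have := Finset.mem_range.1 hi; omega)
    calc ∫ a in R (i + 1)..L i, sinC u w a ≤ ∫ _ in R (i + 1)..L i, (1 : ℝ) :=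
          intervalIntegral.integral_mono_on (hRL i)
            (hcont _ _ (i1.1.trans (hLR _)) (hRL i) ((hLR i).trans i2.2))
            intervalIntegrable_const fun a _ => sinC_le_one u w a
      _ = _ := by simp
  have h4 : Real.sqrt Real.pi / (u + w) * (v + u * w) - h * K
      ≤ ∑ i ∈ Finset.range (n + 1),
        Real.sqrt Real.pi / (u + w) * (h * (L i + u * w) - h * (w / u) * (R i - L i)) := by
    have e : ∑ i ∈ Finset.range (n + 1), (h * (L i + u * w) - h * (w / u) * (R i - L i))
        = (∑ i ∈ Finset.range (n + 1), h * R i) + ((n : ℝ) + 1) * h * (u * w)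
          - h * (1 + w / u) * ∑ i ∈ Finset.range (n + 1), (R i - L i) := by
      simp only [Finset.mul_sum]
      rw [show ((n : ℝ) + 1) * h * (u * w) = ∑ _i ∈ Finset.range (n + 1), h * (u * w) by
        simp; ring, ← Finset.sum_add_distrib, ← Finset.sum_sub_distrib]
      exact Finset.sum_congr rfl fun i _ => by ring
    rw [← Finset.mul_sum, e, show ((n : ℝ) + 1) * h = 1 by rw [hh]; field_simp]
    have hc : 0 ≤ Real.sqrt Real.pi / (u + w) := by positivity
    have hwu : 0 ≤ w / u := div_nonneg hw0.le hu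
    nlinarith [mul_le_mul_of_nonneg_left hv' hc,
      mul_le_mul_of_nonneg_left hdrop (mul_nonneg hc (mul_nonneg hh0.le
        (show 0 ≤ 1 + w / u by linarith)))]
  have h5 := hsplit n le_rfl
  rw [hLn, hR0] at h5
  simp only [Finset.sum_add_distrib] at h2
  simp only [hL, hR] at h1 h2 h3 h4 h5
  rw [mul_div_right_comm]
  linarith

/-- **The one-dimensional inequality of the quarter cylinder.** -/
theorem cylinder_1d {A : ℝ → ℝ} (hA : Antitone A) (hA0 : ∀ x, 0 ≤ A x) {v Q : ℝ} (hv : 0 ≤ v)
    (hvA : v ≤ ∫ z in (0 : ℝ)..1, A z)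
    (hQ : ∀ n : ℕ, ∀ t : ℕ → ℝ, (∀ i, t i = i / ((n : ℝ) + 1)) →
      ∑ i ∈ Finset.range (n + 1), Real.sqrt ((1 / ((n : ℝ) + 1)
          * Real.sqrt (Real.pi * leftLim A (t (i + 1)))) ^ 2
          + (rightLim A (t i) - leftLim A (t (i + 1))) ^ 2)
        + ∑ i ∈ Finset.range n, (leftLim A (t (i + 1)) - rightLim A (t (i + 1))) ≤ Q) :
    ballTube v ≤ Q := by
  set u := Real.sqrt (leftLim A 1) with hu'
  set w := Real.sqrt (rightLim A 0) with hw'
  have hlim1 : 0 ≤ leftLim A 1 := (hA0 1).trans (hA.le_leftLim le_rfl)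
  have h01 : leftLim A 1 ≤ rightLim A 0 := by
    have := hA.le_rightLim (show (0 : ℝ) < 1 / 2 by norm_num)
    have := hA.leftLim_le (show (1 / 2 : ℝ) < 1 by norm_num)
    linarith
  have hu : 0 ≤ u := Real.sqrt_nonneg _
  have huw : u ≤ w := Real.sqrt_le_sqrt h01
  have hu2 : u ^ 2 = leftLim A 1 := Real.sq_sqrt hlim1
  have hw2 : w ^ 2 = rightLim A 0 := Real.sq_sqrt (hlim1.trans h01)
  have hint : ∀ a b, IntervalIntegrable A volume a b := fun a b => hA.intervalIntegrable
  rcases eq_or_lt_of_le (hu.trans huw) with hw0 | hw0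
  · have hvz : v = 0 := by
      refine le_antisymm (hvA.trans ?_) hv
      calc ∫ z in (0 : ℝ)..1, A z ≤ ∫ _ in (0 : ℝ)..1, rightLim A 0 :=
            intervalIntegral.integral_mono_on_of_le_Ioo zero_le_one (hint 0 1)
              intervalIntegrable_const fun z hz => hA.le_rightLim hz.1
        _ = 0 := by rw [← hw2, ← hw0]; simp
    have := hQ 0 (fun i => i / ((0 : ℕ) + 1 : ℝ)) (fun i => rfl)
    simp only [Finset.range_zero, Finset.sum_empty, add_zero] at this
    refine le_trans ?_ (le_trans (Finset.sum_nonneg fun i _ => Real.sqrt_nonneg _) this)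
    simp [hvz, ballTube]
  refine le_trans (ballTube_le hu huw hw0 hv) ?_
  rw [add_div, ← integral_sinC hu huw hw0]
  have h := cylinder_1d_gen hA hu huw hw0 hu2.le hw2.ge hvA hQ
  rwa [hu2, hw2]

end Vale.Agent.P232.Cylinder

namespace Vale.Agent.P232

open Cylinder

variable {D : Set R3}

theorem cylinder_hyp (hD : MeasurableSet D) (hdown : IsDownset D) {P : ℝ}
    (hP : RelPerLE D P) (k : Fin 3) (n : ℕ) (t : ℕ → ℝ) (ht : ∀ i, t i = i / ((n : ℝ) + 1)) :
    ∑ i ∈ Finset.range (n + 1), Real.sqrt ((1 / ((n : ℝ) + 1)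
          * Real.sqrt (Real.pi * leftLim (areaExt D k) (t (i + 1)))) ^ 2
          + (rightLim (areaExt D k) (t i) - leftLim (areaExt D k) (t (i + 1))) ^ 2)
        + ∑ i ∈ Finset.range n,
          (leftLim (areaExt D k) (t (i + 1)) - rightLim (areaExt D k) (t (i + 1)))
      ≤ P + (faceArea D (k.succAbove 0) + faceArea D (k.succAbove 1)) := by
  set A := areaExt D k with hA'
  have hA := areaExt_antitone hdown k
  set cX : ℝ → ℝ := fun z => contactX (slice D k z) with hcX
  set cY : ℝ → ℝ := fun z => contactY (slice D k z) with hcY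
  have hX := integral_contactX hD hdown k
  have hY := integral_contactY hD hdown k
  have hbX : ∀ z, 0 ≤ cX z ∧ cX z ≤ 1 ∧ 0 ≤ cY z ∧ cY z ≤ 1 := fun z => by
    have hB := isSqDown_slice hD hdown k z
    refine ⟨hB.contactX_nonneg, ?_, measureReal_nonneg, ?_⟩
    · refine (hB.contactX_le (x := 1 / 2) (by norm_num)).trans ?_
      exact (hB.isHeight.mem (1 / 2) (by norm_num)).2
    · refine (measureReal_mono (fun x hx => hx.1)
        (by simp [Real.volume_Ioo] : volume (Ioo (0 : ℝ) 1) ≠ ⊤)).trans ?_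
      simp
  have hiX : IntegrableOn cX (Ioo (0 : ℝ) 1) := IntegrableOn.of_bound (by simp)
    hX.1.aestronglyMeasurable 1 (Eventually.of_forall fun z => by
      rw [Real.norm_of_nonneg (hbX z).1]; exact (hbX z).2.1)
  have hiY : IntegrableOn cY (Ioo (0 : ℝ) 1) := IntegrableOn.of_bound (by simp)
    hY.1.aestronglyMeasurable 1 (Eventually.of_forall fun z => by
      rw [Real.norm_of_nonneg (hbX z).2.2.1]; exact (hbX z).2.2.2)
  set m := faceArea D (k.succAbove 0) + faceArea D (k.succAbove 1) with hm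
  have hiS : IntegrableOn (fun z => cX z + cY z) (Ioo (0 : ℝ) 1) := hiX.add hiY
  have hint : ∫ z in Ioo (0 : ℝ) 1, (cX z + cY z) = m := by
    rw [integral_add hiX hiY]
    simp only [hcX, hcY]
    rw [hX.2, hY.2]
  set f : ℝ → ℝ := fun z => Real.sqrt (Real.pi * sliceArea D k z) - (cX z + cY z) with hf
  have hden : (0 : ℝ) < (n : ℝ) + 1 := by positivity
  have ht0 : t 0 = 0 := by simp [ht]
  have htn : t (n + 1) = 1 := by
    rw [ht]; push_cast; exact div_self hden.ne'
  have htlt : ∀ i, t i < t (i + 1) := fun i => by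
    rw [ht, ht]; gcongr; exact Nat.cast_lt.2 i.lt_succ_self
  have htmono : Monotone t := monotone_nat_of_le_succ fun i => (htlt i).le
  have hsub : ∀ i ≤ n, Ioo (t i) (t (i + 1)) ⊆ Ioo (0 : ℝ) 1 := fun i hi =>
    Ioo_subset_Ioo (ht0 ▸ htmono (Nat.zero_le _)) (htn ▸ htmono (by omega))
  have hiL : IntegrableOn (fun z => Real.sqrt (Real.pi * sliceArea D k z)) (Ioo (0 : ℝ) 1) :=
    IntegrableOn.of_bound (by simp)
      ((Real.continuous_sqrt.measurable.comp
        ((measurable_sliceArea hD k).const_mul Real.pi)).aestronglyMeasurable)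
      (Real.sqrt (Real.pi * 1)) (Eventually.of_forall fun z => by
        rw [Real.norm_of_nonneg (Real.sqrt_nonneg _)]
        exact Real.sqrt_le_sqrt (mul_le_mul_of_nonneg_left (sliceArea_le_one hdown.1 k z)
          Real.pi_nonneg))
  have h := slice_partition_jumps hD hdown hP k (t := t) (M := n) (fun i _ => htlt i)
    (le_of_eq ht0.symm) (le_of_eq htn) (f := f)
    (fun i hi => (hiL.sub hiS).mono_set (hsub i hi))
    (fun i hi => Eventually.of_forall fun z hz ε hε => by
      obtain ⟨p, q, hpq, hle⟩ := sq_quarter (isSqDown_slice hD hdown k z) hε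
      refine ⟨p, q, hpq, ?_⟩
      simp only [hf, hcX, hcY, sliceArea, ← measureReal_def]
      linarith)
  set h' := 1 / ((n : ℝ) + 1) with hh'
  set G : ℕ → ℝ := fun i => ∫ z in Ioo (t i) (t (i + 1)), (cX z + cY z) with hG
  have hterm : ∀ i ∈ Finset.range (n + 1),
      Real.sqrt ((h' * Real.sqrt (Real.pi * leftLim A (t (i + 1)))) ^ 2
          + (rightLim A (t i) - leftLim A (t (i + 1))) ^ 2)
        ≤ Real.sqrt (max (∫ z in Ioo (t i) (t (i + 1)), f z) 0 ^ 2
          + (rightLim A (t i) - leftLim A (t (i + 1))) ^ 2) + G i := by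
    intro i hi
    replace hi : i ≤ n := by have := Finset.mem_range.1 hi; omega
    set Δ := rightLim A (t i) - leftLim A (t (i + 1))
    have hG0 : 0 ≤ G i := setIntegral_nonneg measurableSet_Ioo fun z _ =>
      add_nonneg (hbX z).1 (hbX z).2.2.1
    have hbig : h' * Real.sqrt (Real.pi * leftLim A (t (i + 1)))
        ≤ ∫ z in Ioo (t i) (t (i + 1)), Real.sqrt (Real.pi * sliceArea D k z) := by
      calc h' * Real.sqrt (Real.pi * leftLim A (t (i + 1)))
          = ∫ _ in Ioo (t i) (t (i + 1)), Real.sqrt (Real.pi * leftLim A (t (i + 1))) := by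
            have : t (i + 1) - t i = h' := by rw [ht, ht, hh']; push_cast; ring
            simp [Measure.real, Real.volume_Ioo, this, ENNReal.toReal_ofReal,
              show 0 ≤ h' by rw [hh']; positivity]
        _ ≤ _ := setIntegral_mono_on (integrableOn_const (by simp [Real.volume_Ioo]))
            (hiL.mono_set (hsub i hi)) measurableSet_Ioo fun z hz => by
              refine Real.sqrt_le_sqrt (mul_le_mul_of_nonneg_left ?_ Real.pi_nonneg)
              rw [← areaExt_eq (D := D) (k := k) (hsub i hi hz).1.le]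
              exact hA.leftLim_le hz.2
    have hff : ∫ z in Ioo (t i) (t (i + 1)), f z
        = (∫ z in Ioo (t i) (t (i + 1)), Real.sqrt (Real.pi * sliceArea D k z)) - G i :=
      integral_sub (hiL.mono_set (hsub i hi)) (hiS.mono_set (hsub i hi))
    set X := h' * Real.sqrt (Real.pi * leftLim A (t (i + 1)))
    set Y := max (∫ z in Ioo (t i) (t (i + 1)), f z) 0
    have hX0 : 0 ≤ X := mul_nonneg (by positivity) (Real.sqrt_nonneg _)
    have hY0 : 0 ≤ Y := le_max_right _ _
    have hXY : X ≤ Y + G i := by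
      have := le_max_left (∫ z in Ioo (t i) (t (i + 1)), f z) 0
      linarith
    set S := Real.sqrt (Y ^ 2 + Δ ^ 2)
    have hS : Y ≤ S := Real.le_sqrt_of_sq_le (by nlinarith [sq_nonneg Δ])
    have hS2 : S ^ 2 = Y ^ 2 + Δ ^ 2 := Real.sq_sqrt (by positivity)
    refine (Real.sqrt_le_left (by linarith)).2 ?_
    nlinarith [mul_le_mul hXY hXY hX0 (by linarith), mul_le_mul_of_nonneg_right hS hG0]
  have hGsum : ∑ i ∈ Finset.range (n + 1), G i = m := by
    have hII : IntervalIntegrable (fun z => cX z + cY z) volume 0 1 :=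
      (intervalIntegrable_iff_integrableOn_Ioo_of_le zero_le_one).2 hiS
    have hadd := intervalIntegral.sum_integral_adjacent_intervals (a := t) (n := n + 1)
      (f := fun z => cX z + cY z) (μ := volume) fun i hi =>
      hII.mono_set (by
        rw [uIcc_of_le (htlt i).le, uIcc_of_le zero_le_one]
        exact Icc_subset_Icc (ht0 ▸ htmono (Nat.zero_le _)) (htn ▸ htmono (by omega)))
    rw [ht0, htn] at hadd
    rw [← hint, ← integral_Ioc_eq_integral_Ioo, ← intervalIntegral.integral_of_le zero_le_one,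
      ← hadd]
    refine Finset.sum_congr rfl fun i _ => ?_
    simp only [hG]
    rw [← integral_Ioc_eq_integral_Ioo, ← intervalIntegral.integral_of_le (htlt i).le]
  have hsum := Finset.sum_le_sum hterm
  rw [Finset.sum_add_distrib, hGsum] at hsum
  linarith

theorem volume_eq_integral_areaExt (hD : MeasurableSet D) (hdown : IsDownset D) (k : Fin 3) :
    (volume D).toReal = ∫ z in (0 : ℝ)..1, areaExt D k z := by
  set A := areaExt D k with hA'
  rw [volume_eq_integral_sliceArea hD hdown.1 k, intervalIntegral.integral_of_le zero_le_one,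
    ← integral_Ico_eq_integral_Ioc,
    ← setIntegral_eq_integral_of_forall_compl_eq_zero (s := Ico (0 : ℝ) 1)
      (fun z hz => sliceArea_eq_zero hdown.1 hz)]
  exact setIntegral_congr_fun measurableSet_Ico fun z hz => (areaExt_eq hz.1).symm

/-- In every direction the relative perimeter of a down-set and its two far contacts are together
at least the smaller of half a ball and a quarter tube. -/
theorem cylinder_bound (hD : MeasurableSet D) (hdown : IsDownset D) {P : ℝ}
    (hP : RelPerLE D P) (k : Fin 3) :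
    ballTube (volume D).toReal
      ≤ P + faceArea D (k.succAbove 0) + faceArea D (k.succAbove 1) := by
  rw [add_assoc]
  exact cylinder_1d (areaExt_antitone hdown k) (fun x => sliceArea_nonneg D k _)
    ENNReal.toReal_nonneg (volume_eq_integral_areaExt hD hdown k).le
    (cylinder_hyp hD hdown hP k)

/-- The cylinder bound of a chord `[U², W²]` containing all slice areas, with the end values. -/
theorem cylinder_bound_chord (hD : MeasurableSet D) (hdown : IsDownset D) {P : ℝ}
    (hP : RelPerLE D P) (k : Fin 3) {U W : ℝ} (hU : 0 ≤ U) (hUW : U ≤ W) (hW : 0 < W)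
    (hm : U ^ 2 ≤ faceArea D k) (hM : rightLim (areaExt D k) 0 ≤ W ^ 2) :
    Real.sqrt Real.pi * ((volume D).toReal + U * W) / (U + W)
        + (∫ a in faceArea D k..rightLim (areaExt D k) 0, sinC U W a)
      ≤ P + faceArea D (k.succAbove 0) + faceArea D (k.succAbove 1) := by
  rw [add_assoc]
  exact cylinder_1d_gen (areaExt_antitone hdown k) hU hUW hW hm hM
    (volume_eq_integral_areaExt hD hdown k).le (cylinder_hyp hD hdown hP k)

/-- The cylinder bound with the end values: `u² = a(1-)`, `w² = a(0+)`. -/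
theorem cylinder_bound_end (hD : MeasurableSet D) (hdown : IsDownset D) {P : ℝ}
    (hP : RelPerLE D P) (k : Fin 3) {u w : ℝ} (hu : 0 ≤ u) (huw : u ≤ w) (hw : 0 < w)
    (hm : u ^ 2 = faceArea D k) (hM : rightLim (areaExt D k) 0 = w ^ 2) :
    (Real.sqrt Real.pi * ((volume D).toReal + u * w) + 2 * H u w) / (u + w)
      ≤ P + faceArea D (k.succAbove 0) + faceArea D (k.succAbove 1) := by
  rw [add_div, ← integral_sinC hu huw hw]
  have h := cylinder_bound_chord hD hdown hP k hu huw hw hm.le hM.le
  rwa [← hm, hM] at h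

end Vale.Agent.P232
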