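import Vale.Agent.P232.Cube
import Vale.Agent.P232.Cylinder

/-! The statement about down-sets of the cube to which the profile of the torus is reduced, and
the elementary properties of the candidate profile. -/

open MeasureTheory Set Real

namespace Vale.Agent.P232

/-- The relative isoperimetric inequality for down-sets of the cube up to the volume where half a
ball, a quarter tube and a half slab meet. -/
def CruxBound : Prop :=
  ∀ (D : Set R3) (P : ℝ), MeasurableSet D → IsDownset D → RelPerLE D P →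
    0 < (volume D).toReal → (volume D).toReal ≤ 1 / π → Cylinder.ballTube (volume D).toReal ≤ P

lemma profileJ_symm (V : ℝ) : profileJ (1 - V) = profileJ V := by
  simp only [profileJ, show (1 : ℝ) - (1 - V) = V by ring, min_comm V (1 - V)]

lemma inv_pi_le_half : 1 / π ≤ 1 / 2 :=
  one_div_le_one_div_of_le (by norm_num) two_le_pi

lemma two_mul_half_ball (v : ℝ) :
    2 * ((9 * π / 2) ^ ((1 : ℝ) / 3) * v ^ ((2 : ℝ) / 3))
      = (36 * π) ^ ((1 : ℝ) / 3) * v ^ ((2 : ℝ) / 3) := by
  have h2 : ((2 : ℝ) ^ (3 : ℕ)) ^ ((1 : ℝ) / 3) = 2 := by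
    rw [← Real.rpow_natCast, ← Real.rpow_mul (by norm_num)]; norm_num
  rw [show 36 * π = (2 : ℝ) ^ (3 : ℕ) * (9 * π / 2) by ring,
    Real.mul_rpow (by norm_num) (by positivity), h2]
  ring

lemma profileJ_eq_ballTube {v : ℝ} (h1 : v ≤ 1 / π) :
    profileJ v = 2 * Cylinder.ballTube v := by
  have hmin : min v (1 - v) = v := min_eq_left (by linarith [inv_pi_le_half])
  have hs : Real.sqrt (π * v) ≤ 1 := by
    rw [Real.sqrt_le_one]
    calc π * v ≤ π * (1 / π) := by gcongr
      _ = 1 := by field_simp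
  rw [profileJ, hmin, Cylinder.ballTube, mul_min_of_nonneg _ _ (by norm_num : (0 : ℝ) ≤ 2),
    two_mul_half_ball, min_eq_left (show 2 * Real.sqrt (π * v) ≤ 2 by linarith)]

lemma profileJ_inv_pi : profileJ (1 / π) = 2 := by
  have h : Real.sqrt (π * (1 / π)) = 1 := by
    rw [show π * (1 / π) = 1 by field_simp, Real.sqrt_one]
  rw [profileJ_eq_ballTube le_rfl, Cylinder.ballTube, h, min_eq_right ?_, mul_one]
  have e : (9 * π / 2) ^ ((1 : ℝ) / 3) * (1 / π) ^ ((2 : ℝ) / 3)
      = (9 / (2 * π)) ^ ((1 : ℝ) / 3) := by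
    rw [show ((2 : ℝ) / 3) = (2 : ℕ) * ((1 : ℝ) / 3) by norm_num,
      Real.rpow_mul (by positivity), Real.rpow_natCast,
      ← Real.mul_rpow (by positivity) (by positivity)]
    congr 1; field_simp
  rw [e]
  refine Real.one_le_rpow ?_ (by norm_num)
  rw [le_div_iff₀ (by positivity)]
  linarith [pi_lt_four]

lemma profileJ_le_two (V : ℝ) : profileJ V ≤ 2 := (min_le_right _ _).trans (min_le_right _ _)

end Vale.Agent.P232
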