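import Vale.Agent.P232.Plain

/-!
The equality case of the cylinder bound in the tube range: a down-set without two touched far
faces attaining it has a full contact face.
-/

open MeasureTheory Set Filter Function
open scoped Topology Real

namespace Vale.Agent.P232

open Cylinder

variable {D : Set R3}

theorem H_pos {u w : ℝ} (hu : 0 ≤ u) (h : u < w) : 0 < H u w :=
  intervalIntegral.intervalIntegral_pos_of_pos_on
    (Continuous.intervalIntegrable (by fun_prop) _ _)
    (fun r hr => Real.sqrt_pos.2 (mul_pos
      (sub_pos.2 (pow_lt_pow_left₀ hr.2 (hu.trans hr.1.le) two_ne_zero))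
      (sub_pos.2 (pow_lt_pow_left₀ hr.1 hu two_ne_zero)))) h

/-- Above the ball range the chord bound exceeds the tube unless the slice areas are constant. -/
theorem chord_eq {v u w : ℝ} (hv : 4 * π / 81 < v) (hu : 0 ≤ u) (hus : u ≤ √v) (hsw : √v ≤ w)
    (h : √π * (v + u * w) + 2 * H u w ≤ √(π * v) * (u + w)) : u = √v := by
  have hs : 0 < √v := Real.sqrt_pos.2 (lt_trans (by positivity) hv)
  have hs2 : √v ^ 2 = v := Real.sq_sqrt (le_trans (by positivity) hv.le)
  rw [Real.sqrt_mul Real.pi_nonneg] at h
  set s := √v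
  set p := √π with hp
  have hp2 : p ^ 2 = π := Real.sq_sqrt Real.pi_nonneg
  have hp0 : 0 ≤ p := Real.sqrt_nonneg _
  rcases eq_or_lt_of_le hus with he | he
  · exact he
  exfalso
  have huw : u < w := he.trans_le hsw
  rcases eq_or_lt_of_le hsw with hw | hw
  · subst hw
    nlinarith [H_pos hu huw]
  have hprod : 0 < (s - u) * (w - s) := mul_pos (by linarith) (by linarith)
  have hps : p < 9 / 2 * s := by nlinarith
  nlinarith [key hu huw.le hs.le, mul_lt_mul_of_pos_right hps hprod]

/-- At volume `1/π`, perimeter at most one and at most one touched far face: the contact is full. -/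
theorem full_face_of_one_contact (hD : MeasurableSet D) (hdown : IsDownset D) {P : ℝ}
    (hP : RelPerLE D P) (hv : (volume D).toReal = 1 / π) (hP1 : P ≤ 1) (k : Fin 3)
    (h0 : faceArea D (k.succAbove 0) = 0) (h1 : faceArea D (k.succAbove 1) = 0) :
    faceArea D k = 1 / π := by
  have hA := areaExt_antitone hdown k
  have hm0 := faceArea_nonneg hdown k
  have hmv := faceArea_le_volume hD hdown k
  have hMv : (volume D).toReal ≤ rightLim (areaExt D k) 0 := by
    rw [volume_eq_integral_areaExt hD hdown k]
    calc ∫ z in (0 : ℝ)..1, areaExt D k z ≤ ∫ _ in (0 : ℝ)..1, rightLim (areaExt D k) 0 :=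
          intervalIntegral.integral_mono_on_of_le_Ioo zero_le_one hA.intervalIntegrable
            intervalIntegrable_const fun z hz => hA.le_rightLim hz.1
      _ = _ := by simp
  rw [hv] at hmv hMv
  have hp : (0 : ℝ) < 1 / π := by positivity
  set u := √(faceArea D k) with hu'
  set w := √(rightLim (areaExt D k) 0) with hw'
  have hsw : √(1 / π) ≤ w := Real.sqrt_le_sqrt hMv
  have hus : u ≤ √(1 / π) := Real.sqrt_le_sqrt hmv
  have hw : 0 < w := lt_of_lt_of_le (Real.sqrt_pos.2 hp) hsw
  have h := cylinder_bound_end hD hdown hP k (u := u) (w := w) (Real.sqrt_nonneg _)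
    (hus.trans hsw) hw (Real.sq_sqrt hm0) (Real.sq_sqrt (hp.le.trans hMv)).symm
  rw [hv, h0, h1, add_zero, add_zero,
    div_le_iff₀ (add_pos_of_nonneg_of_pos (Real.sqrt_nonneg _) hw)] at h
  have hone : √(π * (1 / π)) = 1 := by
    rw [show π * (1 / π) = 1 by field_simp, Real.sqrt_one]
  have heq : u = √(1 / π) := chord_eq (v := 1 / π)
    (by
      rw [lt_div_iff₀ Real.pi_pos]
      calc 4 * π / 81 * π ≤ 4 * 4 / 81 * 4 := by gcongr <;> linarith [Real.pi_lt_four]
        _ < 1 := by norm_num)
    (Real.sqrt_nonneg _) hus hsw (by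
      rw [hone]
      exact h.trans (mul_le_mul_of_nonneg_right hP1 (add_nonneg (Real.sqrt_nonneg _) hw.le)))
  exact (Real.sqrt_inj hm0 hp.le).1 heq

/-- The endpoint case with at most one touched far face, in the form of `EndpointBound`. -/
theorem endpoint_of_le_one_contact {P : ℝ} (hc : IsCritical D P)
    (hv : (volume D).toReal = 1 / π) (k : Fin 3)
    (h0 : faceArea D (k.succAbove 0) = 0) (h1 : faceArea D (k.succAbove 1) = 0) :
    ∃ j, faceArea D j = 1 / π := by
  obtain ⟨hD, hdown, hP, -, hP1, -⟩ := hc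
  exact ⟨k, full_face_of_one_contact hD hdown hP hv
    (hP1.trans (hv ▸ ballTube_inv_pi_le)) k h0 h1⟩

end Vale.Agent.P232
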