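import Mathlib

/-!
The inequality behind the isoperimetric problem in the quarter cylinder: the integral
`∫_u^w √((w² - r²)(r² - u²))` dominates `(9 s / 4)(s - u)(w - s)`.
-/

open MeasureTheory Set intervalIntegral

namespace Vale.Agent.P232.Cylinder

/-- The unduloid integral. -/
noncomputable def H (u w : ℝ) : ℝ :=
  ∫ r in u..w, Real.sqrt ((w ^ 2 - r ^ 2) * (r ^ 2 - u ^ 2))

theorem H_nonneg {u w : ℝ} (h : u ≤ w) : 0 ≤ H u w :=
  integral_nonneg h fun _ _ => Real.sqrt_nonneg _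

theorem H_scale (ρ w : ℝ) : H (ρ * w) w = w ^ 3 * H ρ 1 := by
  have h := intervalIntegral.mul_integral_comp_mul_left (a := ρ) (b := 1)
    (f := fun r => Real.sqrt ((w ^ 2 - r ^ 2) * (r ^ 2 - (ρ * w) ^ 2))) w
  rw [mul_one, mul_comm w ρ] at h
  rw [H, ← h, H, ← intervalIntegral.integral_const_mul, ← intervalIntegral.integral_const_mul]
  refine integral_congr fun r _ => ?_
  have e : (w ^ 2 - (w * r) ^ 2) * ((w * r) ^ 2 - (ρ * w) ^ 2)
      = (w ^ 2) ^ 2 * ((1 ^ 2 - r ^ 2) * (r ^ 2 - ρ ^ 2)) := by ring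
  simp only [e, Real.sqrt_mul (sq_nonneg (w ^ 2)), Real.sqrt_sq (sq_nonneg w)]
  ring

theorem integral_quarter_disc {ρ : ℝ} (h0 : 0 ≤ ρ) (h1 : ρ ≤ 1) :
    ∫ r in ρ..1, r * Real.sqrt (1 - r ^ 2) = (1 - ρ ^ 2) * Real.sqrt (1 - ρ ^ 2) / 3 := by
  rw [intervalIntegral.integral_eq_sub_of_hasDerivAt_of_le h1
    (f := fun r => -((1 - r ^ 2) * Real.sqrt (1 - r ^ 2)) / 3) (by fun_prop) ?_
    ((by fun_prop : Continuous fun r : ℝ => r * Real.sqrt (1 - r ^ 2)).intervalIntegrable _ _)]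
  · simp; ring
  · intro r hr
    have hpos : 0 < 1 - r ^ 2 := by nlinarith [hr.1, hr.2, h0]
    have hd : HasDerivAt (fun x : ℝ => 1 - x ^ 2) (-(2 * r)) r := by
      simpa using ((hasDerivAt_pow 2 r).const_sub 1)
    have hs := hd.sqrt hpos.ne'
    refine HasDerivAt.congr_deriv (hd.fun_mul hs).fun_neg (g' := 3 * (r * Real.sqrt (1 - r ^ 2))) ?_
      |>.div_const 3 |>.congr_deriv (by ring)
    have hq := Real.sq_sqrt hpos.le
    have hne : Real.sqrt (1 - r ^ 2) ≠ 0 := (Real.sqrt_pos.2 hpos).ne'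
    field_simp
    rw [hq]; ring

theorem small_bound {ρ : ℝ} (h0 : 0 ≤ ρ) (h1 : ρ ≤ 18 / 100) :
    1 / 3 - ρ ^ 2 / 2 - 368 / 1000 * ρ ≤ H ρ 1 := by
  rcases eq_or_lt_of_le h0 with rfl | hρ
  · have : H 0 1 = ∫ r in (0 : ℝ)..1, r * Real.sqrt (1 - r ^ 2) := by
      refine integral_congr fun r hr => ?_
      rw [uIcc_of_le zero_le_one] at hr
      rw [show ((1 : ℝ) ^ 2 - r ^ 2) * (r ^ 2 - 0 ^ 2) = r ^ 2 * (1 - r ^ 2) by ring,
        Real.sqrt_mul (sq_nonneg r), Real.sqrt_sq hr.1]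
    rw [this, integral_quarter_disc le_rfl zero_le_one]
    simp
  have hρ1 : ρ ≤ 1 := h1.trans (by norm_num)
  have hc1 : IntervalIntegrable (fun r => r * Real.sqrt (1 - r ^ 2)) volume ρ 1 :=
    (by fun_prop : Continuous fun r : ℝ => r * Real.sqrt (1 - r ^ 2)).intervalIntegrable _ _
  have hc2 : IntervalIntegrable (fun r => ρ ^ 2 * r⁻¹) volume ρ 1 := by
    refine ContinuousOn.intervalIntegrable ?_
    rw [uIcc_of_le hρ1]
    exact continuousOn_const.mul (continuousOn_inv₀.mono fun r hr => (hρ.trans_le hr.1).ne')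
  have hpt : ∀ r ∈ Icc ρ 1, r * Real.sqrt (1 - r ^ 2) - ρ ^ 2 * r⁻¹
      ≤ Real.sqrt ((1 ^ 2 - r ^ 2) * (r ^ 2 - ρ ^ 2)) := by
    intro r hr
    have hr0 : 0 < r := hρ.trans_le hr.1
    have hx : 0 ≤ r ^ 2 - ρ ^ 2 := by nlinarith [hr.1]
    have hy : 0 ≤ 1 - r ^ 2 := by nlinarith [hr.2]
    rw [one_pow, Real.sqrt_mul hy]
    have h2 : r - ρ ^ 2 * r⁻¹ ≤ Real.sqrt (r ^ 2 - ρ ^ 2) := by
      refine Real.le_sqrt_of_sq_le ?_
      have hh : (r - ρ ^ 2 * r⁻¹) ^ 2 = (r ^ 2 - ρ ^ 2) ^ 2 / r ^ 2 := by field_simp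
      rw [hh, div_le_iff₀ (by positivity)]
      nlinarith [sq_nonneg ρ]
    have h3 : Real.sqrt (1 - r ^ 2) ≤ 1 := Real.sqrt_le_one.2 (by nlinarith)
    nlinarith [mul_le_mul_of_nonneg_left h2 (Real.sqrt_nonneg (1 - r ^ 2)),
      mul_nonneg (sub_nonneg.2 h3) (show 0 ≤ ρ ^ 2 * r⁻¹ by positivity)]
  have hH := integral_mono_on (μ := volume) hρ1 (hc1.sub hc2)
    ((by fun_prop : Continuous fun r : ℝ =>
      Real.sqrt ((1 ^ 2 - r ^ 2) * (r ^ 2 - ρ ^ 2))).intervalIntegrable _ _) hpt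
  rw [integral_sub hc1 hc2, integral_quarter_disc h0 hρ1, intervalIntegral.integral_const_mul,
    integral_inv_of_pos hρ one_pos] at hH
  have hp : ρ ^ 2 ≤ 18 / 100 := by nlinarith
  have hroot : 1 - 3 / 2 * ρ ^ 2 ≤ (1 - ρ ^ 2) * Real.sqrt (1 - ρ ^ 2) := by
    have hs := Real.sq_sqrt (show (0 : ℝ) ≤ 1 - ρ ^ 2 by linarith)
    refine le_of_pow_le_pow_left₀ two_ne_zero
      (mul_nonneg (by linarith) (Real.sqrt_nonneg _)) ?_
    rw [mul_pow, hs]
    nlinarith [mul_nonneg (mul_nonneg (sq_nonneg ρ) (sq_nonneg ρ))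
      (show (0 : ℝ) ≤ 3 / 4 - ρ ^ 2 by linarith)]
  have hlog : ρ ^ 2 * Real.log (1 / ρ) ≤ 368 / 1000 * ρ := by
    have he : (0 : ℝ) < Real.exp 1 := Real.exp_pos 1
    have hl := Real.log_le_sub_one_of_pos (show (0 : ℝ) < 1 / (ρ * Real.exp 1) by positivity)
    rw [Real.log_div one_ne_zero (by positivity), Real.log_mul hρ.ne' he.ne', Real.log_exp,
      Real.log_one] at hl
    rw [Real.log_div one_ne_zero hρ.ne', Real.log_one]
    have h2 : ρ * (1 / (ρ * Real.exp 1)) ≤ 368 / 1000 := by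
      rw [show ρ * (1 / (ρ * Real.exp 1)) = 1 / Real.exp 1 by field_simp,
        div_le_iff₀ he]
      have := Real.exp_one_gt_d9
      linarith
    nlinarith [mul_le_mul_of_nonneg_left hl (sq_nonneg ρ), mul_le_mul_of_nonneg_left h2 hρ.le]
  refine le_trans ?_ (hH : _ ≤ H ρ 1)
  linarith

theorem integral_id_mul_semicircle :
    ∫ x in (-1 : ℝ)..1, x * Real.sqrt (1 - x ^ 2) = 0 := by
  have h := intervalIntegral.integral_comp_neg (a := (-1 : ℝ)) (b := 1)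
    (fun x => x * Real.sqrt (1 - x ^ 2))
  simp only [neg_neg, neg_mul, intervalIntegral.integral_neg, neg_sq] at h
  linarith

theorem large_bound {ρ : ℝ} (h0 : 0 ≤ ρ) (h1 : ρ ≤ 1) :
    Real.pi * (1 - ρ ^ 2) ^ 2 / (16 * Real.sqrt ((1 + ρ ^ 2) / 2)) ≤ H ρ 1 := by
  set μ := (1 + ρ ^ 2) / 2 with hμ
  set h := (1 - ρ ^ 2) / 2 with hh
  have hμ0 : 0 < μ := by positivity
  have hh0 : 0 ≤ h := by rw [hh]; nlinarith
  set k := Real.sqrt μ with hk
  have hk0 : 0 < k := Real.sqrt_pos.2 hμ0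
  have hk2 : k ^ 2 = μ := Real.sq_sqrt hμ0.le
  set L : ℝ → ℝ := fun q => (3 / 2 - q / (2 * μ)) / k * Real.sqrt ((1 - q) * (q - ρ ^ 2)) with hL
  have hLc : Continuous L := by rw [hL]; fun_prop
  -- substitution q = r²
  have hsub : ∫ r in ρ..1, L (r ^ 2) * (2 * r) = ∫ q in ρ ^ 2..1, L q := by
    have := intervalIntegral.integral_comp_mul_deriv (a := ρ) (b := 1) (f := fun r => r ^ 2)
      (f' := fun r => 2 * r) (g := L) (fun r _ => by simpa using hasDerivAt_pow 2 r)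
      (by fun_prop) hLc
    simpa using this
  have hmid : ∫ q in ρ ^ 2..1, L q = h ^ 2 / k * (Real.pi / 2) := by
    have := intervalIntegral.mul_integral_comp_mul_add (a := (-1 : ℝ)) (b := 1) (f := L) h μ
    rw [show h * -1 + μ = ρ ^ 2 by rw [hh, hμ]; ring, show h * 1 + μ = 1 by rw [hh, hμ]; ring]
      at this
    rw [← this]
    have e : ∀ x, L (h * x + μ)
        = h / k * Real.sqrt (1 - x ^ 2) - h ^ 2 / (2 * μ * k) * (x * Real.sqrt (1 - x ^ 2)) := by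
      intro x
      have e1 : (1 - (h * x + μ)) * (h * x + μ - ρ ^ 2) = h ^ 2 * (1 - x ^ 2) := by
        rw [hh, hμ]; ring
      simp only [hL, e1, Real.sqrt_mul (sq_nonneg h), Real.sqrt_sq hh0]
      field_simp
      ring
    have i1 : IntervalIntegrable (fun x : ℝ => h / k * Real.sqrt (1 - x ^ 2)) volume (-1) 1 :=
      Continuous.intervalIntegrable (by fun_prop) _ _
    have i2 : IntervalIntegrable
        (fun x : ℝ => h ^ 2 / (2 * μ * k) * (x * Real.sqrt (1 - x ^ 2))) volume (-1) 1 :=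
      Continuous.intervalIntegrable (by fun_prop) _ _
    simp only [e]
    rw [integral_sub i1 i2, intervalIntegral.integral_const_mul,
      intervalIntegral.integral_const_mul, integral_id_mul_semicircle, integral_sqrt_one_sub_sq]
    ring
  have hpt : ∀ r ∈ Icc ρ 1, L (r ^ 2) * (2 * r) / 2
      ≤ Real.sqrt ((1 ^ 2 - r ^ 2) * (r ^ 2 - ρ ^ 2)) := by
    intro r hr
    have hr0 : 0 ≤ r := h0.trans hr.1
    simp only [hL, one_pow]
    set S := Real.sqrt ((1 - r ^ 2) * (r ^ 2 - ρ ^ 2))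
    have hS : 0 ≤ S := Real.sqrt_nonneg _
    have hfac : (3 / 2 - r ^ 2 / (2 * μ)) / k * r ≤ 1 := by
      set y := r / k with hy
      have hy0 : 0 ≤ y := div_nonneg hr0 hk0.le
      have e : (3 / 2 - r ^ 2 / (2 * μ)) / k * r = 3 / 2 * y - y ^ 3 / 2 := by
        rw [hy, ← hk2]; field_simp
      rw [e]
      nlinarith [mul_nonneg (sq_nonneg (y - 1)) (show 0 ≤ y + 2 by linarith)]
    nlinarith [mul_le_mul_of_nonneg_right hfac hS]
  have hH := integral_mono_on (μ := volume) h1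
    (((hLc.comp (continuous_pow 2)).mul (continuous_const.mul continuous_id)).div_const
      2 |>.intervalIntegrable _ _)
    ((by fun_prop : Continuous fun r : ℝ =>
      Real.sqrt ((1 ^ 2 - r ^ 2) * (r ^ 2 - ρ ^ 2))).intervalIntegrable _ _) hpt
  simp only [intervalIntegral.integral_div, Pi.mul_apply, id_eq, Function.comp_apply] at hH
  rw [hsub, hmid] at hH
  refine le_trans (le_of_eq ?_) hH
  rw [hh]
  field_simp
  ring

theorem key_one {ρ σ : ℝ} (h0 : 0 ≤ ρ) (h1 : ρ ≤ σ) (h2 : σ ≤ 1) :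
    9 / 4 * σ * (σ - ρ) * (1 - σ) ≤ H ρ 1 := by
  rcases le_or_gt ρ (18 / 100) with hρ | hρ
  · refine le_trans ?_ (small_bound h0 hρ)
    have hσ : 0 ≤ σ := h0.trans h1
    -- the endpoints in ρ
    have e0 : 9 / 4 * σ * σ * (1 - σ) ≤ 1 / 3 := by
      nlinarith [mul_nonneg (sq_nonneg (3 * σ - 2)) (show 0 ≤ 3 * σ + 1 by linarith)]
    have e1 : 9 / 4 * σ * (σ - 18 / 100) * (1 - σ)
        ≤ 1 / 3 - (18 / 100) ^ 2 / 2 - 368 / 1000 * (18 / 100) := by
      nlinarith [mul_nonneg (sq_nonneg (σ - 71 / 100)) hσ, sq_nonneg (σ - 71 / 100),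
        mul_nonneg (mul_nonneg hσ hσ) (sub_nonneg.2 h2)]
    nlinarith [mul_le_mul_of_nonneg_left e0 (show (0 : ℝ) ≤ 1 - ρ / (18 / 100) by linarith),
      mul_le_mul_of_nonneg_left e1 (show (0 : ℝ) ≤ ρ / (18 / 100) by linarith),
      mul_nonneg h0 (sub_nonneg.2 hρ)]
  · refine le_trans ?_ (large_bound h0 (h1.trans h2))
    set m := (1 + ρ) / 2 with hm
    set h := (1 - ρ) / 2 with hh
    have hm0 : 0 < m := by positivity
    set t := σ - m with ht
    have hup : σ * (σ - ρ) * (1 - σ) ≤ h ^ 2 * (m + h ^ 2 / (4 * m)) := by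
      have e : σ * (σ - ρ) * (1 - σ) = m * h ^ 2 + (t * h ^ 2 - m * t ^ 2 - t ^ 3) := by
        rw [ht, hh, hm]; ring
      have hk : t * h ^ 2 - m * t ^ 2 - t ^ 3 ≤ h ^ 4 / (4 * m) := by
        rcases le_or_gt 0 t with htp | htn
        · have : t * h ^ 2 - m * t ^ 2 ≤ h ^ 4 / (4 * m) := by
            rw [le_div_iff₀ (by positivity)]; nlinarith [sq_nonneg (h ^ 2 - 2 * m * t)]
          nlinarith [pow_nonneg htp 3]
        · have hb : 0 ≤ h ^ 2 - m * t - t ^ 2 := by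
            have ht1 : -h ≤ t := by rw [ht, hh, hm]; linarith
            nlinarith [mul_nonneg (neg_nonneg.2 htn.le) hm0.le]
          have h4 : 0 ≤ h ^ 4 / (4 * m) := by positivity
          nlinarith [mul_nonneg (neg_nonneg.2 htn.le) hb]
      rw [e]
      calc m * h ^ 2 + (t * h ^ 2 - m * t ^ 2 - t ^ 3) ≤ m * h ^ 2 + h ^ 4 / (4 * m) := by
            linarith
        _ = _ := by ring
    set k := Real.sqrt ((1 + ρ ^ 2) / 2) with hk
    have hk0 : 0 < k := Real.sqrt_pos.2 (by positivity)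
    have hk2 : k ^ 2 = (1 + ρ ^ 2) / 2 := Real.sq_sqrt (by positivity)
    have hkb : k ≤ ((1 + ρ ^ 2) / 2 + 5184 / 10000) / (144 / 100) := by
      rw [le_div_iff₀ (by norm_num)]; nlinarith [sq_nonneg (k - 72 / 100)]
    have hρ1 : ρ ≤ 1 := h1.trans h2
    have hpoly : 9 * ((1 + ρ) ^ 2 + (1 - ρ) ^ 2 / 4) * ((1 + ρ ^ 2) / 2 + 5184 / 10000)
        ≤ 314 / 100 * 2 * (1 + ρ) ^ 3 * (144 / 100) := by
      nlinarith [mul_nonneg (sub_nonneg.2 hρ.le) (sub_nonneg.2 hρ1), pow_nonneg h0 3,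
        mul_nonneg (mul_nonneg h0 h0) (sub_nonneg.2 hρ1)]
    rw [le_div_iff₀ (by positivity)]
    have h9 : 9 * ((1 + ρ) ^ 2 + (1 - ρ) ^ 2 / 4) * k ≤ Real.pi * 2 * (1 + ρ) ^ 3 := by
      refine le_trans (mul_le_mul_of_nonneg_left hkb (by positivity)) ?_
      rw [← mul_div_assoc, div_le_iff₀ (by norm_num)]
      refine hpoly.trans ?_
      gcongr
      exact (by linarith [Real.pi_gt_d2] : (314 / 100 : ℝ) ≤ Real.pi)
    calc 9 / 4 * σ * (σ - ρ) * (1 - σ) * (16 * k)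
        = 36 * k * (σ * (σ - ρ) * (1 - σ)) := by ring
      _ ≤ 36 * k * (h ^ 2 * (m + h ^ 2 / (4 * m))) := by gcongr
      _ = h ^ 2 * (2 / (1 + ρ)) * (9 * ((1 + ρ) ^ 2 + (1 - ρ) ^ 2 / 4) * k) := by
          rw [hm, hh]; field_simp; ring
      _ ≤ h ^ 2 * (2 / (1 + ρ)) * (Real.pi * 2 * (1 + ρ) ^ 3) :=
          mul_le_mul_of_nonneg_left h9 (by positivity)
      _ = Real.pi * (1 - ρ ^ 2) ^ 2 := by rw [hh]; field_simp; ring

/-- **The key inequality.** -/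
theorem key {u w s : ℝ} (hu : 0 ≤ u) (huw : u ≤ w) (hs : 0 ≤ s) :
    9 / 4 * s * (s - u) * (w - s) ≤ H u w := by
  by_cases hc : u < s ∧ s < w
  · obtain ⟨h1, h2⟩ := hc
    have hw : 0 < w := lt_of_le_of_lt hs h2
    have h := key_one (ρ := u / w) (σ := s / w) (by positivity)
      (div_le_div_of_nonneg_right h1.le hw.le) ((div_le_one hw).2 h2.le)
    have hsc := H_scale (u / w) w
    rw [div_mul_cancel₀ u hw.ne'] at hsc
    rw [hsc]
    calc 9 / 4 * s * (s - u) * (w - s)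
        = w ^ 3 * (9 / 4 * (s / w) * (s / w - u / w) * (1 - s / w)) := by field_simp
      _ ≤ _ := by gcongr
  · refine le_trans ?_ (H_nonneg huw)
    have hprod : (s - u) * (w - s) ≤ 0 := by
      rcases le_or_gt s u with h | h
      · exact mul_nonpos_of_nonpos_of_nonneg (by linarith) (by linarith)
      · exact mul_nonpos_of_nonneg_of_nonpos (by linarith)
          (by linarith [not_lt.1 fun h' => hc ⟨h, h'⟩])
    rw [mul_assoc]
    exact mul_nonpos_of_nonneg_of_nonpos (by positivity) hprod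

end Vale.Agent.P232.Cylinder
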