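import Vale.Agent.P232.Weighted
import Vale.Agent.P232.StretchField
import Vale.Agent.P232.Minimizer

/-!
Deformations of one coordinate and the weighted perimeter which bounds the deformed set.

The heights of the deformed set are `φ z`, cut back to the cell at both ends. A field on it pulls
back to a weighted field on `D`; the clipped heights carry a planar field, whose flux is saved.
-/

open MeasureTheory Set Filter Function
open scoped Topology NNReal

namespace Vale.Agent.P232.Deform

open Weighted

/-- A change of one coordinate with derivative between `1/2` and `2`. -/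
structure Profile where
  φ : ℝ → ℝ
  d : ℝ → ℝ
  deriv_eq : ∀ z, HasDerivAt φ (d z) z
  lip : ∃ K, LipschitzWith K d
  mem : ∀ z, d z ∈ Icc (1 / 2 : ℝ) 2
  zero_le : φ 0 ≤ 0

namespace Profile

variable (p : Profile)

lemma strictMono : StrictMono p.φ :=
  strictMono_of_hasDerivAt_pos p.deriv_eq fun z => by linarith [(p.mem z).1]

lemma continuous : Continuous p.φ :=
  continuous_iff_continuousAt.2 fun z => (p.deriv_eq z).continuousAt

lemma lower {a b : ℝ} (hab : a ≤ b) : (b - a) / 2 ≤ p.φ b - p.φ a := by
  have h : Monotone fun z => p.φ z - z / 2 := monotone_of_hasDerivAt_nonneg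
    (f' := fun z => p.d z - 1 / 2) (fun z => (p.deriv_eq z).sub ((hasDerivAt_id z).div_const 2))
    fun z => sub_nonneg.2 (p.mem z).1
  have := h hab
  simp only at this
  linarith

lemma surjective : Surjective p.φ := by
  refine p.continuous.surjective ?_ ?_
  · refine tendsto_atTop_mono' atTop ?_
      (tendsto_atTop_add_const_right _ (p.φ 0) (tendsto_id.atTop_div_const two_pos))
    filter_upwards [eventually_ge_atTop (0 : ℝ)] with z hz
    linarith [p.lower hz, show id z = z from rfl]
  · refine tendsto_atBot_mono' atBot ?_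
      (tendsto_atBot_add_const_right _ (p.φ 0) (tendsto_id.atBot_div_const two_pos))
    filter_upwards [eventually_le_atBot (0 : ℝ)] with z hz
    linarith [p.lower hz, show id z = z from rfl]

/-- The inverse change of coordinate. -/
noncomputable def ψ (z : ℝ) : ℝ := invFun p.φ z

lemma right_inv (z : ℝ) : p.φ (p.ψ z) = z := Function.invFun_eq (p.surjective z)

lemma left_inv (z : ℝ) : p.ψ (p.φ z) = z := p.strictMono.injective (p.right_inv _)

lemma ψ_mono : StrictMono p.ψ := fun a b h => by
  rcases lt_or_ge (p.ψ a) (p.ψ b) with h' | h'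
  · exact h'
  · have := p.strictMono.monotone h'
    rw [p.right_inv, p.right_inv] at this
    linarith

lemma ψ_nonneg : 0 ≤ p.ψ 0 := by
  refine p.strictMono.le_iff_le.1 ?_
  rw [p.right_inv]
  exact p.zero_le

lemma ψ_one_le (h : 1 ≤ p.φ 1) : p.ψ 1 ≤ 1 := by
  refine p.strictMono.le_iff_le.1 ?_
  rwa [p.right_inv]

lemma differentiable_ψ : Differentiable ℝ p.ψ := fun z => by
  have hc : ContinuousAt p.ψ z := by
    refine Metric.continuousAt_iff.2 fun e he => ⟨e / 2, half_pos he, fun {y} hy => ?_⟩
    rw [Real.dist_eq] at hy ⊢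
    rcases le_total (p.ψ y) (p.ψ z) with h | h
    · have := p.lower h; rw [p.right_inv, p.right_inv] at this
      rw [abs_of_nonpos (by linarith)]; linarith [abs_lt.1 hy]
    · have := p.lower h; rw [p.right_inv, p.right_inv] at this
      rw [abs_of_nonneg (by linarith)]; linarith [abs_lt.1 hy]
  exact ((p.deriv_eq (p.ψ z)).of_local_left_inverse hc
    (by linarith [(p.mem (p.ψ z)).1]) (Eventually.of_forall p.right_inv)).differentiableAt

lemma lipschitz : LipschitzWith 2 p.φ := by
  refine lipschitzWith_of_nnnorm_deriv_le (fun z => (p.deriv_eq z).differentiableAt) fun z => ?_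
  rw [← NNReal.coe_le_coe, coe_nnnorm, (p.deriv_eq z).deriv,
    Real.norm_of_nonneg (by linarith [(p.mem z).1])]
  exact_mod_cast (p.mem z).2

end Profile

variable {D : Set R3} {k : Fin 3}

/-- The deformation of space. -/
noncomputable def push (p : Profile) (k : Fin 3) (x : R3) : R3 := x + (p.φ (x k) - x k) • e k

/-- The inverse deformation of space. -/
noncomputable def pull (p : Profile) (k : Fin 3) (x : R3) : R3 := x + (p.ψ (x k) - x k) • e k

/-- The deformed set, clipped to the cell. -/
def image (p : Profile) (k : Fin 3) (D : Set R3) : Set R3 := {x | x ∈ cell ∧ pull p k x ∈ D}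

lemma e_apply_self (k : Fin 3) : e k k = (1 : ℝ) := by simp [e]

lemma e_apply_ne {i k : Fin 3} (h : i ≠ k) : e k i = (0 : ℝ) := by simp [e, h]

lemma push_self (p : Profile) (x : R3) : push p k x k = p.φ (x k) := by
  simp [push, e_apply_self]

lemma push_ne (p : Profile) {i : Fin 3} (h : i ≠ k) (x : R3) : push p k x i = x i := by
  simp [push, e_apply_ne h]

lemma push_ins (p : Profile) (z : ℝ) (w : ℝ × ℝ) : push p k (ins k z w) = ins k (p.φ z) w := by
  ext i
  rcases Fin.eq_self_or_eq_succAbove k i with rfl | ⟨j, rfl⟩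
  · simp [push_self, ins_apply_self]
  · simp [push_ne p (Fin.succAbove_ne k j), ins_apply_succAbove]

lemma pull_ins (p : Profile) (z : ℝ) (w : ℝ × ℝ) : pull p k (ins k z w) = ins k (p.ψ z) w := by
  ext i
  rcases Fin.eq_self_or_eq_succAbove k i with rfl | ⟨j, rfl⟩
  · simp [pull, ins_apply_self, e_apply_self]
  · simp [pull, e_apply_ne (Fin.succAbove_ne k j), ins_apply_succAbove]

lemma pull_push (p : Profile) (x : R3) : pull p k (push p k x) = x := by
  conv_lhs => rw [← ins_outL k x, push_ins, pull_ins, p.left_inv, ins_outL]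

lemma measurable_pull (p : Profile) (k : Fin 3) : Measurable (pull p k) :=
  measurable_id.add (((p.differentiable_ψ.continuous.comp (PiLp.continuous_apply 2 _ k)).sub
    (PiLp.continuous_apply 2 _ k)).measurable.smul_const (e k))

lemma measurableSet_image (hD : MeasurableSet D) (p : Profile) (k : Fin 3) :
    MeasurableSet (image p k D) := by
  refine MeasurableSet.inter ?_ (measurable_pull p k hD)
  show MeasurableSet cell
  rw [cell, Set.ofPred_forall]
  exact MeasurableSet.iInter fun i =>
    measurableSet_Ico.preimage (EuclideanSpace.proj i : R3 →L[ℝ] ℝ).continuous.measurable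

lemma image_downset (hdown : IsDownset D) (p : Profile) (k : Fin 3) :
    IsDownset (image p k D) := by
  refine ⟨fun x hx => hx.1, fun x hx y hy hyx => ⟨hy, hdown.2 _ hx.2 _ (fun i => ?_) fun i => ?_⟩⟩
  · have h2 := hdown.1 hx.2 i
    rcases eq_or_ne i k with rfl | h
    · simp only [pull, PiLp.add_apply, PiLp.smul_apply, smul_eq_mul, e_apply_self] at h2 ⊢
      refine ⟨?_, ?_⟩
      · have := p.ψ_mono.monotone (hy i).1
        linarith [p.ψ_nonneg]
      · have := p.ψ_mono.monotone (hyx i)
        linarith [h2.2]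
    · simp only [pull, PiLp.add_apply, PiLp.smul_apply, smul_eq_mul, e_apply_ne h, mul_zero,
        add_zero] at h2 ⊢
      exact hy i
  · rcases eq_or_ne i k with rfl | h
    · simp only [pull, PiLp.add_apply, PiLp.smul_apply, smul_eq_mul, e_apply_self]
      linarith [p.ψ_mono.monotone (hyx i)]
    · simp only [pull, PiLp.add_apply, PiLp.smul_apply, smul_eq_mul, e_apply_ne h, mul_zero,
        add_zero]
      exact hyx i

lemma slice_image (hc : D ⊆ cell) (p : Profile) (z : ℝ) :
    slice (image p k D) k (p.φ z) = if p.φ z ∈ Ico (0 : ℝ) 1 then slice D k z else ∅ := by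
  split_ifs with h
  · ext w
    simp only [mem_slice, image, mem_ofPred_eq, pull_ins, p.left_inv]
    exact ⟨fun h' => h'.2, fun h' => ⟨ins_mem_cell.2 ⟨h, (ins_mem_cell.1 (hc h')).2⟩, h'⟩⟩
  · exact slice_eq_empty (fun x hx => hx.1) h

/-- Integrals over the deformed set. -/
lemma setIntegral_image (hD : MeasurableSet D) (hc : D ⊆ cell) (p : Profile) {f : R3 → ℝ}
    (hf : IntegrableOn f (image p k D)) :
    ∫ x in image p k D, f x = ∫ z, (if p.φ z ∈ Ico (0 : ℝ) 1 then
      p.d z * ∫ w in slice D k z, f (ins k (p.φ z) w) else 0) := by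
  rw [setIntegral_eq_slices (k := k) (measurableSet_image hD p k) hf]
  have h := integral_image_eq_integral_abs_deriv_smul (s := univ) MeasurableSet.univ
    (fun z _ => (p.deriv_eq z).hasDerivWithinAt) p.strictMono.injective.injOn
    fun z' => ∫ w in slice (image p k D) k z', f (ins k z' w)
  rw [image_univ, p.surjective.range_eq, setIntegral_univ, setIntegral_univ] at h
  rw [h]
  refine integral_congr_ae (Eventually.of_forall fun z => ?_)
  simp only [smul_eq_mul, abs_of_nonneg (show 0 ≤ p.d z by linarith [(p.mem z).1]),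
    slice_image hc]
  split_ifs <;> simp

/-- Almost every point is carried to a point of differentiability. -/
lemma ae_differentiable_push (p : Profile) (k : Fin 3) {W : R3 → R3} {K : ℝ≥0}
    (hW : LipschitzWith K W) : ∀ᵐ x, DifferentiableAt ℝ W (push p k x) := by
  have hψ : Differentiable ℝ (pull p k) := by
    refine differentiable_id.add (Differentiable.smul_const ?_ _)
    exact (p.differentiable_ψ.comp (EuclideanSpace.proj k : R3 →L[ℝ] ℝ).differentiable).sub
      (EuclideanSpace.proj k : R3 →L[ℝ] ℝ).differentiable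
  have h0 := addHaar_image_eq_zero_of_differentiableOn_of_addHaar_eq_zero (volume : Measure R3)
    hψ.differentiableOn (ae_iff.1 hW.ae_differentiableAt)
  rw [ae_iff]
  refine measure_mono_null (fun x hx => ?_) h0
  exact ⟨push p k x, hx, pull_push p x⟩

lemma lipschitz_push (p : Profile) (k : Fin 3) : ∃ K, LipschitzWith K (push p k) := by
  have hc : LipschitzWith 1 fun x : R3 => x k := lip_coord LipschitzWith.id k
  exact ⟨_, LipschitzWith.id.add
    ((LipschitzWith.of_dist_le_mul fun a b => (by
      rw [dist_eq_norm, dist_eq_norm, ← sub_smul, norm_smul, Real.norm_eq_abs]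
      simp [e, Real.norm_eq_abs] : dist (a • e k) (b • e k) ≤ ((1 : ℝ≥0) : ℝ) * dist a b)).comp
      ((p.lipschitz.comp hc).sub hc))⟩

/-- The weights which bound the deformed set, from weights `w'` on it. -/
noncomputable def wPull (p : Profile) (k : Fin 3) (w' : R3 → Fin 3 → ℝ) : R3 → Fin 3 → ℝ :=
  fun x i => (if i = k then 1 else p.d (x k)) * (1 + w' (push p k x) i) - 1

lemma isWeight_wPull (p : Profile) (k : Fin 3) {w' : R3 → Fin 3 → ℝ} (hw : IsWeight w') :
    IsWeight (wPull p k w') := by
  obtain ⟨C, hC0, hC⟩ := hw.bdd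
  obtain ⟨M, hM⟩ := lipschitz_push p k
  obtain ⟨Kd, hKd⟩ := p.lip
  have hd : ∀ z, |p.d z| ≤ 2 := fun z => abs_le.2 ⟨by linarith [(p.mem z).1], (p.mem z).2⟩
  refine ⟨fun i => ?_, 2 * (1 + C) + 1, by positivity, fun x i => ?_⟩
  · obtain ⟨L, hL⟩ := hw.lip i
    by_cases h : i = k
    · refine ⟨L * M, LipschitzWith.of_dist_le_mul fun a b => ?_⟩
      have := (hL.comp hM).dist_le_mul a b
      simpa [wPull, h, Real.dist_eq] using this
    · have h1 : LipschitzWith (0 + L * M) fun x => 1 + w' (push p k x) i :=
        (LipschitzWith.const 1).add (hL.comp hM)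
      have hb : ∀ x, |1 + w' (push p k x) i| ≤ 1 + C := fun x =>
        (abs_add_le _ _).trans (by simpa using hC _ i)
      obtain ⟨N, hN⟩ := exists_lip_mul (hKd.comp (lip_coord LipschitzWith.id k)) h1 zero_le_two
        (by positivity) (fun x => hd _) hb
      refine ⟨N + 0, ?_⟩
      simpa [wPull, h] using hN.sub (LipschitzWith.const 1)
  · simp only [wPull]
    refine (abs_sub _ _).trans ?_
    rw [abs_mul, abs_one]
    gcongr
    · split_ifs
      · norm_num
      · exact hd _
    · exact (abs_add_le _ _).trans (by simpa using hC _ i)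

/-- The divergence as derivatives along the axes. -/
lemma dv_eq_lines {X : R3 → R3} {x : R3} (h : DifferentiableAt ℝ X x) {a : Fin 3 → ℝ}
    (ha : ∀ i, HasDerivAt (fun s : ℝ => X (x + s • e i) i) (a i) 0) : dv X x = ∑ i, a i := by
  refine Finset.sum_congr rfl fun i _ => ?_
  have h1 : HasDerivAt (fun s : ℝ => X (x + s • e i) i) (fderiv ℝ X x (e i) i) 0 := by
    have h2 := h.hasFDerivAt.hasLineDerivAt (e i)
    exact ((EuclideanSpace.proj i : R3 →L[ℝ] ℝ).hasFDerivAt.comp_hasDerivAt 0 h2)
  exact h1.unique (ha i)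

lemma coord_hasDerivAt {X : R3 → R3} {y : R3} (h : DifferentiableAt ℝ X y) (i j : Fin 3) :
    HasDerivAt (fun s : ℝ => X (y + s • e j) i) (fderiv ℝ X y (e j) i) 0 :=
  (EuclideanSpace.proj i : R3 →L[ℝ] ℝ).hasFDerivAt.comp_hasDerivAt 0
    (h.hasFDerivAt.hasLineDerivAt (e j))

/-- A statement true of almost every height is true at almost every point. -/
lemma ae_coord (k : Fin 3) {P : ℝ → Prop} (h : ∀ᵐ z, P z) : ∀ᵐ x : R3, P (x k) := by
  have hm : MeasurePreserving (insEquiv k).symm volume volume :=
    MeasurePreserving.symm _ (measurePreserving_ins k)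
  have h1 : ∀ᵐ q : ℝ × (ℝ × ℝ), P q.1 := Measure.quasiMeasurePreserving_fst.ae h
  filter_upwards [hm.quasiMeasurePreserving.ae h1] with x hx
  have : ((insEquiv k).symm x).1 = x k := by
    show (outL k x).1 = x k
    simp [outL_apply]
  rwa [this] at hx

/-- The weight of the pulled field: one on the heights kept, zero on those clipped. -/
noncomputable def keep (p : Profile) (δ z : ℝ) : ℝ :=
  clamp01 (min (z - p.ψ 0) (p.ψ 1 - z) / δ)

lemma keep_eq_zero (p : Profile) {δ z : ℝ} (hδ : 0 < δ) (h : z ≤ p.ψ 0 ∨ p.ψ 1 ≤ z) :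
    keep p δ z = 0 := by
  refine clamp01_of_nonpos (div_nonpos_of_nonpos_of_nonneg ?_ hδ.le)
  rcases h with h | h
  · exact (min_le_left _ _).trans (by linarith)
  · exact (min_le_right _ _).trans (by linarith)

lemma keep_eq_one (p : Profile) {δ z : ℝ} (hδ : 0 < δ) (h0 : p.ψ 0 + δ ≤ z)
    (h1 : z ≤ p.ψ 1 - δ) : keep p δ z = 1 :=
  clamp01_of_one_le (by rw [le_div_iff₀ hδ]; exact le_min (by linarith) (by linarith))

lemma lipschitz_keep (p : Profile) {δ : ℝ} (hδ : 0 < δ) :
    LipschitzWith δ⁻¹.toNNReal (keep p δ) := by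
  have hb : LipschitzWith 1 fun z => min (z - p.ψ 0) (p.ψ 1 - z) := by
    have h1 : LipschitzWith 1 fun z : ℝ => z - p.ψ 0 :=
      LipschitzWith.of_dist_le_mul fun a b => by simp [Real.dist_eq]
    have h2 : LipschitzWith 1 fun z : ℝ => p.ψ 1 - z :=
      LipschitzWith.of_dist_le_mul fun a b => by
        simp only [Real.dist_eq, NNReal.coe_one, one_mul]
        rw [show p.ψ 1 - a - (p.ψ 1 - b) = b - a by ring, abs_sub_comm]
    simpa using h1.min h2
  refine LipschitzWith.of_dist_le_mul fun a b => ?_
  rw [Real.coe_toNNReal _ (inv_nonneg.2 hδ.le)]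
  refine ((lipschitz_clamp01.dist_le_mul _ _)).trans ?_
  have := hb.dist_le_mul a b
  rw [NNReal.coe_one, one_mul] at this ⊢
  rw [Real.dist_eq, ← sub_div, abs_div, abs_of_pos hδ, ← Real.dist_eq, inv_mul_eq_div]
  gcongr

/-- A component vanishing on a plane is small near it. -/
lemma abs_coord_near {W : R3 → R3} {K : ℝ≥0} (hW : LipschitzWith K W) {b : ℝ}
    (h0 : ∀ y : R3, y k = b → W y k = 0) (y : R3) : |W y k| ≤ K * |y k - b| := by
  set y' : R3 := y + (b - y k) • e k with hy'
  have h1 : W y' k = 0 := h0 y' (by simp [hy', e_apply_self])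
  have h2 := (lip_coord hW k).dist_le_mul y y'
  rw [Real.dist_eq, h1, sub_zero] at h2
  refine h2.trans (le_of_eq ?_)
  rw [hy', dist_eq_norm, sub_add_cancel_left, norm_neg, norm_smul, Real.norm_eq_abs, abs_sub_comm]
  simp [e]

/-- Pulling back one field: its flux on the deformed set is at most the weighted perimeter of
`D`, less the flux of a planar field over the heights which are clipped. -/
theorem fl_image_gain (hD : Weighted.Finite D) (p : Profile) (k : Fin 3) (hend : 1 ≤ p.φ 1)
    {w' : R3 → Fin 3 → ℝ} (hw : IsWeight w') {κ : ℝ} (hκ1 : κ < 1) (hκ : ∀ x i, -κ ≤ w' x i)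
    {pp qq : ℝ × (ℝ × ℝ) → ℝ} (hpq : IsSliceField pp qq) {X : R3 → R3} (hX : IsCubeField X) :
    fl (image p k D) (X + sc w' X) + (1 - κ) *
        ∫ z, (if p.φ z ∈ Ico (0 : ℝ) 1 then 0 else p.d z * fluxS pp qq D k z)
      ≤ wPer D (wPull p k w') := by
  obtain ⟨L, hL⟩ := hX.lipschitz
  obtain ⟨C, hC0, hC⟩ := hw.bdd
  obtain ⟨Kd, hKd⟩ := p.lip
  obtain ⟨Kp, hKp⟩ := hpq.lip_fst
  obtain ⟨Kq, hKq⟩ := hpq.lip_snd
  obtain ⟨M, hM⟩ := lipschitz_push p k
  have hDm := hD.meas
  have hDc := hD.sub
  have hd2 : ∀ z, |p.d z| ≤ 2 := fun z => abs_le.2 ⟨by linarith [(p.mem z).1], (p.mem z).2⟩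
  have hκ0 : 0 < 1 - κ := sub_pos.2 hκ1
  set G : R3 → R3 := fun x => ins k 0 (pp (outL k x), qq (outL k x)) with hGdef
  obtain ⟨KG, hKG⟩ : ∃ KG, LipschitzWith KG G :=
    ⟨_, ((insL k).lipschitz.comp ((LipschitzWith.const (0 : ℝ)).prodMk
      (hKp.prodMk hKq))).comp (outL k).lipschitz⟩
  have hGk : ∀ x, G x k = 0 := fun x => by simp [hGdef, ins_apply_self]
  have hG1 : ∀ x, ‖G x‖ ≤ 1 := fun x => by
    have h2 : ‖G x‖ ^ 2 ≤ 1 := by
      rw [hGdef, norm_ins_sq]; simpa using hpq.norm_le (outL k x)
    nlinarith [norm_nonneg (G x)]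
  obtain ⟨KW, hKW⟩ : ∃ KW, LipschitzWith KW (X + sc w' X) := by
    obtain ⟨B, hB⟩ := exists_lip_sc hw hX
    exact ⟨_, hL.add hB⟩
  set W : R3 → R3 := X + sc w' X with hWdef
  have hWplane : ∀ y : R3, y k = 0 ∨ y k = 1 → W y k = 0 := fun y hy => by
    simp [hWdef, hX.tangent y k hy]
  -- the fields
  set r : R3 → Fin 3 → ℝ := fun x i => (1 - κ) / (1 + w' (push p k x) i) with hr
  have hpos : ∀ x i, 1 - κ ≤ 1 + w' x i := fun x i => by linarith [hκ x i]
  have hr01 : ∀ x i, r x i ∈ Icc (0 : ℝ) 1 := fun x i =>
    ⟨div_nonneg hκ0.le (hκ0.le.trans (hpos _ _)),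
      (div_le_one (hκ0.trans_le (hpos _ _))).2 (hpos _ _)⟩
  have hrl : ∀ i, ∃ N, LipschitzWith N fun x => r x i := fun i => by
    obtain ⟨N, hN⟩ := hw.lip i
    refine ⟨((1 - κ)⁻¹).toNNReal * (N * M), LipschitzWith.of_dist_le_mul fun a b => ?_⟩
    have h1 := (hN.comp hM).dist_le_mul a b
    simp only [Function.comp_apply, Real.dist_eq] at h1
    rw [NNReal.coe_mul, NNReal.coe_mul] at *
    rw [Real.coe_toNNReal _ (inv_nonneg.2 hκ0.le), Real.dist_eq]
    have pa := hκ0.trans_le (hpos (push p k a) i)
    have pb := hκ0.trans_le (hpos (push p k b) i)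
    simp only [hr]
    rw [div_sub_div _ _ pa.ne' pb.ne', abs_div, abs_of_pos (mul_pos pa pb),
      div_le_iff₀ (mul_pos pa pb),
      show (1 - κ) * (1 + w' (push p k b) i) - (1 + w' (push p k a) i) * (1 - κ)
        = (1 - κ) * (w' (push p k b) i - w' (push p k a) i) by ring,
      abs_mul, abs_of_pos hκ0, abs_sub_comm]
    calc (1 - κ) * |w' (push p k a) i - w' (push p k b) i|
        ≤ (1 - κ) * (N * M * dist a b) := by gcongr
      _ = (1 - κ)⁻¹ * (N * M * dist a b) * ((1 - κ) * (1 - κ)) := by field_simp
      _ ≤ (1 - κ)⁻¹ * (N * M * dist a b) *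
          ((1 + w' (push p k a) i) * (1 + w' (push p k b) i)) := by
        refine mul_le_mul_of_nonneg_left (mul_le_mul (hpos _ _) (hpos _ _) hκ0.le pa.le) ?_
        positivity
      _ = _ := by ring
  have hxk : LipschitzWith 1 fun x : R3 => x k := lip_coord LipschitzWith.id k
  set δ : ℕ → ℝ := fun n => 1 / ((n : ℝ) + 1) with hδd
  have hδ : ∀ n, 0 < δ n := fun n => by positivity
  set Z : ℕ → R3 → R3 := fun n x => WithLp.toLp 2 fun i =>
    keep p (δ n) (x k) * X (push p k x) i + (1 - keep p (δ n) (x k)) * (r x i * G x i) with hZdef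
  have hZ : ∀ n, IsCubeField (Z n) := fun n => by
    have hk := (lipschitz_keep p (hδ n)).comp hxk
    have hk01 : ∀ x : R3, |keep p (δ n) (x k)| ≤ 1 := fun x => abs_clamp01_le _
    have hk01' : ∀ x : R3, |1 - keep p (δ n) (x k)| ≤ 1 := fun x => by
      have h : keep p (δ n) (x k) ∈ Icc (0 : ℝ) 1 := clamp01_mem _
      exact abs_le.2 ⟨by linarith [h.2], by linarith [h.1]⟩
    have hrb : ∀ x i, |r x i| ≤ 1 := fun x i => by
      rw [abs_of_nonneg (hr01 x i).1]; exact (hr01 x i).2
    refine ⟨exists_lip_toLp fun i => ?_, fun x => ?_, fun x i h => ?_⟩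
    · obtain ⟨N, hN⟩ := hrl i
      obtain ⟨A, hA⟩ := exists_lip_mul hk ((lip_coord hL i).comp hM) zero_le_one zero_le_one hk01
        fun x => abs_coord_le hX.norm_le _ i
      obtain ⟨B, hB⟩ := exists_lip_mul hN (lip_coord hKG i) zero_le_one zero_le_one
        (fun x => hrb x i) fun x => abs_coord_le hG1 x i
      obtain ⟨B', hB'⟩ := exists_lip_mul ((LipschitzWith.const (1 : ℝ)).sub hk) hB zero_le_one
        zero_le_one hk01' fun x => by
          rw [abs_mul]; exact mul_le_one₀ (hrb x i) (abs_nonneg _) (abs_coord_le hG1 x i)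
      exact ⟨_, hA.add hB'⟩
    · set c := keep p (δ n) (x k) with hc
      set G' : R3 := WithLp.toLp 2 fun i => r x i * G x i with hG'
      have e1 : Z n x = c • X (push p k x) + (1 - c) • G' := by
        ext i; simp [hZdef, hG', hc]
      have e2 : ‖G'‖ ≤ 1 := by
        refine le_trans ?_ (hG1 x)
        rw [EuclideanSpace.norm_eq, EuclideanSpace.norm_eq]
        refine Real.sqrt_le_sqrt (Finset.sum_le_sum fun i _ => ?_)
        simp only [hG', Real.norm_eq_abs, abs_mul, mul_pow]
        exact mul_le_of_le_one_left (by positivity) (pow_le_one₀ (abs_nonneg _) (hrb x i))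
      rw [e1]
      have hc01 : c ∈ Icc (0 : ℝ) 1 := clamp01_mem _
      refine (norm_add_le _ _).trans ?_
      rw [norm_smul, norm_smul, Real.norm_of_nonneg hc01.1,
        Real.norm_of_nonneg (sub_nonneg.2 hc01.2)]
      calc c * ‖X (push p k x)‖ + (1 - c) * ‖G'‖ ≤ c * 1 + (1 - c) * 1 := by
            gcongr
            exacts [hc01.1, hX.norm_le _, sub_nonneg.2 hc01.2]
        _ = 1 := by ring
    · rcases Fin.eq_self_or_eq_succAbove k i with rfl | ⟨j, rfl⟩
      · have h0 : keep p (δ n) (x i) = 0 := keep_eq_zero p (hδ n) (by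
          rcases h with h | h
          · exact Or.inl (h ▸ p.ψ_nonneg)
          · exact Or.inr (h ▸ p.ψ_one_le hend))
        simp [hZdef, h0, hGk]
      · have hG0 : G x (k.succAbove j) = 0 := by
          fin_cases j
          · simp only [hGdef, ins_apply_succAbove]
            exact hpq.tangent_fst _ (by simpa [outL_apply] using h)
          · simp only [hGdef, ins_apply_succAbove]
            exact hpq.tangent_snd _ (by simpa [outL_apply] using h)
        simp [hZdef, hG0, hX.tangent _ (k.succAbove j)
          (by rw [push_ne p (Fin.succAbove_ne k j)]; exact h)]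
  have hw2 := isWeight_wPull p k hw
  set Y : ℕ → R3 → R3 := fun n => Z n + sc (wPull p k w') (Z n) with hYdef
  have hYl : ∀ n, ∃ K, LipschitzWith K (Y n) := fun n => by
    obtain ⟨A, hA⟩ := (hZ n).lipschitz
    obtain ⟨B, hB⟩ := exists_lip_sc hw2 (hZ n)
    exact ⟨_, hA.add hB⟩
  have hY : ∀ n x i, Y n x i = (if i = k then 1 else p.d (x k)) *
      (keep p (δ n) (x k) * W (push p k x) i
        + (1 - keep p (δ n) (x k)) * ((1 - κ) * G x i)) := by
    intro n x i
    have hne : 1 + w' (push p k x) i ≠ 0 := (hκ0.trans_le (hpos _ _)).ne'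
    simp only [hYdef, hZdef, hWdef, hr, Pi.add_apply, PiLp.add_apply, sc_apply, wPull]
    field_simp
    ring
  have hle : ∀ n, fl D (Y n) ≤ wPer D (wPull p k w') := fun n => le_wPer hD hw2 (hZ n)
  -- the limit of the divergences
  set T : R3 → ℝ := fun x =>
    if p.φ (x k) ∈ Ico (0 : ℝ) 1 then p.d (x k) * dv W (push p k x) else 0 with hT
  set S : R3 → ℝ := fun x =>
    if p.φ (x k) ∈ Ico (0 : ℝ) 1 then 0
    else (1 - κ) * (p.d (x k) * dvS pp qq (outL k x)) with hS
  have hdvG : ∀ᵐ x : R3, dv G x = dvS pp qq (outL k x) := by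
    filter_upwards [hKG.ae_differentiableAt (μ := volume)] with x hx
    have h := dv_insField (k := k) (g := fun _ => 0) hKG (fun y => rfl) (u := outL k x)
      (by rwa [ins_outL])
    rwa [ins_outL, deriv_const, zero_add] at h
  have hkey : ∀ᵐ x : R3, (∀ n, |dv (Y n) x| ≤ 8 * KW + 4 * (1 - κ) * KG) ∧
      Tendsto (fun n => dv (Y n) x) atTop (𝓝 (T x + S x)) := by
    have a0 : ∀ᵐ x : R3, ∀ n, DifferentiableAt ℝ (Y n) x :=
      ae_all_iff.2 fun n => (hYl n).choose_spec.ae_differentiableAt
    have a1 : ∀ᵐ x : R3, ∀ n, DifferentiableAt ℝ (keep p (δ n)) (x k) :=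
      ae_all_iff.2 fun n => ae_coord k (lipschitz_keep p (hδ n)).ae_differentiableAt
    have a2 : ∀ᵐ x : R3, x k ≠ p.ψ 0 ∧ x k ≠ p.ψ 1 :=
      ae_coord k ((volume.ae_ne (p.ψ 0)).and (volume.ae_ne (p.ψ 1)))
    filter_upwards [a0, a1, a2, ae_differentiable_push p k hKW,
      hKG.ae_differentiableAt (μ := volume), hdvG] with x hx0 hx1 hx2 hx3 hx4 hx5
    set z := x k with hz
    set A : Fin 3 → ℝ := fun i => fderiv ℝ W (push p k x) (e i) i with hA
    set B : Fin 3 → ℝ := fun i => fderiv ℝ G x (e i) i with hB
    have hAb : ∀ i, |A i| ≤ KW := fun i => by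
      refine le_trans (by simpa using PiLp.norm_apply_le (fderiv ℝ W (push p k x) (e i)) i)
        (((fderiv ℝ W (push p k x)).le_opNorm (e i)).trans ?_)
      simpa [e] using norm_fderiv_le_of_lipschitz ℝ hKW
    have hBb : ∀ i, |B i| ≤ KG := fun i => by
      refine le_trans (by simpa using PiLp.norm_apply_le (fderiv ℝ G x (e i)) i)
        (((fderiv ℝ G x).le_opNorm (e i)).trans ?_)
      simpa [e] using norm_fderiv_le_of_lipschitz ℝ hKG
    have hBk : B k = 0 := by
      have h : (fun s : ℝ => G (x + s • e k) k) = fun _ => (0 : ℝ) := funext fun s => hGk _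
      have h2 := coord_hasDerivAt hx4 k k
      rw [h] at h2
      exact h2.unique (hasDerivAt_const _ _)
    have hlines : ∀ n i, HasDerivAt (fun s : ℝ => Y n (x + s • e i) i)
        (if i = k then deriv (keep p (δ n)) z * W (push p k x) k +
            keep p (δ n) z * (p.d z * A k)
          else p.d z * (keep p (δ n) z * A i + (1 - keep p (δ n) z) * ((1 - κ) * B i))) 0 := by
      intro n i
      rcases eq_or_ne i k with rfl | hik
      · rw [if_pos rfl]
        have ef : (fun s : ℝ => Y n (x + s • e i) i) = fun s =>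
            keep p (δ n) (z + s) * W (push p i x + (p.φ (z + s) - p.φ z) • e i) i := by
          funext s
          have ek : (x + s • e i) i = z + s := by simp [e_apply_self, hz]
          have ev : push p i (x + s • e i) = push p i x + (p.φ (z + s) - p.φ z) • e i := by
            simp only [push, ek, hz]
            module
          rw [hY, ev, ek, hGk]
          simp
        rw [ef]
        have h1 : HasDerivAt (fun s => keep p (δ n) (z + s)) (deriv (keep p (δ n)) z) 0 :=
          HasDerivAt.comp_const_add z 0 (by simpa using (hx1 n).hasDerivAt)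
        have h2 : HasDerivAt (fun s => p.φ (z + s) - p.φ z) (p.d z) 0 :=
          (HasDerivAt.comp_const_add z 0 (by simpa using p.deriv_eq z)).sub_const _
        have h3 : HasDerivAt (fun t : ℝ => W (push p i x + t • e i) i) (A i)
            (p.φ (z + 0) - p.φ z) := by
          simpa using coord_hasDerivAt hx3 i i
        have h4 := h1.mul (h3.comp 0 h2)
        refine h4.congr_deriv ?_
        simp only [Function.comp_apply, add_zero, sub_self, zero_smul]
        ring
      · rw [if_neg hik]
        have ef : (fun s : ℝ => Y n (x + s • e i) i) = fun s =>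
            p.d z * (keep p (δ n) z * W (push p k x + s • e i) i
              + (1 - keep p (δ n) z) * ((1 - κ) * G (x + s • e i) i)) := by
          funext s
          have ek : (x + s • e i) k = z := by simp [e_apply_ne (Ne.symm hik), hz]
          have ev : push p k (x + s • e i) = push p k x + s • e i := by
            simp only [push, ek, hz]
            module
          rw [hY, ev, ek, if_neg hik]
        rw [ef]
        exact (((coord_hasDerivAt hx3 i i).const_mul _).add
          (((coord_hasDerivAt hx4 i i).const_mul _).const_mul _)).const_mul _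
    have hdv : ∀ n, dv (Y n) x = (deriv (keep p (δ n)) z * W (push p k x) k +
        keep p (δ n) z * (p.d z * A k)) +
        (p.d z * (keep p (δ n) z * A (k.succAbove 0)
            + (1 - keep p (δ n) z) * ((1 - κ) * B (k.succAbove 0))) +
          p.d z * (keep p (δ n) z * A (k.succAbove 1)
            + (1 - keep p (δ n) z) * ((1 - κ) * B (k.succAbove 1)))) := fun n => by
      rw [dv_eq_lines (hx0 n) (hlines n), Fin.sum_univ_succAbove _ k, Fin.sum_univ_two, if_pos rfl,
        if_neg (Fin.succAbove_ne k 0), if_neg (Fin.succAbove_ne k 1)]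
    have hdW : dv W (push p k x) = A k + (A (k.succAbove 0) + A (k.succAbove 1)) := by
      rw [dv, Fin.sum_univ_succAbove _ k, Fin.sum_univ_two]
    have hdG : dv G x = B (k.succAbove 0) + B (k.succAbove 1) := by
      rw [dv, Fin.sum_univ_succAbove _ k, Fin.sum_univ_two]
      linarith [hBk]
    refine ⟨fun n => ?_, ?_⟩
    · rw [hdv n]
      have hc : keep p (δ n) z ∈ Icc (0 : ℝ) 1 := clamp01_mem _
      have hv : |deriv (keep p (δ n)) z * W (push p k x) k| ≤ 2 * KW := by
        by_cases hcase : deriv (keep p (δ n)) z = 0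
        · simp [hcase]
        have hder : |deriv (keep p (δ n)) z| ≤ (δ n)⁻¹ := by
          have h := norm_deriv_le_of_lipschitz (x₀ := z) (lipschitz_keep p (hδ n))
          rwa [Real.norm_eq_abs, Real.coe_toNNReal _ (inv_nonneg.2 (hδ n).le)] at h
        have hnear : |z - p.ψ 0| ≤ δ n ∨ |z - p.ψ 1| ≤ δ n := by
          by_contra hno
          push Not at hno
          refine hcase ?_
          by_cases hin : p.ψ 0 + δ n < z ∧ z < p.ψ 1 - δ n
          · have : keep p (δ n) =ᶠ[𝓝 z] fun _ => (1 : ℝ) := by
              filter_upwards [Ioo_mem_nhds hin.1 hin.2] with y hy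
              exact keep_eq_one p (hδ n) hy.1.le hy.2.le
            simp [this.deriv_eq]
          · have hout : z < p.ψ 0 ∨ p.ψ 1 < z := by
              rcases not_and_or.1 hin with h | h
              · left
                rcases le_or_gt (p.ψ 0) z with h' | h'
                · rw [abs_of_nonneg (sub_nonneg.2 h')] at hno; linarith [hno.1]
                · exact h'
              · right
                rcases le_or_gt z (p.ψ 1) with h' | h'
                · rw [abs_of_nonpos (sub_nonpos.2 h')] at hno; linarith [hno.2]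
                · exact h'
            have : keep p (δ n) =ᶠ[𝓝 z] fun _ => (0 : ℝ) := by
              rcases hout with h | h
              · filter_upwards [Iio_mem_nhds h] with y hy
                exact keep_eq_zero p (hδ n) (Or.inl (le_of_lt hy))
              · filter_upwards [Ioi_mem_nhds h] with y hy
                exact keep_eq_zero p (hδ n) (Or.inr (le_of_lt hy))
            simp [this.deriv_eq]
        have hWb : |W (push p k x) k| ≤ KW * (2 * δ n) := by
          rcases hnear with h | h
          · refine (abs_coord_near hKW (b := p.φ (p.ψ 0))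
              (fun y hy => hWplane y (Or.inl (hy.trans (p.right_inv 0)))) _).trans ?_
            refine mul_le_mul_of_nonneg_left ?_ KW.coe_nonneg
            rw [push_self, ← Real.dist_eq]
            refine (p.lipschitz.dist_le_mul _ _).trans ?_
            rw [Real.dist_eq, NNReal.coe_ofNat]
            linarith
          · refine (abs_coord_near hKW (b := p.φ (p.ψ 1))
              (fun y hy => hWplane y (Or.inr (hy.trans (p.right_inv 1)))) _).trans ?_
            refine mul_le_mul_of_nonneg_left ?_ KW.coe_nonneg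
            rw [push_self, ← Real.dist_eq]
            refine (p.lipschitz.dist_le_mul _ _).trans ?_
            rw [Real.dist_eq, NNReal.coe_ofNat]
            linarith
        rw [abs_mul]
        calc |deriv (keep p (δ n)) z| * |W (push p k x) k|
            ≤ (δ n)⁻¹ * (KW * (2 * δ n)) := by
              gcongr
          _ = 2 * KW := by have := (hδ n).ne'; field_simp
      have hb1 : ∀ a : ℝ, |a| ≤ KW → |keep p (δ n) z * (p.d z * a)| ≤ 2 * KW := fun a ha => by
        rw [abs_mul, abs_mul, abs_of_nonneg hc.1]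
        calc keep p (δ n) z * (|p.d z| * |a|) ≤ 1 * (2 * KW) :=
              mul_le_mul hc.2 (mul_le_mul (hd2 z) ha (abs_nonneg _) zero_le_two) (by positivity)
                zero_le_one
          _ = 2 * KW := one_mul _
      have hb2 : ∀ a b : ℝ, |a| ≤ KW → |b| ≤ KG →
          |p.d z * (keep p (δ n) z * a + (1 - keep p (δ n) z) * ((1 - κ) * b))|
            ≤ 2 * KW + 2 * |1 - κ| * KG := fun a b ha hb => by
        rw [abs_mul]
        calc |p.d z| * |keep p (δ n) z * a + (1 - keep p (δ n) z) * ((1 - κ) * b)|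
            ≤ 2 * (1 * KW + 1 * (|1 - κ| * KG)) := by
              refine mul_le_mul (hd2 z) ((abs_add_le _ _).trans ?_) (abs_nonneg _) zero_le_two
              rw [abs_mul, abs_mul, abs_mul, abs_of_nonneg hc.1,
                abs_of_nonneg (sub_nonneg.2 hc.2)]
              gcongr
              · exact hc.2
              · linarith [hc.1]
          _ = _ := by ring
      rw [abs_of_pos hκ0] at hb2
      have t1 := abs_add_le (deriv (keep p (δ n)) z * W (push p k x) k +
        keep p (δ n) z * (p.d z * A k))
        (p.d z * (keep p (δ n) z * A (k.succAbove 0)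
            + (1 - keep p (δ n) z) * ((1 - κ) * B (k.succAbove 0))) +
          p.d z * (keep p (δ n) z * A (k.succAbove 1)
            + (1 - keep p (δ n) z) * ((1 - κ) * B (k.succAbove 1))))
      have t2 := abs_add_le (deriv (keep p (δ n)) z * W (push p k x) k)
        (keep p (δ n) z * (p.d z * A k))
      have t3 := abs_add_le (p.d z * (keep p (δ n) z * A (k.succAbove 0)
            + (1 - keep p (δ n) z) * ((1 - κ) * B (k.succAbove 0))))
        (p.d z * (keep p (δ n) z * A (k.succAbove 1)
            + (1 - keep p (δ n) z) * ((1 - κ) * B (k.succAbove 1))))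
      linarith [hb1 _ (hAb k), hb2 _ _ (hAb (k.succAbove 0)) (hBb (k.succAbove 0)),
        hb2 _ _ (hAb (k.succAbove 1)) (hBb (k.succAbove 1))]
    · by_cases hin : p.φ z ∈ Ico (0 : ℝ) 1
      · have h0 : p.ψ 0 < z := lt_of_le_of_ne (p.strictMono.le_iff_le.1 (by
          rw [p.right_inv]; exact hin.1)) (Ne.symm hx2.1)
        have h1 : z < p.ψ 1 := p.strictMono.lt_iff_lt.1 (by rw [p.right_inv]; exact hin.2)
        have hTS : T x + S x = p.d z * dv W (push p k x) := by
          simp only [hT, hS, ← hz, if_pos hin, add_zero]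
        refine tendsto_const_nhds.congr' ?_
        filter_upwards [tendsto_one_div_add_atTop_nhds_zero_nat.eventually
          (eventually_lt_nhds (lt_min (sub_pos.2 h0) (sub_pos.2 h1)))] with n hn
        have hn' : δ n < min (z - p.ψ 0) (p.ψ 1 - z) := hn
        have he : keep p (δ n) =ᶠ[𝓝 z] fun _ => (1 : ℝ) := by
          filter_upwards [Ioo_mem_nhds
            (show p.ψ 0 + δ n < z by linarith [min_le_left (z - p.ψ 0) (p.ψ 1 - z)])
            (show z < p.ψ 1 - δ n by linarith [min_le_right (z - p.ψ 0) (p.ψ 1 - z)])] with y hy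
          exact keep_eq_one p (hδ n) hy.1.le hy.2.le
        rw [hTS, hdv n, he.deriv_eq, he.eq_of_nhds, hdW, deriv_const]
        ring
      · have hout : z < p.ψ 0 ∨ p.ψ 1 < z := by
          simp only [mem_Ico, not_and_or, not_le, not_lt] at hin
          rcases hin with h | h
          · exact Or.inl (p.strictMono.lt_iff_lt.1 (by rwa [p.right_inv]))
          · exact Or.inr (lt_of_le_of_ne (p.strictMono.le_iff_le.1 (by rwa [p.right_inv]))
              (Ne.symm hx2.2))
        have hTS : T x + S x = (1 - κ) * (p.d z * dv G x) := by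
          simp only [hT, hS, ← hz, if_neg hin, zero_add, hx5]
        refine tendsto_const_nhds.congr fun n => ?_
        have he : keep p (δ n) =ᶠ[𝓝 z] fun _ => (0 : ℝ) := by
          rcases hout with h | h
          · filter_upwards [Iio_mem_nhds h] with y hy
            exact keep_eq_zero p (hδ n) (Or.inl (le_of_lt hy))
          · filter_upwards [Ioi_mem_nhds h] with y hy
            exact keep_eq_zero p (hδ n) (Or.inr (le_of_lt hy))
        rw [hTS, hdv n, he.deriv_eq, he.eq_of_nhds, hdG, deriv_const]
        ring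
  -- integrate
  have hfin : volume D < ⊤ := (measure_mono hDc).trans_lt (lt_top_iff_ne_top.2 volume_cell_ne_top)
  have hlim : Tendsto (fun n => fl D (Y n)) atTop (𝓝 (∫ x in D, (T x + S x))) := by
    refine tendsto_integral_of_dominated_convergence (fun _ => 8 * KW + 4 * (1 - κ) * KG)
      (fun n => (P232.measurable_dv_min _).aestronglyMeasurable) (integrableOn_const hfin.ne)
      (fun n => ae_restrict_of_ae (hkey.mono fun x hx => by
        simpa [Real.norm_eq_abs] using hx.1 n)) (ae_restrict_of_ae (hkey.mono fun x hx => hx.2))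
  have hlim_le : ∫ x in D, (T x + S x) ≤ wPer D (wPull p k w') :=
    le_of_tendsto hlim (Eventually.of_forall hle)
  have hmk := (PiLp.continuous_apply 2 (fun _ : Fin 3 => ℝ) k).measurable
  have hmI : MeasurableSet {x : R3 | p.φ (x k) ∈ Ico (0 : ℝ) 1} :=
    measurableSet_Ico.preimage (p.continuous.measurable.comp hmk)
  have hTi : IntegrableOn T D := by
    refine IntegrableOn.of_bound hfin ?_ (2 * (3 * KW)) (ae_of_all _ fun x => ?_)
    · exact (Measurable.ite hmI ((hKd.continuous.measurable.comp hmk).mul
        ((P232.measurable_dv_min W).comp hM.continuous.measurable)) measurable_const).aestronglyMeasurable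
    · simp only [hT]
      split_ifs
      · rw [norm_mul, Real.norm_eq_abs, Real.norm_eq_abs]
        exact mul_le_mul (hd2 _) (abs_dv_le hKW _) (abs_nonneg _) zero_le_two
      · simp only [norm_zero]; positivity
  have hSi : IntegrableOn S D := by
    refine IntegrableOn.of_bound hfin ?_ ((1 - κ) * (2 * (Kp + Kq))) (ae_of_all _ fun x => ?_)
    · exact (Measurable.ite hmI measurable_const (((hKd.continuous.measurable.comp hmk).mul
        ((measurable_dvS hKp.continuous hKq.continuous).comp
          (outL k).continuous.measurable)).const_mul _)).aestronglyMeasurable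
    · simp only [hS]
      split_ifs
      · simp only [norm_zero]; positivity
      · rw [norm_mul, norm_mul, Real.norm_of_nonneg hκ0.le, Real.norm_eq_abs]
        exact mul_le_mul_of_nonneg_left
          (mul_le_mul (hd2 _) (norm_dvS_le hKp hKq _) (norm_nonneg _) zero_le_two) hκ0.le
  have hTe : ∫ x in D, T x = fl (image p k D) W := by
    rw [setIntegral_eq_slices (k := k) hDm hTi, fl, setIntegral_image hDm hDc p
      ((integrable_dv hKW).mono_measure (Measure.restrict_mono (fun x hx => hx.1) le_rfl))]
    refine integral_congr_ae (Eventually.of_forall fun z => ?_)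
    simp only [hT, ins_apply_self, push_ins]
    split_ifs <;> simp [MeasureTheory.integral_const_mul]
  have hSe : ∫ x in D, S x = (1 - κ) *
      ∫ z, (if p.φ z ∈ Ico (0 : ℝ) 1 then 0 else p.d z * fluxS pp qq D k z) := by
    rw [setIntegral_eq_slices (k := k) hDm hSi, ← MeasureTheory.integral_const_mul]
    refine integral_congr_ae (Eventually.of_forall fun z => ?_)
    simp only [hS, ins_apply_self, outL_ins]
    split_ifs <;> simp [MeasureTheory.integral_const_mul, fluxS_eq]
  rw [integral_add hTi hSi, hTe, hSe] at hlim_le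
  exact hlim_le

/-- Pulling back: the deformed set has weighted perimeter at most that of `D`, less the flux of a
planar field over the heights which are clipped. -/
theorem wPer_image_gain (hD : Weighted.Finite D) (p : Profile) (k : Fin 3) (hend : 1 ≤ p.φ 1)
    {w' : R3 → Fin 3 → ℝ} (hw : IsWeight w') {κ : ℝ} (hκ1 : κ < 1) (hκ : ∀ x i, -κ ≤ w' x i)
    {pp qq : ℝ × (ℝ × ℝ) → ℝ} (hpq : IsSliceField pp qq) :
    wPer (image p k D) w' + (1 - κ) *
        ∫ z, (if p.φ z ∈ Ico (0 : ℝ) 1 then 0 else p.d z * fluxS pp qq D k z)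
      ≤ wPer D (wPull p k w') := by
  rw [← le_sub_iff_add_le]
  refine wPer_le fun X hX => ?_
  rw [le_sub_iff_add_le]
  exact fl_image_gain hD p k hend hw hκ1 hκ hpq hX

/-- The deformed set has finite relative perimeter. -/
theorem finite_image (hD : Weighted.Finite D) (p : Profile) (k : Fin 3) (hend : 1 ≤ p.φ 1) :
    Weighted.Finite (image p k D) := by
  refine ⟨measurableSet_image hD.meas p k, fun x hx => hx.1,
    wPer D (wPull p k 0), fun X hX => ?_⟩
  have h := fl_image_gain hD p k hend Weighted.isWeight_zero (κ := 0) one_pos (fun x i => by simp)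
    (pp := fun _ => 0) (qq := fun _ => 0) isSqField_zero.toSlice hX
  simpa [fl, Weighted.sc_zero, fluxS, flux_zero] using h

end Vale.Agent.P232.Deform
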