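import Mathlib

/-!
The cubic three-torus seen in ℝ³: periodic sets, their volume and their perimeter in the sense
of De Giorgi, and the isoperimetric profile.
-/

open MeasureTheory Set
open scoped ENNReal

namespace Vale.Agent.P232

/-- Euclidean three-space. -/
abbrev R3 := EuclideanSpace ℝ (Fin 3)

/-- The coordinate vector i. -/
noncomputable def e (i : Fin 3) : R3 := EuclideanSpace.single i 1

/-- The cell [0,1)³, which represents each point of ℝ³/ℤ³ once. -/
def cell : Set R3 := {x | ∀ i, x i ∈ Ico (0 : ℝ) 1}

/-- A function invariant under the translations of ℤ³. -/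
def IsPer {α : Type*} (f : R3 → α) : Prop := ∀ i x, f (x + e i) = f x

/-- A set invariant under the translations of ℤ³, that is, a subset of the torus. -/
def IsPeriodicSet (E : Set R3) : Prop := ∀ i x, x + e i ∈ E ↔ x ∈ E

/-- The volume in the torus. -/
noncomputable def vol (E : Set R3) : ℝ≥0∞ := volume (E ∩ cell)

/-- The divergence of a vector field. -/
noncomputable def dv (X : R3 → R3) (x : R3) : ℝ := ∑ i, fderiv ℝ X x (e i) i

/-- A vector field on the torus, continuously differentiable, of length at most one. -/
structure IsTestField (X : R3 → R3) : Prop where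
  smooth : ContDiff ℝ 1 X
  periodic : IsPer X
  norm_le : ∀ x, ‖X x‖ ≤ 1

/-- The perimeter in the torus: the supremum of the integral over the set of the divergence of a
test field. -/
noncomputable def per (E : Set R3) : ℝ≥0∞ :=
  ⨆ (X : R3 → R3) (_ : IsTestField X), ENNReal.ofReal (∫ x in E ∩ cell, dv X x)

/-- The isoperimetric profile: the infimum of the perimeter at given volume. -/
noncomputable def profile (V : ℝ) : ℝ≥0∞ :=
  ⨅ (E : Set R3) (_ : MeasurableSet E) (_ : IsPeriodicSet E) (_ : vol E = ENNReal.ofReal V), per E

end Vale.Agent.P232
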