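import Vale.Agent.P232.Moves

/-! Every down-set of the cube has relative perimeter at most three. -/

open MeasureTheory Set Filter
open scoped NNReal Topology

namespace Vale.Agent.P232

variable {D : Set R3}

theorem lineD_eq_fderiv {X : R3 → R3} (k : Fin 3) {x : R3} (hd : DifferentiableAt ℝ X x) :
    lineD k (fun y => X y k) (outL k x) = fderiv ℝ X x (e k) k := by
  refine fderiv_coord_of_line hd (line := fun s => ins k s (outL k x).2) ?_ (ins_outL k x)
  have h : HasDerivAt (fun s : ℝ => ((s, (outL k x).2) : ℝ × (ℝ × ℝ))) (1, 0) (outL k x).1 :=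
    (hasDerivAt_id _).prodMk (hasDerivAt_const _ _)
  have h2 := (insL k).hasFDerivAt.comp_hasDerivAt (outL k x).1 h
  have e1 : insL k ((1 : ℝ), (0 : ℝ × ℝ)) = e k := by
    ext i
    rcases Fin.eq_self_or_eq_succAbove k i with rfl | ⟨j, rfl⟩
    · simp [insL_apply, ins_apply_self, e]
    · fin_cases j <;> simp [insL_apply, ins_apply_succAbove, e, Fin.succAbove_ne]
  rw [e1] at h2
  exact h2

/-- A down-set of the cube has relative perimeter at most three. -/
theorem relPerLE_three (hD : MeasurableSet D) (hdown : IsDownset D) : RelPerLE D 3 := by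
  intro X hX
  obtain ⟨K, hK⟩ := hX.lipschitz
  have hfin := volume_lt_top_of_downset hdown
  have hflux : ∀ k : Fin 3, ∫ x in D, dvS (horFst k X) (horSnd k X) (outL k x) ≤ 2 := fun k => by
    obtain ⟨N, hp, hq⟩ := exists_lipschitz_hor hK k
    rw [setIntegral_eq_slices (k := k) hD (integrableOn_outL hdown.1 k
      (measurable_dvS hp.continuous hq.continuous) fun u => norm_dvS_le hp hq u)]
    simp only [outL_ins]
    have hint := integrable_slice_integral hD hdown.1 k
      (measurable_dvS hp.continuous hq.continuous) (M := (N : ℝ) + N) fun u => norm_dvS_le hp hq u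
    calc ∫ z, ∫ w in slice D k z, dvS (horFst k X) (horSnd k X) (z, w)
        ≤ ∫ z, (Ico (0 : ℝ) 1).indicator (fun _ => (2 : ℝ)) z := by
          refine integral_mono hint ((integrableOn_const (by simp [Real.volume_Ico])).integrable_indicator
            measurableSet_Ico) fun z => ?_
          simp only
          by_cases hz : z ∈ Ico (0 : ℝ) 1
          · rw [indicator_of_mem hz]
            refine flux_le_two (isSqDown_slice hD hdown k z) (p := fun w => horFst k X (z, w))
              (q := fun w => horSnd k X (z, w)) ⟨⟨_, hp.comp (LipschitzWith.prodMk_left z)⟩,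
                ⟨_, hq.comp (LipschitzWith.prodMk_left z)⟩, fun w => ?_,
                fun w hw => hX.tangent _ _ (by simpa [ins_apply_succAbove] using hw),
                fun w hw => hX.tangent _ _ (by simpa [ins_apply_succAbove] using hw)⟩
            have h := pow_le_one₀ (n := 2) (norm_nonneg _) (hX.norm_le (ins k z w))
            rw [EuclideanSpace.norm_sq_eq, Fin.sum_univ_succAbove _ k, Fin.sum_univ_two] at h
            simp only [Real.norm_eq_abs, sq_abs] at h
            simp only [horFst, horSnd]
            nlinarith [sq_nonneg (X (ins k z w) k)]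
          · rw [indicator_of_notMem hz, slice_eq_empty hdown.1 hz]
            simp
      _ = 2 := by simp [integral_indicator, Measure.real, Real.volume_Ico]
  have hi : ∀ k : Fin 3, IntegrableOn (fun x => fderiv ℝ X x (e k) k) D := fun k =>
    IntegrableOn.of_bound hfin
      (measurable_pi_apply k |>.comp ((by fun_prop : Measurable (WithLp.ofLp : R3 → Fin 3 → ℝ)).comp
        (measurable_fderiv_apply_const ℝ X (e k)))).aestronglyMeasurable K
      (ae_of_all _ fun x => by
        refine (PiLp.norm_apply_le (fderiv ℝ X x (e k)) k).trans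
          (((fderiv ℝ X x).le_opNorm (e k)).trans ?_)
        simpa [e] using norm_fderiv_le_of_lipschitz ℝ hK (x₀ := x))
  have key : ∀ k : Fin 3, (∫ x in D, dv X x) - ∫ x in D, fderiv ℝ X x (e k) k ≤ 2 := fun k => by
    rw [← integral_sub (integrableOn_dv hK hdown) (hi k)]
    refine le_trans (le_of_eq ?_) (hflux k)
    refine setIntegral_congr_ae hD ?_
    filter_upwards [ae_dv_split hK k, hK.ae_differentiableAt (μ := volume)] with x hx hd _
    rw [hx, lineD_eq_fderiv k hd]
    ring
  have hsum : ∫ x in D, dv X x = ∑ k, ∫ x in D, fderiv ℝ X x (e k) k := by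
    rw [← integral_finsetSum _ fun k _ => hi k]
    rfl
  rw [Fin.sum_univ_three] at hsum
  linarith [key 0, key 1, key 2]

theorem finite_of_downset (hD : MeasurableSet D) (hdown : IsDownset D) : Weighted.Finite D :=
  ⟨hD, hdown.1, 3, relPerLE_three hD hdown⟩

end Vale.Agent.P232
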