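import Vale.Agent.P232.Concave
import Vale.Agent.P232.Crux

/-!
The three competitors on the torus: the periodic sets in which a sum of squared centred
coordinates is below a threshold (slab, tube and ball for one, two and three coordinates), and the
upper bound for the profile.
-/

open MeasureTheory Set Filter Real
open scoped ENNReal Topology

namespace Vale.Agent.P232.Upper

/-- The squared distance of a coordinate from the middle of its period. -/
noncomputable def csq (i : Fin 3) (x : R3) : ℝ := (Int.fract (x i) - 1 / 2) ^ 2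

/-- The sum of the squared centred coordinates over a set of coordinates. -/
noncomputable def csum (S : Finset (Fin 3)) (x : R3) : ℝ := ∑ i ∈ S, csq i x

/-- The periodic solid below the threshold `t`. -/
def solid (S : Finset (Fin 3)) (t : ℝ) : Set R3 := {x | csum S x < t}

lemma measurable_coord (i : Fin 3) : Measurable fun x : R3 => x i := by fun_prop

lemma measurable_csum (S : Finset (Fin 3)) : Measurable (csum S) :=
  Finset.measurable_fun_sum _ fun i _ =>
    (((measurable_fract (R := ℝ)).comp (measurable_coord i)).sub_const _).pow_const _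

lemma isPer_csum (S : Finset (Fin 3)) : IsPer (csum S) := fun j x => by
  refine Finset.sum_congr rfl fun i _ => ?_
  simp only [csq, PiLp.add_apply]
  by_cases h : i = j <;> simp [e, h]

lemma csum_nonneg (S : Finset (Fin 3)) (x : R3) : 0 ≤ csum S x :=
  Finset.sum_nonneg fun _ _ => sq_nonneg _

lemma measurableSet_solid (S : Finset (Fin 3)) (t : ℝ) : MeasurableSet (solid S t) :=
  measurableSet_lt (measurable_csum S) measurable_const

lemma isPeriodicSet_solid (S : Finset (Fin 3)) (t : ℝ) : IsPeriodicSet (solid S t) := fun i x => by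
  simp only [solid, mem_ofPred_eq, isPer_csum S i x]

/-- The smoothed indicator of the solid. -/
noncomputable def soft (S : Finset (Fin 3)) (ε t : ℝ) (x : R3) : ℝ :=
  smoothTransition ((t - csum S x) / ε)

lemma contDiff_transition {n : ℕ∞} : ContDiff ℝ n smoothTransition := smoothTransition.contDiff

lemma deriv_transition_nonneg (y : ℝ) : 0 ≤ deriv smoothTransition y :=
  smoothTransition.monotone.deriv_nonneg

lemma deriv_transition_of_nonpos {y : ℝ} (h : y ≤ 0) : deriv smoothTransition y = 0 :=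
  IsLocalMin.deriv_eq_zero (Eventually.of_forall fun z => by
    rw [smoothTransition.zero_of_nonpos h]; exact smoothTransition.nonneg z)

lemma exists_deriv_transition_le : ∃ C, 0 ≤ C ∧ ∀ y, deriv smoothTransition y ≤ C := by
  have hc : Continuous (deriv smoothTransition) :=
    (contDiff_transition (n := 1)).continuous_deriv le_rfl
  obtain ⟨C, hC⟩ := isCompact_Icc.exists_bound_of_continuousOn (s := Icc (0 : ℝ) 1) hc.continuousOn
  have hC0 : 0 ≤ C := (norm_nonneg _).trans (hC 0 ⟨le_rfl, zero_le_one⟩)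
  refine ⟨C, hC0, fun y => ?_⟩
  rcases le_or_gt y 0 with h | h
  · rw [deriv_transition_of_nonpos h]; exact hC0
  rcases le_or_gt y 1 with h' | h'
  · exact (le_abs_self _).trans (hC y ⟨h.le, h'⟩)
  · have e : smoothTransition =ᶠ[𝓝 y] fun _ => (1 : ℝ) :=
      eventually_of_mem (Ioi_mem_nhds h') fun z hz =>
        smoothTransition.one_of_one_le (le_of_lt (mem_Ioi.1 hz))
    rw [e.deriv_eq, deriv_const]; exact hC0

lemma soft_eq_zero {S : Finset (Fin 3)} {ε t : ℝ} {x : R3} (hε : 0 < ε) (h : t ≤ csum S x) :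
    soft S ε t x = 0 :=
  smoothTransition.zero_of_nonpos (div_nonpos_of_nonpos_of_nonneg (by linarith) hε.le)

lemma soft_eq_one {S : Finset (Fin 3)} {ε t : ℝ} {x : R3} (hε : 0 < ε) (h : csum S x ≤ t - ε) :
    soft S ε t x = 1 :=
  smoothTransition.one_of_one_le (by rw [le_div_iff₀ hε]; linarith)

lemma soft_mem (S : Finset (Fin 3)) (ε t : ℝ) (x : R3) :
    0 ≤ soft S ε t x ∧ soft S ε t x ≤ 1 :=
  ⟨smoothTransition.nonneg _, smoothTransition.le_one _⟩

/-- Near a point where one coordinate is an integer the smoothed indicator vanishes. -/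
lemma soft_eventually_zero {S : Finset (Fin 3)} {ε t : ℝ} (hε : 0 < ε) (ht : t < 1 / 4) {x : R3}
    {i : Fin 3} (hi : i ∈ S) (hx : Int.fract (x i) = 0) :
    soft S ε t =ᶠ[𝓝 x] fun _ => (0 : ℝ) := by
  obtain ⟨δ, hδ, hδ', hδ''⟩ : ∃ δ : ℝ, 0 < δ ∧ δ ≤ 1 / 2 ∧ t < (1 / 2 - δ) ^ 2 := by
    refine ⟨min (1 / 2) ((1 / 4 - t) / 2), lt_min (by norm_num) (by linarith), min_le_left _ _, ?_⟩
    nlinarith [min_le_right (1 / 2 : ℝ) ((1 / 4 - t) / 2), min_le_left (1 / 2 : ℝ) ((1 / 4 - t) / 2)]
  have hU : {y : R3 | |y i - x i| < δ} ∈ 𝓝 x :=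
    (isOpen_lt (by fun_prop) continuous_const).mem_nhds (by simpa using hδ)
  refine eventually_of_mem hU fun y hy => soft_eq_zero hε ?_
  simp only [mem_ofPred_eq, abs_lt] at hy
  refine le_trans ?_ (Finset.single_le_sum (fun j _ => sq_nonneg _) hi)
  have hn : (⌊x i⌋ : ℝ) = x i := by rw [← Int.self_sub_fract, hx, sub_zero]
  refine hδ''.le.trans ?_
  show (1 / 2 - δ) ^ 2 ≤ (Int.fract (y i) - 1 / 2) ^ 2
  rcases le_or_gt (x i) (y i) with h | h
  · have e : Int.fract (y i) = y i - x i := by
      rw [Int.fract_eq_iff]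
      exact ⟨by linarith, by linarith, ⌊x i⌋, by rw [hn]; ring⟩
    rw [e]; nlinarith
  · have e : Int.fract (y i) = y i - x i + 1 := by
      rw [Int.fract_eq_iff]
      exact ⟨by linarith, by linarith, ⌊x i⌋ - 1, by push_cast; rw [hn]; ring⟩
    rw [e]; nlinarith

/-- Away from the integers the sum is smooth, with differential of length `2 √csum`. -/
lemma hasFDerivAt_csum {S : Finset (Fin 3)} {x : R3} (hx : ∀ i ∈ S, Int.fract (x i) ≠ 0) :
    ContDiffAt ℝ 1 (csum S) x ∧
      ∃ L : R3 →L[ℝ] ℝ, HasFDerivAt (csum S) L x ∧ ‖L‖ ≤ 2 * √(csum S x) := by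
  classical
  have hev : csum S =ᶠ[𝓝 x] fun y => ∑ i ∈ S, (y i - ⌊x i⌋ - 1 / 2) ^ 2 := by
    have h : ∀ i ∈ S, ∀ᶠ y in 𝓝 x, (⌊y i⌋ : ℝ) = ⌊x i⌋ := fun i hi => by
      have hlt : (⌊x i⌋ : ℝ) < x i :=
        lt_of_le_of_ne (Int.floor_le _) fun h => hx i hi (by rw [Int.fract, h, sub_self])
      filter_upwards [((by fun_prop : Continuous fun y : R3 => y i).tendsto x).eventually
        (Ioo_mem_nhds hlt (Int.lt_floor_add_one (x i)))] with y hy
      exact_mod_cast Int.floor_eq_iff.2 ⟨hy.1.le, hy.2⟩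
    filter_upwards [(S.eventually_all).2 h] with y hy
    exact Finset.sum_congr rfl fun i hi => by rw [csq, Int.fract, hy i hi]
  refine ⟨ContDiffAt.congr_of_eventuallyEq (by fun_prop) hev, ?_⟩
  set P : Fin 3 → R3 →L[ℝ] ℝ := fun i => EuclideanSpace.proj i with hP
  refine ⟨∑ i ∈ S, (2 * (x i - ⌊x i⌋ - 1 / 2)) • P i, HasFDerivAt.congr_of_eventuallyEq ?_ hev, ?_⟩
  · refine HasFDerivAt.fun_sum fun i _ => ?_
    have h1 : HasFDerivAt (fun y : R3 => y i - ⌊x i⌋ - 1 / 2) (P i) x :=
      ((P i).hasFDerivAt.sub_const _).sub_const _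
    simpa [pow_one] using h1.pow 2
  · refine ContinuousLinearMap.opNorm_le_bound _ (by positivity) fun h => ?_
    simp only [FunLike.coe_sum, Finset.sum_apply, FunLike.coe_smul,
      Pi.smul_apply, smul_eq_mul, hP, EuclideanSpace.proj, PiLp.proj_apply]
    have cs := Real.sum_mul_le_sqrt_mul_sqrt S (fun i => |x i - ⌊x i⌋ - 1 / 2|) (fun i => |h i|)
    simp only [sq_abs] at cs
    have hsub : √(∑ i ∈ S, h i ^ 2) ≤ ‖h‖ := by
      rw [EuclideanSpace.norm_eq]
      refine Real.sqrt_le_sqrt ?_
      simp only [Real.norm_eq_abs, sq_abs]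
      exact Finset.sum_le_univ_sum_of_nonneg fun i => sq_nonneg _
    have he : (∑ i ∈ S, (x i - ⌊x i⌋ - 1 / 2) ^ 2) = csum S x := rfl
    rw [he] at cs
    calc ‖∑ i ∈ S, 2 * (x i - ⌊x i⌋ - 1 / 2) * h i‖
        ≤ ∑ i ∈ S, 2 * (|x i - ⌊x i⌋ - 1 / 2| * |h i|) := by
          refine (norm_sum_le _ _).trans (Finset.sum_le_sum fun i _ => le_of_eq ?_)
          rw [Real.norm_eq_abs, abs_mul, abs_mul, abs_two, mul_assoc]
      _ = 2 * ∑ i ∈ S, |x i - ⌊x i⌋ - 1 / 2| * |h i| := (Finset.mul_sum _ _ _).symm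
      _ ≤ 2 * (√(csum S x) * ‖h‖) := by
          gcongr
          exact cs.trans (mul_le_mul_of_nonneg_left hsub (Real.sqrt_nonneg _))
      _ = 2 * √(csum S x) * ‖h‖ := by ring

lemma contDiff_soft {S : Finset (Fin 3)} {ε t : ℝ} (hε : 0 < ε) (ht : t < 1 / 4) :
    ContDiff ℝ 1 (soft S ε t) := contDiff_iff_contDiffAt.2 fun x => by
  by_cases h : ∀ i ∈ S, Int.fract (x i) ≠ 0
  · exact smoothTransition.contDiffAt.comp x
      ((contDiffAt_const.sub (hasFDerivAt_csum h).1).div_const ε)
  · push Not at h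
    obtain ⟨i, hi, hx⟩ := h
    exact ContDiffAt.congr_of_eventuallyEq contDiffAt_const (soft_eventually_zero hε ht hi hx)

lemma norm_fderiv_soft_le {S : Finset (Fin 3)} {ε t : ℝ} (hε : 0 < ε) (ht : t < 1 / 4) (x : R3) :
    ‖fderiv ℝ (soft S ε t) x‖ ≤ 2 * √t * (deriv smoothTransition ((t - csum S x) / ε) / ε) := by
  set D := deriv smoothTransition ((t - csum S x) / ε) with hD
  have hD0 : 0 ≤ D := deriv_transition_nonneg _
  by_cases h : ∀ i ∈ S, Int.fract (x i) ≠ 0
  · obtain ⟨-, L, hL, hLn⟩ := hasFDerivAt_csum h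
    have h1 : HasFDerivAt (fun y => (t - csum S y) / ε) (ε⁻¹ • -L) x := by
      simpa [div_eq_inv_mul] using ((hL.const_sub t).const_mul ε⁻¹)
    have h2 : HasFDerivAt (soft S ε t) (D • (ε⁻¹ • -L)) x :=
      (((contDiff_transition (n := 1)).differentiable one_ne_zero _).hasDerivAt).comp_hasFDerivAt x h1
    rw [h2.fderiv, norm_smul, norm_smul, norm_neg, Real.norm_of_nonneg hD0,
      Real.norm_of_nonneg (inv_nonneg.2 hε.le)]
    rcases le_or_gt t (csum S x) with hs | hs
    · have : D = 0 :=
        deriv_transition_of_nonpos (div_nonpos_of_nonpos_of_nonneg (by linarith) hε.le)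
      simp [this]
    · calc D * (ε⁻¹ * ‖L‖) ≤ D * (ε⁻¹ * (2 * √t)) := by
            gcongr; exact hLn.trans (by gcongr)
        _ = 2 * √t * (D / ε) := by ring
  · push Not at h
    obtain ⟨i, hi, hx⟩ := h
    rw [(soft_eventually_zero hε ht hi hx).fderiv_eq]
    simp only [fderiv_const_apply, norm_zero]
    positivity

/-- The integral of the smoothed indicator is differentiable in the threshold. -/
lemma hasDerivAt_integral_soft (S : Finset (Fin 3)) {ε : ℝ} (hε : 0 < ε) (t : ℝ) :
    IntegrableOn (fun x => deriv smoothTransition ((t - csum S x) / ε) / ε) cell ∧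
    HasDerivAt (fun s => ∫ x in cell, soft S ε s x)
      (∫ x in cell, deriv smoothTransition ((t - csum S x) / ε) / ε) t := by
  obtain ⟨C, hC0, hC⟩ := exists_deriv_transition_le
  have hmd : Measurable (deriv smoothTransition) := measurable_deriv _
  have hms : ∀ s, Measurable fun x => (s - csum S x) / ε :=
    fun s => ((measurable_csum S).const_sub s).div_const ε
  refine hasDerivAt_integral_of_dominated_loc_of_deriv_le (μ := volume.restrict cell)
    (F := fun s x => soft S ε s x) (bound := fun _ => C / ε)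
    (F' := fun s x => deriv smoothTransition ((s - csum S x) / ε) / ε) univ_mem
    (Eventually.of_forall fun s =>
      (smoothTransition.continuous.measurable.comp (hms s)).aestronglyMeasurable)
    ?_ ((hmd.comp (hms t)).div_const ε).aestronglyMeasurable
    (ae_of_all _ fun x s _ => ?_) (integrable_const _) (ae_of_all _ fun x s _ => ?_)
  · exact integrable_cell_of_bound (C := 1) (smoothTransition.continuous.measurable.comp (hms t))
      fun x => by rw [abs_of_nonneg (soft_mem S ε t x).1]; exact (soft_mem S ε t x).2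
  · rw [Real.norm_eq_abs, abs_of_nonneg (div_nonneg (deriv_transition_nonneg _) hε.le)]
    exact div_le_div_of_nonneg_right (hC _) hε.le
  · have h1 : HasDerivAt (fun r => (r - csum S x) / ε) (1 / ε) s :=
      ((hasDerivAt_id s).sub_const _).div_const ε
    have h2 := (((contDiff_transition (n := 1)).differentiable one_ne_zero
      ((s - csum S x) / ε)).hasDerivAt).comp s h1
    rw [mul_one_div] at h2
    exact h2

/-- The perimeter of a solid is at most `2√t` times the derivative of its volume. -/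
theorem per_solid_le {S : Finset (Fin 3)} {W : ℝ → ℝ} {W' t₀ : ℝ} (h0 : 0 < t₀)
    (h1 : t₀ < 1 / 4) (hW : ∀ t, 0 < t → t < 1 / 4 → volume.real (solid S t ∩ cell) = W t)
    (hd : HasDerivAt W W' t₀) :
    per (solid S t₀) ≤ ENNReal.ofReal (2 * √t₀ * W') := by
  refine iSup₂_le fun X hX => ENNReal.ofReal_le_ofReal ?_
  obtain ⟨C, hC0, hC⟩ := exists_bound_cell (continuous_dv hX.smooth)
  obtain ⟨δ, hδ, hδ0, hδ1⟩ : ∃ δ : ℝ, 0 < δ ∧ δ < t₀ ∧ t₀ + δ < 1 / 4 :=
    ⟨min t₀ (1 / 4 - t₀) / 2, by
      refine div_pos (lt_min h0 (by linarith)) two_pos, by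
      linarith [min_le_left t₀ (1 / 4 - t₀)], by linarith [min_le_right t₀ (1 / 4 - t₀)]⟩
  have hδs : δ < 1 := by linarith
  have hWint : ∀ t, 0 < t → t < 1 / 4 →
      ∫ x in cell, (solid S t).indicator (1 : R3 → ℝ) x = W t := fun t a b => by
    rw [← hW t a b, setIntegral_indicator (measurableSet_solid S t), inter_comm]; simp
  -- one step
  have step : ∀ η, 0 < η → η ≤ δ → (∫ x in solid S t₀ ∩ cell, dv X x)
      ≤ 2 * √(t₀ + η) * ((W (t₀ + η) - W (t₀ - η ^ 2)) / η)
        + C * (W (t₀ + η) - W (t₀ - η ^ 2)) := by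
    intro η hη hηδ
    have hη2 : η ^ 2 ≤ η := by nlinarith
    have hε : 0 < η ^ 2 := by positivity
    set G : ℝ → ℝ := fun s => ∫ x in cell, soft S (η ^ 2) s x with hG
    obtain ⟨t, ht, hGt⟩ := exists_hasDerivAt_eq_slope G _ (show t₀ < t₀ + η by linarith)
      (fun s _ => (hasDerivAt_integral_soft S hε s).2.continuousAt.continuousWithinAt)
      (fun s _ => (hasDerivAt_integral_soft S hε s).2)
    have isoft : ∀ s, IntegrableOn (soft S (η ^ 2) s) cell := fun s =>
      integrable_cell_of_bound (C := 1)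
        (smoothTransition.continuous.measurable.comp
          (((measurable_csum S).const_sub s).div_const _))
        fun x => by rw [abs_of_nonneg (soft_mem _ _ _ x).1]; exact (soft_mem _ _ _ x).2
    have iind : ∀ s, IntegrableOn ((solid S s).indicator (1 : R3 → ℝ)) cell := fun s =>
      integrable_cell_of_bound (measurable_one.indicator (measurableSet_solid S s))
        (abs_indicator_one_le _)
    have upper : ∀ s x, soft S (η ^ 2) s x ≤ (solid S s).indicator (1 : R3 → ℝ) x := fun s x => by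
      by_cases h : x ∈ solid S s
      · rw [indicator_of_mem h]; exact (soft_mem _ _ _ x).2
      · rw [indicator_of_notMem h, soft_eq_zero hε (not_lt.1 h)]
    have lower : ∀ s x, (solid S (s - η ^ 2)).indicator (1 : R3 → ℝ) x ≤ soft S (η ^ 2) s x :=
      fun s x => by
      by_cases h : x ∈ solid S (s - η ^ 2)
      · rw [indicator_of_mem h, soft_eq_one hε (le_of_lt h), Pi.one_apply]
      · rw [indicator_of_notMem h]; exact (soft_mem _ _ _ x).1
    have hnum : G (t₀ + η) - G t₀ ≤ W (t₀ + η) - W (t₀ - η ^ 2) := by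
      refine sub_le_sub ?_ ?_
      · rw [← hWint _ (by linarith) (by linarith)]
        exact setIntegral_mono (isoft _) (iind _) (upper _)
      · rw [← hWint _ (by linarith) (by linarith)]
        exact setIntegral_mono (iind _) (isoft _) (lower _)
    have ht4 : t < 1 / 4 := by linarith [ht.2]
    set u := soft S (η ^ 2) t with hu
    have hus : ContDiff ℝ 1 u := contDiff_soft hε ht4
    have hup : IsPer u := (isPer_csum S).comp fun a => smoothTransition ((t - a) / η ^ 2)
    have hmass : gradMass u ≤ 2 * √(t₀ + η) * ((W (t₀ + η) - W (t₀ - η ^ 2)) / η) := by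
      calc gradMass u
          ≤ ∫ x in cell, 2 * √t * (deriv smoothTransition ((t - csum S x) / η ^ 2) / η ^ 2) := by
            refine setIntegral_mono ((hup.grad.comp fun a => ‖a‖).integrable_cell
              (continuous_grad hus).norm) ((hasDerivAt_integral_soft S hε t).1.const_mul _)
              fun x => ?_
            rw [norm_grad]
            exact norm_fderiv_soft_le hε ht4 x
        _ = 2 * √t * ((G (t₀ + η) - G t₀) / η) := by
            rw [integral_const_mul, hGt, add_sub_cancel_left]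
        _ ≤ _ := by
            have hGm : 0 ≤ (G (t₀ + η) - G t₀) / η := by
              have := hGt; rw [add_sub_cancel_left] at this
              rw [← this]
              exact integral_nonneg fun x => div_nonneg (deriv_transition_nonneg _) hε.le
            gcongr
            · linarith [ht.2]
    have herr : (∫ x in solid S t₀ ∩ cell, dv X x) - ∫ x in cell, u x * dv X x
        ≤ C * (W (t₀ + η) - W (t₀ - η ^ 2)) := by
      rw [setIntegral_inter_cell (measurableSet_solid S t₀), ← integral_sub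
        (integrable_cell_mul (measurable_one.indicator (measurableSet_solid S t₀))
          (abs_indicator_one_le _) (continuous_dv hX.smooth))
        (integrable_cell_mul (C := 1) hus.continuous.measurable
          (fun x => by rw [abs_of_nonneg (soft_mem _ _ _ x).1]; exact (soft_mem _ _ _ x).2)
          (continuous_dv hX.smooth)), ← hWint _ (by linarith) (by linarith),
        ← hWint _ (by linarith) (by linarith), ← integral_sub (iind _) (iind _),
        ← integral_const_mul]
      refine setIntegral_mono_on ?_ (((iind _).sub (iind _)).const_mul C) measurableSet_cell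
        fun x hx => ?_
      · exact (integrable_cell_mul (measurable_one.indicator (measurableSet_solid S t₀))
          (abs_indicator_one_le _) (continuous_dv hX.smooth)).sub
          (integrable_cell_mul (C := 1) hus.continuous.measurable
          (fun x => by rw [abs_of_nonneg (soft_mem _ _ _ x).1]; exact (soft_mem _ _ _ x).2)
          (continuous_dv hX.smooth))
      · have mono : ∀ a b, a ≤ b →
            (solid S a).indicator (1 : R3 → ℝ) x ≤ (solid S b).indicator (1 : R3 → ℝ) x :=
          fun a b hab => indicator_le_indicator_of_subset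
            (fun y (hy : csum S y < a) => lt_of_lt_of_le hy hab) (fun _ => zero_le_one) x
        have a1 := upper t x
        have a2 := lower t x
        have a3 := mono (t₀ - η ^ 2) t₀ (by linarith)
        have a4 := mono t₀ (t₀ + η) (by linarith)
        have a5 := mono (t₀ - η ^ 2) (t - η ^ 2) (by linarith [ht.1])
        have a6 := mono t (t₀ + η) ht.2.le
        calc _ = ((solid S t₀).indicator 1 x - u x) * dv X x := by ring
          _ ≤ |(solid S t₀).indicator 1 x - u x| * |dv X x| := by
              rw [← abs_mul]; exact le_abs_self _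
          _ ≤ ((solid S (t₀ + η)).indicator 1 x - (solid S (t₀ - η ^ 2)).indicator 1 x) * C :=
              mul_le_mul (abs_le.2 ⟨by linarith, by linarith⟩) (hC x hx) (abs_nonneg _) (by linarith)
          _ = _ := mul_comm _ _
    have hpair := setIntegral_mul_dv_le hus hup hX
    linarith
  -- the limit
  set η : ℕ → ℝ := fun n => δ / ((n : ℝ) + 1) with hη
  have hη0 : ∀ n, 0 < η n := fun n => by positivity
  have hηd : ∀ n, η n ≤ δ := fun n =>
    div_le_self hδ.le (le_add_of_nonneg_left (Nat.cast_nonneg n))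
  have hηl : Tendsto η atTop (𝓝 0) := by
    have := (tendsto_one_div_add_atTop_nhds_zero_nat (𝕜 := ℝ)).const_mul δ
    simpa [hη, div_eq_mul_inv] using this
  have hsl := hasDerivAt_iff_tendsto_slope.1 hd
  have l1 : Tendsto (fun n => slope W t₀ (t₀ + η n)) atTop (𝓝 W') :=
    hsl.comp (tendsto_nhdsWithin_iff.2 ⟨by simpa using hηl.const_add t₀,
      Eventually.of_forall fun n => by simp [(hη0 n).ne']⟩)
  have l2 : Tendsto (fun n => slope W t₀ (t₀ - η n ^ 2)) atTop (𝓝 W') :=
    hsl.comp (tendsto_nhdsWithin_iff.2 ⟨by simpa using (hηl.pow 2).const_sub t₀,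
      Eventually.of_forall fun n => by simp [(hη0 n).ne']⟩)
  have l3 : Tendsto (fun n => (W (t₀ + η n) - W (t₀ - η n ^ 2)) / η n) atTop (𝓝 W') := by
    have := l1.add (hηl.mul l2)
    rw [zero_mul, add_zero] at this
    refine this.congr fun n => ?_
    have := (hη0 n).ne'
    rw [slope_def_field, slope_def_field, add_sub_cancel_left, sub_sub_cancel_left]
    field_simp
    ring
  have l4 : Tendsto (fun n => 2 * √(t₀ + η n) * ((W (t₀ + η n) - W (t₀ - η n ^ 2)) / η n)
      + C * (W (t₀ + η n) - W (t₀ - η n ^ 2))) atTop (𝓝 (2 * √t₀ * W' + C * 0)) := by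
    refine Tendsto.add ?_ (Tendsto.const_mul C ?_)
    · refine (Tendsto.const_mul 2 ?_).mul l3
      simpa using (hηl.const_add t₀).sqrt
    · have := l3.mul hηl
      rw [mul_zero] at this
      exact this.congr fun n => by have := (hη0 n).ne'; field_simp
  rw [mul_zero, add_zero] at l4
  exact ge_of_tendsto' l4 fun n => step (η n) (hη0 n) (hηd n)

/-! ### The three solids -/

lemma sum_sq_lt {t : ℝ} (ht : t ≤ 1 / 4) {n : ℕ} {w : Fin n → ℝ}
    (h : ∑ j, (w j - 1 / 2) ^ 2 < t) (j : Fin n) : w j ∈ Ioo (0 : ℝ) 1 := by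
  have := Finset.single_le_sum (fun i _ => sq_nonneg (w i - 1 / 2)) (Finset.mem_univ j)
  constructor <;> nlinarith

lemma csum_of_mem_cell (S : Finset (Fin 3)) {x : R3} (hx : x ∈ cell) :
    csum S x = ∑ i ∈ S, (x i - 1 / 2) ^ 2 :=
  Finset.sum_congr rfl fun i _ => by rw [csq, Int.fract_eq_self.2 (hx i)]

lemma volume_solid_univ {t : ℝ} (_h0 : 0 < t) (h1 : t < 1 / 4) :
    volume.real (solid Finset.univ t ∩ cell) = 4 / 3 * π * (√t) ^ 3 := by
  have he : solid Finset.univ t ∩ cell
      = Metric.ball (WithLp.toLp 2 fun _ => (1 / 2 : ℝ)) √t := by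
    ext x
    rw [Metric.mem_ball, EuclideanSpace.dist_eq, Real.sqrt_lt_sqrt_iff (by positivity)]
    simp only [dist_eq_norm, Real.norm_eq_abs, sq_abs]
    refine ⟨fun h => ?_, fun h => ?_⟩
    · simpa [solid, csum_of_mem_cell _ h.2] using h.1
    · have hx : x ∈ cell := fun i => Ioo_subset_Ico_self (sum_sq_lt h1.le h i)
      exact ⟨by simpa [solid, csum_of_mem_cell _ hx] using h, hx⟩
  rw [Measure.real, he, EuclideanSpace.volume_ball_fin_three, ENNReal.toReal_mul,
    ENNReal.toReal_pow, ENNReal.toReal_ofReal (Real.sqrt_nonneg t),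
    ENNReal.toReal_ofReal (by positivity)]
  ring

/-- The set of pairs whose centred squares sum to less than `t` has area `π t`. -/
lemma volume_disc {t : ℝ} (h0 : 0 < t) :
    volume {w : Fin 2 → ℝ | ∑ j, (w j - 1 / 2) ^ 2 < t} = ENNReal.ofReal (π * t) := by
  have he : (WithLp.toLp 2 : (Fin 2 → ℝ) → EuclideanSpace ℝ (Fin 2)) ⁻¹'
      Metric.ball (WithLp.toLp 2 fun _ => (1 / 2 : ℝ)) √t
      = {w : Fin 2 → ℝ | ∑ j, (w j - 1 / 2) ^ 2 < t} := by
    ext w
    rw [mem_preimage, Metric.mem_ball, EuclideanSpace.dist_eq,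
      Real.sqrt_lt_sqrt_iff (by positivity)]
    simp [dist_eq_norm]
  rw [← he, (PiLp.volume_preserving_toLp (Fin 2)).measure_preimage
    measurableSet_ball.nullMeasurableSet, EuclideanSpace.volume_ball_fin_two,
    ← ENNReal.ofReal_pow (Real.sqrt_nonneg _), ← ENNReal.ofReal_mul (by positivity),
    Real.sq_sqrt h0.le, mul_comm]

lemma volume_solid_pair {t : ℝ} (h0 : 0 < t) (h1 : t < 1 / 4) :
    volume.real (solid {0, 1} t ∩ cell) = π * t := by
  set A : Set (Fin 2 → ℝ) := {w | ∑ j, (w j - 1 / 2) ^ 2 < t} with hA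
  have hAm : MeasurableSet A := measurableSet_lt (by fun_prop) measurable_const
  set Φ : R3 → ℝ × (Fin 2 → ℝ) := fun x =>
    MeasurableEquiv.piFinSuccAbove (fun _ : Fin 3 => ℝ) 2 (WithLp.ofLp x) with hΦ
  have hmp : MeasurePreserving Φ :=
    (volume_preserving_piFinSuccAbove (fun _ : Fin 3 => ℝ) 2).comp
      (PiLp.volume_preserving_ofLp (Fin 3))
  have hΦe : ∀ x : R3, Φ x = (x 2, fun j => x ((2 : Fin 3).succAbove j)) := fun x => rfl
  have he : Φ ⁻¹' (Ico (0 : ℝ) 1 ×ˢ A) = solid {0, 1} t ∩ cell := by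
    ext x
    have h01 : (∑ j : Fin 2, (x ((2 : Fin 3).succAbove j) - 1 / 2) ^ 2)
        = ∑ i ∈ ({0, 1} : Finset (Fin 3)), (x i - 1 / 2) ^ 2 := by
      simp [Fin.sum_univ_two, Fin.succAbove]
    simp only [mem_preimage, mem_prod, hΦe, hA, mem_ofPred_eq, h01]
    refine ⟨fun h => ?_, fun h => ⟨h.2 2, by simpa [solid, csum_of_mem_cell _ h.2] using h.1⟩⟩
    have hw : ∑ j : Fin 2, (x ((2 : Fin 3).succAbove j) - 1 / 2) ^ 2 < t := by rw [h01]; exact h.2
    have hx : x ∈ cell := fun i => by
      fin_cases i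
      · exact Ioo_subset_Ico_self (sum_sq_lt (w := fun j => x ((2 : Fin 3).succAbove j)) h1.le hw 0)
      · exact Ioo_subset_Ico_self (sum_sq_lt (w := fun j => x ((2 : Fin 3).succAbove j)) h1.le hw 1)
      · exact h.1
    exact ⟨by simpa [solid, csum_of_mem_cell _ hx] using h.2, hx⟩
  rw [Measure.real, ← he, hmp.measure_preimage ((measurableSet_Ico).prod hAm).nullMeasurableSet,
    Measure.volume_eq_prod, Measure.prod_prod, Real.volume_Ico, hA, volume_disc h0]
  simp [ENNReal.toReal_ofReal (by positivity : (0 : ℝ) ≤ π * t)]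

lemma volume_solid_one {t : ℝ} (h0 : 0 < t) (h1 : t < 1 / 4) :
    volume.real (solid {0} t ∩ cell) = 2 * √t := by
  have hs : √t < 1 / 2 := by rw [Real.sqrt_lt' (by norm_num)]; linarith
  set I : Fin 3 → Set ℝ :=
    fun i => if i = 0 then Ioo (1 / 2 - √t) (1 / 2 + √t) else Ico 0 1 with hI
  have he : (WithLp.ofLp : R3 → Fin 3 → ℝ) ⁻¹' univ.pi I = solid {0} t ∩ cell := by
    ext x
    simp only [mem_preimage, Set.mem_pi, mem_univ, true_implies, hI]
    constructor
    · intro h
      have a := h 0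
      simp only [if_true] at a
      have hx : x ∈ cell := fun i => by
        by_cases hi : i = 0
        · subst hi; exact ⟨by linarith [a.1], by linarith [a.2]⟩
        · simpa [hi] using h i
      refine ⟨?_, hx⟩
      simp only [solid, mem_ofPred_eq, csum_of_mem_cell _ hx, Finset.sum_singleton]
      nlinarith [Real.sq_sqrt h0.le, a.1, a.2]
    · intro h i
      by_cases hi : i = 0
      · subst hi
        have a : (x 0 - 1 / 2) ^ 2 < t := by
          simpa [solid, csum_of_mem_cell _ h.2] using h.1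
        have := abs_lt.1 (Real.lt_sqrt_of_sq_lt (show |x 0 - 1 / 2| ^ 2 < t by rwa [sq_abs]))
        simp only [if_true]
        exact ⟨by linarith [this.1], by linarith [this.2]⟩
      · simpa [hi] using h.2 i
  rw [Measure.real, ← he, (PiLp.volume_preserving_ofLp (Fin 3)).measure_preimage
    (MeasurableSet.univ_pi fun i => by by_cases hi : i = 0 <;> simp [hI, hi]).nullMeasurableSet,
    volume_pi_pi]
  simp [hI, Fin.prod_univ_three, Real.volume_Ioo, two_mul]

/-- There is a set of volume `V` and perimeter at most `P`. -/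
def HasSet (V P : ℝ) : Prop :=
  ∃ E, MeasurableSet E ∧ IsPeriodicSet E ∧ vol E = ENNReal.ofReal V ∧ per E ≤ ENNReal.ofReal P

/-- A solid of volume `V` with perimeter at most `P`. -/
lemma hasSet_solid {S : Finset (Fin 3)} {W : ℝ → ℝ} {W' t₀ V P : ℝ} (h0 : 0 < t₀)
    (h1 : t₀ < 1 / 4) (hW : ∀ t, 0 < t → t < 1 / 4 → volume.real (solid S t ∩ cell) = W t)
    (hd : HasDerivAt W W' t₀) (hV : W t₀ = V) (hP : 2 * √t₀ * W' ≤ P) : HasSet V P := by
  refine ⟨solid S t₀, measurableSet_solid S t₀, isPeriodicSet_solid S t₀, ?_,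
    (per_solid_le h0 h1 hW hd).trans (ENNReal.ofReal_le_ofReal hP)⟩
  rw [← hV, ← hW t₀ h0 h1, vol, Measure.real, ENNReal.ofReal_toReal]
  exact ((measure_mono inter_subset_right).trans_lt
    (by rw [volume_cell]; exact ENNReal.one_lt_top)).ne

/-- A slab gives perimeter two at every volume. -/
lemma hasSet_slab {V : ℝ} (h0 : 0 < V) (h1 : V < 1) : HasSet V 2 := by
  have e : √((V / 2) ^ 2) = V / 2 := Real.sqrt_sq (by linarith)
  refine hasSet_solid (S := {0}) (t₀ := (V / 2) ^ 2) (by positivity) (by nlinarith)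
    (fun t a b => volume_solid_one a b) ((Real.hasDerivAt_sqrt (by positivity)).const_mul 2)
    (by rw [e]; ring) (le_of_eq ?_)
  rw [e]; field_simp

/-- A tube gives perimeter `2 √(π V)` when it fits. -/
lemma hasSet_tube {V : ℝ} (h0 : 0 < V) (h1 : V < π / 4) :
    HasSet V (2 * √(π * V)) := by
  refine hasSet_solid (S := {0, 1}) (t₀ := V / π) (by positivity)
    (by rw [div_lt_iff₀ Real.pi_pos]; linarith)
    (fun t a b => volume_solid_pair a b) ((hasDerivAt_id _).const_mul π)
    (by field_simp) (le_of_eq ?_)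
  rw [show π * V = π ^ 2 * (V / π) by field_simp, Real.sqrt_mul (by positivity),
    Real.sqrt_sq Real.pi_nonneg]
  ring

/-- A ball gives its perimeter when it fits. -/
lemma hasSet_ball {V : ℝ} (h0 : 0 < V) (h1 : V < π / 6) :
    HasSet V ((36 * π) ^ ((1 : ℝ) / 3) * V ^ ((2 : ℝ) / 3)) := by
  set a : ℝ := 3 * V / (4 * π) with ha
  have ha0 : 0 < a := by positivity
  set r : ℝ := a ^ ((1 : ℝ) / 3) with hr
  have hr0 : 0 < r := Real.rpow_pos_of_pos ha0 _
  have hr3 : r ^ 3 = a := by
    rw [hr, ← Real.rpow_natCast, ← Real.rpow_mul ha0.le]; norm_num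
  have hrlt : r < 1 / 2 := by
    refine lt_of_pow_lt_pow_left₀ 3 (by norm_num) ?_
    rw [hr3, ha, div_lt_iff₀ (by positivity)]; linarith
  have e : √(r ^ 2) = r := Real.sqrt_sq hr0.le
  have hd : HasDerivAt (fun t : ℝ => 4 / 3 * π * (√t) ^ 3)
      (4 / 3 * π * (3 * r ^ 2 * (1 / (2 * r)))) (r ^ 2) := by
    have h := ((Real.hasDerivAt_sqrt (x := r ^ 2) (by positivity)).pow 3).const_mul (4 / 3 * π)
    rw [e] at h
    exact h
  refine hasSet_solid (S := Finset.univ) (t₀ := r ^ 2) (by positivity) (by nlinarith)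
    (fun t a b => volume_solid_univ a b) hd
    (by rw [e, hr3, ha]; field_simp) (le_of_eq ?_)
  rw [e]
  have hcube : ((36 * π) ^ ((1 : ℝ) / 3) * V ^ ((2 : ℝ) / 3)) ^ 3 = 36 * π * V ^ 2 := by
    rw [mul_pow, ← Real.rpow_natCast ((36 * π) ^ ((1 : ℝ) / 3)),
      ← Real.rpow_natCast (V ^ ((2 : ℝ) / 3)), ← Real.rpow_mul (by positivity),
      ← Real.rpow_mul h0.le]
    norm_num
  have hV : V = 4 * π / 3 * r ^ 3 := by rw [hr3, ha]; field_simp
  refine (pow_left_inj₀ (by positivity) (by positivity) (by norm_num : (3 : ℕ) ≠ 0)).1 ?_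
  rw [hcube, hV]
  field_simp
  ring

lemma hasSet_profileJ_half {V : ℝ} (h0 : 0 < V) (h1 : V ≤ 1 / 2) :
    HasSet V (profileJ V) := by
  have hπ := Real.pi_gt_three
  rw [profileJ, min_eq_left (show V ≤ 1 - V by linarith)]
  rcases min_choice ((36 * π) ^ ((1 : ℝ) / 3) * V ^ ((2 : ℝ) / 3)) (min (2 * √(π * V)) 2)
    with h | h
  · rw [h]
    rcases lt_or_ge V (π / 6) with hb | hb
    · exact hasSet_ball h0 hb
    · linarith
  · rw [h]
    rcases min_choice (2 * √(π * V)) 2 with h' | h' <;> rw [h']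
    · exact hasSet_tube h0 (by linarith)
    · exact hasSet_slab h0 (by linarith)

end Vale.Agent.P232.Upper

namespace Vale.Agent.P232

open Upper

/-- Balls, tubes and slabs, or their complements, realise the candidate profile. -/
theorem exists_set_profileJ {V : ℝ} (h0 : 0 < V) (h1 : V < 1) :
    ∃ E, MeasurableSet E ∧ IsPeriodicSet E ∧ vol E = ENNReal.ofReal V ∧
      per E ≤ ENNReal.ofReal (profileJ V) := by
  rcases le_or_gt V (1 / 2) with hV | hV
  · exact hasSet_profileJ_half h0 hV
  obtain ⟨E, hE, hp, hv, hP⟩ := hasSet_profileJ_half (V := 1 - V) (by linarith) (by linarith)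
  refine ⟨Eᶜ, hE.compl, hp.compl, ?_, by rw [per_compl hE, ← profileJ_symm]; exact hP⟩
  have h : volume (cell \ E) = volume cell - volume (E ∩ cell) := by
    rw [← sdiff_inter_self_eq_sdiff]
    exact measure_sdiff inter_subset_right (hE.inter measurableSet_cell).nullMeasurableSet
      ((measure_mono inter_subset_right).trans_lt
        (by rw [volume_cell]; exact ENNReal.one_lt_top)).ne
  rw [vol, inter_comm, ← sdiff_eq, h, volume_cell]
  change 1 - vol E = _
  rw [hv, ← ENNReal.ofReal_one, ← ENNReal.ofReal_sub _ (by linarith), sub_sub_cancel]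

/-- The candidate profile bounds the profile from above. -/
theorem profile_le_profileJ {V : ℝ} (h0 : 0 < V) (h1 : V < 1) :
    profile V ≤ ENNReal.ofReal (profileJ V) := by
  obtain ⟨E, hE, hp, hv, hP⟩ := exists_set_profileJ h0 h1
  exact (profile_le hE hp hv).trans hP

end Vale.Agent.P232
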