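import Vale.Agent.P232.Assemble
import Vale.Agent.P232.Upper

/-! The isoperimetric profile of the torus from the inequality for down-sets. -/

open scoped ENNReal

namespace Vale.Agent.P232

/-- If the inequality for down-sets holds, the profile is that of balls, tubes and slabs. -/
theorem profile_eq_of_crux (hc : CruxBound) {V : ℝ} (h0 : 0 < V) (h1 : V < 1) :
    profile V = ENNReal.ofReal (profileJ V) :=
  le_antisymm (profile_le_profileJ h0 h1) (profileJ_le_profile hc h0 h1)

end Vale.Agent.P232
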