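import Vale.Agent.P232.InteriorCrux
import Vale.Agent.P232.Profile

/-! The profile of the torus from the statement about minimisers at volume `1/π` alone. -/

namespace Vale.Agent.P232

/-- The statement at the endpoint gives the inequality for down-sets. -/
theorem cruxBound_of_endpoint (hend : EndpointBound) : CruxBound :=
  cruxBound_of interiorBound hend

/-- The statement at the endpoint gives the profile. -/
theorem profile_eq_of_endpoint (hend : EndpointBound) {V : ℝ} (h0 : 0 < V) (h1 : V < 1) :
    profile V = ENNReal.ofReal (profileJ V) :=
  profile_eq_of_crux (cruxBound_of_endpoint hend) h0 h1

end Vale.Agent.P232
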