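import Vale.Agent.P232.PlanarSet

/-!
Planar bounds for down-sets with weighted contacts: Schmidt's calibration with an initial slope,
the bound `W k a - k (cx + cy)`, and polynomial bounds for its constants.
-/

open MeasureTheory Set intervalIntegral Filter
open scoped Topology NNReal

namespace Vale.Agent.P232

namespace Planar

variable {g : ℝ → ℝ}

/-- The horizontal part of the calibration. -/
private lemma slope_horizontal (hg : IsHeight g) {s b q ex e δ x0 x1 : ℝ} {L R t : ℝ → ℝ}
    (hs : 0 ≤ s) (hb : 0 ≤ b) (hx0 : x0 ∈ Ioo (0 : ℝ) 1) (hgx0 : g x0 ≤ ex + e)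
    (hx1 : x1 ∈ Ioo 0 q) (hq : q ∈ Icc (0 : ℝ) 1) (hzero : ∀ x ∈ Ioo q 1, g x = 0)
    (hδ : 0 < δ) (hδe : δ ≤ e) (hδx : δ ≤ 1 - x0) (hδl : δ ≤ x1) (hδh : δ + δ < 1)
    (hL : ContDiff ℝ 1 L) (hR : ContDiff ℝ 1 R) (ht : ContDiff ℝ 1 t) (hLm : Monotone L)
    (hRa : Antitone R) (hL01 : ∀ x, L x ∈ Icc (0 : ℝ) 1) (hR01 : ∀ x, R x ∈ Icc (0 : ℝ) 1)
    (hLone : ∀ x, δ ≤ x → L x = 1) (hRone : ∀ x, x ≤ 1 - δ → R x = 1)
    (hL0 : L 0 = 0) (hR1e : R 1 = 0)
    (htq : ∀ y < q, t y = (s * y + b) * L y * R y) :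
    s * area g + b * g x1 - (s + b) * ex - (5 * s + 3 * b) * e ≤
      ∫ x in (0 : ℝ)..1, deriv t x * (∫ y in (0 : ℝ)..g x, bump δ y) := by
  have hm : 0 ≤ ex + e := (hg.mem x0 hx0).1.trans hgx0
  have hR' : Continuous (deriv R) := hR.continuous_deriv_one
  have hL' : Continuous (deriv L) := hL.continuous_deriv_one
  have hx11 : x1 < 1 := hx1.2.trans_le hq.2
  have hx1' : x1 ∈ Ioo (0 : ℝ) 1 := ⟨hx1.1, hx11⟩
  have I1 : IntervalIntegrable (fun x => deriv t x * (∫ y in (0 : ℝ)..g x, bump δ y)) volume 0 1 :=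
    (hg.comp (continuous_primitive
      (fun a b => (contDiff_bump δ).continuous.intervalIntegrable a b) 0)).continuousOn_mul
      ht.continuous_deriv_one.continuousOn
  set G : ℝ → ℝ := fun x => ∫ y in (0 : ℝ)..g x, bump δ y with hGdef
  have K1 : IntervalIntegrable (fun x => s * (1 - R x) + s * (1 - L x)) volume 0 1 :=
    Continuous.intervalIntegrable (by have := hR.continuous; have := hL.continuous; fun_prop) 0 1
  have J0 : IntervalIntegrable (fun x => s * g x - 2 * δ * s) volume 0 1 :=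
    (hg.intervalIntegrable.const_mul s).sub intervalIntegrable_const
  have J2 : IntervalIntegrable (fun x => (s + b) * (ex + e) * deriv R x) volume 0 1 :=
    (hR'.const_mul _).intervalIntegrable 0 1
  have J3 : IntervalIntegrable (fun x => b * G x1 * deriv L x) volume 0 1 :=
    (hL'.const_mul _).intervalIntegrable 0 1
  have key : ∫ x in (0 : ℝ)..1, (s * g x - 2 * δ * s - (s * (1 - R x) + s * (1 - L x))
      + (s + b) * (ex + e) * deriv R x + b * G x1 * deriv L x)
      ≤ ∫ x in (0 : ℝ)..1, deriv t x * G x := by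
    refine integral_mono_ae_restrict zero_le_one (((J0.sub K1).add J2).add J3) I1 ?_
    filter_upwards [ae_interior q] with x ⟨hx, hxq⟩
    have hG := integral_bump_mem hδ (hg.mem x hx)
    have hR'0 : deriv R x ≤ 0 := hRa.deriv_nonpos
    have hL'0 : 0 ≤ deriv L x := hLm.deriv_nonneg
    obtain ⟨hR1, hR2⟩ := hR01 x
    obtain ⟨hL1, hL2⟩ := hL01 x
    have hG0 : 0 ≤ G x := integral_nonneg (hg.mem x hx).1 fun y _ => bump_nonneg δ y
    have hGle : G x ≤ g x := hG.2
    have hGge : g x - 2 * δ ≤ G x := hG.1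
    have hLfar : δ < x → deriv L x = 0 := fun h => by
      have : L =ᶠ[𝓝 x] fun _ => 1 := by
        filter_upwards [Ioi_mem_nhds h] with y hy using hLone y (le_of_lt (mem_Ioi.1 hy))
      simp [this.deriv_eq]
    rcases lt_or_gt_of_ne hxq with h | h
    · have hev : t =ᶠ[𝓝 x] fun y => (s * y + b) * L y * R y := by
        filter_upwards [Iio_mem_nhds h] with y hy using htq y hy
      have hd : deriv t x = s * L x * R x + (s * x + b) * deriv L x * R x
          + (s * x + b) * L x * deriv R x := by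
        rw [hev.deriv_eq]
        refine HasDerivAt.deriv ?_
        have h1 := ((((hasDerivAt_id' x).const_mul s).add_const b).mul
          ((hL.differentiable one_ne_zero x).hasDerivAt)).mul
          ((hR.differentiable one_ne_zero x).hasDerivAt)
        exact h1.congr_deriv (by simp; ring)
      have hG1 : G x ≤ 1 := hGle.trans (hg.mem x hx).2
      have e1 : s * (g x - 2 * δ) - (s * (1 - R x) + s * (1 - L x)) ≤ s * L x * R x * G x := by
        have : g x - 2 * δ - (1 - R x) - (1 - L x) ≤ L x * R x * G x := by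
          nlinarith [mul_nonneg (mul_nonneg (sub_nonneg.2 hR2) (sub_nonneg.2 hG1)) hL1,
            mul_nonneg (sub_nonneg.2 hL2) (sub_nonneg.2 hG1), mul_nonneg (sub_nonneg.2 hR2)
            (sub_nonneg.2 hL2)]
        nlinarith [mul_le_mul_of_nonneg_left this hs]
      have e2 : b * G x1 * deriv L x ≤ (s * x + b) * deriv L x * R x * G x := by
        by_cases hxe : δ < x
        · simp [hLfar hxe]
        · have hGm : G x1 ≤ G x := integral_mono_interval le_rfl (hg.mem x1 hx1').1
            (hg.anti hx hx1' (by linarith [not_lt.1 hxe]))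
            (Filter.Eventually.of_forall fun z => bump_nonneg _ z)
            ((contDiff_bump _).continuous.intervalIntegrable _ _)
          rw [hRone x (by linarith [not_lt.1 hxe]), mul_one,
            show (s * x + b) * deriv L x * G x = (s * x + b) * G x * deriv L x by ring]
          refine mul_le_mul_of_nonneg_right ?_ hL'0
          nlinarith [mul_le_mul_of_nonneg_left hGm hb, mul_nonneg (mul_nonneg hs hx.1.le) hG0]
      have e3 : (s + b) * (ex + e) * deriv R x ≤ (s * x + b) * L x * deriv R x * G x := by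
        by_cases hxe : x < 1 - δ
        · have : R =ᶠ[𝓝 x] fun _ => 1 := by
            filter_upwards [Iio_mem_nhds hxe] with y hy using hRone y hy.le
          simp [this.deriv_eq]
        · have hgx : g x ≤ g x0 := hg.anti hx0 hx (by linarith [not_lt.1 hxe])
          have hh : (s * x + b) * L x * G x ≤ (s + b) * (ex + e) := by
            have : (s * x + b) * L x ≤ (s + b) * 1 :=
              mul_le_mul (by nlinarith [hx.2]) hL2 hL1 (by linarith)
            exact mul_le_mul (by simpa using this) (by linarith) hG0 (by linarith)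
          calc (s + b) * (ex + e) * deriv R x ≤ (s * x + b) * L x * G x * deriv R x :=
                mul_le_mul_of_nonpos_right hh hR'0
            _ = _ := by ring
      rw [hd]
      linarith
    · have hg0 : g x = 0 := hzero x ⟨h, hx.2⟩
      have hG0' : G x = 0 := by simp [hGdef, hg0]
      rw [hg0, hG0', hLfar (by linarith [hx1.2]), mul_zero, mul_zero, mul_zero]
      nlinarith [mul_nonneg hs hδ.le, mul_nonneg hs (sub_nonneg.2 hR2),
        mul_nonneg hs (sub_nonneg.2 hL2),
        mul_nonpos_of_nonneg_of_nonpos (mul_nonneg (add_nonneg hs hb) hm) hR'0]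
  have small : ∀ {a a' : ℝ} {h : ℝ → ℝ}, Continuous h → a ≤ a' → (∀ x ∈ Icc a a', h x ≤ 1) →
      (∫ x in a..a', h x) ≤ a' - a := fun {a a' h} hc haa hh => by
    refine (integral_mono_on haa (hc.intervalIntegrable _ _)
      (intervalIntegrable_const (c := (1 : ℝ))) hh).trans_eq ?_
    simp
  have e2 : (∫ x in (0 : ℝ)..1, (1 - R x)) ≤ δ := by
    have hc : Continuous fun x => 1 - R x := continuous_const.sub hR.continuous
    rw [← integral_add_adjacent_intervals (hc.intervalIntegrable (μ := volume) 0 (1 - δ))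
      (hc.intervalIntegrable (1 - δ) 1)]
    have z : (∫ x in (0 : ℝ)..1 - δ, (1 - R x)) = 0 := by
      rw [integral_congr (g := fun _ => (0 : ℝ))]
      · simp
      · intro x hx'
        rw [uIcc_of_le (by linarith)] at hx'
        simp [hRone x hx'.2]
    have w := small hc (show 1 - δ ≤ 1 by linarith) fun x _ => by linarith [(hR01 x).1]
    linarith
  have e2' : (∫ x in (0 : ℝ)..1, (1 - L x)) ≤ δ := by
    have hc : Continuous fun x => 1 - L x := continuous_const.sub hL.continuous
    rw [← integral_add_adjacent_intervals (hc.intervalIntegrable (μ := volume) 0 δ)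
      (hc.intervalIntegrable δ 1)]
    have z : (∫ x in δ..1, (1 - L x)) = 0 := by
      rw [integral_congr (g := fun _ => (0 : ℝ))]
      · simp
      · intro x hx'
        rw [uIcc_of_le (by linarith)] at hx'
        simp [hLone x hx'.1]
    have w := small hc hδ.le fun x _ => by linarith [(hL01 x).1]
    linarith
  have e3 : (∫ x in (0 : ℝ)..1, deriv R x) = -1 := by
    rw [integral_deriv_eq_sub (fun x _ => hR.differentiable one_ne_zero x)
      (hR'.intervalIntegrable _ _), hRone 0 (by linarith)]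
    simp [hR1e]
  have e4 : (∫ x in (0 : ℝ)..1, deriv L x) = 1 := by
    rw [integral_deriv_eq_sub (fun x _ => hL.differentiable one_ne_zero x)
      (hL'.intervalIntegrable _ _), hLone 1 (by linarith)]
    simp [hL0]
  have K2 : IntervalIntegrable (fun x => s * (1 - R x)) volume 0 1 :=
    (continuous_const.mul (continuous_const.sub hR.continuous)).intervalIntegrable 0 1
  have K3 : IntervalIntegrable (fun x => s * (1 - L x)) volume 0 1 :=
    (continuous_const.mul (continuous_const.sub hL.continuous)).intervalIntegrable 0 1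
  rw [integral_add ((J0.sub K1).add J2) J3, integral_add (J0.sub K1) J2, integral_sub J0 K1,
    integral_add K2 K3, integral_sub (hg.intervalIntegrable.const_mul s) intervalIntegrable_const,
    intervalIntegral.integral_const_mul, intervalIntegral.integral_const,
    intervalIntegral.integral_const_mul, intervalIntegral.integral_const_mul,
    intervalIntegral.integral_const_mul, intervalIntegral.integral_const_mul, e3, e4] at key
  simp only [sub_zero, one_smul] at key
  have hg1 : g x1 - 2 * δ ≤ G x1 := (integral_bump_mem hδ (hg.mem x1 hx1')).1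
  unfold area
  nlinarith [mul_le_mul_of_nonneg_left e2 hs, mul_le_mul_of_nonneg_left e2' hs,
    mul_le_mul_of_nonneg_left hδe hs, mul_le_mul_of_nonneg_left hg1 hb,
    mul_le_mul_of_nonneg_left hδe hb]

/-- The vertical part of the calibration. -/
private lemma slope_vertical (hg : IsHeight g) {s b q p e δ : ℝ} {K : ℝ → ℝ}
    (hq : q ∈ Icc (0 : ℝ) 1) (hp : 0 ≤ p) (he : 0 < e) (hδ : 0 < δ) (hδe : δ ≤ e)
    (hδh : δ + δ < 1) (hK : Continuous K) (hK0 : ∀ x, 0 ≤ K x)
    (hKeq : ∀ x, δ ≤ x → x ≤ q → x ≤ 1 - δ → K x = Real.sqrt (1 - (s * x + b) ^ 2))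
    (hlow : ∀ x ∈ Ioo 0 1, x < q - e → δ ≤ g x) (hhigh : ∀ x ∈ Ioo 0 1, p + e < x → g x ≤ 1 - δ) :
    (∫ x in (0 : ℝ)..q, Real.sqrt (1 - (s * x + b) ^ 2)) - (p + 3 * e) ≤
      ∫ x in (0 : ℝ)..1, K x * bump δ (g x) := by
  have I2 : IntervalIntegrable (fun x => K x * bump δ (g x)) volume 0 1 :=
    (hg.comp (contDiff_bump δ).continuous).continuousOn_mul hK.continuousOn
  let S : Set ℝ := Icc 0 (p + e) ∪ Icc (q - e) q ∪ Icc (1 - δ) 1
  let φ : ℝ → ℝ := fun x => Real.sqrt (1 - (s * x + b) ^ 2)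
  have hφ : Continuous φ := by fun_prop
  have hS : MeasurableSet S :=
    (measurableSet_Icc.union measurableSet_Icc).union measurableSet_Icc
  have A1 : Integrable ((Icc 0 q).indicator φ) (volume.restrict (Ioc (0 : ℝ) 1)) :=
    Integrable.indicator (hφ.integrableOn_Ioc) measurableSet_Icc
  have A2 : Integrable (S.indicator fun _ => (1 : ℝ)) (volume.restrict (Ioc (0 : ℝ) 1)) :=
    (integrable_const 1).indicator hS
  have key : ∫ x in (0 : ℝ)..1, ((Icc 0 q).indicator φ x - S.indicator (fun _ => (1 : ℝ)) x)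
      ≤ ∫ x in (0 : ℝ)..1, K x * bump δ (g x) := by
    refine integral_mono_ae_restrict zero_le_one
      ((intervalIntegrable_iff_integrableOn_Ioc_of_le zero_le_one).2 (A1.sub A2)) I2 ?_
    filter_upwards [ae_interior q] with x ⟨hx, _⟩
    have hk : 0 ≤ K x * bump δ (g x) :=
      mul_nonneg (hK0 x) (bump_nonneg _ _)
    have hφ1 : φ x ≤ 1 := Real.sqrt_le_one.2 (sub_le_self 1 (sq_nonneg _))
    by_cases hxS : x ∈ S
    · rw [indicator_of_mem hxS]
      by_cases hxq : x ∈ Icc 0 q
      · rw [indicator_of_mem hxq]; linarith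
      · rw [indicator_of_notMem hxq]; linarith
    · rw [indicator_of_notMem hxS]
      by_cases hxq : x ∈ Icc 0 q
      · rw [indicator_of_mem hxq, sub_zero]
        simp only [S, mem_union, mem_Icc, not_or, not_and_or, not_le] at hxS
        have l1 : p + e < x := by rcases hxS.1.1 with h | h <;> linarith [hx.1]
        have l2 : x < q - e := by rcases hxS.1.2 with h | h <;> linarith [hxq.2]
        have l3 : x < 1 - δ := by rcases hxS.2 with h | h <;> linarith [hx.2]
        have hb' : bump δ (g x) = 1 := bump_eq_one hδ ⟨hlow x hx l2, hhigh x hx l1⟩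
        have hk' : K x = φ x := hKeq x (by linarith) hxq.2 l3.le
        rw [hb', hk', mul_one]
      · rw [indicator_of_notMem hxq, sub_zero]; exact hk
  rw [integral_of_le zero_le_one, MeasureTheory.integral_sub A1 A2] at key
  have v1 : ∫ x in Ioc 0 1, (Icc 0 q).indicator φ x = ∫ x in (0 : ℝ)..q, φ x := by
    rw [setIntegral_indicator measurableSet_Icc, integral_of_le hq.1]
    have : Ioc (0 : ℝ) 1 ∩ Icc 0 q = Ioc 0 q := by
      ext x
      simp only [mem_inter_iff, mem_Ioc, mem_Icc]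
      constructor
      · rintro ⟨h, _, h'⟩; exact ⟨h.1, h'⟩
      · rintro ⟨h, h'⟩; exact ⟨⟨h, h'.trans hq.2⟩, h.le, h'⟩
    rw [this]
  have v2 : ∫ x in Ioc 0 1, S.indicator (fun _ => (1 : ℝ)) x ≤ p + 3 * e := by
    rw [setIntegral_indicator hS, setIntegral_const, smul_eq_mul, mul_one]
    refine (measureReal_mono inter_subset_right (by simp [S])).trans ?_
    refine (measureReal_union_le _ _).trans ?_
    have := measureReal_union_le (μ := volume) (Icc 0 (p + e)) (Icc (q - e) q)
    rw [Real.volume_real_Icc_of_le (by linarith), Real.volume_real_Icc_of_le (by linarith)] at this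
    rw [Real.volume_real_Icc_of_le (by linarith : 1 - δ ≤ 1)]
    linarith
  linarith

/-- Schmidt's calibration with initial slope `b`. -/
theorem exists_schmidt_slope (hg : IsHeight g) {s b q p ex x1 ε : ℝ} (hs : 0 ≤ s) (hb : 0 ≤ b)
    (hsq : s * q + b < 1) (hq : q ∈ Icc (0 : ℝ) 1) (hx1 : x1 ∈ Ioo 0 q)
    (hpos : ∀ x ∈ Ioo 0 q, 0 < g x) (hzero : ∀ x ∈ Ioo q 1, g x = 0)
    (hp : 0 ≤ p) (htop : ∀ x ∈ Ioo p 1, g x < 1) (hex : EndsBelow g ex) (hε : 0 < ε) :
    ∃ F : Field, s * area g + b * g x1 + (∫ x in (0 : ℝ)..q, Real.sqrt (1 - (s * x + b) ^ 2)) - p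
      - (s + b) * ex - ε ≤ flux F g := by
  -- the cut points
  obtain ⟨e, he, hes⟩ : ∃ e > 0, (5 * s + 3 * b + 6) * e ≤ ε :=
    ⟨ε / (5 * s + 3 * b + 6), by positivity, le_of_eq (by field_simp)⟩
  obtain ⟨x0, hx0, hgx0⟩ := hex e he
  have hx11 : x1 < 1 := hx1.2.trans_le hq.2
  -- heights stay inside on (p + e, q - e)
  obtain ⟨d1, hd1, hd1'⟩ : ∃ d > 0, ∀ x ∈ Ioo 0 1, x < q - e → d ≤ g x := by
    by_cases h : e < q
    · have hm : q - e ∈ Ioo (0 : ℝ) q := ⟨by linarith, by linarith⟩
      exact ⟨g (q - e), hpos _ hm, fun x hx hxe =>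
        hg.anti hx ⟨hm.1, by linarith [hq.2]⟩ hxe.le⟩
    · exact ⟨1, one_pos, fun x hx hxe => by linarith [hx.1]⟩
  obtain ⟨d2, hd2, hd2'⟩ : ∃ d > 0, ∀ x ∈ Ioo 0 1, p + e < x → g x ≤ 1 - d := by
    by_cases h : p + e < 1
    · have hm : p + e ∈ Ioo p 1 := ⟨by linarith, h⟩
      exact ⟨1 - g (p + e), by linarith [htop _ hm], fun x hx hxe => by
        linarith [hg.anti ⟨by linarith, h⟩ hx hxe.le]⟩
    · exact ⟨1, one_pos, fun x hx hxe => by linarith [hx.2]⟩
  obtain ⟨δ, hδ, hδe, hδ1, hδ2, hδx, hδl, hδh⟩ :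
      ∃ δ > 0, δ ≤ e ∧ δ ≤ d1 ∧ δ ≤ d2 ∧ δ ≤ 1 - x0 ∧ δ ≤ x1 ∧ δ + δ < 1 := by
    refine ⟨min (min (min e d1) (min d2 (1 - x0))) (min x1 (1 / 3)),
      lt_min (lt_min (lt_min he hd1) (lt_min hd2 (by linarith [hx0.2])))
        (lt_min hx1.1 (by norm_num)), ?_, ?_, ?_, ?_, ?_, ?_⟩
    · exact ((min_le_left _ _).trans (min_le_left _ _)).trans (min_le_left _ _)
    · exact ((min_le_left _ _).trans (min_le_left _ _)).trans (min_le_right _ _)
    · exact ((min_le_left _ _).trans (min_le_right _ _)).trans (min_le_left _ _)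
    · exact ((min_le_left _ _).trans (min_le_right _ _)).trans (min_le_right _ _)
    · exact (min_le_right _ _).trans (min_le_left _ _)
    · linarith [(min_le_right (min (min e d1) (min d2 (1 - x0))) (min x1 (1 / 3))).trans
        (min_le_right x1 (1 / 3))]
  obtain ⟨c, hqc, hsc⟩ : ∃ c, q < c ∧ s * c + b < 1 := by
    have key : s * ((1 - s * q - b) / (2 * (s + 1))) ≤ (1 - s * q - b) / 2 := by
      rw [mul_div_assoc', div_le_iff₀ (by positivity)]
      nlinarith
    refine ⟨q + (1 - s * q - b) / (2 * (s + 1)),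
      lt_add_of_pos_right q (div_pos (by linarith) (by positivity)), ?_⟩
    rw [mul_add]
    linarith
  -- the functions
  let L : ℝ → ℝ := fun x => Real.smoothTransition (x / δ)
  let R : ℝ → ℝ := fun x => Real.smoothTransition ((1 - x) / δ)
  let r : ℝ → ℝ := fun x => Real.smoothTransition ((c - x) / (c - q))
  let t : ℝ → ℝ := fun x => (s * x + b) * L x * R x * r x
  have hL : ContDiff ℝ 1 L := Real.smoothTransition.contDiff.comp (contDiff_id.div_const δ)
  have hR : ContDiff ℝ 1 R :=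
    Real.smoothTransition.contDiff.comp ((contDiff_const.sub contDiff_id).div_const δ)
  have hr : ContDiff ℝ 1 r :=
    Real.smoothTransition.contDiff.comp ((contDiff_const.sub contDiff_id).div_const _)
  have ht : ContDiff ℝ 1 t :=
    ((((contDiff_const.mul contDiff_id).add contDiff_const).mul hL).mul hR).mul hr
  have hL01 : ∀ x, L x ∈ Icc (0 : ℝ) 1 := fun x =>
    ⟨Real.smoothTransition.nonneg _, Real.smoothTransition.le_one _⟩
  have hR01 : ∀ x, R x ∈ Icc (0 : ℝ) 1 := fun x =>
    ⟨Real.smoothTransition.nonneg _, Real.smoothTransition.le_one _⟩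
  have hr01 : ∀ x, r x ∈ Icc (0 : ℝ) 1 := fun x =>
    ⟨Real.smoothTransition.nonneg _, Real.smoothTransition.le_one _⟩
  have hLone : ∀ x, δ ≤ x → L x = 1 := fun x hx =>
    Real.smoothTransition.one_of_one_le (by rw [le_div_iff₀ hδ]; linarith)
  have hrone : ∀ x, x ≤ q → r x = 1 := fun x hx =>
    Real.smoothTransition.one_of_one_le (by rw [le_div_iff₀ (by linarith)]; linarith)
  have hRone : ∀ x, x ≤ 1 - δ → R x = 1 := fun x hx =>
    Real.smoothTransition.one_of_one_le (by rw [le_div_iff₀ hδ]; linarith)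
  have htabs : ∀ x, t x ^ 2 < 1 := by
    intro x
    by_cases h0 : x ≤ 0
    · have : L x = 0 := Real.smoothTransition.zero_of_nonpos
        (div_nonpos_of_nonpos_of_nonneg h0 hδ.le)
      simp [t, this]
    have h0' : 0 ≤ x := (not_le.1 h0).le
    have h3 : 0 ≤ s * x + b := by positivity
    by_cases hxc : x ≤ c
    · have hle : t x ≤ s * c + b :=
        calc t x ≤ (s * x + b) * 1 * 1 * 1 := by
              apply mul_le_mul (mul_le_mul (mul_le_mul_of_nonneg_left (hL01 x).2 h3) (hR01 x).2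
                (hR01 x).1 (by linarith)) (hr01 x).2 (hr01 x).1 (by linarith)
          _ ≤ s * c + b := by nlinarith
      have hge : 0 ≤ t x :=
        mul_nonneg (mul_nonneg (mul_nonneg h3 (hL01 x).1) (hR01 x).1) (hr01 x).1
      nlinarith
    · have : r x = 0 := Real.smoothTransition.zero_of_nonpos
        (div_nonpos_of_nonpos_of_nonneg (by linarith) (by linarith))
      simp [t, this]
  let F : Field :=
    { f := t
      k := fun x => L x * R x * r x * Real.sqrt (1 - t x ^ 2)
      η := bump δ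
      smooth_f := ht
      smooth_k := ((hL.mul hR).mul hr).mul
        ((contDiff_const.sub (ht.pow 2)).sqrt fun x => (sub_pos.2 (htabs x)).ne')
      smooth_η := contDiff_bump δ
      norm_le := fun x _ => by
        have h1 := Real.sq_sqrt (sub_nonneg.2 (htabs x).le)
        have h2 : L x * R x * r x ≤ 1 :=
          mul_le_one₀ (mul_le_one₀ (hL01 x).2 (hR01 x).1 (hR01 x).2) (hr01 x).1 (hr01 x).2
        have h3 : 0 ≤ L x * R x * r x :=
          mul_nonneg (mul_nonneg (hL01 x).1 (hR01 x).1) (hr01 x).1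
        show t x ^ 2 + (L x * R x * r x * Real.sqrt (1 - t x ^ 2)) ^ 2 ≤ 1
        rw [mul_pow (L x * R x * r x), h1]
        nlinarith [pow_le_one₀ (n := 2) h3 h2, htabs x]
      abs_η := fun y _ => abs_le.2 ⟨by linarith [bump_nonneg δ y], bump_le_one δ y⟩
      f_zero := by simp [t, L]
      f_one := by simp [t, R]
      η_zero := bump_zero δ
      η_one := bump_one δ }
  refine ⟨F, ?_⟩
  obtain ⟨I1, I2⟩ := integrable_flux F hg
  have part1 := slope_horizontal hg (t := t) (L := L) (R := R) hs hb hx0 hgx0 hx1 hq hzero hδ hδe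
    hδx hδl hδh hL hR ht
    (fun u v huv => Real.smoothTransition.monotone (div_le_div_of_nonneg_right huv hδ.le))
    (fun u v huv => Real.smoothTransition.monotone
      (div_le_div_of_nonneg_right (by linarith) hδ.le))
    hL01 hR01 hLone hRone (by simp [L]) (by simp [R]) (fun y hy => by simp [t, hrone y hy.le])
  have part2 := slope_vertical hg (s := s) (b := b) (K := F.k) hq hp he hδ hδe hδh
    F.smooth_k.continuous
    (fun x => mul_nonneg (mul_nonneg (mul_nonneg (hL01 x).1 (hR01 x).1) (hr01 x).1)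
      (Real.sqrt_nonneg _))
    (fun x h1 h2 h3 => by
      show L x * R x * r x * Real.sqrt (1 - t x ^ 2) = _
      simp [t, hLone x h1, hRone x h3, hrone x h2])
    (fun x hx h => hδ1.trans (hd1' x hx h))
    (fun x hx h => (hd2' x hx h).trans (by linarith))
  have hflux : flux F g = (∫ x in (0 : ℝ)..1, deriv t x * (∫ y in (0 : ℝ)..g x, bump δ y)) +
      ∫ x in (0 : ℝ)..1, F.k x * bump δ (g x) := integral_add I1 I2
  rw [hflux]
  nlinarith

/-- The area of the unit disc in `x ≥ k, y ≥ k`. -/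
noncomputable def omega (k : ℝ) : ℝ := Real.pi / 4 - 2 * k * arc k + k ^ 2

lemma integral_sqrt_one_sub {a b : ℝ} (ha : -1 ≤ a) (hab : a ≤ b) (hb : b ≤ 1) :
    ∫ t in a..b, Real.sqrt (1 - t ^ 2) = (Real.arcsin b + b * Real.sqrt (1 - b ^ 2)) / 2
      - (Real.arcsin a + a * Real.sqrt (1 - a ^ 2)) / 2 := by
  refine integral_eq_sub_of_hasDerivAt_of_le
    (f := fun t => (Real.arcsin t + t * Real.sqrt (1 - t ^ 2)) / 2) hab
    (((Real.continuous_arcsin.add (by fun_prop)).div_const _).continuousOn) (fun t ht => ?_)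
    (Continuous.intervalIntegrable (by fun_prop) _ _)
  have h0 : 0 < 1 - t ^ 2 := by nlinarith [ht.1, ht.2]
  have h1 := Real.sqrt_pos.2 h0
  have hd := ((Real.hasDerivAt_arcsin (by linarith [ht.1]) (by linarith [ht.2])).add
    ((hasDerivAt_id' t).mul (((hasDerivAt_pow 2 t).const_sub 1).sqrt h0.ne'))).div_const 2
  refine hd.congr_deriv ?_
  field_simp
  rw [Real.sq_sqrt h0.le]
  push_cast
  ring

lemma mul_arc_eq {k : ℝ} (h0 : 0 ≤ k) (h1 : k ≤ 1) :
    k * arc k = (Real.arcsin k + k * Real.sqrt (1 - k ^ 2)) / 2 := by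
  have h := mul_integral_comp_mul_left (f := fun t : ℝ => Real.sqrt (1 - t ^ 2)) (a := 0) (b := 1) k
  simp only [mul_zero, mul_one] at h
  rw [arc, h, integral_sqrt_one_sub (by norm_num) h0 h1]
  simp

lemma omega_eq {k : ℝ} (h0 : 0 ≤ k) (h2 : 2 * k ^ 2 ≤ 1) :
    k ≤ Real.sqrt (1 - k ^ 2) ∧ ∫ t in k..Real.sqrt (1 - k ^ 2), Real.sqrt (1 - t ^ 2) =
      omega k + k * (Real.sqrt (1 - k ^ 2) - k) := by
  have hk1 : k ≤ 1 := by nlinarith
  have hK0 : 0 ≤ 1 - k ^ 2 := by nlinarith
  have hle : k ≤ Real.sqrt (1 - k ^ 2) := Real.le_sqrt_of_sq_le (by linarith)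
  refine ⟨hle, ?_⟩
  have hK1 : Real.sqrt (1 - k ^ 2) ≤ 1 := Real.sqrt_le_one.2 (by nlinarith)
  rw [integral_sqrt_one_sub (by linarith) hle hK1, omega, mul_assoc 2 k, mul_arc_eq h0 hk1,
    ← Real.arccos_eq_arcsin h0, Real.arccos_eq_pi_div_two_sub_arcsin, Real.sq_sqrt hK0,
    show 1 - (1 - k ^ 2) = k ^ 2 by ring, Real.sqrt_sq h0]
  ring

lemma omega_nonneg {k : ℝ} (h0 : 0 ≤ k) (h2 : 2 * k ^ 2 ≤ 1) : 0 ≤ omega k := by
  obtain ⟨hle, h⟩ := omega_eq h0 h2
  have hc : k * (Real.sqrt (1 - k ^ 2) - k) = ∫ _ in k..Real.sqrt (1 - k ^ 2), k := by simp [mul_comm]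
  have hm : (∫ _ in k..Real.sqrt (1 - k ^ 2), k) ≤
      ∫ t in k..Real.sqrt (1 - k ^ 2), Real.sqrt (1 - t ^ 2) := by
    refine integral_mono_on hle intervalIntegrable_const
      (Continuous.intervalIntegrable (by fun_prop) _ _) fun t ht => Real.le_sqrt_of_sq_le ?_
    have := Real.sq_sqrt (show 0 ≤ 1 - k ^ 2 by nlinarith)
    nlinarith [mul_le_mul ht.2 ht.2 (h0.trans ht.1) (Real.sqrt_nonneg _)]
  linarith

lemma sqrt_taylor {u : ℝ} (h0 : 0 ≤ u) (h1 : u ≤ 1 / 4) :
    1 - u / 2 - u ^ 2 / 8 - u ^ 3 / 12 ≤ Real.sqrt (1 - u) ∧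
      Real.sqrt (1 - u) ≤ 1 - u / 2 - u ^ 2 / 8 - u ^ 3 / 16 := by
  have h2 : u ^ 2 ≤ u / 4 := by nlinarith
  have h3 : u ^ 3 ≤ u / 16 := by nlinarith [mul_le_mul_of_nonneg_left h2 h0]
  constructor
  · refine Real.le_sqrt_of_sq_le ?_
    nlinarith [mul_nonneg (pow_nonneg h0 3) (sub_nonneg.2 h1), mul_nonneg (pow_nonneg h0 4)
      (sub_nonneg.2 h1), mul_nonneg (pow_nonneg h0 5) (sub_nonneg.2 h1), pow_nonneg h0 3]
  · rw [Real.sqrt_le_iff]
    refine ⟨by linarith, ?_⟩
    nlinarith [pow_nonneg h0 4, pow_nonneg h0 5, pow_nonneg h0 6]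

/-- Polynomial bounds for the arc, to within `5e-5`. -/
theorem arc_bounds {k : ℝ} (h0 : 0 ≤ k) (h1 : k ≤ 1 / 2) :
    1 - k ^ 2 / 6 - k ^ 4 / 40 - k ^ 6 / 84 ≤ arc k ∧
      arc k ≤ 1 - k ^ 2 / 6 - k ^ 4 / 40 - k ^ 6 / 112 := by
  have key : ∀ c : ℝ, ∫ x in (0 : ℝ)..1,
      (1 - k ^ 2 / 2 * x ^ 2 - k ^ 4 / 8 * x ^ 4 - k ^ 6 / c * x ^ 6) =
      1 - k ^ 2 / 6 - k ^ 4 / 40 - k ^ 6 / (7 * c) := by
    intro c
    rw [intervalIntegral.integral_sub, intervalIntegral.integral_sub,
      intervalIntegral.integral_sub, intervalIntegral.integral_const,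
      intervalIntegral.integral_const_mul, intervalIntegral.integral_const_mul,
      intervalIntegral.integral_const_mul, integral_pow, integral_pow, integral_pow]
    · norm_num; ring
    all_goals exact Continuous.intervalIntegrable (by fun_prop) _ _
  have hu : ∀ x ∈ Icc (0 : ℝ) 1, 0 ≤ (k * x) ^ 2 ∧ (k * x) ^ 2 ≤ 1 / 4 := fun x hx => by
    refine ⟨sq_nonneg _, ?_⟩
    nlinarith [mul_le_mul h1 hx.2 hx.1 (by norm_num : (0 : ℝ) ≤ 1 / 2), mul_nonneg h0 hx.1]
  constructor
  · have h := key 12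
    norm_num at h
    rw [← h]
    refine integral_mono_on zero_le_one (Continuous.intervalIntegrable (by fun_prop) _ _)
      (Continuous.intervalIntegrable (by fun_prop) _ _) fun x hx => ?_
    refine le_trans (le_of_eq ?_) (sqrt_taylor (hu x hx).1 (hu x hx).2).1
    ring
  · have h := key 16
    norm_num at h
    rw [← h]
    refine integral_mono_on zero_le_one (Continuous.intervalIntegrable (by fun_prop) _ _)
      (Continuous.intervalIntegrable (by fun_prop) _ _) fun x hx => ?_
    refine (sqrt_taylor (hu x hx).1 (hu x hx).2).2.trans (le_of_eq ?_)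
    ring

/-- A polynomial lower bound for `omega`, to within `1e-4`. -/
theorem omega_lower {k : ℝ} (h0 : 0 ≤ k) (h1 : k ≤ 1 / 2) :
    Real.pi / 4 - 2 * k + k ^ 2 + k ^ 3 / 3 + k ^ 5 / 20 + k ^ 7 / 56 ≤ omega k := by
  have h := mul_le_mul_of_nonneg_left (arc_bounds h0 h1).2 h0
  unfold omega
  linarith [h, show k * (1 - k ^ 2 / 6 - k ^ 4 / 40 - k ^ 6 / 112)
    = k - k ^ 3 / 6 - k ^ 5 / 40 - k ^ 7 / 112 by ring]

end Planar

open Planar (Field arc omega)

variable {B : Set (ℝ × ℝ)}

lemma IsSqDown.height_eq_one (hB : IsSqDown B) {x : ℝ} (h0 : 0 < x) (hx : x < contactY B) :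
    height B x = 1 := by
  have hsub : {t | t ∈ Ioo (0 : ℝ) 1 ∧ height B t = 1} ⊆ Ioo 0 1 := fun t ht => ht.1
  have hc1 : contactY B ≤ 1 := by
    refine (measureReal_mono hsub measure_Ioo_lt_top.ne).trans ?_
    simp
  by_contra h
  have hlt : height B x < 1 := lt_of_le_of_ne (hB.height_mem x).2 h
  have hs : {t | t ∈ Ioo (0 : ℝ) 1 ∧ height B t = 1} ⊆ Ioo 0 x := fun t ht =>
    ⟨ht.1.1, lt_of_not_ge fun hle => by
      linarith [hB.isHeight.anti ⟨h0, hx.trans_le hc1⟩ ht.1 hle, ht.2]⟩
  have := measureReal_mono (μ := volume) hs measure_Ioo_lt_top.ne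
  rw [Real.volume_real_Ioo_of_le h0.le, sub_zero] at this
  exact absurd hx (not_lt.2 this)

lemma IsSqDown.contactX_le_one (hB : IsSqDown B) : contactX B ≤ 1 :=
  (hB.contactX_le (x := 1 / 2) (by norm_num)).trans (hB.height_mem _).2

lemma IsSqDown.contactY_le_one (_ : IsSqDown B) : contactY B ≤ 1 := by
  refine (measureReal_mono (fun t ht => ht.1 : {t | t ∈ Ioo (0 : ℝ) 1 ∧ height B t = 1} ⊆ Ioo 0 1)
    measure_Ioo_lt_top.ne).trans ?_
  simp

/-- A slice reaching both far sides, with the weight `k` on its contacts. -/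
theorem sq_both_weight (hB : IsSqDown B) (hx : 0 < contactX B) (hy : 0 < contactY B) {k ε : ℝ}
    (hk : 0 ≤ k) (hk2 : 2 * k ^ 2 < 1) (hε : 0 < ε) : ∃ p q, IsSqField p q ∧
    2 * k + 2 * Real.sqrt (omega k * (1 - volume.real B)) - k * (contactX B + contactY B) - ε
      ≤ flux p q B := by
  have hg := hB.isHeight
  have hgf := hg.flip'
  set A := 1 - volume.real B with hA
  have hAf : Planar.area (Planar.flip' (height B)) = A := by rw [Planar.area_flip' hg, hB.area_eq]
  set q := 1 - contactY B with hq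
  have hq1 : q < 1 := by rw [hq]; linarith
  have hq0 : 0 ≤ q := sub_nonneg.2 hB.contactY_le_one
  have hzero : ∀ x ∈ Ioo q 1, Planar.flip' (height B) x = 0 := fun x hx' => by
    rw [Planar.flip', hB.height_eq_one (by linarith [hx'.2]) (by linarith [hx'.1]), sub_self]
  rcases hq0.eq_or_lt with h0 | h0
  · have ha : A = 0 := by
      rw [← hAf, Planar.area, intervalIntegral.integral_congr_ae
        (g := fun _ => (0 : ℝ)) ?_]
      · simp
      · filter_upwards [volume.ae_ne (1 : ℝ)] with x hx1 hxI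
        rw [uIoc_of_le zero_le_one] at hxI
        exact hzero x ⟨by linarith [hxI.1], lt_of_le_of_ne hxI.2 hx1⟩
    have hcx : contactX B = 1 := le_antisymm hB.contactX_le_one (le_csInf
      ((nonempty_Ioo.2 one_pos).image _) (forall_mem_image.2 fun t ht =>
        (hB.height_eq_one ht.1 (by linarith [ht.2])).ge))
    refine ⟨_, _, isSqField_prod Field.zero, ?_⟩
    rw [flux_prod hB, ha, hcx]
    simp [Planar.flux, Field.zero]
    nlinarith
  have hpos : ∀ x ∈ Ioo 0 q, 0 < Planar.flip' (height B) x := fun x hx' =>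
    sub_pos.2 (hB.height_lt_one (1 - x) ⟨by linarith [hx'.2], by linarith [hx'.1]⟩)
  have htop : ∀ x ∈ Ioo (0 : ℝ) 1, Planar.flip' (height B) x < 1 := fun x hx' => by
    have := hx.trans_le (hB.contactX_le (x := 1 - x) ⟨by linarith [hx'.2], by linarith [hx'.1]⟩)
    simp only [Planar.flip']; linarith
  have hex : Planar.EndsBelow (Planar.flip' (height B)) 0 := fun d hd =>
    ⟨(q + 1) / 2, ⟨by linarith, by linarith⟩, by
      rw [hzero _ ⟨by linarith, by linarith⟩]; linarith⟩
  obtain ⟨hle, hI⟩ := Planar.omega_eq hk hk2.le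
  set K := Real.sqrt (1 - k ^ 2) with hKd
  have hkK : k < K := Real.lt_sqrt_of_sq_lt (by linarith)
  have hK1 : K ≤ 1 := Real.sqrt_le_one.2 (by nlinarith)
  set s := (K - k) / q with hs
  have hs0 : 0 < s := div_pos (sub_pos.2 hkK) h0
  obtain ⟨e, he, he1, hes, hek⟩ : ∃ e > 0, e < 1 ∧ e * s ≤ ε / 4 ∧ e * k ≤ ε / 4 := by
    refine ⟨min (1 / 2) (ε / (4 * (s + k + 1))), lt_min (by norm_num) (by positivity),
      (min_le_left _ _).trans_lt (by norm_num), ?_, ?_⟩
    all_goals
      refine (mul_le_mul_of_nonneg_right (min_le_right _ _) (by positivity)).trans ?_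
      rw [div_mul_eq_mul_div, div_le_iff₀ (by positivity)]
      nlinarith
  obtain ⟨x0, hx0, hgx0⟩ := hB.endsBelow e he
  set x1 := min (1 - x0) (q / 2) with hx1
  have hx1q : x1 ∈ Ioo 0 q :=
    ⟨lt_min (by linarith [hx0.2]) (by linarith), (min_le_right _ _).trans_lt (by linarith)⟩
  have hgx1 : 1 - contactX B - e ≤ Planar.flip' (height B) x1 := by
    have := hgf.anti ⟨hx1q.1, hx1q.2.trans hq1⟩
      (show 1 - x0 ∈ Ioo (0 : ℝ) 1 from ⟨by linarith [hx0.2], by linarith [hx0.1]⟩) (min_le_left _ _)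
    simp only [Planar.flip', sub_sub_cancel] at this ⊢
    linarith
  have hsq : s * q = K - k := div_mul_cancel₀ _ h0.ne'
  have hlt : (1 - e) * s * q + k < 1 := by
    rw [mul_assoc, hsq]
    nlinarith [mul_pos he (sub_pos.2 hkK)]
  obtain ⟨F, hF⟩ := Planar.exists_schmidt_slope hgf (s := (1 - e) * s) (b := k)
    (mul_nonneg (by linarith) hs0.le) hk hlt ⟨h0.le, hq1.le⟩ hx1q hpos hzero le_rfl htop hex
    (half_pos hε)
  obtain ⟨F', hF'⟩ := Planar.exists_flip' hg F
  refine ⟨_, _, isSqField_prod F', ?_⟩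
  rw [flux_prod hB, hF']
  refine le_trans ?_ hF
  rw [hAf]
  have hint : omega k / s + k * q ≤
      ∫ x in (0 : ℝ)..q, Real.sqrt (1 - ((1 - e) * s * x + k) ^ 2) := by
    have h1 : ∫ x in (0 : ℝ)..q, Real.sqrt (1 - (s * x + k) ^ 2) = omega k / s + k * q := by
      rw [intervalIntegral.integral_comp_mul_add (fun t : ℝ => Real.sqrt (1 - t ^ 2)) hs0.ne' k,
        mul_zero, zero_add, hsq, sub_add_cancel, hI, smul_eq_mul, ← hsq]
      field_simp
    rw [← h1]
    refine integral_mono_on h0.le (Continuous.intervalIntegrable (by fun_prop) _ _)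
      (Continuous.intervalIntegrable (by fun_prop) _ _) fun x hx' => Real.sqrt_le_sqrt ?_
    have hx0' : 0 ≤ (1 - e) * s * x + k :=
      add_nonneg (mul_nonneg (mul_nonneg (by linarith) hs0.le) hx'.1) hk
    have : (1 - e) * s * x + k ≤ s * x + k := by
      nlinarith [mul_nonneg (mul_nonneg he.le hs0.le) hx'.1]
    nlinarith [pow_le_pow_left₀ hx0' this 2]
  have hA0 : 0 ≤ A := by rw [← hAf]; exact Planar.area_nonneg hgf
  have hA1 : A ≤ 1 := by rw [← hAf]; exact Planar.area_le_one hgf
  have am : 2 * Real.sqrt (omega k * A) ≤ s * A + omega k / s := by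
    have h := Planar.omega_nonneg hk hk2.le
    have h2 : Real.sqrt (omega k * A) = Real.sqrt (s * A) * Real.sqrt (omega k / s) := by
      rw [← Real.sqrt_mul (by positivity)]; congr 1; field_simp
    rw [h2]
    nlinarith [Real.sq_sqrt (mul_nonneg hs0.le hA0), Real.sq_sqrt (div_nonneg h hs0.le),
      sq_nonneg (Real.sqrt (s * A) - Real.sqrt (omega k / s))]
  have b1 : k * (1 - contactX B - e) ≤ k * Planar.flip' (height B) x1 :=
    mul_le_mul_of_nonneg_left hgx1 hk
  have b2 : e * s * A ≤ e * s * 1 := mul_le_mul_of_nonneg_left hA1 (by positivity)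
  have b3 : k * q = k - k * contactY B := by rw [hq]; ring
  linarith

/-- The transpose of a planar down-set. -/
def transpose (B : Set (ℝ × ℝ)) : Set (ℝ × ℝ) := Prod.swap ⁻¹' B

lemma IsSqDown.transpose (hB : IsSqDown B) : IsSqDown (transpose B) :=
  ⟨measurable_swap hB.meas, fun _ hw => ⟨(hB.sub hw).2, (hB.sub hw).1⟩,
    fun w hw u h1 h2 h3 h4 => hB.down (w.2, w.1) hw (u.2, u.1) h2 h1 h4 h3⟩

lemma volume_real_transpose (hB : IsSqDown B) : volume.real (transpose B) = volume.real B := by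
  rw [measureReal_def, measureReal_def, P232.transpose, Measure.volume_eq_prod,
    (Measure.measurePreserving_swap (μ := (volume : Measure ℝ)) (ν := volume)).measure_preimage
      hB.meas.nullMeasurableSet]

lemma isSqField_transpose {p q : ℝ × ℝ → ℝ} (h : IsSqField p q) :
    IsSqField (fun w => q w.swap) (fun w => p w.swap) := by
  obtain ⟨K, hp⟩ := h.lip_fst
  obtain ⟨L, hq⟩ := h.lip_snd
  have hsw : LipschitzWith 1 (Prod.swap : ℝ × ℝ → ℝ × ℝ) :=
    LipschitzWith.of_dist_le_mul fun a b => by simp [Prod.dist_eq, max_comm]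
  refine ⟨⟨_, hq.comp hsw⟩, ⟨_, hp.comp hsw⟩, fun w => ?_, fun w hw => h.tangent_snd w.swap hw,
    fun w hw => h.tangent_fst w.swap hw⟩
  linarith [h.norm_le w.swap]

lemma flux_transpose (B : Set (ℝ × ℝ)) (p q : ℝ × ℝ → ℝ) :
    flux (fun w => q w.swap) (fun w => p w.swap) B = flux p q (transpose B) := by
  have he : MeasurableEmbedding (Prod.swap : ℝ × ℝ → ℝ × ℝ) :=
    MeasurableEquiv.prodComm.measurableEmbedding
  have h := (Measure.measurePreserving_swap (μ := (volume : Measure ℝ)) (ν := volume)).setIntegral_preimage_emb he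
    (fun w => dv2 (fun w => q w.swap) (fun w => p w.swap) w) B
  rw [flux, flux, Measure.volume_eq_prod, ← h]
  congr 1
  ext w
  simp only [dv2, Prod.swap_prod_mk, Prod.fst_swap, Prod.snd_swap]
  ring

/-- The least length of a slice with contact weight `k`. -/
noncomputable def weightW (k a : ℝ) : ℝ :=
  min (Real.sqrt (Real.pi * a))
    (min (k * a + arc k) (2 * k + 2 * Real.sqrt (omega k * (1 - a))))

/-- Every slice, with the weight `k` on its far contacts. -/
theorem sq_weight (hB : IsSqDown B) {k ε : ℝ} (hk : 0 ≤ k) (hk2 : 2 * k ^ 2 < 1) (hε : 0 < ε) :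
    ∃ p q, IsSqField p q ∧
      weightW k (volume.real B) - k * (contactX B + contactY B) - ε ≤ flux p q B := by
  have hk1 : k ∈ Icc (0 : ℝ) 1 := ⟨hk, by nlinarith⟩
  have hy0 : 0 ≤ contactY B := measureReal_nonneg
  have w1 : weightW k (volume.real B) ≤ Real.sqrt (Real.pi * volume.real B) := min_le_left _ _
  have w2 : weightW k (volume.real B) ≤ k * volume.real B + arc k :=
    (min_le_right _ _).trans (min_le_left _ _)
  have w3 : weightW k (volume.real B) ≤ 2 * k + 2 * Real.sqrt (omega k * (1 - volume.real B)) :=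
    (min_le_right _ _).trans (min_le_right _ _)
  rcases hB.contactX_nonneg.eq_or_lt with hx | hx <;> rcases hy0.eq_or_lt with hy | hy
  · obtain ⟨p, q, h, hf⟩ := sq_quarter hB hε
    exact ⟨p, q, h, by rw [← hx, ← hy] at hf ⊢; linarith⟩
  · -- the only contact is with `y = 1`: transpose
    have hB' := hB.transpose
    have hlow : ∀ y ∈ Ioo (0 : ℝ) 1, contactY B ≤ height (transpose B) y := fun y hy' => by
      have hs : Ioo 0 (contactY B) ⊆ Prod.mk y ⁻¹' transpose B := fun x hx' =>
        (hB.fib_bounds x).1 (show y ∈ Ioo 0 (height B x) by rwa [hB.height_eq_one hx'.1 hx'.2])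
      refine le_trans ?_ (ENNReal.toReal_mono (hB'.fib_finite y) (measure_mono hs))
      simp [hy0]
    have hX : contactY B ≤ contactX (transpose B) :=
      le_csInf ((nonempty_Ioo.2 one_pos).image _) (forall_mem_image.2 hlow)
    have hup : contactX (transpose B) ≤ contactY B := by
      refine le_of_forall_pos_le_add fun d hd => ?_
      by_cases h1 : contactY B + d < 1
      · have hm : contactY B + d ∈ Ioo (contactY B) 1 := ⟨by linarith, h1⟩
        have hlt := hB.height_lt_one _ hm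
        obtain ⟨y, hy1, hy2⟩ := exists_between hlt
        have hy' : y ∈ Ioo (0 : ℝ) 1 := ⟨(hB.height_mem _).1.trans_lt hy1, hy2⟩
        refine (hB'.contactX_le hy').trans ?_
        have hs : Prod.mk y ⁻¹' transpose B ⊆ Icc 0 (contactY B + d) := fun x hx' => by
          refine ⟨(hB.sub hx').1.1, le_of_not_gt fun hgt => ?_⟩
          have hm' := hB.down (x, y) hx' (contactY B + d, y) (by linarith) hy'.1.le hgt.le le_rfl
          linarith [((hB.fib_bounds _).2 hm').2]
        refine (ENNReal.toReal_mono measure_Icc_lt_top.ne (measure_mono hs)).trans ?_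
        simp [le_of_lt (show 0 < contactY B + d by linarith)]
      · linarith [hB'.contactX_le_one]
    have hY : contactY (transpose B) = 0 := by
      have : {t | t ∈ Ioo (0 : ℝ) 1 ∧ height (transpose B) t = 1} = ∅ := by
        refine eq_empty_of_forall_notMem fun y hy' => ?_
        obtain ⟨x, hx', hhx⟩ := hB.endsBelow (y / 2) (by linarith [hy'.1.1])
        have hs : Prod.mk y ⁻¹' transpose B ⊆ Icc 0 x := fun t ht => by
          refine ⟨(hB.sub ht).1.1, le_of_not_gt fun hgt => ?_⟩
          have hm' := hB.down (t, y) ht (x, y) hx'.1.le hy'.1.1.le hgt.le le_rfl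
          linarith [((hB.fib_bounds _).2 hm').2, hy'.1.1]
        have := ENNReal.toReal_mono measure_Icc_lt_top.ne (measure_mono (μ := volume) hs)
        rw [show (volume (Prod.mk y ⁻¹' transpose B)).toReal = 1 from hy'.2] at this
        simp [hx'.1.le] at this
        linarith [hx'.2]
      rw [contactY, this]; simp
    obtain ⟨p, q, h, hf⟩ := sq_strip hB' (hy.trans_le hX) hk1 hε
    refine ⟨_, _, isSqField_transpose h, ?_⟩
    rw [volume_real_transpose hB, hY] at hf
    rw [flux_transpose B p q, ← hx]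
    nlinarith [mul_le_mul_of_nonneg_left hup hk]
  · obtain ⟨p, q, h, hf⟩ := sq_strip hB hx hk1 hε
    exact ⟨p, q, h, by rw [← hy] at hf ⊢; linarith⟩
  · obtain ⟨p, q, h, hf⟩ := sq_both_weight hB hx hy hk hk2 hε
    exact ⟨p, q, h, by linarith⟩

end Vale.Agent.P232
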