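import Vale.Agent.P232.Fill

/-!
The squeeze with filling and the stretch in the language of weighted perimeters, and the perimeter
of the last slice.
-/

open MeasureTheory Set Filter Function
open scoped NNReal Topology

namespace Vale.Agent.P232

open Weighted (fl sc wPer wDer relPer IsWeight)

variable {D : Set R3} {k : Fin 3} {s c δ : ℝ} {B : Set (ℝ × ℝ)}

/-! ### The perimeter of a planar down-set -/

theorem setIntegral_deriv_snd_le (hB : IsSqDown B) {q : ℝ × ℝ → ℝ} {L : ℝ≥0}
    (hq : LipschitzWith L q) (hb : ∀ w, |q w| ≤ 1) (h0 : ∀ x, q (x, 0) = 0) :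
    ∫ w in B, deriv (fun t => q (w.1, t)) w.2 ≤ 1 := by
  have hline : ∀ x, LipschitzWith L fun t => q (x, t) := fun x => by
    simpa [Function.comp_def] using hq.comp (LipschitzWith.prodMk_left x)
  have hi : IntegrableOn (fun w : ℝ × ℝ => deriv (fun t => q (w.1, t)) w.2) B :=
    IntegrableOn.of_bound ((measure_mono hB.sub).trans_lt sq_finite)
      (measurable_deriv_with_param (f := fun x t => q (x, t))
        (hq.continuous.comp (by fun_prop))).aestronglyMeasurable
      L (ae_of_all _ fun w => norm_deriv_le_of_lipschitz (hline w.1))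
  rw [hB.setIntegral_eq hi]
  refine (le_abs_self _).trans ((Real.norm_eq_abs _).symm.trans_le
    ((intervalIntegral.norm_integral_le_of_norm_le_const (C := 1) fun x _ => ?_).trans (by simp)))
  simp only
  rw [(hline x).lipschitzOnWith.absolutelyContinuousOnInterval.integral_deriv_eq_sub, h0, sub_zero]
  exact (Real.norm_eq_abs _).trans_le (hb _)

theorem flux_le_two (hB : IsSqDown B) {p q : ℝ × ℝ → ℝ} (h : IsSqField p q) :
    flux p q B ≤ 2 := by
  obtain ⟨K, hK⟩ := h.lip_fst
  obtain ⟨L, hL⟩ := h.lip_snd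
  have hB' : IsSqDown (Prod.swap ⁻¹' B) :=
    ⟨measurable_swap hB.meas, fun w hw => ⟨(hB.sub hw).2, (hB.sub hw).1⟩,
      fun w hw u h1 h2 h3 h4 => hB.down _ hw u.swap h2 h1 h4 h3⟩
  have hp' : LipschitzWith (K * 1) fun w : ℝ × ℝ => p w.swap :=
    hK.comp (LipschitzWith.of_dist_le_mul fun a b => by
      simp [Prod.dist_eq, max_comm])
  have b1 : ∀ w, |p w| ≤ 1 := fun w => (abs_le_one_of_sq_add (h.norm_le w)).1
  have b2 : ∀ w, |q w| ≤ 1 := fun w => (abs_le_one_of_sq_add (h.norm_le w)).2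
  have hline₁ : ∀ y, LipschitzWith K fun s => p (s, y) := fun y => by
    simpa [Function.comp_def] using hK.comp (LipschitzWith.prodMk_right y)
  have hline₂ : ∀ x, LipschitzWith L fun t => q (x, t) := fun x => by
    simpa [Function.comp_def] using hL.comp (LipschitzWith.prodMk_left x)
  have hfin : volume B < ⊤ := (measure_mono hB.sub).trans_lt sq_finite
  have m1 : Measurable fun w : ℝ × ℝ => deriv (fun s => p (s, w.2)) w.1 :=
    (measurable_deriv_with_param (f := fun y s => p (s, y))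
      (hK.continuous.comp (by fun_prop))).comp measurable_swap
  have i1 : IntegrableOn (fun w : ℝ × ℝ => deriv (fun s => p (s, w.2)) w.1) B :=
    IntegrableOn.of_bound hfin m1.aestronglyMeasurable K
      (ae_of_all _ fun w => norm_deriv_le_of_lipschitz (hline₁ w.2))
  have i2 : IntegrableOn (fun w : ℝ × ℝ => deriv (fun t => q (w.1, t)) w.2) B :=
    IntegrableOn.of_bound hfin
      (measurable_deriv_with_param (f := fun x t => q (x, t))
        (hL.continuous.comp (by fun_prop))).aestronglyMeasurable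
      L (ae_of_all _ fun w => norm_deriv_le_of_lipschitz (hline₂ w.1))
  have hswap := (Measure.measurePreserving_swap (μ := (volume : Measure ℝ))
    (ν := (volume : Measure ℝ))).setIntegral_preimage_emb MeasurableEquiv.prodComm.measurableEmbedding
    (fun w : ℝ × ℝ => deriv (fun s => p (s, w.2)) w.1) B
  have h1 := setIntegral_deriv_snd_le hB' hp' (fun w => b1 _)
    (fun x => h.tangent_fst _ (Or.inl rfl))
  have h2 := setIntegral_deriv_snd_le hB hL b2 (fun x => h.tangent_snd _ (Or.inl rfl))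
  rw [flux]
  simp only [dv2]
  rw [integral_add i1 i2]
  simp only [Prod.swap_prod_mk, Prod.fst_swap, Prod.snd_swap, ← Measure.volume_eq_prod] at hswap h1
  linarith

/-- The perimeter of the last slice in the square. -/
noncomputable def endPer (D : Set R3) (k : Fin 3) : ℝ :=
  sSup {r | ∃ p q, IsSqField p q ∧ r = flux p q (endSlice D k)}

theorem le_endPer (hD : MeasurableSet D) (hdown : IsDownset D) (k : Fin 3) {p q : ℝ × ℝ → ℝ}
    (h : IsSqField p q) : flux p q (endSlice D k) ≤ endPer D k :=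
  le_csSup ⟨2, by rintro r ⟨p, q, h, rfl⟩; exact flux_le_two (isSqDown_endSlice hD hdown k) h⟩
    ⟨p, q, h, rfl⟩

theorem endPer_nonneg (hD : MeasurableSet D) (hdown : IsDownset D) (k : Fin 3) :
    0 ≤ endPer D k := by
  simpa [flux_zero] using le_endPer hD hdown k isSqField_zero

theorem endPer_le_two (hD : MeasurableSet D) (hdown : IsDownset D) (k : Fin 3) :
    endPer D k ≤ 2 :=
  csSup_le ⟨_, _, _, isSqField_zero, rfl⟩
    (by rintro r ⟨p, q, h, rfl⟩; exact flux_le_two (isSqDown_endSlice hD hdown k) h)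

theorem exists_field_endPer (hD : MeasurableSet D) (hdown : IsDownset D) (k : Fin 3) {η : ℝ}
    (hη : 0 < η) : ∃ p q, IsSqField p q ∧
      ∀ᶠ z in 𝓝[<] (1 : ℝ), endPer D k - η ≤ flux p q (slice D k z) := by
  obtain ⟨r, ⟨p, q, h, rfl⟩, hr⟩ := exists_lt_of_lt_csSup
    (s := {r | ∃ p q, IsSqField p q ∧ r = flux p q (endSlice D k)})
    ⟨_, _, _, isSqField_zero, rfl⟩ (show endPer D k - η / 2 < endPer D k by linarith)
  refine ⟨p, q, h, (eventually_flux_ge hD hdown k h (half_pos hη)).mono fun z hz => ?_⟩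
  linarith

theorem le_endPer_of_field (hD : MeasurableSet D) (hdown : IsDownset D) (k : Fin 3) {r : ℝ}
    (h : ∀ η > 0, ∃ p q, IsSqField p q ∧ r - η ≤ flux p q (endSlice D k)) : r ≤ endPer D k :=
  le_of_forall_pos_le_add fun η hη => by
    obtain ⟨p, q, hpq, hr⟩ := h η hη
    linarith [le_endPer hD hdown k hpq]

/-! ### The moves -/

/-- The weights one on the two coordinates other than `k`. -/
def horW (k : Fin 3) : R3 → Fin 3 → ℝ := fun _ i => if i = k then 0 else 1

theorem isWeight_horW (k : Fin 3) : IsWeight (horW k) :=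
  ⟨fun _ => ⟨0, LipschitzWith.const _⟩, 1, zero_le_one, fun _ i => by
    unfold horW; split_ifs <;> simp⟩

/-- The weight of the squeeze composed with a weight `u` on the new set. -/
noncomputable def pullW (k : Fin 3) (s c δ : ℝ) (u : R3 → Fin 3 → ℝ) (x : R3) (i : Fin 3) : ℝ :=
  softW k s c δ x i * (1 + u (squeezeMap k s c x) i) - 1

theorem isWeight_pullW (hc0 : 0 ≤ c) (hc : c ≤ 1) {u : R3 → Fin 3 → ℝ} (hu : IsWeight u) :
    IsWeight (pullW k s c δ u) := by
  obtain ⟨C, hC0, hC⟩ := hu.bdd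
  have hs := isWeight_softW (k := k) (s := s) (δ := δ) hc0 hc
  have h1 : ∀ x i, |softW k s c δ x i| ≤ 1 := fun x i => by
    unfold softW
    split_ifs <;> [simp; exact abs_soft_le hc0 hc _]
  have h2 : ∀ x i, |1 + u (squeezeMap k s c x) i| ≤ 1 + C := fun x i =>
    (abs_add_le _ _).trans (by rw [abs_one]; linarith [hC (squeezeMap k s c x) i])
  refine ⟨fun i => ?_, 2 + C, by linarith, fun x i => ?_⟩
  · obtain ⟨Ks, hKs⟩ := hs.lip i
    obtain ⟨Ku, hKu⟩ := hu.lip i
    obtain ⟨N, hN⟩ := exists_lipschitz_squeezeMap (k := k) (s := s) hc0 hc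
    obtain ⟨M, hM⟩ := Weighted.exists_lip_mul hKs
      ((LipschitzWith.const (1 : ℝ)).add (hKu.comp hN)) zero_le_one (by linarith : (0 : ℝ) ≤ 1 + C)
      (fun x => h1 x i) (fun x => h2 x i)
    exact ⟨_, hM.sub (LipschitzWith.const 1)⟩
  · refine (abs_sub _ _).trans ?_
    rw [abs_mul, abs_one]
    nlinarith [h1 x i, h2 x i, abs_nonneg (softW k s c δ x i),
      abs_nonneg (1 + u (squeezeMap k s c x) i)]

/-- The squeeze with filling, against the weighted perimeter of the old set, for small smoothings. -/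
theorem wPer_fillSet_le' {δ₁ : ℝ} (hδ₁ : 0 < δ₁) (hD : MeasurableSet D) (hdown : IsDownset D) {P : ℝ} (hP : RelPerLE D P)
    (hc0 : 0 < c) (hc : c ≤ 1) (hs : 0 ≤ s) (hs1 : s ≤ 1) (hB : IsSqDown B)
    (hBe : B ⊆ endSlice D k) {u : R3 → Fin 3 → ℝ} (hu : IsWeight u) {C : ℝ} (hC0 : 0 ≤ C)
    (hC : ∀ x i, |u x i| ≤ C) {l : ℝ} (hl : ∀ p q, IsSqField p q → flux p q B ≤ l) {R : ℝ}
    (hR : ∀ δ ∈ Ioo (0 : ℝ) δ₁, wPer D (pullW k s c δ u) ≤ R) {X : R3 → R3} (hX : IsCubeField X) :
    fl (fillSet D k s c B) (X + sc u X) ≤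
      R + (1 - squeeze s c 1) * (1 + C) * l + (1 + C) * (faceArea D k - volume.real B) := by
  have hFD : Weighted.Finite D := ⟨hD, hdown.1, P, hP⟩
  obtain ⟨K, hK⟩ := hX.lipschitz
  obtain ⟨L, hL⟩ := Weighted.exists_lip_sc hu hX
  have hn : ∀ x, ‖(X + sc u X) x‖ ≤ 1 + C := fun x => by
    refine (norm_add_le _ _).trans ?_
    nlinarith [Weighted.norm_sc_le hC hC0 X x, hX.norm_le x, norm_nonneg (X x)]
  have ht : ∀ x i, x i = 0 ∨ x i = 1 → (X + sc u X) x i = 0 := fun x i h => by
    show X x i + sc u X x i = 0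
    rw [hX.tangent x i h, Weighted.tangent_sc hX h, add_zero]
  refine le_of_forall_pos_le_add fun ε hε => ?_
  obtain ⟨δ₀, hδ₀, h⟩ := fill_pull hD hdown hc0 hc hs hs1 hB hBe (hK.add hL)
    (show (0 : ℝ) < 1 + C by linarith) hn ht hl hε
  set δ := min δ₀ δ₁ / 2 with hδ
  have hpos : 0 < min δ₀ δ₁ := lt_min hδ₀ hδ₁
  have h1 : δ ∈ Ioo 0 δ₀ := ⟨half_pos hpos, (half_lt_self hpos).trans_le (min_le_left _ _)⟩
  have h2 : δ ∈ Ioo (0 : ℝ) δ₁ := ⟨half_pos hpos, (half_lt_self hpos).trans_le (min_le_right _ _)⟩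
  have hcube : IsCubeField (pullCut X k s c δ) :=
    ⟨exists_lipschitz_pullCut hc0.le hc hK zero_le_one hX.norm_le,
      fun x => (norm_pullCut_le X k s c δ x).trans (hX.norm_le _),
      fun x i hi => pullCut_tangent hc hs hX.tangent hi⟩
  have e : sc (softW k s c δ) (pullCut (X + sc u X) k s c δ) =
      pullCut X k s c δ + sc (pullW k s c δ u) (pullCut X k s c δ) := by
    ext x i
    simp only [pullCut_apply, Pi.add_apply, PiLp.add_apply, Weighted.sc_apply, pullW]
    ring
  have h3 : fl (fillSet D k s c B) (X + sc u X) ≤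
      fl D (sc (softW k s c δ) (pullCut (X + sc u X) k s c δ)) +
        (1 - squeeze s c 1) * (1 + C) * l + (1 + C) * (faceArea D k - volume.real B) + ε := h δ h1
  rw [e] at h3
  have h4 := (Weighted.le_wPer hFD (isWeight_pullW hc0.le hc hu) hcube).trans (hR δ h2)
  linarith

/-- The squeeze with filling, against the weighted perimeter of the old set. -/
theorem wPer_fillSet_le (hD : MeasurableSet D) (hdown : IsDownset D) {P : ℝ} (hP : RelPerLE D P)
    (hc0 : 0 < c) (hc : c ≤ 1) (hs : 0 ≤ s) (hs1 : s ≤ 1) (hB : IsSqDown B)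
    (hBe : B ⊆ endSlice D k) {u : R3 → Fin 3 → ℝ} (hu : IsWeight u) {C : ℝ} (hC0 : 0 ≤ C)
    (hC : ∀ x i, |u x i| ≤ C) {l : ℝ} (hl : ∀ p q, IsSqField p q → flux p q B ≤ l) {R : ℝ}
    (hR : ∀ δ ∈ Ioo (0 : ℝ) 1, wPer D (pullW k s c δ u) ≤ R) {X : R3 → R3} (hX : IsCubeField X) :
    fl (fillSet D k s c B) (X + sc u X) ≤
      R + (1 - squeeze s c 1) * (1 + C) * l + (1 + C) * (faceArea D k - volume.real B) :=
  wPer_fillSet_le' one_pos hD hdown hP hc0 hc hs hs1 hB hBe hu hC0 hC hl hR hX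

/-- The stretch: the perimeter of the stretched set and the saving on the layer cut off. -/
theorem relPerLE_stretchSet (hD : MeasurableSet D) (hdown : IsDownset D) {P : ℝ}
    (hP : RelPerLE D P) (hc : 1 ≤ c) {p q : ℝ × ℝ → ℝ} (hpq : IsSqField p q) :
    RelPerLE (stretchSet D k c)
      (wPer D ((c - 1) • horW k) - ∫ z in Ici c⁻¹, flux p q (slice D k z)) := by
  intro Y hY
  have hFD : Weighted.Finite D := ⟨hD, hdown.1, P, hP⟩
  refine le_of_forall_pos_le_add fun ε hε => ?_
  obtain ⟨Z, ⟨L, hL⟩, ht, hn, hb⟩ := exists_stretch_field hD hdown hY hpq k hc hε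
  have hc0 : 0 < c := zero_lt_one.trans_le hc
  set X : R3 → R3 := fun x => WithLp.toLp 2 fun i => (if i = k then 1 else c⁻¹) * Z x i with hXd
  have hcube : IsCubeField X := by
    refine ⟨?_, fun x => ?_, fun x i hi => by simp [hXd, ht x i hi]⟩
    · exact Weighted.exists_lip_toLp fun i =>
        ⟨_, (lipschitzWith_smul (if i = k then (1:ℝ) else c⁻¹)).comp (Weighted.lip_coord hL i)⟩
    · rw [← sq_le_one_iff₀ (norm_nonneg _), EuclideanSpace.norm_sq_eq, Fin.sum_univ_succAbove _ k,
        Fin.sum_univ_two]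
      simp only [hXd, Fin.succAbove_ne, if_true, if_false, one_mul, Real.norm_eq_abs, sq_abs]
      refine le_trans (le_of_eq ?_) (hn x)
      ring
  have e : X + sc ((c - 1) • horW k) X = Z := by
    ext x i
    simp only [Pi.add_apply, PiLp.add_apply, Weighted.sc_apply, Pi.smul_apply, smul_eq_mul, horW,
      hXd]
    split_ifs <;> field_simp <;> ring
  have h := Weighted.le_wPer hFD ((isWeight_horW k).smul (c - 1)) hcube
  rw [e] at h
  have h' : (∫ x in D, dv Z x) ≤ wPer D ((c - 1) • horW k) := h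
  linarith

end Vale.Agent.P232
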