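import Vale.Agent.P232.Weighted

/-!
A weighted perimeter against the derivative at weight one: `|a ν| ≤ (1 + |a ν|²) / 2` in dual form.
-/

open MeasureTheory Set Filter
open scoped Topology NNReal

namespace Vale.Agent.P232.Weighted

variable {D : Set R3} {w : R3 → Fin 3 → ℝ}

theorem isWeight_mul {u v : R3 → Fin 3 → ℝ} (hu : IsWeight u) (hv : IsWeight v) :
    IsWeight fun x i => u x i * v x i := by
  obtain ⟨A, hA0, hA⟩ := hu.bdd
  obtain ⟨B, hB0, hB⟩ := hv.bdd
  refine ⟨fun i => ?_, A * B, mul_nonneg hA0 hB0, fun x i => ?_⟩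
  · obtain ⟨K, hK⟩ := hu.lip i
    obtain ⟨L, hL⟩ := hv.lip i
    exact exists_lip_mul hK hL hA0 hB0 (fun x => hA x i) (fun x => hB x i)
  · rw [abs_mul]; exact mul_le_mul (hA x i) (hB x i) (abs_nonneg _) hA0

theorem isWeight_inv {u : R3 → Fin 3 → ℝ} (hu : IsWeight u) {c : ℝ} (hc : 0 < c)
    (h : ∀ x i, c ≤ u x i) : IsWeight fun x i => (u x i)⁻¹ := by
  have hb : ∀ x i, |(u x i)⁻¹| ≤ c⁻¹ := fun x i => by
    rw [abs_inv, abs_of_pos (hc.trans_le (h x i))]
    exact inv_anti₀ hc (h x i)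
  refine ⟨fun i => ?_, c⁻¹, by positivity, hb⟩
  obtain ⟨K, hK⟩ := hu.lip i
  refine ⟨(c⁻¹ * c⁻¹).toNNReal * K, LipschitzWith.of_dist_le_mul fun a b => ?_⟩
  rw [Real.dist_eq, NNReal.coe_mul, Real.coe_toNNReal _ (by positivity),
    inv_sub_inv (hc.trans_le (h a i)).ne' (hc.trans_le (h b i)).ne', div_eq_mul_inv, mul_inv,
    abs_mul, abs_mul, abs_sub_comm]
  calc |u a i - u b i| * (|(u a i)⁻¹| * |(u b i)⁻¹|) ≤ K * dist a b * (c⁻¹ * c⁻¹) := by
        gcongr
        · exact Real.dist_eq _ _ ▸ hK.dist_le_mul a b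
        · exact hb a i
        · exact hb b i
    _ = _ := by ring

/-- The weight `(1 + w)² - 1`. -/
def sqW (w : R3 → Fin 3 → ℝ) : R3 → Fin 3 → ℝ := fun x i => (1 + w x i) ^ 2 - 1

theorem isWeight_sqW (hw : IsWeight w) : IsWeight (sqW w) := by
  have h := (hw.smul 2).add (isWeight_mul hw hw)
  have e : sqW w = (2 : ℝ) • w + fun x i => w x i * w x i := by
    funext x i; simp [sqW]; ring
  rwa [e]

/-- One step: `2 t |a ν| + (1 - 2 t) ≤ |(1 + t q) ν|`. -/
theorem wPer_sqW_step (hD : Finite D) (hw : IsWeight w) {t : ℝ} (ht : 0 < t) (ht1 : t ≤ 1 / 2) :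
    2 * t * wPer D w + (1 - 2 * t) * relPer D ≤ wPer D (t • sqW w) := by
  have hq := (isWeight_sqW hw).smul t
  have hden : ∀ x i, 1 / 2 ≤ 1 + (t • sqW w) x i := fun x i => by
    simp only [Pi.smul_apply, smul_eq_mul, sqW]
    linarith [mul_nonneg ht.le (sq_nonneg (1 + w x i))]
  have hg : IsWeight fun x i => (1 + (t • sqW w) x i)⁻¹ := by
    refine isWeight_inv ?_ (by norm_num : (0 : ℝ) < 1 / 2) hden
    exact IsWeight.add ⟨fun _ => ⟨0, LipschitzWith.const 1⟩, 1, zero_le_one, fun _ _ => by simp⟩ hq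
  have key : ∀ X Y, IsCubeField X → IsCubeField Y →
      2 * t * fl D (X + sc w X) + (1 - 2 * t) * fl D Y ≤ wPer D (t • sqW w) := by
    intro X Y hX hY
    obtain ⟨K, hK⟩ := hX.lipschitz
    obtain ⟨L, hL⟩ := exists_lip_sc hw hX
    obtain ⟨M, hM⟩ := hY.lipschitz
    set Z : R3 → R3 := fun x => WithLp.toLp 2 fun i =>
      (1 + (t • sqW w) x i)⁻¹ * (2 * t * (X + sc w X) x i + (1 - 2 * t) * Y x i) with hZ
    have hn : ∀ x i, Z x i ^ 2 ≤ 2 * t * X x i ^ 2 + (1 - 2 * t) * Y x i ^ 2 := by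
      intro x i
      simp only [hZ, Pi.add_apply, PiLp.add_apply, sc_apply, Pi.smul_apply, smul_eq_mul, sqW]
      obtain ⟨b, hb⟩ : ∃ b, b = 1 + w x i := ⟨_, rfl⟩
      have e : X x i + w x i * X x i = b * X x i := by rw [hb]; ring
      rw [e, ← hb]
      have hd : 0 < 1 + t * (b ^ 2 - 1) := by linarith [mul_nonneg ht.le (sq_nonneg b)]
      rw [mul_pow, inv_pow, inv_mul_le_iff₀ (by positivity)]
      have hc : (2 * t * (b * X x i) + (1 - 2 * t) * Y x i) ^ 2 ≤
          (1 - 2 * t + 2 * t * b ^ 2) * (2 * t * X x i ^ 2 + (1 - 2 * t) * Y x i ^ 2) := by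
        linarith [mul_nonneg (mul_nonneg (by linarith : 0 ≤ 2 * t) (sub_nonneg.2
          (by linarith : 2 * t ≤ 1))) (sq_nonneg (X x i - b * Y x i))]
      refine hc.trans (mul_le_mul_of_nonneg_right ?_ ?_)
      · linarith [sq_nonneg (t * (b ^ 2 - 1))]
      · linarith [mul_nonneg ht.le (sq_nonneg (X x i)),
          mul_nonneg (sub_nonneg.2 (by linarith : 2 * t ≤ 1)) (sq_nonneg (Y x i))]
    have hcube : IsCubeField Z := by
      refine ⟨?_, fun x => ?_, fun x i h => by simp [hZ, hX.tangent x i h, hY.tangent x i h]⟩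
      · obtain ⟨N, hN⟩ : ∃ N, LipschitzWith N
            ((2 * t) • (X + sc w X) + (1 - 2 * t) • Y) :=
          ⟨_, ((lipschitzWith_smul (2 * t)).comp (hK.add hL)).add
            ((lipschitzWith_smul (1 - 2 * t)).comp hM)⟩
        obtain ⟨C, hC0, hC⟩ := hw.bdd
        obtain ⟨G, hG0, hG⟩ := hg.bdd
        refine exists_lip_toLp fun i => ?_
        obtain ⟨Kg, hKg⟩ := hg.lip i
        refine exists_lip_mul (f := fun x => (1 + (t • sqW w) x i)⁻¹) hKg (lip_coord hN i) hG0
          (B := 2 * t * (1 + C) + 1) (by positivity) (fun x => hG x i) fun x => ?_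
        simp only [Pi.add_apply, PiLp.add_apply, sc_apply]
        have a1 : |X x i + w x i * X x i| ≤ 1 + C := by
          refine (abs_add_le _ _).trans ?_
          rw [abs_mul]
          have := mul_le_mul (hC x i) (abs_coord_le hX.norm_le x i) (abs_nonneg _) hC0
          linarith [abs_coord_le hX.norm_le x i]
        refine (abs_add_le _ _).trans ?_
        rw [abs_mul (2 * t), abs_mul (1 - 2 * t), abs_of_nonneg (by linarith : 0 ≤ 2 * t),
          abs_of_nonneg (by linarith : 0 ≤ 1 - 2 * t)]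
        refine add_le_add (mul_le_mul_of_nonneg_left a1 (by linarith)) ?_
        exact mul_le_one₀ (by linarith) (abs_nonneg _) (abs_coord_le hY.norm_le x i)
      · rw [← sq_le_one_iff₀ (norm_nonneg _), EuclideanSpace.norm_sq_eq]
        have hXn := pow_le_one₀ (n := 2) (norm_nonneg _) (hX.norm_le x)
        have hYn := pow_le_one₀ (n := 2) (norm_nonneg _) (hY.norm_le x)
        rw [EuclideanSpace.norm_sq_eq] at hXn hYn
        simp only [Real.norm_eq_abs, sq_abs] at hXn hYn ⊢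
        calc ∑ i, Z x i ^ 2 ≤ ∑ i, (2 * t * X x i ^ 2 + (1 - 2 * t) * Y x i ^ 2) :=
              Finset.sum_le_sum fun i _ => hn x i
          _ = 2 * t * ∑ i, X x i ^ 2 + (1 - 2 * t) * ∑ i, Y x i ^ 2 := by
              rw [Finset.sum_add_distrib, Finset.mul_sum, Finset.mul_sum]
          _ ≤ 2 * t * 1 + (1 - 2 * t) * 1 := by gcongr; linarith
          _ = 1 := by ring
    have e : Z + sc (t • sqW w) Z = (2 * t) • (X + sc w X) + (1 - 2 * t) • Y := by
      ext x i
      have hd : 1 + (t • sqW w) x i ≠ 0 := by linarith [hden x i]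
      simp only [Pi.add_apply, PiLp.add_apply, sc_apply, hZ, Pi.smul_apply, PiLp.smul_apply,
        smul_eq_mul] at hd ⊢
      field_simp
    have h := le_wPer hD hq hcube
    have hA : LipschitzWith (‖2 * t‖₊ * (K + L)) ((2 * t) • (X + sc w X)) :=
      (lipschitzWith_smul (2 * t)).comp (hK.add hL)
    have hB : LipschitzWith (‖1 - 2 * t‖₊ * M) ((1 - 2 * t) • Y) :=
      (lipschitzWith_smul (1 - 2 * t)).comp hM
    have hXL : LipschitzWith (K + L) (X + sc w X) := hK.add hL
    rw [e, fl_add hD hA hB, fl_smul _ hXL, fl_smul _ hM] at h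
    exact h
  have h1 : ∀ Y, IsCubeField Y →
      2 * t * wPer D w + (1 - 2 * t) * fl D Y ≤ wPer D (t • sqW w) := by
    intro Y hY
    rw [← le_sub_iff_add_le, ← le_div_iff₀' (by linarith : 0 < 2 * t)]
    refine wPer_le fun X hX => ?_
    rw [le_div_iff₀' (by linarith : 0 < 2 * t), le_sub_iff_add_le]
    exact key X Y hX hY
  rcases (show 0 ≤ 1 - 2 * t by linarith).eq_or_lt with h0 | h0
  · simpa [← h0] using h1 0 isCubeField_zero
  · rw [add_comm, ← le_sub_iff_add_le, ← le_div_iff₀' h0, relPer]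
    refine wPer_le fun Y hY => ?_
    rw [sc_zero, add_zero, le_div_iff₀' h0, le_sub_iff_add_le, add_comm]
    exact h1 Y hY

/-- `P (1 + w) ≤ P + (1/2) C ((1 + w)² - 1)`. -/
theorem wPer_le_half_wDer (hD : Finite D) (hw : IsWeight w) :
    wPer D w ≤ relPer D + wDer D (sqW w) / 2 := by
  obtain ⟨C, hC0, hC⟩ := (isWeight_sqW hw).bdd
  refine le_of_forall_pos_le_add fun e he => ?_
  set K := 2 * C ^ 2 * relPer D with hK
  set t := min (1 / 2) (e / (|K| + 1)) with ht
  have ht0 : 0 < t := lt_min (by norm_num) (by positivity)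
  have h1 := wPer_sqW_step hD hw ht0 (min_le_left _ _)
  have h2 := wPer_upper hD (isWeight_sqW hw) hC0 hC t
  have h3 : K * t ≤ e := by
    calc K * t ≤ (|K| + 1) * t :=
          mul_le_mul_of_nonneg_right (by linarith [le_abs_self K]) ht0.le
      _ ≤ (|K| + 1) * (e / (|K| + 1)) :=
          mul_le_mul_of_nonneg_left (min_le_right _ _) (by positivity)
      _ = e := mul_div_cancel₀ _ (by positivity)
  have h4 : t * (2 * (wPer D w - relPer D) - wDer D (sqW w)) ≤ t * e := by
    have := mul_le_mul_of_nonneg_left h3 ht0.le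
    rw [hK] at this
    linarith
  linarith [le_of_mul_le_mul_left h4 ht0]

end Vale.Agent.P232.Weighted
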