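import Vale.Agent.P232.FirstOrder
import Vale.Agent.P232.Lagrange

/-!
The weighted first variation: for every Lipschitz rate `u` of the coordinate `k`,
`C(u) = lam (∫ u a - m ∫ u) + l ∫ u` with the one multiplier of the endpoint minimiser.
-/

open MeasureTheory Set Filter Function Real
open scoped NNReal Topology

namespace Vale.Agent.P232

open Weighted (fl sc wPer wDer relPer IsWeight)

variable {D : Set R3} {k j : Fin 3} {u : ℝ → ℝ} {Ku : ℝ≥0} {C : ℝ}

theorem volume_fill_zero (hD : MeasurableSet D) (hdown : IsDownset D) {c : ℝ} (hc0 : 0 < c)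
    (hc : c ≤ 1) :
    (volume (fillSet D j 0 c (endSlice D j))).toReal =
      c * (volume D).toReal + (1 - c) * faceArea D j := by
  have hEj := isSqDown_endSlice hD hdown j
  have htop : squeeze (0 : ℝ) c 1 = c := by rw [squeeze_of_ge hc zero_le_one]; ring
  rw [volume_fillSet hc0 hc le_rfl zero_le_one hD hdown hEj, htop, volume_endSlice hD hdown,
    volume_eq_integral_sliceArea hD hdown.1 j, ← integral_const_mul]
  congr 1
  refine integral_congr_ae (ae_of_all _ fun z => ?_)
  by_cases hz : z < 0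
  · simp [sliceArea_eq_zero hdown.1 (z := z) fun h => absurd h.1 (not_le.2 hz)]
  · simp [slope, hz]

theorem squeezeMap_coord (hkj : k ≠ j) (s c : ℝ) (x : R3) : squeezeMap j s c x k = x k := by
  obtain ⟨m, rfl⟩ := Fin.exists_succAbove_eq hkj
  exact squeezeMap_apply_succAbove j s c x m

theorem wPer_pullW_fill (hD : MeasurableSet D) (hdown : IsDownset D) {P : ℝ}
    (hP : RelPerLE D P) (hkj : k ≠ j) {c : ℝ} (hc0 : 0 < c) (hc : c ≤ 1)
    (hu : LipschitzWith Ku u) (hb : ∀ z, |u z| ≤ C) {t : ℝ} (ht0 : 0 ≤ t) :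
    wPer (fillSet D j 0 c (endSlice D j)) (t • horU k u) ≤
      wPer D ((-(1 - c)) • horW j + (t • horU k u + (-(1 - c) * t) • crossW j k u)) +
        (1 - c) * (1 + t * C) * endPer D j := by
  have hC0 : 0 ≤ C := (abs_nonneg _).trans (hb 0)
  have hEj := isSqDown_endSlice hD hdown j
  have htop : squeeze (0 : ℝ) c 1 = c := by rw [squeeze_of_ge hc zero_le_one]; ring
  have e : ∀ δ : ℝ, pullW j 0 c δ (t • horU k u) =
      (-(1 - c)) • horW j + (t • horU k u + (-(1 - c) * t) • crossW j k u) := fun δ => by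
    funext x i
    have hx : horU k u (squeezeMap j 0 c x) i = horU k u x i := by
      simp only [horU, squeezeMap_coord hkj]
    simp only [pullW, softW, soft_zero, Pi.smul_apply, smul_eq_mul, hx, Pi.add_apply, horW, crossW]
    split_ifs <;> ring
  refine Weighted.wPer_le fun X hX => ?_
  have h := wPer_fillSet_le (k := j) hD hdown hP hc0 hc le_rfl zero_le_one hEj (subset_refl _)
    (u := t • horU k u) ((isWeight_horU hu hb k).smul t) (C := t * C) (mul_nonneg ht0 hC0)
    (fun x i => by
      simp only [Pi.smul_apply, smul_eq_mul, abs_mul, abs_of_nonneg ht0, horU]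
      refine mul_le_mul_of_nonneg_left ?_ ht0
      split_ifs
      · rwa [abs_zero]
      · exact hb _)
    (fun p q h => le_endPer hD hdown j h) (fun δ _ => (congrArg (wPer D) (e δ)).le) hX
  rwa [htop, volume_endSlice hD hdown, sub_self, mul_zero, add_zero] at h

/-- The second order bound for the combined weight. -/
theorem wPer_combined_le (hD : MeasurableSet D) (hdown : IsDownset D) {P : ℝ}
    (hP : RelPerLE D P) (hu : LipschitzWith Ku u) (hb : ∀ z, |u z| ≤ C) {σ t : ℝ} (ht0 : 0 ≤ t)
    (ht1 : t ≤ 1) :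
    wPer D ((σ * t) • horW j + (t • horU k u + (σ * t * t) • crossW j k u)) ≤
      P + t * (σ * wDer D (horW j) + wDer D (horU k u)) +
        (|σ| * |wDer D (crossW j k u)| + 2 * (|σ| + C + |σ| * C) ^ 2 * |P|) * t ^ 2 := by
  have hC0 : 0 ≤ C := (abs_nonneg _).trans (hb 0)
  have hFD : Weighted.Finite D := ⟨hD, hdown.1, P, hP⟩
  have hU := isWeight_horU hu hb k
  have hW := isWeight_crossW hu hb j k
  have hbU : ∀ x i, |horU k u x i| ≤ C := fun x i => by
    unfold horU; split_ifs <;> [rwa [abs_zero]; exact hb _]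
  have hbW : ∀ x i, |crossW j k u x i| ≤ C := fun x i => by
    unfold crossW; split_ifs <;> [rwa [abs_zero]; exact hbU x i]
  have hbJ : ∀ (x : R3) i, |horW j x i| ≤ 1 := fun x i => by
    unfold horW; split_ifs <;> simp
  set w : R3 → Fin 3 → ℝ := (σ * t) • horW j + (t • horU k u + (σ * t * t) • crossW j k u)
    with hwd
  have hw : IsWeight w := ((isWeight_horW j).smul _).add ((hU.smul _).add (hW.smul _))
  have hwb : ∀ x i, |w x i| ≤ (|σ| + C + |σ| * C) * t := fun x i => by
    simp only [hwd, Pi.add_apply, Pi.smul_apply, smul_eq_mul]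
    refine (abs_add_le _ _).trans ((add_le_add le_rfl (abs_add_le _ _)).trans ?_)
    simp only [abs_mul, abs_of_nonneg ht0]
    have h1 : |σ| * t * |horW j x i| ≤ |σ| * t * 1 :=
      mul_le_mul_of_nonneg_left (hbJ x i) (by positivity)
    have h2 : t * |horU k u x i| ≤ t * C := mul_le_mul_of_nonneg_left (hbU x i) ht0
    have h3 : |σ| * t * t * |crossW j k u x i| ≤ |σ| * t * 1 * C :=
      mul_le_mul (mul_le_mul_of_nonneg_left ht1 (by positivity)) (hbW x i) (abs_nonneg _)
        (by positivity)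
    linarith
  have h := Weighted.wPer_upper hFD hw (by positivity) hwb 1
  rw [one_smul, one_mul, one_pow, mul_one, hwd,
    Weighted.wDer_add hFD ((isWeight_horW j).smul _) ((hU.smul _).add (hW.smul _)),
    Weighted.wDer_add hFD (hU.smul _) (hW.smul _), Weighted.wDer_smul hFD (isWeight_horW j),
    Weighted.wDer_smul hFD hU, Weighted.wDer_smul hFD hW] at h
  have h2 := Weighted.relPer_le hP
  have h3 : 2 * ((|σ| + C + |σ| * C) * t) ^ 2 * relPer D ≤
      2 * ((|σ| + C + |σ| * C) * t) ^ 2 * |P| :=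
    mul_le_mul_of_nonneg_left (h2.trans (le_abs_self P)) (by positivity)
  have h4 : σ * t * t * wDer D (crossW j k u) ≤ |σ| * |wDer D (crossW j k u)| * t ^ 2 := by
    calc σ * t * t * wDer D (crossW j k u) = (σ * wDer D (crossW j k u)) * t ^ 2 := by ring
      _ ≤ _ := mul_le_mul_of_nonneg_right (by rw [← abs_mul]; exact le_abs_self _) (sq_nonneg t)
  linarith

/-- The squeeze family. -/
theorem family_fill (hD : MeasurableSet D) (hdown : IsDownset D) {P : ℝ} (hP : RelPerLE D P)
    (hkj : k ≠ j) (hu : LipschitzWith Ku u) (hb : ∀ z, |u z| ≤ C)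
    (hmean : ∫ r in (0 : ℝ)..1, u r = 0) {ε : ℝ} (hε : 0 ≤ ε) :
    ∃ K : ℝ, ∀ᶠ t in 𝓝[>] (0 : ℝ), ∃ (E : Set R3) (p : ℝ), MeasurableSet E ∧ IsDownset E ∧
      RelPerLE E p ∧
      |(volume E).toReal - (volume D).toReal - t * ((∫ z, u z * sliceArea D k z) -
        ε * ((volume D).toReal - faceArea D j))| ≤ t * (K * t) ∧
      p ≤ P + t * (wDer D (horU k u) - ε * (wDer D (horW j) - endPer D j)) + K * t ^ 2 := by
  have hC0 : 0 ≤ C := (abs_nonneg _).trans (hb 0)
  set b := (volume D).toReal - faceArea D j with hbd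
  have hb0 : 0 ≤ b := sub_nonneg.2 (faceArea_le_volume hD hdown j)
  set Q := |(-ε)| * |wDer D (crossW j k u)| + 2 * (|(-ε)| + C + |(-ε)| * C) ^ 2 * |P| with hQ
  refine ⟨max (C * (ε * b)) (Q + ε * C * |endPer D j|), ?_⟩
  have ht0' : Tendsto (fun t : ℝ => t) (𝓝[>] 0) (𝓝 0) :=
    tendsto_nhdsWithin_of_tendsto_nhds tendsto_id
  filter_upwards [Ioo_mem_nhdsGT (show (0 : ℝ) < 1 by norm_num),
    (ht0'.const_mul C).eventually (eventually_lt_nhds (show C * 0 < 1 / 2 by norm_num)),
    (ht0'.const_mul ε).eventually (eventually_lt_nhds (show ε * 0 < 1 by norm_num))] with t h1 h2 h3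
  obtain ⟨ht0, ht1⟩ := h1
  have htC : t * C ≤ 1 / 2 := by linarith
  set c := 1 - ε * t with hcd
  have hc0 : 0 < c := by linarith
  have hc : c ≤ 1 := by linarith [mul_nonneg hε ht0.le]
  have hEj := isSqDown_endSlice hD hdown j
  set D' := fillSet D j 0 c (endSlice D j) with hD'
  have hD'm : MeasurableSet D' := measurableSet_fillSet hD hEj
  have hD'd : IsDownset D' :=
    isDownset_fillSet hc0 hc le_rfl zero_le_one hdown hEj (subset_refl _)
  refine ⟨Deform.image (shiftProfile hu hb ht0.le htC) k D', wPer D' (t • horU k u),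
    Deform.measurableSet_image hD'm _ _, Deform.image_downset hD'd _ _,
    relPerLE_image_shift hu hb ht0.le htC hmean hD'm hD'd, ?_, ?_⟩
  · have hv' : (volume D').toReal = (volume D).toReal - ε * t * b := by
      rw [hD', volume_fill_zero hD hdown hc0 hc, hbd, hcd]; ring
    have hS := abs_integral_rate_sub_le hu hb hD'm hD'd hD hdown
      (fillSet_endSlice_subset hD hdown hc0 hc) k
    rw [hv', show (volume D).toReal - ((volume D).toReal - ε * t * b) = ε * t * b by ring] at hS
    rw [volume_image_shift hu hb ht0.le htC hmean hD'm hD'd, hv']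
    have h4 : C * (ε * b) * t ≤ max (C * (ε * b)) (Q + ε * C * |endPer D j|) * t :=
      mul_le_mul_of_nonneg_right (le_max_left _ _) ht0.le
    calc |(volume D).toReal - ε * t * b + t * (∫ z, u z * sliceArea D' k z) - (volume D).toReal -
          t * ((∫ z, u z * sliceArea D k z) - ε * b)|
        = t * |(∫ z, u z * sliceArea D' k z) - ∫ z, u z * sliceArea D k z| := by
          conv_rhs => rw [← abs_of_pos ht0, ← abs_mul]
          congr 1
          ring
      _ ≤ _ := mul_le_mul_of_nonneg_left (hS.trans (le_of_eq_of_le (by ring) h4)) ht0.le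
  · have h := wPer_pullW_fill hD hdown hP hkj hc0 hc hu hb ht0.le
    rw [show 1 - c = ε * t by rw [hcd]; ring, show -(ε * t) = -ε * t by ring] at h
    refine h.trans ((add_le_add (wPer_combined_le hD hdown hP hu hb ht0.le ht1.le) le_rfl).trans ?_)
    have h4 : ε * C * t ^ 2 * endPer D j ≤ ε * C * t ^ 2 * |endPer D j| :=
      mul_le_mul_of_nonneg_left (le_abs_self _) (by positivity)
    have h5 : (Q + ε * C * |endPer D j|) * t ^ 2 ≤
        max (C * (ε * b)) (Q + ε * C * |endPer D j|) * t ^ 2 :=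
      mul_le_mul_of_nonneg_right (le_max_right _ _) (sq_nonneg t)
    rw [hQ] at h5 ⊢
    linarith

/-- The stretch family. -/
theorem family_stretch (hD : MeasurableSet D) (hdown : IsDownset D) {P : ℝ} (hP : RelPerLE D P)
    (hkj : k ≠ j) (hu : LipschitzWith Ku u) (hb : ∀ z, |u z| ≤ C)
    (hmean : ∫ r in (0 : ℝ)..1, u r = 0) {σ : ℝ} (hσ : 0 ≤ σ) {η : ℝ} (hη : 0 < η) :
    ∃ K : ℝ, ∀ᶠ t in 𝓝[>] (0 : ℝ), ∃ (E : Set R3) (p : ℝ), MeasurableSet E ∧ IsDownset E ∧
      RelPerLE E p ∧
      |(volume E).toReal - (volume D).toReal - t * ((∫ z, u z * sliceArea D k z) +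
        σ * ((volume D).toReal - faceArea D j))| ≤ t * (η + K * t) ∧
      p ≤ P + t * (wDer D (horU k u) + σ * (wDer D (horW j) - endPer D j) + η) + K * t ^ 2 := by
  have hC0 : 0 ≤ C := (abs_nonneg _).trans (hb 0)
  set η' := η / (σ + 1) with hη'
  have hη'0 : 0 < η' := by positivity
  have hση : σ * η' ≤ η := by
    rw [hη', mul_div_assoc', div_le_iff₀ (by linarith)]; linarith [mul_pos hη one_pos]
  set mj := faceArea D j with hmj
  obtain ⟨p, q, hpq, hflux⟩ := exists_field_endPer hD hdown j hη'0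
  obtain ⟨z₀, hz₀, hz₀'⟩ : ∃ z₀ ∈ Ico (0 : ℝ) 1, ∀ z ∈ Ioo z₀ 1,
      endPer D j - η' ≤ flux p q (slice D j z) ∧ sliceArea D j z ≤ mj + η' := by
    have h1 : ∀ᶠ z in 𝓝[<] (1 : ℝ),
        endPer D j - η' ≤ flux p q (slice D j z) ∧ sliceArea D j z ≤ mj + η' := by
      refine hflux.and ?_
      filter_upwards [(tendsto_areaExt_faceArea hdown j).eventually
        (eventually_lt_nhds (show mj < mj + η' by linarith)),
        Ioo_mem_nhdsLT (show (0 : ℝ) < 1 by norm_num)] with z hz h01
      rw [areaExt_eq h01.1.le] at hz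
      exact hz.le
    obtain ⟨l0, hl0, hsub⟩ := mem_nhdsLT_iff_exists_Ioo_subset.1 h1
    exact ⟨max l0 0, ⟨le_max_right _ _, max_lt hl0 one_pos⟩,
      fun z hz => hsub ⟨(le_max_left _ _).trans_lt hz.1, hz.2⟩⟩
  set v := (volume D).toReal with hv
  set b := v - mj with hbd
  have hb0 : 0 ≤ b := sub_nonneg.2 (faceArea_le_volume hD hdown j)
  set Q := |σ| * |wDer D (crossW j k u)| + 2 * (|σ| + C + |σ| * C) ^ 2 * |P| with hQ
  refine ⟨max (C * (σ * b)) (Q + σ * C * |endPer D j - η'|), ?_⟩
  have ht0' : Tendsto (fun t : ℝ => t) (𝓝[>] 0) (𝓝 0) :=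
    tendsto_nhdsWithin_of_tendsto_nhds tendsto_id
  have hτ' : Tendsto (fun t : ℝ => (1 + σ * t)⁻¹) (𝓝[>] 0) (𝓝 1) := by
    simpa using ((ht0'.const_mul σ).const_add 1).inv₀ (by simp : (1 : ℝ) + σ * 0 ≠ 0)
  filter_upwards [Ioo_mem_nhdsGT (show (0 : ℝ) < 1 by norm_num),
    (ht0'.const_mul C).eventually (eventually_lt_nhds (show C * 0 < 1 / 2 by norm_num)),
    (ht0'.const_mul σ).eventually (eventually_lt_nhds (show σ * 0 < 1 by norm_num)),
    hτ'.eventually (eventually_gt_nhds hz₀.2)] with t h1 h2 h3 hzt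
  obtain ⟨ht0, ht1⟩ := h1
  have htC : t * C ≤ 1 / 2 := by linarith
  set s := σ * t with hsd
  have hs0 : 0 ≤ s := mul_nonneg hσ ht0.le
  set τ := (1 + s)⁻¹ with hτd
  have hτ1 : τ ≤ 1 := inv_le_one_of_one_le₀ (by linarith)
  have hτe : (1 + s) * (1 - τ) = s := by rw [hτd]; field_simp; ring
  set D' := Deform.image (stretchProfile hs0 h3.le) j D with hD'
  have hD'm : MeasurableSet D' := Deform.measurableSet_image hD _ _
  have hD'd : IsDownset D' := Deform.image_downset hdown _ _
  refine ⟨Deform.image (shiftProfile hu hb ht0.le htC) k D', wPer D' (t • horU k u),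
    Deform.measurableSet_image hD'm _ _, Deform.image_downset hD'd _ _,
    relPerLE_image_shift hu hb ht0.le htC hmean hD'm hD'd, ?_, ?_⟩
  · set A := ∫ z in Ici τ, sliceArea D j z
    have hv' : (volume D').toReal = (1 + s) * (v - A) := volume_image_stretch hD hdown hs0 h3.le
    have hmem : ∀ z ∈ Ioo τ 1, z ∈ Ioo z₀ 1 ∧ z ∈ Ico (0 : ℝ) 1 := fun z hz =>
      ⟨⟨hzt.trans hz.1, hz.2⟩, ⟨hz₀.1.trans (hzt.trans hz.1).le, hz.2⟩⟩
    have hi := integrable_sliceArea hD hdown.1 j
    have hA1 : mj * (1 - τ) ≤ A :=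
      mul_le_integral_Ici hi (fun z hz => sliceArea_eq_zero hdown.1 fun h => absurd h.2 (not_lt.2 hz))
        hτ1 fun z hz => faceArea_le_sliceArea hdown j (hmem z hz).2
    have hA2 : -(mj + η') * (1 - τ) ≤ ∫ z in Ici τ, -sliceArea D j z :=
      mul_le_integral_Ici hi.neg
        (fun z hz => by simp [sliceArea_eq_zero hdown.1 (z := z) fun h => absurd h.2 (not_lt.2 hz)])
        hτ1 fun z hz => neg_le_neg ((hz₀' z (hmem z hz).1).2)
    rw [integral_neg] at hA2
    have a1 : s * mj ≤ (1 + s) * A := by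
      calc s * mj = (1 + s) * (mj * (1 - τ)) := by linear_combination (-mj) * hτe
        _ ≤ _ := mul_le_mul_of_nonneg_left hA1 (by linarith)
    have a2 : (1 + s) * A ≤ s * (mj + η') := by
      calc (1 + s) * A ≤ (1 + s) * ((mj + η') * (1 - τ)) :=
            mul_le_mul_of_nonneg_left (by linarith) (by linarith)
        _ = _ := by linear_combination (mj + η') * hτe
    have hS := abs_integral_rate_sub_le hu hb hD hdown hD'm hD'd
      (subset_image_stretch hdown hs0 h3.le) k
    rw [abs_sub_comm] at hS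
    have hdv : (volume D').toReal - v ≤ s * b := by rw [hv', hbd]; linarith
    have hS' := hS.trans (mul_le_mul_of_nonneg_left hdv hC0)
    rw [volume_image_shift hu hb ht0.le htC hmean hD'm hD'd]
    obtain ⟨s1, s2⟩ := abs_le.1 hS'
    have m1 := mul_le_mul_of_nonneg_left s1 ht0.le
    have m2 := mul_le_mul_of_nonneg_left s2 ht0.le
    have h4 : t * (C * (σ * b) * t) ≤
        t * (max (C * (σ * b)) (Q + σ * C * |endPer D j - η'|) * t) :=
      mul_le_mul_of_nonneg_left (mul_le_mul_of_nonneg_right (le_max_left _ _) ht0.le) ht0.le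
    have h5 : s * η' ≤ t * η := by
      rw [hsd, mul_comm σ t, mul_assoc]; exact mul_le_mul_of_nonneg_left hση ht0.le
    have e : s = σ * t := rfl
    rw [hv', hbd, abs_le]
    rw [hbd] at h4
    constructor <;> linarith [mul_nonneg ht0.le hη.le]
  · have hκ : ∀ x i, -(t * C) ≤ (t • horU k u) x i := fun x i => by
      simp only [Pi.smul_apply, smul_eq_mul, horU]
      rw [← mul_neg]
      refine mul_le_mul_of_nonneg_left ?_ ht0.le
      split_ifs
      · linarith
      · exact neg_le_of_abs_le (hb _)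
    have h := wPer_image_stretch (j := j) hD hdown hs0 h3.le ((isWeight_horU hu hb k).smul t)
      (κ := t * C) (by linarith) hκ hpq
    have e : Deform.wPull (stretchProfile hs0 h3.le) j (t • horU k u) =
        (σ * t) • horW j + (t • horU k u + (σ * t * t) • crossW j k u) := by
      funext x i
      have hx : horU k u (Deform.push (stretchProfile hs0 h3.le) j x) i = horU k u x i := by
        simp only [horU, Deform.push_ne _ hkj]
      simp only [Deform.wPull, stretchProfile, Pi.smul_apply, smul_eq_mul, Pi.add_apply, horW,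
        crossW]
      simp only [stretchProfile] at hx
      rw [hx]
      simp only [s]
      split_ifs <;> ring
    rw [e] at h
    have hF : (endPer D j - η') * (1 - τ) ≤ ∫ z in Ici τ, flux p q (slice D j z) :=
      mul_le_integral_Ici (hpq.toSlice.integrable_fluxS hD hdown.1)
        (fun z hz => fluxS_eq_zero hdown.1 _ _ fun h => absurd h.2 (not_lt.2 hz)) hτ1
        fun z hz => (hz₀' z ⟨hzt.trans hz.1, hz.2⟩).1
    have hgain : (1 - t * C) * ((endPer D j - η') * s) ≤
        (1 - t * C) * ((1 + s) * ∫ z in Ici τ, flux p q (slice D j z)) := by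
      refine mul_le_mul_of_nonneg_left ?_ (by linarith)
      calc (endPer D j - η') * s = (1 + s) * ((endPer D j - η') * (1 - τ)) := by
            linear_combination (-(endPer D j - η')) * hτe
        _ ≤ _ := mul_le_mul_of_nonneg_left hF (by linarith)
    have hW := wPer_combined_le (k := k) (j := j) (σ := σ) hD hdown hP hu hb ht0.le ht1.le
    have h4 : σ * C * t ^ 2 * (endPer D j - η') ≤ σ * C * t ^ 2 * |endPer D j - η'| :=
      mul_le_mul_of_nonneg_left (le_abs_self _) (by positivity)
    have h5 : (Q + σ * C * |endPer D j - η'|) * t ^ 2 ≤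
        max (C * (σ * b)) (Q + σ * C * |endPer D j - η'|) * t ^ 2 :=
      mul_le_mul_of_nonneg_right (le_max_right _ _) (sq_nonneg t)
    have h6 : σ * t * η' ≤ t * η := by
      rw [mul_comm σ t, mul_assoc]; exact mul_le_mul_of_nonneg_left hση ht0.le
    rw [hQ] at h5 ⊢
    have e2 : s = σ * t := rfl
    rw [e2] at hgain
    linarith

/-- The identity for rates of zero mean. -/
theorem wDer_horU_zero_mean (hD : MeasurableSet D) (hdown : IsDownset D) {φ : ℝ → ℝ}
    (hP : RelPerLE D (φ (volume D).toReal)) {a : ℝ} (ha : a < (volume D).toReal)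
    (hopt : ∀ (E : Set R3) (p : ℝ), MeasurableSet E → IsDownset E → RelPerLE E p →
      (volume E).toReal ∈ Icc a (volume D).toReal → φ (volume E).toReal ≤ p)
    {d : ℝ} (hφ : ∀ η > 0, ∀ᶠ w in 𝓝 (volume D).toReal, w ≤ (volume D).toReal →
      φ (volume D).toReal + d * (w - (volume D).toReal) - η * |w - (volume D).toReal| ≤ φ w)
    (hkj : k ≠ j) (hmj : faceArea D j < (volume D).toReal) {lam : ℝ}
    (hj : wDer D (horW j) = lam * ((volume D).toReal - faceArea D j) + endPer D j)
    (hu : LipschitzWith Ku u) (hb : ∀ z, |u z| ≤ C) (hmean : ∫ r in (0 : ℝ)..1, u r = 0) :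
    wDer D (horU k u) = lam * ∫ z, u z * sliceArea D k z := by
  set b := (volume D).toReal - faceArea D j with hbd
  have hb0 : 0 < b := sub_pos.2 hmj
  have key : ∀ (w : ℝ → ℝ) (Kw : ℝ≥0), LipschitzWith Kw w → (∀ z, |w z| ≤ C) →
      (∫ r in (0 : ℝ)..1, w r = 0) →
      lam * (∫ z, w z * sliceArea D k z) ≤ wDer D (horU k w) := by
    intro w Kw hw hwb hw0
    refine le_of_forall_pos_le_add fun e he => ?_
    set G := -(e / (|d - lam| + 1)) with hG
    have hGneg : G < 0 := neg_neg_of_pos (by positivity)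
    set x := (G - ∫ z, w z * sliceArea D k z) / b with hx
    have hGeq : (∫ z, w z * sliceArea D k z) + x * b = G := by
      rw [hx, div_mul_cancel₀ _ hb0.ne']; ring
    have hmain : d * G ≤ wDer D (horU k w) + x * (wDer D (horW j) - endPer D j) := by
      refine first_order ha hopt hφ hGneg fun η hη => ?_
      rcases le_total 0 x with hx0 | hx0
      · obtain ⟨K, hK⟩ := family_stretch hD hdown hP hkj hw hwb hw0 hx0 hη
        refine ⟨K, hK.mono fun t ⟨E, p, h1, h2, h3, h4, h5⟩ => ⟨E, p, h1, h2, h3, ?_, h5⟩⟩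
        rwa [← hbd, hGeq] at h4
      · obtain ⟨K, hK⟩ := family_fill hD hdown hP hkj hw hwb hw0 (neg_nonneg.2 hx0)
        refine ⟨K, (hK.and self_mem_nhdsWithin).mono
          fun t ⟨⟨E, p, h1, h2, h3, h4, h5⟩, (ht : (0 : ℝ) < t)⟩ => ⟨E, p, h1, h2, h3, ?_, ?_⟩⟩
        · rw [neg_mul, sub_neg_eq_add, ← hbd, hGeq] at h4
          exact h4.trans (mul_le_mul_of_nonneg_left (by linarith) ht.le)
        · linarith [mul_pos ht hη]
    rw [hj, add_sub_cancel_right] at hmain
    have h1 : (d - lam) * -G ≤ |d - lam| * -G :=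
      mul_le_mul_of_nonneg_right (le_abs_self _) (neg_nonneg.2 hGneg.le)
    have h2 : |d - lam| * -G ≤ e := by
      rw [hG, neg_neg, mul_div_assoc', div_le_iff₀ (by positivity)]
      linarith [abs_nonneg (d - lam)]
    have h3 : lam * ((∫ z, w z * sliceArea D k z) + x * b) = lam * G := by rw [hGeq]
    linarith
  refine le_antisymm ?_ (key u Ku hu hb hmean)
  have hFD : Weighted.Finite D := ⟨hD, hdown.1, _, hP⟩
  have h := key (fun z => -u z) Ku hu.neg (fun z => by simpa using hb z)
    (by rw [intervalIntegral.integral_neg, hmean, neg_zero])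
  have e : horU k (fun z => -u z) = -horU k u := by
    funext x i; simp only [horU, Pi.neg_apply]; split_ifs <;> simp
  rw [e, Weighted.wDer_neg hFD (isWeight_horU hu hb k)] at h
  simp only [neg_mul, integral_neg, mul_neg] at h
  linarith

/-- The identity for every Lipschitz rate. -/
theorem wDer_horU_eq (hD : MeasurableSet D) (hdown : IsDownset D) {φ : ℝ → ℝ}
    (hP : RelPerLE D (φ (volume D).toReal)) {a : ℝ} (ha : a < (volume D).toReal)
    (hopt : ∀ (E : Set R3) (p : ℝ), MeasurableSet E → IsDownset E → RelPerLE E p →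
      (volume E).toReal ∈ Icc a (volume D).toReal → φ (volume E).toReal ≤ p)
    {d : ℝ} (hφ : ∀ η > 0, ∀ᶠ w in 𝓝 (volume D).toReal, w ≤ (volume D).toReal →
      φ (volume D).toReal + d * (w - (volume D).toReal) - η * |w - (volume D).toReal| ≤ φ w)
    (hm : ∀ i, faceArea D i < (volume D).toReal) {lam : ℝ}
    (hid : ∀ i, wDer D (horW i) = lam * ((volume D).toReal - faceArea D i) + endPer D i)
    (hu : LipschitzWith Ku u) (hb : ∀ z, |u z| ≤ C) (k : Fin 3) :
    wDer D (horU k u) =
      lam * ((∫ z in (0 : ℝ)..1, u z * areaExt D k z) - faceArea D k * ∫ z in (0 : ℝ)..1, u z) +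
        endPer D k * ∫ z in (0 : ℝ)..1, u z := by
  set c := ∫ z in (0 : ℝ)..1, u z with hc
  obtain ⟨j, hjk⟩ : ∃ j, j ≠ k := exists_ne k
  set w : ℝ → ℝ := fun z => u z - c with hw
  have hwl : LipschitzWith (Ku + 0) w := hu.sub (LipschitzWith.const c)
  have hwb : ∀ z, |w z| ≤ C + |c| := fun z => (abs_sub _ _).trans (by linarith [hb z])
  have hw0 : ∫ r in (0 : ℝ)..1, w r = 0 := by
    rw [hw, intervalIntegral.integral_sub (hu.continuous.intervalIntegrable _ _)
      intervalIntegrable_const]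
    simp [← hc]
  have h := wDer_horU_zero_mean hD hdown hP ha hopt hφ hjk.symm (hm j) (hid j) hwl hwb hw0
  have hFD : Weighted.Finite D := ⟨hD, hdown.1, _, hP⟩
  have e : horU k u = c • horW k + horU k w := by
    funext x i
    simp only [Pi.add_apply, Pi.smul_apply, smul_eq_mul, horU, horW, hw]
    split_ifs <;> ring
  have hi := integrable_sliceArea hD hdown.1 k
  have hS : ∫ z, w z * sliceArea D k z =
      (∫ z in (0 : ℝ)..1, u z * areaExt D k z) - c * (volume D).toReal := by
    have hi2 : Integrable fun z => u z * sliceArea D k z :=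
      hi.bdd_mul hu.continuous.aestronglyMeasurable
        (ae_of_all _ fun z => (Real.norm_eq_abs _).trans_le (hb z))
    simp only [hw, sub_mul]
    rw [integral_sub hi2 (hi.const_mul c), integral_const_mul,
      ← volume_eq_integral_sliceArea hD hdown.1]
    congr 1
    rw [intervalIntegral.integral_of_le zero_le_one, ← integral_Icc_eq_integral_Ioc,
      ← integral_indicator measurableSet_Icc]
    refine integral_congr_ae ?_
    filter_upwards [volume.ae_ne (1 : ℝ)] with z hz
    by_cases h : z ∈ Icc (0 : ℝ) 1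
    · rw [indicator_of_mem h, areaExt_eq h.1]
    · rw [indicator_of_notMem h, sliceArea_eq_zero hdown.1 fun h' => h ⟨h'.1, h'.2.le⟩, mul_zero]
  rw [e, Weighted.wDer_add hFD ((isWeight_horW k).smul c) (isWeight_horU hwl hwb k),
    Weighted.wDer_smul hFD (isWeight_horW k), hid k, h, hS]
  ring

/-- All identities of a minimiser at volume `1/π`. -/
theorem exists_lagrange_rate {P : ℝ} (h : IsCritical D P) (hv : (volume D).toReal = 1 / π)
    (hm : ∀ k, faceArea D k ≠ 1 / π) :
    ∃ lam, 0 ≤ lam ∧ lam ≤ P / (2 * (volume D).toReal) ∧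
      (∀ k, wDer D (horW k) = lam * ((volume D).toReal - faceArea D k) + endPer D k) ∧
      ∀ (k : Fin 3) (u : ℝ → ℝ), (∃ K, LipschitzWith K u) → (∃ C, ∀ z, |u z| ≤ C) →
        wDer D (horU k u) =
          lam * ((∫ z in (0 : ℝ)..1, u z * areaExt D k z) -
              faceArea D k * ∫ z in (0 : ℝ)..1, u z) +
            endPer D k * ∫ z in (0 : ℝ)..1, u z := by
  obtain ⟨lam, h0, h1, hid⟩ := exists_lagrange_endpoint_nonneg h hv hm
  refine ⟨lam, h0, h1, hid, fun k u ⟨K, hK⟩ ⟨C, hC⟩ => ?_⟩
  obtain ⟨hD, hdown, hP, hvI, -, hmin⟩ := h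
  set v := (volume D).toReal with hvd
  set r := P / Cylinder.ballTube v with hr
  have hv0 : 0 < v := lt_of_lt_of_le (by norm_num) hvI.1
  have hlt : 4 * π / 81 < v := by
    rw [hv, lt_div_iff₀ Real.pi_pos]
    have h1 := mul_lt_mul'' Real.pi_lt_four Real.pi_lt_four Real.pi_pos.le Real.pi_pos.le
    linarith
  have hf : Cylinder.ballTube v = √(π * v) := ballTube_eq_tube hlt.le
  have h40 : (1 : ℝ) / 40 < v := by
    rw [hv]; exact one_div_lt_one_div_of_lt Real.pi_pos (by linarith [Real.pi_lt_four])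
  have hPv : r * Cylinder.ballTube v = P := div_mul_cancel₀ _ (ballTube_pos hv0).ne'
  refine wDer_horU_eq hD hdown (φ := fun w => r * Cylinder.ballTube w) (hPv.symm ▸ hP) (a := 1 / 40)
    h40 (fun E p hE hEd hEp hEv => hmin E p hE hEd ⟨hEv.1, hEv.2.trans hvI.2⟩ hEp)
    (d := P / (2 * v)) (fun η hη => ?_)
    (fun i => lt_of_le_of_ne (faceArea_le_volume hD hdown i) (by rw [← hvd, hv]; exact hm i))
    hid hK hC k
  have hder : HasDerivAt (fun w => r * √(π * w)) (P / (2 * v)) v :=
    ((hasDerivAt_tubeVal hv0).const_mul r).congr_deriv (by rw [← hPv, hf]; ring)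
  filter_upwards [eventually_minorant hder hη, eventually_gt_nhds hlt] with w hw hw' _
  rw [← hvd, ballTube_eq_tube hw'.le, hf]
  exact hw

end Vale.Agent.P232
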