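import Vale.Agent.P232.Stretch

/-!
The first order condition obtained from stretching a minimiser, and the planar bound for its last
slice.
-/

open MeasureTheory Set Filter Function
open scoped NNReal Topology

namespace Vale.Agent.P232

variable {D : Set R3} {k : Fin 3}

theorem tendsto_areaExt_faceArea (hdown : IsDownset D) (k : Fin 3) :
    Tendsto (areaExt D k) (𝓝[<] 1) (𝓝 (faceArea D k)) :=
  (areaExt_antitone hdown k).tendsto_leftLim 1

theorem faceArea_le_sliceArea (hdown : IsDownset D) (k : Fin 3) {z : ℝ} (hz : z ∈ Ico (0:ℝ) 1) :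
    faceArea D k ≤ sliceArea D k z := by
  rw [← areaExt_eq hz.1]
  exact (areaExt_antitone hdown k).leftLim_le hz.2

theorem faceArea_nonneg_stretch (hdown : IsDownset D) (k : Fin 3) : 0 ≤ faceArea D k :=
  ge_of_tendsto' (tendsto_areaExt_faceArea hdown k) fun _ => ENNReal.toReal_nonneg

theorem faceArea_le_volume_stretch (hD : MeasurableSet D) (hdown : IsDownset D) (k : Fin 3) :
    faceArea D k ≤ (volume D).toReal := by
  rw [volume_eq_integral_sliceArea hD hdown.1 k]
  calc faceArea D k = ∫ z, (Ico (0:ℝ) 1).indicator (fun _ => faceArea D k) z := by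
        simp [integral_indicator, Measure.real, Real.volume_Ico]
    _ ≤ ∫ z, sliceArea D k z := by
        refine integral_mono ((integrableOn_const (by simp [Real.volume_Ico])).integrable_indicator
          measurableSet_Ico) (integrable_sliceArea hD hdown.1 k) fun z => ?_
        by_cases hz : z ∈ Ico (0:ℝ) 1
        · simpa [hz] using faceArea_le_sliceArea hdown k hz
        · simpa [hz] using sliceArea_nonneg D k z

/-- The last slice. -/
def endSlice (D : Set R3) (k : Fin 3) : Set (ℝ × ℝ) := ⋂ n, slice D k (near n)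

theorem isSqDown_endSlice (hD : MeasurableSet D) (hdown : IsDownset D) (k : Fin 3) :
    IsSqDown (endSlice D k) :=
  ⟨MeasurableSet.iInter fun n => measurableSet_slice hD k (near n),
    fun _ hw => slice_subset_square hdown.1 k _ (mem_iInter.1 hw 0),
    fun w hw u h1 h2 h3 h4 => mem_iInter.2 fun n =>
      (isSqDown_slice hD hdown k (near n)).down w (mem_iInter.1 hw n) u h1 h2 h3 h4⟩

theorem endSlice_subset (hdown : IsDownset D) (k : Fin 3) {z : ℝ} (hz : z ∈ Ico (0:ℝ) 1) :
    endSlice D k ⊆ slice D k z := by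
  obtain ⟨n, hn⟩ :=
    ((tendsto_nhdsWithin_iff.1 tendsto_near).1.eventually_const_le hz.2).exists
  exact (iInter_subset _ n).trans (slice_anti hdown hz.1 hn)

theorem volume_endSlice (hD : MeasurableSet D) (hdown : IsDownset D) (k : Fin 3) :
    volume.real (endSlice D k) = faceArea D k := by
  have h1 : Tendsto (fun n => volume.real (slice D k (near n))) atTop
      (𝓝 (volume.real (endSlice D k))) := by
    refine (ENNReal.continuousAt_toReal ?_).tendsto.comp (tendsto_measure_iInter_atTop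
      (fun n => (measurableSet_slice hD k _).nullMeasurableSet)
      (fun m n h => slice_anti hdown (near_mem m).1.le (near_mono h))
      ⟨0, volume_slice_ne_top hdown.1 k _⟩)
    exact ne_top_of_le_ne_top (volume_slice_ne_top hdown.1 k (near 0))
      (measure_mono (iInter_subset _ 0))
  refine tendsto_nhds_unique h1 ?_
  have h2 := (tendsto_areaExt_faceArea hdown k).comp tendsto_near
  refine h2.congr fun n => ?_
  simp [areaExt_eq (near_mem n).1.le, sliceArea, Measure.real]

/-- A planar field good on the last slice is nearly as good on the slices below it. -/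
theorem eventually_flux_ge (hD : MeasurableSet D) (hdown : IsDownset D) (k : Fin 3)
    {p q : ℝ × ℝ → ℝ} (h : IsSqField p q) {η : ℝ} (hη : 0 < η) :
    ∀ᶠ z in 𝓝[<] (1:ℝ), flux p q (endSlice D k) - η ≤ flux p q (slice D k z) := by
  obtain ⟨K, hK⟩ := h.toSlice.lip_fst
  obtain ⟨L, hL⟩ := h.toSlice.lip_snd
  set C : ℝ := K + L + 1
  have hC : 0 < C := by positivity
  have hev := (tendsto_areaExt_faceArea hdown k).eventually
    (eventually_lt_nhds (show faceArea D k < faceArea D k + η / C by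
      linarith [show 0 < η / C by positivity]))
  filter_upwards [hev, Ioo_mem_nhdsLT (show (0:ℝ) < 1 by norm_num)] with z hz h01
  have hz' : z ∈ Ico (0:ℝ) 1 := ⟨h01.1.le, h01.2⟩
  have hsub := endSlice_subset hdown k hz'
  have hE := (isSqDown_endSlice hD hdown k).meas
  have hint : IntegrableOn (dv2 p q) (slice D k z) :=
    (integrableOn_dv2 h).mono_set (slice_subset_square hdown.1 k z)
  have hd : |∫ w in slice D k z \ endSlice D k, dv2 p q w| ≤
      C * volume.real (slice D k z \ endSlice D k) := by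
    rw [← Real.norm_eq_abs]
    refine norm_setIntegral_le_of_norm_le_const (lt_of_le_of_lt (measure_mono sdiff_subset)
      (lt_top_iff_ne_top.2 (volume_slice_ne_top hdown.1 k z))) fun w _ => ?_
    have := norm_dvS_le hK hL ((0:ℝ), w)
    simp only [C]
    exact le_trans this (by linarith)
  have harea : volume.real (slice D k z \ endSlice D k) = sliceArea D k z - faceArea D k := by
    rw [measureReal_sdiff hsub hE (volume_slice_ne_top hdown.1 k z), volume_endSlice hD hdown]
    rfl
  rw [areaExt_eq hz'.1] at hz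
  rw [MeasureTheory.setIntegral_sdiff (f := dv2 p q) hE hint hsub, harea] at hd
  have h3 : C * (sliceArea D k z - faceArea D k) ≤ η := by
    calc C * (sliceArea D k z - faceArea D k) ≤ C * (η / C) :=
          mul_le_mul_of_nonneg_left (by linarith) hC.le
      _ = η := by field_simp
  simp only [flux]
  linarith [(abs_le.1 hd).1]

/-- The last slice has perimeter at least `√(π m)` and `1`, whichever is less. -/
theorem exists_end_field (hD : MeasurableSet D) (hdown : IsDownset D) (k : Fin 3)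
    (hm : faceArea D k ≤ 1 / 2) {η : ℝ} (hη : 0 < η) :
    ∃ p q, IsSqField p q ∧ ∀ᶠ z in 𝓝[<] (1:ℝ),
      min (Real.sqrt (Real.pi * faceArea D k)) 1 - η ≤ flux p q (slice D k z) := by
  have hB := isSqDown_endSlice hD hdown k
  have hvol := volume_endSlice hD hdown k
  set m := faceArea D k
  have hY : 0 ≤ contactY (endSlice D k) := ENNReal.toReal_nonneg
  suffices h : ∃ p q, IsSqField p q ∧
      min (Real.sqrt (Real.pi * m)) 1 - η / 2 ≤ flux p q (endSlice D k) by
    obtain ⟨p, q, hpq, hb⟩ := h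
    refine ⟨p, q, hpq, (eventually_flux_ge hD hdown k hpq (half_pos hη)).mono fun z hz => ?_⟩
    linarith
  have l1 := min_le_left (Real.sqrt (Real.pi * m)) 1
  have l2 := min_le_right (Real.sqrt (Real.pi * m)) 1
  rcases hB.contactX_nonneg.eq_or_lt with hx | hx <;> rcases hY.eq_or_lt with hy | hy
  · obtain ⟨p, q, hpq, hb⟩ := sq_quarter hB (half_pos hη)
    rw [← hx, ← hy, hvol] at hb
    exact ⟨p, q, hpq, by linarith⟩
  · obtain ⟨p, q, hpq, hb⟩ := sq_wall hB hy (half_pos hη)
    rw [← hx] at hb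
    exact ⟨p, q, hpq, by linarith⟩
  · obtain ⟨p, q, hpq, hb⟩ := sq_floor hB hx (half_pos hη)
    rw [← hy] at hb
    exact ⟨p, q, hpq, by linarith⟩
  · obtain ⟨p, q, hpq, hb⟩ := sq_both hB hx hy (half_pos hη)
    rw [hvol] at hb
    have : Real.sqrt (Real.pi * m) ≤ Real.sqrt (Real.pi * (1 - m)) :=
      Real.sqrt_le_sqrt (mul_le_mul_of_nonneg_left (by linarith) Real.pi_pos.le)
    exact ⟨p, q, hpq, by linarith⟩

/-- Integrals over a top layer. -/
theorem mul_le_integral_Ici {f : ℝ → ℝ} (hf : Integrable f) (hout : ∀ z, 1 ≤ z → f z = 0)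
    {τ L : ℝ} (hτ : τ ≤ 1) (h : ∀ z ∈ Ioo τ 1, L ≤ f z) : L * (1 - τ) ≤ ∫ z in Ici τ, f z := by
  have e : ∫ z in Ici τ, f z = ∫ z in Ioo τ 1, f z := by
    rw [integral_Ici_eq_integral_Ioi]
    refine setIntegral_eq_of_subset_of_forall_sdiff_eq_zero measurableSet_Ioi
      (fun z hz => hz.1) fun z hz => hout z (not_lt.1 fun h' => hz.2 ⟨hz.1, h'⟩)
  rw [e]
  calc L * (1 - τ) = ∫ _z in Ioo τ 1, L := by
        simp [Measure.real, Real.volume_Ioo, hτ, mul_comm]
    _ ≤ _ := setIntegral_mono_on (integrableOn_const (by simp [Real.volume_Ioo])) hf.integrableOn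
        measurableSet_Ioo h

/-- The change of volume of a stretched set is of first order. -/
theorem stretch_volume_change {t r η v m A : ℝ} (ht0 : 0 < t) (hr : (1 + t) * r = t)
    (hη1 : η ≤ 1) (hη : 0 ≤ η) (hm0 : 0 ≤ m) (hmv : m ≤ v) (hv1 : v ≤ 1)
    (hA1 : m * r ≤ A) (hA2 : A ≤ (m + η) * r) :
    |(1 + t) * (v - A) - v - t * (v - m)| ≤ t * η ∧ |(1 + t) * (v - A) - v| ≤ 2 * t ∧
      max (v - (1 + t) * (v - A)) 0 ≤ t * η := by
  have h1 : t * m ≤ (1 + t) * A := by
    calc t * m = (1 + t) * (m * r) := by linear_combination (-m) * hr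
      _ ≤ _ := mul_le_mul_of_nonneg_left hA1 (by linarith)
  have h2 : (1 + t) * A ≤ t * (m + η) := by
    calc (1 + t) * A ≤ (1 + t) * ((m + η) * r) := mul_le_mul_of_nonneg_left hA2 (by linarith)
      _ = _ := by linear_combination (m + η) * hr
  have h3 : 0 ≤ t * (v - m) := mul_nonneg ht0.le (sub_nonneg.2 hmv)
  have h4 : t * (v - m) ≤ t * 1 := mul_le_mul_of_nonneg_left (by linarith) ht0.le
  have h5 : t * η ≤ t * 1 := mul_le_mul_of_nonneg_left hη1 ht0.le
  have h6 : 0 ≤ t * η := mul_nonneg ht0.le hη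
  exact ⟨abs_le.2 ⟨by linarith, by linarith⟩, abs_le.2 ⟨by linarith, by linarith⟩,
    max_le (by linarith) h6⟩

/-- The inequality at one coordinate. -/
theorem stretch_step {t r η v m P d l K w φw F : ℝ} (ht0 : 0 < t) (hr : (1 + t) * r = t)
    (hr0 : 0 ≤ r) (hη : 0 ≤ η) (hK : 0 ≤ K) (h1 : |w - v - t * (v - m)| ≤ t * η)
    (h2 : |w - v| ≤ 2 * t) (h3 : max (v - w) 0 ≤ t * η) (hF : (l - η) * r ≤ F)
    (hφ : P + d * (w - v) - η * |w - v| - K * max (v - w) 0 ≤ φw) :
    t * (d * (v - m) + l - η * (3 + |d| + K)) - t ^ 2 * |l - η| + P ≤ φw + F := by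
  have e1 : t * (d * (v - m)) - |d| * (t * η) ≤ d * (w - v) := by
    have h := abs_mul d (w - v - t * (v - m))
    have h' := mul_le_mul_of_nonneg_left h1 (abs_nonneg d)
    have := neg_abs_le (d * (w - v - t * (v - m)))
    linarith
  have hrt : r ≤ t := by
    have : 0 ≤ t * r := mul_nonneg ht0.le hr0
    linarith
  have e2 : t * (l - η) - t ^ 2 * |l - η| ≤ (l - η) * r := by
    have e : r = t - t * r := by linarith
    have h' : t * r * (l - η) ≤ t * t * |l - η| :=
      (mul_le_mul_of_nonneg_left (le_abs_self _) (mul_nonneg ht0.le hr0)).trans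
        (mul_le_mul_of_nonneg_right (mul_le_mul_of_nonneg_left hrt ht0.le) (abs_nonneg _))
    calc t * (l - η) - t ^ 2 * |l - η| ≤ t * (l - η) - t * r * (l - η) := by
          rw [pow_two]; linarith
      _ = (l - η) * r := by linear_combination (l - η) * e.symm
  have e3 := mul_le_mul_of_nonneg_left h2 hη
  have e4 := mul_le_mul_of_nonneg_left h3 hK
  linarith

/-- The first order condition from stretching: for weights `β`, lengths `l` of the last slices and
a volume derivative `d` of the comparison function `φ` from which the perimeter of `D` is optimal. -/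
theorem stretch_sum (hD : MeasurableSet D) (hdown : IsDownset D) {φ : ℝ → ℝ}
    (hP : RelPerLE D (φ (volume D).toReal)) {δ : ℝ} (hδ : 0 < δ)
    (hopt : ∀ (E : Set R3) (p : ℝ), MeasurableSet E → IsDownset E → RelPerLE E p →
      |(volume E).toReal - (volume D).toReal| < δ → φ (volume E).toReal ≤ p)
    {d K : ℝ} (hK : 0 ≤ K) (hφ : ∀ η > 0, ∀ᶠ w in 𝓝 (volume D).toReal,
      φ (volume D).toReal + d * (w - (volume D).toReal) - η * |w - (volume D).toReal|
        - K * max ((volume D).toReal - w) 0 ≤ φ w)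
    {β : Fin 3 → ℝ} (hβ : ∀ k, 0 ≤ β k) (hβs : 0 < ∑ k, β k) {b : ℝ} (hb : ∀ k, b ≤ β k)
    {l : Fin 3 → ℝ} (hl : ∀ k, ∀ η > 0, ∃ p q, IsSqField p q ∧
      ∀ᶠ z in 𝓝[<] (1:ℝ), l k - η ≤ flux p q (slice D k z)) :
    ∑ k, β k * (l k + d * ((volume D).toReal - faceArea D k)) ≤
      ((∑ k, β k) - b) * φ (volume D).toReal := by
  set v := (volume D).toReal with hv
  set P := φ v
  set m := faceArea D with hm
  have hv1 : v ≤ 1 := by
    rw [hv, volume_eq_integral_sliceArea hD hdown.1 (0 : Fin 3)]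
    calc ∫ z, sliceArea D 0 z ≤ ∫ z, (Ico (0:ℝ) 1).indicator (fun _ => (1:ℝ)) z := by
          refine integral_mono (integrable_sliceArea hD hdown.1 0)
            ((integrableOn_const (by simp [Real.volume_Ico])).integrable_indicator
              measurableSet_Ico) fun z => ?_
          by_cases hz : z ∈ Ico (0:ℝ) 1
          · simpa [hz] using sliceArea_le_one hdown.1 0 z
          · simp [hz, sliceArea_eq_zero hdown.1 hz]
      _ = 1 := by simp [integral_indicator, Measure.real, Real.volume_Ico]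
  refine le_of_forall_pos_le_add fun ε hε => ?_
  set B : ℝ := (3 + |d| + K) * ∑ k, β k
  set η := min 1 (ε / (2 * (B + 1))) with hηd
  have hB : 0 ≤ B := by positivity
  have hη : 0 < η := lt_min one_pos (by positivity)
  have hη1 : η ≤ 1 := min_le_left _ _
  choose p q hpq hflux using fun k => hl k η hη
  -- the times at which everything is close
  have hτ : Tendsto (fun t : ℝ => (1 + t)⁻¹) (𝓝[>] 0) (𝓝 1) := tendsto_nhdsWithin_of_tendsto_nhds
    ((((continuous_const (y := (1:ℝ))).add continuous_id).continuousAt.inv₀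
      (by norm_num : (fun t : ℝ => (1:ℝ) + id t) 0 ≠ 0)).tendsto.trans (by simp))
  obtain ⟨z0, hz0, hz0'⟩ : ∃ z0 ∈ Ico (0:ℝ) 1, ∀ z ∈ Ioo z0 1, ∀ k,
      l k - η ≤ flux (p k) (q k) (slice D k z) ∧ sliceArea D k z ≤ m k + η := by
    have h1 : ∀ᶠ z in 𝓝[<] (1:ℝ), ∀ k,
        l k - η ≤ flux (p k) (q k) (slice D k z) ∧ sliceArea D k z ≤ m k + η := by
      refine eventually_all.2 fun k => (hflux k).and ?_
      filter_upwards [(tendsto_areaExt_faceArea hdown k).eventually
        (eventually_lt_nhds (show m k < m k + η by linarith)),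
        Ioo_mem_nhdsLT (show (0:ℝ) < 1 by norm_num)] with z hz h01
      rw [areaExt_eq h01.1.le] at hz
      exact hz.le
    obtain ⟨l0, hl0, hsub⟩ := mem_nhdsLT_iff_exists_Ioo_subset.1 h1
    exact ⟨max l0 0, ⟨le_max_right _ _, max_lt hl0 one_pos⟩,
      fun z hz => hsub ⟨(le_max_left _ _).trans_lt hz.1, hz.2⟩⟩
  set A : ℝ := (∑ k, β k * |l k - η|) + |P| * ((∑ k, β k) - b) with hA
  have hev : ∀ᶠ t in 𝓝[>] (0:ℝ), (0 < t ∧ t < 1) ∧ z0 < (1 + t)⁻¹ ∧ 2 * t < δ ∧
      2 * A * t ≤ ε ∧ ∀ w, |w - v| ≤ 2 * t →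
        P + d * (w - v) - η * |w - v| - K * max (v - w) 0 ≤ φ w := by
    obtain ⟨r, hr, hball⟩ := Metric.eventually_nhds_iff.1 (hφ η hη)
    have ht0 : Tendsto (fun t : ℝ => t) (𝓝[>] 0) (𝓝 0) :=
      tendsto_nhdsWithin_of_tendsto_nhds tendsto_id
    filter_upwards [Ioo_mem_nhdsGT (show (0:ℝ) < 1 by norm_num),
      hτ.eventually (eventually_gt_nhds hz0.2),
      ht0.eventually (eventually_lt_nhds (half_pos hδ)),
      ht0.eventually (eventually_lt_nhds (half_pos hr)),
      ((ht0.const_mul (2 * A)).eventually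
        (eventually_le_nhds (show 2 * A * 0 < ε by simpa using hε)))] with t h1 h2 h3 h4 h5
    exact ⟨h1, h2, by linarith, h5, fun w hw => hball (by rw [Real.dist_eq]; linarith)⟩
  obtain ⟨t, ⟨ht0, ht1⟩, hzt, htδ, htA, hφt⟩ := hev.exists
  set τ := (1 + t)⁻¹ with hτd
  have hτ1 : τ ≤ 1 := inv_le_one_of_one_le₀ (by linarith)
  have hτ' : (1 + t) * (1 - τ) = t := by rw [hτd]; field_simp; ring
  set w : Fin 3 → ℝ := fun k => (volume (stretchSet D k (1 + t))).toReal with hwd
  have hmem : ∀ z ∈ Ioo τ 1, z ∈ Ioo z0 1 ∧ z ∈ Ico (0:ℝ) 1 := fun z hz =>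
    ⟨⟨hzt.trans hz.1, hz.2⟩, ⟨hz0.1.trans (hzt.trans hz.1).le, hz.2⟩⟩
  have hchange : ∀ k, |w k - v - t * (v - m k)| ≤ t * η ∧ |w k - v| ≤ 2 * t ∧
      max (v - w k) 0 ≤ t * η := fun k => by
    have hi := integrable_sliceArea hD hdown.1 k
    have hout : ∀ z, (1:ℝ) ≤ z → sliceArea D k z = 0 := fun z hz =>
      sliceArea_eq_zero hdown.1 fun h => absurd h.2 (not_lt.2 hz)
    have hA1 : m k * (1 - τ) ≤ ∫ z in Ici τ, sliceArea D k z :=
      mul_le_integral_Ici hi hout hτ1 fun z hz => faceArea_le_sliceArea hdown k (hmem z hz).2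
    have hA2 : -(m k + η) * (1 - τ) ≤ ∫ z in Ici τ, -sliceArea D k z :=
      mul_le_integral_Ici hi.neg (fun z hz => by simp [hout z hz]) hτ1 fun z hz =>
        neg_le_neg ((hz0' z (hmem z hz).1 k).2)
    rw [integral_neg] at hA2
    have hw : w k = (1 + t) * (v - ∫ z in Ici τ, sliceArea D k z) :=
      volume_stretchSet hD hdown (by linarith) k
    rw [hw]
    exact stretch_volume_change ht0 hτ' hη1 hη.le (faceArea_nonneg_stretch hdown k)
      (faceArea_le_volume_stretch hD hdown k) hv1 hA1 (by linarith)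
  have key : ∀ k, t * (d * (v - m k) + l k - η * (3 + |d| + K)) - t ^ 2 * |l k - η| + P ≤
      φ (w k) + ∫ z in Ici τ, flux (p k) (q k) (slice D k z) := fun k =>
    stretch_step ht0 hτ' (by linarith) hη.le hK (hchange k).1 (hchange k).2.1 (hchange k).2.2
      (mul_le_integral_Ici ((hpq k).toSlice.integrable_fluxS hD hdown.1)
        (fun z hz => fluxS_eq_zero hdown.1 _ _ fun h => absurd h.2 (not_lt.2 hz)) hτ1
        fun z hz => (hz0' z (hmem z hz).1 k).1)
      (hφt (w k) (hchange k).2.1)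
  have hfin := stretch_finite hD hdown hP ht0 hβ hβs hb (Q := fun k => φ (w k))
    (fun k p' hp' => hopt _ p' (measurableSet_stretchSet hD k _)
      (isDownset_stretchSet hdown (by linarith) k) hp'
      ((hchange k).2.1.trans_lt htδ)) hpq
  rw [← hτd] at hfin
  have hsum := Finset.sum_le_sum (s := Finset.univ)
    fun k _ => mul_le_mul_of_nonneg_left (key k) (hβ k)
  have e : ∑ k, β k * (t * (d * (v - m k) + l k - η * (3 + |d| + K)) - t ^ 2 * |l k - η| + P) =
      t * (∑ k, β k * (l k + d * (v - m k))) - t * η * B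
        - t ^ 2 * (∑ k, β k * |l k - η|) + (∑ k, β k) * P := by
    simp only [B, Finset.mul_sum, Finset.sum_mul, ← Finset.sum_sub_distrib,
      ← Finset.sum_add_distrib]
    exact Finset.sum_congr rfl fun k _ => by ring
  rw [e] at hsum
  have h1 : t * (∑ k, β k * (l k + d * (v - m k))) ≤
      t * (η * B + t * (∑ k, β k * |l k - η|) + (1 + t / 2) * (((∑ k, β k) - b) * P)) := by
    have := hsum.trans hfin
    nlinarith
  have h2 := le_of_mul_le_mul_left h1 ht0
  have hb0 : b ≤ ∑ k, β k :=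
    (hb 0).trans (Finset.single_le_sum (fun k _ => hβ k) (Finset.mem_univ 0))
  have h3 : η * B ≤ ε / 2 := by
    calc η * B ≤ ε / (2 * (B + 1)) * (B + 1) := by gcongr; exacts [min_le_right _ _, by linarith]
      _ = ε / 2 := by field_simp
  nlinarith [mul_le_mul_of_nonneg_left (le_abs_self P) (mul_nonneg ht0.le (sub_nonneg.2 hb0)),
    mul_nonneg (mul_nonneg ht0.le (sub_nonneg.2 hb0)) (abs_nonneg P)]

/-- The case of a differentiable comparison function and the planar bound on the last slices. -/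
theorem stretch_deriv (hD : MeasurableSet D) (hdown : IsDownset D) {φ : ℝ → ℝ}
    (hP : RelPerLE D (φ (volume D).toReal)) {δ : ℝ} (hδ : 0 < δ)
    (hopt : ∀ (E : Set R3) (p : ℝ), MeasurableSet E → IsDownset E → RelPerLE E p →
      |(volume E).toReal - (volume D).toReal| < δ → φ (volume E).toReal ≤ p)
    {d : ℝ} (hφ : HasDerivAt φ d (volume D).toReal)
    {β : Fin 3 → ℝ} (hβ : ∀ k, 0 ≤ β k) (hβs : 0 < ∑ k, β k) {b : ℝ} (hb : ∀ k, b ≤ β k)
    (hm : ∀ k, faceArea D k ≤ 1 / 2) :
    ∑ k, β k * (min (Real.sqrt (Real.pi * faceArea D k)) 1 +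
      d * ((volume D).toReal - faceArea D k)) ≤ ((∑ k, β k) - b) * φ (volume D).toReal := by
  refine stretch_sum hD hdown hP hδ hopt le_rfl (fun η hη => ?_) hβ hβs hb
    fun k η hη => exists_end_field hD hdown k (hm k) hη
  have h := (hasDerivAt_iff_isLittleO.1 hφ).def hη
  filter_upwards [h] with w hw
  simp only [Real.norm_eq_abs, smul_eq_mul] at hw
  have := (abs_le.1 hw).1
  simp only [zero_mul, sub_zero]
  linarith [mul_comm (w - (volume D).toReal) d]

end Vale.Agent.P232
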