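import Vale.Agent.P232.FillLine
import Vale.Agent.P232.StretchLimit

/-!
Squeeze a down-set toward a height in one coordinate and fill the freed layer with a planar set
inside its last slice: the volume, and the flux of a field through the new set bounded by the flux
of a pulled back field through the old one.
-/

open MeasureTheory Set Filter Function
open scoped NNReal Topology

namespace Vale.Agent.P232

open Weighted (fl sc)

variable {D : Set R3} {k : Fin 3} {s c δ : ℝ} {B : Set (ℝ × ℝ)}

/-- The squeeze as a map of space. -/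
noncomputable def squeezeMap (k : Fin 3) (s c : ℝ) (x : R3) : R3 :=
  ins k (squeeze s c (x k)) (outL k x).2

/-- The squeezed copy of `D`. -/
noncomputable def lowPart (D : Set R3) (k : Fin 3) (s c : ℝ) : Set R3 :=
  (fun y => ins k (unsqueeze s c (y k)) (outL k y).2) ⁻¹' D

/-- The squeezed copy with the freed layer filled by `B`. -/
noncomputable def fillSet (D : Set R3) (k : Fin 3) (s c : ℝ) (B : Set (ℝ × ℝ)) : Set R3 :=
  lowPart D k s c ∪ cyl k (squeeze s c 1) 1 B

theorem slice_lowPart (k : Fin 3) (s c z : ℝ) :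
    slice (lowPart D k s c) k z = slice D k (unsqueeze s c z) := by
  ext w
  simp [mem_slice, lowPart, ins_apply_self, outL_ins]

theorem squeezeMap_ins (k : Fin 3) (s c z : ℝ) (w : ℝ × ℝ) :
    squeezeMap k s c (ins k z w) = ins k (squeeze s c z) w := by
  simp [squeezeMap, ins_apply_self, outL_ins]

theorem squeeze_mono (hc0 : 0 ≤ c) : Monotone (squeeze s c) := fun a b h =>
  min_le_min h (by nlinarith [mul_le_mul_of_nonneg_left h hc0])

theorem squeeze_lt (hc0 : 0 < c) {a b : ℝ} (h : a < b) : squeeze s c a < squeeze s c b :=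
  min_lt_min h (by nlinarith [mul_lt_mul_of_pos_left h hc0])

theorem unsqueeze_mono (hc0 : 0 < c) : Monotone (unsqueeze s c) := fun a b h =>
  max_le_max h (by nlinarith [mul_le_mul_of_nonneg_left h (inv_pos.2 hc0).le])

section

variable (hc0 : 0 < c) (hc : c ≤ 1) (hs : 0 ≤ s) (hs1 : s ≤ 1)

theorem squeeze_one_mem (hc0 : 0 < c) (hc : c ≤ 1) (hs : 0 ≤ s) (hs1 : s ≤ 1) :
    squeeze s c 1 = s + c * (1 - s) ∧ squeeze s c 1 ∈ Icc (0 : ℝ) 1 :=
  ⟨squeeze_of_ge hc hs1,
    squeeze_nonneg_of_nonneg hs hc0.le hc zero_le_one, min_le_left _ _⟩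

include hc0 hc hs hs1

omit hs1 in
theorem lowPart_subset_cell (hdown : IsDownset D) : lowPart D k s c ⊆ cell := fun y hy => by
  have h := ins_mem_cell.1 (hdown.1 hy)
  rw [← ins_outL k y, ins_mem_cell]
  refine ⟨?_, h.2⟩
  have e : (outL k y).1 = y k := by simp [outL_apply]
  rw [e, ← squeeze_unsqueeze (s := s) hc0 hc (z := y k)]
  exact ⟨squeeze_nonneg_of_nonneg hs hc0.le hc h.1.1, (min_le_left _ _).trans_lt h.1.2⟩

theorem fillSet_subset_cell (hdown : IsDownset D) (hB : IsSqDown B) :
    fillSet D k s c B ⊆ cell :=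
  union_subset (lowPart_subset_cell hc0 hc hs hdown)
    (cyl_subset_cell hB.sub (squeeze_one_mem hc0 hc hs hs1).2.1 le_rfl)

omit hs hs1 in
theorem disjoint_lowPart_cyl (hdown : IsDownset D) :
    Disjoint (lowPart D k s c) (cyl k (squeeze s c 1) 1 B) := by
  refine disjoint_left.2 fun y hy hy' => ?_
  have h := (ins_mem_cell.1 (hdown.1 hy)).1.2
  have := squeeze_lt (s := s) hc0 h
  rw [squeeze_unsqueeze hc0 hc] at this
  exact absurd hy'.1.1 (not_le.2 this)

omit hc0 hc hs hs1 in
theorem measurableSet_fillSet (hD : MeasurableSet D) (hB : IsSqDown B) :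
    MeasurableSet (fillSet D k s c B) :=
  (((measurable_ins k).comp ((show Measurable fun y : R3 => unsqueeze s c (y k) by
      unfold unsqueeze; fun_prop).prodMk
    (measurable_snd.comp (outL k).continuous.measurable))) hD).union
    (measurableSet_cyl hB.meas k _ _)

theorem isDownset_fillSet (hdown : IsDownset D) (hB : IsSqDown B)
    (hBe : B ⊆ endSlice D k) : IsDownset (fillSet D k s c B) := by
  refine ⟨fillSet_subset_cell hc0 hc hs hs1 hdown hB, fun x hx y hy h => ?_⟩
  have hy' := ins_mem_cell.1 ((ins_outL k y).symm ▸ hy)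
  have e : (outL k y).1 = y k := by simp [outL_apply]
  rw [e] at hy'
  have hw1 : (outL k y).2.1 ≤ (outL k x).2.1 := by simpa [outL_apply] using h _
  have hw2 : (outL k y).2.2 ≤ (outL k x).2.2 := by simpa [outL_apply] using h _
  rcases lt_or_ge (unsqueeze s c (y k)) 1 with hlt | hge
  · refine Or.inl (slice_downset hdown (z := unsqueeze s c (y k)) ?_ hy'.2 hw1 hw2)
    have h0 : 0 ≤ unsqueeze s c (y k) := hy'.1.1.trans (le_max_left _ _)
    rcases hx with hx | hx
    · exact slice_anti hdown h0 (unsqueeze_mono hc0 (h k)) hx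
    · exact endSlice_subset hdown k ⟨h0, hlt⟩ (hBe hx.2)
  · have htop : squeeze s c 1 ≤ y k := by
      have := squeeze_mono (s := s) hc0.le hge
      rwa [squeeze_unsqueeze hc0 hc] at this
    refine Or.inr ⟨⟨htop, hy'.1.2⟩, ?_⟩
    rcases hx with hx | hx
    · have h1 := (ins_mem_cell.1 (hdown.1 hx)).1.2
      exact absurd ((unsqueeze_mono hc0 (h k)).trans_lt h1) (not_lt.2 hge)
    · exact hB.down _ hx.2 _ hy'.2.1.1 hy'.2.2.1 hw1 hw2

omit hs1 in
/-- The change of variables on the squeezed copy. -/
theorem setIntegral_lowPart (hD : MeasurableSet D) (hdown : IsDownset D)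
    {g : ℝ × (ℝ × ℝ) → ℝ} (hg : Measurable g) {M : ℝ} (hb : ∀ u, |g u| ≤ M) :
    ∫ x in lowPart D k s c, g (outL k x) =
      ∫ x in D, slope s c (x k) * g (squeeze s c (x k), (outL k x).2) := by
  have hsub := lowPart_subset_cell (k := k) hc0 hc hs hdown
  have hLm : MeasurableSet (lowPart D k s c) :=
    ((measurable_ins k).comp ((show Measurable fun y : R3 => unsqueeze s c (y k) by
      unfold unsqueeze; fun_prop).prodMk
      (measurable_snd.comp (outL k).continuous.measurable))) hD
  set g' : ℝ × (ℝ × ℝ) → ℝ := fun u => g (squeeze s c u.1, u.2) with hg'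
  have hg'm : Measurable g' :=
    hg.comp (((show Measurable (squeeze s c) by unfold squeeze; fun_prop).comp
      measurable_fst).prodMk measurable_snd)
  set h : ℝ × (ℝ × ℝ) → ℝ := fun u => slope s c u.1 * g' u with hh
  have hhm : Measurable h := ((measurable_slope s c).comp measurable_fst).mul hg'm
  have hhb : ∀ u, |h u| ≤ 1 * M := fun u => by
    rw [hh, abs_mul]
    exact mul_le_mul (abs_slope_le hc0.le hc) (hb _) (abs_nonneg _) zero_le_one
  have e2 : (∫ x in D, slope s c (x k) * g (squeeze s c (x k), (outL k x).2)) =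
      ∫ z, slope s c z * ∫ w in slice D k z, g' (z, w) := by
    have e : ∀ x : R3, slope s c (x k) * g (squeeze s c (x k), (outL k x).2) = h (outL k x) :=
      fun x => by simp [hh, hg', outL_apply]
    simp only [e]
    rw [setIntegral_eq_slices (k := k) hD (integrableOn_outL hdown.1 k hhm hhb)]
    simp [hh, outL_ins, integral_const_mul]
  rw [e2, setIntegral_eq_slices (k := k) hLm (integrableOn_outL hsub k hg hb),
    ← integral_comp_unsqueeze hc0 hc
      (integrable_slice_integral hD hdown.1 k hg'm fun u => hb _)]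
  simp only [outL_ins, slice_lowPart, hg', squeeze_unsqueeze hc0 hc]

/-- The volume of the filled set. -/
theorem volume_fillSet (hD : MeasurableSet D) (hdown : IsDownset D) (hB : IsSqDown B) :
    (volume (fillSet D k s c B)).toReal =
      (∫ z, slope s c z * sliceArea D k z) + (1 - squeeze s c 1) * volume.real B := by
  have htop := (squeeze_one_mem hc0 hc hs hs1).2
  have hLc := lowPart_subset_cell (k := k) hc0 hc hs hdown
  have hCc := cyl_subset_cell (k := k) hB.sub htop.1 le_rfl
  have hone : ∀ {S : Set R3}, S ⊆ cell → IntegrableOn (fun _ => (1 : ℝ)) S := fun hS =>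
    integrableOn_const ((measure_mono hS).trans_lt (by rw [volume_cell]; simp)).ne
  have h1 := setIntegral_lowPart (k := k) hc0 hc hs hD hdown (g := fun _ => (1 : ℝ))
    measurable_const (fun _ => abs_one.le)
  have h2 := setIntegral_cyl hB.meas k (squeeze s c 1) 1 (hone hCc)
  have h3 := setIntegral_union (disjoint_lowPart_cyl (B := B) hc0 hc hdown)
    (measurableSet_cyl hB.meas k (squeeze s c 1) 1) (hone hLc) (hone hCc)
  rw [h1, h2] at h3
  simp only [setIntegral_const, smul_eq_mul, mul_one] at h3
  rw [Real.volume_real_Ico_of_le htop.2] at h3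
  rw [fillSet]
  refine h3.trans ?_
  congr 1
  have hi : IntegrableOn (fun x : R3 => slope s c ((outL k x).1)) D :=
    integrableOn_outL hdown.1 k ((measurable_slope s c).comp measurable_fst)
      fun u => abs_slope_le hc0.le hc
  simp only [outL_apply] at hi
  rw [setIntegral_eq_slices (k := k) hD hi]
  simp [ins_apply_self, sliceArea, Measure.real, mul_comm]

end

/-- The soft slope: `1` below `s`, `c` above `s + δ`. -/
noncomputable def soft (s c δ z : ℝ) : ℝ :=
  1 - (1 - c) * if s = 0 then 1 else clamp01 (δ⁻¹ * (z - s))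

/-- The multipliers of the pulled back field. -/
noncomputable def softW (k : Fin 3) (s c δ : ℝ) (x : R3) (i : Fin 3) : ℝ :=
  if i = k then 1 else soft s c δ (x k)

/-- The pulled back field before the multipliers. -/
noncomputable def pullCut (Y : R3 → R3) (k : Fin 3) (s c δ : ℝ) (x : R3) : R3 :=
  WithLp.toLp 2 fun i =>
    (if i = k then lowCut 1 δ (x k) else 1) * Y (squeezeMap k s c x) i

theorem abs_soft_le (hc0 : 0 ≤ c) (hc : c ≤ 1) (z : ℝ) : |soft s c δ z| ≤ 1 := by
  have h1 : (1 - c) * (if s = 0 then 1 else clamp01 (δ⁻¹ * (z - s))) ≤ 1 - c := by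
    refine mul_le_of_le_one_right (sub_nonneg.2 hc) ?_
    split_ifs <;> [exact le_rfl; exact (clamp01_mem _).2]
  have h2 : 0 ≤ (1 - c) * (if s = 0 then 1 else clamp01 (δ⁻¹ * (z - s))) := by
    refine mul_nonneg (sub_nonneg.2 hc) ?_
    split_ifs <;> [exact zero_le_one; exact (clamp01_mem _).1]
  exact abs_le.2 ⟨by rw [soft]; linarith, by rw [soft]; linarith⟩

theorem exists_lipschitz_soft (s c δ : ℝ) : ∃ K, LipschitzWith K (soft s c δ) := by
  unfold soft
  by_cases h : s = 0
  · simp only [h, if_true]
    exact ⟨0, LipschitzWith.const _⟩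
  · simp only [h, if_false]
    exact ⟨_, (LipschitzWith.const (1 : ℝ)).sub ((lipschitzWith_smul (1 - c)).comp
      (lipschitz_clamp01.comp ((lipschitzWith_smul δ⁻¹).comp
        (LipschitzWith.id.sub (LipschitzWith.const s)))))⟩

theorem isWeight_softW (hc0 : 0 ≤ c) (hc : c ≤ 1) :
    Weighted.IsWeight (softW k s c δ) := by
  refine ⟨fun i => ?_, 1, zero_le_one, fun x i => ?_⟩
  · by_cases h : i = k
    · simp only [softW, h, if_true]
      exact ⟨0, LipschitzWith.const _⟩
    · simp only [softW, h, if_false]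
      obtain ⟨K, hK⟩ := exists_lipschitz_soft s c δ
      exact ⟨_, hK.comp (Weighted.lip_coord LipschitzWith.id k)⟩
  · unfold softW
    split_ifs <;> [simp; exact abs_soft_le hc0 hc _]

theorem pullCut_apply (Y : R3 → R3) (k : Fin 3) (s c δ : ℝ) (x : R3) (i : Fin 3) :
    pullCut Y k s c δ x i = (if i = k then lowCut 1 δ (x k) else 1) * Y (squeezeMap k s c x) i :=
  rfl

theorem norm_pullCut_le (Y : R3 → R3) (k : Fin 3) (s c δ : ℝ) (x : R3) :
    ‖pullCut Y k s c δ x‖ ≤ ‖Y (squeezeMap k s c x)‖ := by
  rw [← sq_le_sq₀ (norm_nonneg _) (norm_nonneg _), EuclideanSpace.norm_sq_eq,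
    EuclideanSpace.norm_sq_eq]
  refine Finset.sum_le_sum fun i _ => ?_
  rw [pullCut_apply, norm_mul, mul_pow]
  refine mul_le_of_le_one_left (by positivity) ?_
  split_ifs
  · simpa [lowCut] using (sq_le_one_iff_abs_le_one _).2 (abs_clamp01_le _)
  · simp

theorem squeezeMap_apply_succAbove (k : Fin 3) (s c : ℝ) (x : R3) (j : Fin 2) :
    squeezeMap k s c x (k.succAbove j) = x (k.succAbove j) := by
  fin_cases j <;> simp [squeezeMap, ins_apply_succAbove, outL_apply]

theorem pullCut_tangent (hc : c ≤ 1) (hs : 0 ≤ s) {Y : R3 → R3}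
    (ht : ∀ x i, x i = 0 ∨ x i = 1 → Y x i = 0) {x : R3} {i : Fin 3} (h : x i = 0 ∨ x i = 1) :
    pullCut Y k s c δ x i = 0 := by
  rw [pullCut_apply]
  rcases Fin.eq_self_or_eq_succAbove k i with rfl | ⟨j, rfl⟩
  · rcases h with h | h
    · refine mul_eq_zero_of_right _ (ht _ _ (Or.inl ?_))
      simp [squeezeMap, ins_apply_self, h, squeeze_of_le hc hs]
    · simp [h, lowCut, clamp01_of_nonpos]
  · rw [ht _ (k.succAbove j) (by rwa [squeezeMap_apply_succAbove]), mul_zero]

theorem exists_lipschitz_squeezeMap (hc0 : 0 ≤ c) (hc : c ≤ 1) :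
    ∃ N, LipschitzWith N (squeezeMap k s c) := by
  have h1 : LipschitzWith 1 (squeeze s c) := lipschitz_squeeze hc0 hc
  have h2 : LipschitzWith 1 fun u : ℝ × (ℝ × ℝ) => (squeeze s c u.1, u.2) := by
    refine LipschitzWith.of_dist_le_mul fun a b => ?_
    rw [NNReal.coe_one, one_mul, Prod.dist_eq, Prod.dist_eq]
    have h := h1.dist_le_mul a.1 b.1
    rw [NNReal.coe_one, one_mul] at h
    exact max_le_max h le_rfl
  have h3 : squeezeMap k s c =
      (fun u => insL k u) ∘ (fun u : ℝ × (ℝ × ℝ) => (squeeze s c u.1, u.2)) ∘ fun x => outL k x := by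
    funext x
    simp [squeezeMap, insL_apply, outL_apply]
  exact ⟨_, h3 ▸ (insL k).lipschitz.comp (h2.comp (outL k).lipschitz)⟩

theorem exists_lipschitz_pullCut (hc0 : 0 ≤ c) (hc : c ≤ 1) {Y : R3 → R3} {K : ℝ≥0}
    (hY : LipschitzWith K Y) {A : ℝ} (hA : 0 ≤ A) (hn : ∀ x, ‖Y x‖ ≤ A) :
    ∃ L, LipschitzWith L (pullCut Y k s c δ) := by
  obtain ⟨N, hN⟩ := exists_lipschitz_squeezeMap (k := k) (s := s) hc0 hc
  refine Weighted.exists_lip_toLp fun i => ?_
  have hcomp : LipschitzWith (K * N) fun x => Y (squeezeMap k s c x) i :=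
    Weighted.lip_coord (hY.comp hN) i
  by_cases h : i = k
  · subst h
    simp only [if_true]
    have hcut : LipschitzWith _ fun x : R3 => lowCut 1 δ (x i) :=
      (lipschitz_clamp01.comp ((lipschitzWith_smul δ⁻¹).comp
        ((LipschitzWith.const (1 : ℝ)⁻¹).sub LipschitzWith.id))).comp
        (Weighted.lip_coord LipschitzWith.id i)
    exact Weighted.exists_lip_mul hcut hcomp zero_le_one hA (fun x => abs_clamp01_le _)
      fun x => (PiLp.norm_apply_le _ i).trans (hn _)
  · simp only [h, if_false, one_mul]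
    exact ⟨_, hcomp⟩

/-- A planar field of length `A` has flux at most `A` times any bound for unit fields. -/
theorem flux_le_mul {p q : ℝ × ℝ → ℝ} (hp : ∃ K, LipschitzWith K p) (hq : ∃ K, LipschitzWith K q)
    {A : ℝ} (hA : 0 < A) (hn : ∀ w, p w ^ 2 + q w ^ 2 ≤ A ^ 2)
    (h1 : ∀ w : ℝ × ℝ, w.1 = 0 ∨ w.1 = 1 → p w = 0)
    (h2 : ∀ w : ℝ × ℝ, w.2 = 0 ∨ w.2 = 1 → q w = 0) {l : ℝ}
    (hl : ∀ p q, IsSqField p q → flux p q B ≤ l) : flux p q B ≤ A * l := by
  obtain ⟨K, hK⟩ := hp
  obtain ⟨L, hL⟩ := hq
  have h : IsSqField (fun w => A⁻¹ * p w) (fun w => A⁻¹ * q w) :=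
    ⟨⟨_, (lipschitzWith_smul A⁻¹).comp hK⟩, ⟨_, (lipschitzWith_smul A⁻¹).comp hL⟩, fun w => by
      calc (A⁻¹ * p w) ^ 2 + (A⁻¹ * q w) ^ 2 = A⁻¹ ^ 2 * (p w ^ 2 + q w ^ 2) := by ring
        _ ≤ A⁻¹ ^ 2 * A ^ 2 := mul_le_mul_of_nonneg_left (hn w) (sq_nonneg _)
        _ = 1 := by rw [← mul_pow, inv_mul_cancel₀ hA.ne', one_pow],
      fun w hw => by simp [h1 w hw], fun w hw => by simp [h2 w hw]⟩
  have h3 := hl _ _ h
  have e : flux (fun w => A⁻¹ * p w) (fun w => A⁻¹ * q w) B = A⁻¹ * flux p q B := by
    rw [flux, flux, ← integral_const_mul]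
    refine integral_congr_ae (ae_of_all _ fun w => ?_)
    simp [dv2, deriv_const_mul_field, mul_add]
  rw [e, inv_mul_le_iff₀ hA] at h3
  exact h3

/-- The difference of two integrals of line derivatives over a down-set is concentrated on the
cylinder over the last slice when the integrands agree below `1 - δ`. -/
theorem setIntegral_lineD_sub_le (hD : MeasurableSet D) (hdown : IsDownset D) (k : Fin 3)
    {F₁ F₂ : R3 → ℝ} {K₁ K₂ : ℝ≥0} (h₁ : LipschitzWith K₁ F₁) (h₂ : LipschitzWith K₂ F₂)
    {L : ℝ} (hL : ∀ u, |lineD k F₂ u - lineD k F₁ u| ≤ L) {δ : ℝ} (hδ : δ ∈ Ioc (0 : ℝ) 1)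
    (he : ∀ z w, z < 1 - δ → F₁ (ins k z w) = F₂ (ins k z w)) :
    (∫ x in D, lineD k F₂ (outL k x)) - ∫ x in D, lineD k F₁ (outL k x) ≤
      (∫ w in endSlice D k, ((F₂ (ins k 1 w) - F₂ (ins k 0 w)) -
        (F₁ (ins k 1 w) - F₁ (ins k 0 w)))) +
        L * δ * (areaExt D k (1 - δ) - faceArea D k) := by
  have hE := isSqDown_endSlice hD hdown k
  set T := cyl k 0 1 (endSlice D k) with hT
  have hTD : T ⊆ D := fun y hy => by
    have h := endSlice_subset hdown k hy.1 hy.2
    have e : ins k (y k) (outL k y).2 = y := by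
      conv_rhs => rw [← ins_outL k y]
      simp [outL_apply]
    rw [mem_slice, e] at h
    exact h
  have hTm : MeasurableSet T := measurableSet_cyl hE.meas k 0 1
  have hm1 := measurable_lineD h₁.continuous k
  have hm2 := measurable_lineD h₂.continuous k
  have hb1 := abs_lineD_le (k := k) fun w => lipschitz_ins_line h₁ k w
  have hb2 := abs_lineD_le (k := k) fun w => lipschitz_ins_line h₂ k w
  have i1 := integrableOn_outL hdown.1 k hm1 hb1
  have i2 := integrableOn_outL hdown.1 k hm2 hb2
  have i12 : IntegrableOn (fun x => lineD k F₂ (outL k x) - lineD k F₁ (outL k x)) D := i2.sub i1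
  rw [← integral_sub i2 i1, ← add_sub_cancel (∫ x in T, (lineD k F₂ (outL k x) - lineD k F₁ (outL k x)))
    (∫ x in D, (lineD k F₂ (outL k x) - lineD k F₁ (outL k x))),
    ← setIntegral_sdiff (f := fun x => lineD k F₂ (outL k x) - lineD k F₁ (outL k x)) hTm i12 hTD]
  refine add_le_add (le_of_eq ?_) ?_
  · rw [integral_sub (i2.mono_set hTD) (i1.mono_set hTD),
      setIntegral_cyl_lineD hE.meas hE.sub k h₂ le_rfl zero_le_one le_rfl,
      setIntegral_cyl_lineD hE.meas hE.sub k h₁ le_rfl zero_le_one le_rfl]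
    have hi : ∀ {F : R3 → ℝ} {K : ℝ≥0}, LipschitzWith K F →
        IntegrableOn (fun w => F (ins k 1 w) - F (ins k 0 w)) (endSlice D k) := fun {F K} hF =>
      IntegrableOn.of_bound ((measure_mono hE.sub).trans_lt sq_finite)
        (((hF.continuous.comp ((insL k).continuous.comp (continuous_const.prodMk continuous_id))).sub
          (hF.continuous.comp ((insL k).continuous.comp
            (continuous_const.prodMk continuous_id)))).aestronglyMeasurable) K
        (ae_of_all _ fun w => by
          have := (lipschitz_ins_line hF k w).dist_le_mul 1 0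
          simpa [Real.dist_eq] using this)
    rw [integral_sub (hi h₂) (hi h₁)]
  · set g : ℝ × (ℝ × ℝ) → ℝ := fun u => lineD k F₂ u - lineD k F₁ u with hg
    have hgm : Measurable g := hm2.sub hm1
    show ∫ x in D \ T, g (outL k x) ≤ _
    rw [setIntegral_eq_slices (k := k) (hD.diff hTm)
      (integrableOn_outL (sdiff_subset.trans hdown.1) k hgm hL)]
    have hL0 : 0 ≤ L := (abs_nonneg _).trans (hL 0)
    calc ∫ z, ∫ w in slice (D \ T) k z, g (outL k (ins k z w))
        ≤ ∫ z, (Ico (1 - δ) 1).indicator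
            (fun _ => L * (areaExt D k (1 - δ) - faceArea D k)) z := by
          refine integral_mono (by
            simpa [outL_ins] using
              integrable_slice_integral (hD.diff hTm) (sdiff_subset.trans hdown.1) k hgm hL)
            ((integrableOn_const (by simp)).integrable_indicator measurableSet_Ico) fun z => ?_
          simp only [outL_ins]
          by_cases hz : z ∈ Ico (1 - δ) 1
          · rw [indicator_of_mem hz]
            have hz0 : z ∈ Ico (0 : ℝ) 1 := ⟨by linarith [hz.1, hδ.2], hz.2⟩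
            refine ((le_abs_self _).trans (abs_slice_integral_le
              (sdiff_subset.trans hdown.1) k hL z)).trans (mul_le_mul_of_nonneg_left ?_ hL0)
            have es : slice (D \ T) k z = slice D k z \ endSlice D k := by
              ext w
              simp [T, mem_slice, cyl, ins_apply_self, outL_ins, hz0.1, hz0.2]
            have : sliceArea (D \ T) k z = sliceArea D k z - faceArea D k := by
              rw [sliceArea, es, ← Measure.real, measureReal_sdiff (endSlice_subset hdown k hz0)
                hE.meas (volume_slice_ne_top hdown.1 k z), volume_endSlice hD hdown]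
              rfl
            rw [this, ← areaExt_eq hz0.1]
            linarith [areaExt_antitone hdown k hz.1]
          · rw [indicator_of_notMem hz]
            by_cases h1 : z < 1
            · have hlt : z < 1 - δ := not_le.1 fun h => hz ⟨h, h1⟩
              refine (setIntegral_eq_zero_of_forall_eq_zero fun w _ => ?_).le
              have : (fun t => F₁ (ins k t w)) =ᶠ[𝓝 z] fun t => F₂ (ins k t w) :=
                (Iio_mem_nhds hlt |> Filter.mem_of_superset <| fun t ht => he t w ht)
              simp only [hg, lineD, this.deriv_eq, sub_self]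
            · rw [slice_eq_empty (sdiff_subset.trans hdown.1) fun h => h1 h.2]
              simp
      _ = L * δ * (areaExt D k (1 - δ) - faceArea D k) := by
          rw [integral_indicator measurableSet_Ico, setIntegral_const, smul_eq_mul,
            Real.volume_real_Ico_of_le (by linarith [hδ.1]), sub_sub_cancel]
          ring

/-- The flux through the filled set against the flux of the pulled back field. -/
theorem fill_pull (hD : MeasurableSet D) (hdown : IsDownset D) (hc0 : 0 < c) (hc : c ≤ 1)
    (hs : 0 ≤ s) (hs1 : s ≤ 1) (hB : IsSqDown B) (hBe : B ⊆ endSlice D k) {Y : R3 → R3} {K : ℝ≥0}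
    (hY : LipschitzWith K Y) {A : ℝ} (hA : 0 < A) (hn : ∀ x, ‖Y x‖ ≤ A)
    (ht : ∀ x i, x i = 0 ∨ x i = 1 → Y x i = 0) {l : ℝ}
    (hl : ∀ p q, IsSqField p q → flux p q B ≤ l) {ε : ℝ} (hε : 0 < ε) :
    ∃ δ₀ > 0, ∀ δ ∈ Ioo 0 δ₀, fl (fillSet D k s c B) Y ≤
      fl D (sc (softW k s c δ) (pullCut Y k s c δ)) + (1 - squeeze s c 1) * A * l
        + A * (faceArea D k - volume.real B) + ε := by
  set top := squeeze s c 1 with htopd
  have htop := (squeeze_one_mem hc0 hc hs hs1).2
  have hE := isSqDown_endSlice hD hdown k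
  have hLc := lowPart_subset_cell (k := k) hc0 hc hs hdown
  have hCc := cyl_subset_cell (k := k) hB.sub htop.1 le_rfl
  have hFc := fillSet_subset_cell (k := k) hc0 hc hs hs1 hdown hB
  -- the parts of the divergence
  have hYk := Weighted.lip_coord hY k
  obtain ⟨N, hNp, hNq⟩ := exists_lipschitz_hor hY k
  set f₁ := lineD k fun y => Y y k with hf₁
  set f₂ := dvS (horFst k Y) (horSnd k Y) with hf₂
  have hf₁m : Measurable f₁ := measurable_lineD hYk.continuous k
  have hf₁b : ∀ u, |f₁ u| ≤ K := abs_lineD_le fun w => lipschitz_ins_line hYk k w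
  have hf₂m : Measurable f₂ := measurable_dvS hNp.continuous hNq.continuous
  have hf₂b : ∀ u, |f₂ u| ≤ (N + N : ℝ) := fun u => norm_dvS_le hNp hNq u
  -- the pulled back scalar functions
  set F₂ : R3 → ℝ := fun x => Y (squeezeMap k s c x) k with hF₂
  set h₂ : ℝ × (ℝ × ℝ) → ℝ := fun u => f₂ (squeeze s c u.1, u.2) with hh₂
  have hh₂m : Measurable h₂ :=
    hf₂m.comp (((show Measurable (squeeze s c) by unfold squeeze; fun_prop).comp
      measurable_fst).prodMk measurable_snd)
  obtain ⟨K₂, hK₂⟩ : ∃ K₂, LipschitzWith K₂ F₂ := by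
    obtain ⟨M, hM⟩ := exists_lipschitz_squeezeMap (k := k) (s := s) hc0.le hc
    exact ⟨_, Weighted.lip_coord (hY.comp hM) k⟩
  have hline₂ : ∀ w, LipschitzWith K fun z => F₂ (ins k z w) := fun w => by
    have h := (lipschitz_ins_line hYk k w).comp (lipschitz_squeeze (s := s) hc0.le hc)
    rw [mul_one] at h
    simpa [F₂, squeezeMap_ins, Function.comp_def] using h
  have hF₂b : ∀ x, |F₂ x| ≤ A := fun x => (PiLp.norm_apply_le _ k).trans (hn _)
  -- the choice of the cut
  obtain ⟨δ₁, hδ₁, hδ₁'⟩ : ∃ δ₁ > 0, ∀ δ ∈ Ioo 0 δ₁,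
      δ ≤ 1 ∧ areaExt D k (1 - δ) ≤ faceArea D k + ε / (4 * (A + 1)) := by
    have h1 : ∀ᶠ z in 𝓝[<] (1 : ℝ), 0 ≤ z ∧
        areaExt D k z ≤ faceArea D k + ε / (4 * (A + 1)) :=
      (eventually_nhdsWithin_of_eventually_nhds (eventually_ge_nhds zero_lt_one)).and
        ((tendsto_areaExt_faceArea hdown k).eventually (eventually_le_nhds
          (show faceArea D k < faceArea D k + ε / (4 * (A + 1)) by
            linarith [show 0 < ε / (4 * (A + 1)) by positivity])))
    obtain ⟨a, ha, hsub⟩ := mem_nhdsLT_iff_exists_Ioo_subset.1 h1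
    refine ⟨1 - a, sub_pos.2 ha, fun δ hδ => ?_⟩
    have := hsub (show 1 - δ ∈ Ioo a 1 from ⟨by linarith [hδ.2], by linarith [hδ.1]⟩)
    exact ⟨by linarith [this.1], this.2⟩
  set M := 2 * (K : ℝ) + 2 * N with hM
  refine ⟨min δ₁ (ε / (4 * (M + 1))), lt_min hδ₁ (by positivity), fun δ hδ => ?_⟩
  obtain ⟨hδ1, harea⟩ := hδ₁' δ ⟨hδ.1, hδ.2.trans_le (min_le_left _ _)⟩
  have hδ0 := hδ.1
  set F₁ : R3 → ℝ := fun x => lowCut 1 δ (x k) * F₂ x with hF₁
  -- the filled set
  have hfl : fl (fillSet D k s c B) Y =
      (∫ x in D, slope s c (x k) * f₁ (squeeze s c (x k), (outL k x).2)) +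
      (∫ x in D, slope s c (x k) * h₂ (outL k x)) +
      (∫ w in B, (Y (ins k 1 w) k - Y (ins k top w) k)) +
      ∫ x in cyl k top 1 B, f₂ (outL k x) := by
    have ha := integrableOn_outL hFc k hf₁m hf₁b
    have hb := integrableOn_outL hFc k hf₂m hf₂b
    rw [fl, setIntegral_congr_ae (measurableSet_fillSet hD hB)
        ((ae_dv_split hY k).mono fun x hx _ => hx),
      integral_add ha hb, fillSet,
      setIntegral_union (disjoint_lowPart_cyl hc0 hc hdown) (measurableSet_cyl hB.meas k _ _)
        (integrableOn_outL hLc k hf₁m hf₁b) (integrableOn_outL hCc k hf₁m hf₁b),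
      setIntegral_union (disjoint_lowPart_cyl hc0 hc hdown) (measurableSet_cyl hB.meas k _ _)
        (integrableOn_outL hLc k hf₂m hf₂b) (integrableOn_outL hCc k hf₂m hf₂b),
      setIntegral_lowPart hc0 hc hs hD hdown hf₁m hf₁b,
      setIntegral_lowPart hc0 hc hs hD hdown hf₂m hf₂b,
      setIntegral_cyl_lineD hB.meas hB.sub k hYk htop.1 htop.2 le_rfl]
    simp only [hh₂, outL_apply]
    ring
  -- the layer
  have hcap : ∫ x in cyl k top 1 B, f₂ (outL k x) ≤ (1 - top) * A * l := by
    rw [setIntegral_cyl hB.meas k top 1 (integrableOn_outL hCc k hf₂m hf₂b)]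
    simp only [outL_ins]
    calc ∫ z in Ico top 1, ∫ w in B, f₂ (z, w) ≤ ∫ _z in Ico top 1, A * l := by
          refine setIntegral_mono_on ?_ (integrableOn_const (by simp)) measurableSet_Ico
            fun z _ => ?_
          · refine IntegrableOn.of_bound measure_Ico_lt_top
              ((hf₂m.stronglyMeasurable.integral_prod_right'
                (ν := volume.restrict B)).aestronglyMeasurable) (((N : ℝ) + N) * volume.real B)
              (ae_of_all _ fun z => ?_)
            exact norm_setIntegral_le_of_norm_le_const ((measure_mono hB.sub).trans_lt sq_finite)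
              fun w _ => (Real.norm_eq_abs _).trans_le (hf₂b _)
          · refine flux_le_mul (p := fun w => horFst k Y (z, w))
              (q := fun w => horSnd k Y (z, w)) ⟨_, hNp.comp (LipschitzWith.prodMk_left z)⟩
              ⟨_, hNq.comp (LipschitzWith.prodMk_left z)⟩ hA (fun w => ?_)
              (fun w hw => ht _ _ (by simpa [ins_apply_succAbove] using hw))
              (fun w hw => ht _ _ (by simpa [ins_apply_succAbove] using hw)) hl
            have h := pow_le_pow_left₀ (norm_nonneg _) (hn (ins k z w)) 2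
            rw [EuclideanSpace.norm_sq_eq, Fin.sum_univ_succAbove _ k, Fin.sum_univ_two] at h
            simp only [Real.norm_eq_abs, sq_abs] at h
            simp only [horFst, horSnd]
            nlinarith [sq_nonneg (Y (ins k z w) k)]
      _ = (1 - top) * A * l := by
          rw [setIntegral_const, smul_eq_mul, Real.volume_real_Ico_of_le htop.2]; ring
  -- the pulled back field
  obtain ⟨L, hL⟩ := exists_lipschitz_pullCut (k := k) (s := s) (δ := δ) hc0.le hc hY hA.le hn
  obtain ⟨KZ, hKZ⟩ : ∃ KZ, LipschitzWith KZ (sc (softW k s c δ) (pullCut Y k s c δ)) := by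
    refine Weighted.exists_lip_toLp fun i => ?_
    obtain ⟨Kw, hKw⟩ := (isWeight_softW (k := k) (s := s) (δ := δ) hc0.le hc).lip i
    refine Weighted.exists_lip_mul hKw (Weighted.lip_coord hL i) zero_le_one hA.le (fun x => ?_)
      fun x => (PiLp.norm_apply_le _ i).trans ((norm_pullCut_le Y k s c δ x).trans (hn _))
    unfold softW
    split_ifs <;> [simp; exact abs_soft_le hc0.le hc _]
  have hline₁ : ∀ w, LipschitzWith (δ⁻¹.toNNReal * A.toNNReal + K) fun z => F₁ (ins k z w) :=
    fun w => LipschitzWith.of_dist_le_mul fun a b => by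
      simp only [F₁, ins_apply_self, Real.dist_eq]
      have d1 : |lowCut 1 δ a - lowCut 1 δ b| ≤ δ⁻¹ * |a - b| := by
        refine (Real.dist_eq _ _ ▸ lipschitz_clamp01.dist_le_mul _ _).trans ?_
        rw [NNReal.coe_one, one_mul, Real.dist_eq, ← mul_sub, abs_mul, sub_sub_sub_cancel_left,
          abs_of_pos (inv_pos.2 hδ0), abs_sub_comm b a]
      have d2 := (hline₂ w).dist_le_mul a b
      rw [Real.dist_eq, Real.dist_eq] at d2
      rw [NNReal.coe_add, NNReal.coe_mul, Real.coe_toNNReal _ (inv_pos.2 hδ0).le,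
        Real.coe_toNNReal _ hA.le]
      calc |lowCut 1 δ a * F₂ (ins k a w) - lowCut 1 δ b * F₂ (ins k b w)|
          = |(lowCut 1 δ a - lowCut 1 δ b) * F₂ (ins k a w) +
              lowCut 1 δ b * (F₂ (ins k a w) - F₂ (ins k b w))| := by ring_nf
        _ ≤ |lowCut 1 δ a - lowCut 1 δ b| * |F₂ (ins k a w)| +
              |lowCut 1 δ b| * |F₂ (ins k a w) - F₂ (ins k b w)| := by
            rw [← abs_mul, ← abs_mul]; exact abs_add_le _ _
        _ ≤ δ⁻¹ * |a - b| * A + 1 * (K * |a - b|) := by
            gcongr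
            · exact hF₂b _
            · exact abs_clamp01_le _
        _ = _ := by ring
  obtain ⟨K₁, hK₁⟩ : ∃ K₁, LipschitzWith K₁ F₁ := by
    have hcut : LipschitzWith _ fun x : R3 => lowCut 1 δ (x k) :=
      (lipschitz_clamp01.comp ((lipschitzWith_smul δ⁻¹).comp
        ((LipschitzWith.const (1 : ℝ)⁻¹).sub LipschitzWith.id))).comp
        (Weighted.lip_coord LipschitzWith.id k)
    exact Weighted.exists_lip_mul hcut hK₂ zero_le_one hA.le (fun x => abs_clamp01_le _) hF₂b
  have hflZ : fl D (sc (softW k s c δ) (pullCut Y k s c δ)) =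
      (∫ x in D, lineD k F₁ (outL k x)) + ∫ x in D, soft s c δ (x k) * h₂ (outL k x) := by
    set Z := sc (softW k s c δ) (pullCut Y k s c δ) with hZ
    have e1 : (fun y => Z y k) = F₁ := by
      funext y
      simp [hZ, F₁, F₂, softW, pullCut_apply]
    have e2 : ∀ u, dvS (horFst k Z) (horSnd k Z) u = soft s c δ u.1 * h₂ u := by
      intro u
      have hp : ∀ v : ℝ × (ℝ × ℝ), horFst k Z v =
          soft s c δ v.1 * horFst k Y (squeeze s c v.1, v.2) := fun v => by
        simp [horFst, hZ, softW, pullCut_apply, ins_apply_self, squeezeMap_ins]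
      have hq : ∀ v : ℝ × (ℝ × ℝ), horSnd k Z v =
          soft s c δ v.1 * horSnd k Y (squeeze s c v.1, v.2) := fun v => by
        simp [horSnd, hZ, softW, pullCut_apply, ins_apply_self, squeezeMap_ins]
      simp only [dvS, hp, hq, hh₂, hf₂, deriv_const_mul_field, mul_add]
    obtain ⟨Ks, hKs⟩ := exists_lipschitz_soft s c δ
    have hi₁ := integrableOn_outL hdown.1 k (measurable_lineD hK₁.continuous k)
      (abs_lineD_le fun w => lipschitz_ins_line hK₁ k w)
    have hi₂ : IntegrableOn (fun x : R3 => soft s c δ (x k) * h₂ (outL k x)) D := by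
      have := integrableOn_outL hdown.1 k
        (g := fun u => soft s c δ u.1 * h₂ u)
        ((hKs.continuous.measurable.comp measurable_fst).mul hh₂m)
        (M := 1 * ((N : ℝ) + N)) fun u => by
          rw [abs_mul]
          exact mul_le_mul (abs_soft_le hc0.le hc _) (hf₂b _) (abs_nonneg _) zero_le_one
      simpa [outL_apply] using this
    rw [fl, setIntegral_congr_ae hD ((ae_dv_split hKZ k).mono fun x hx _ => hx), ← integral_add hi₁ hi₂]
    simp only [e1, e2, outL_apply]
  -- the slope of the squeeze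
  have hchain : (∫ x in D, slope s c (x k) * f₁ (squeeze s c (x k), (outL k x).2)) =
      ∫ x in D, lineD k F₂ (outL k x) := by
    have hm : Measurable fun u : ℝ × (ℝ × ℝ) => slope s c u.1 * f₁ (squeeze s c u.1, u.2) :=
      ((measurable_slope s c).comp measurable_fst).mul (hf₁m.comp
        (((show Measurable (squeeze s c) by unfold squeeze; fun_prop).comp
          measurable_fst).prodMk measurable_snd))
    have hi := integrableOn_outL hdown.1 k hm (M := 1 * (K : ℝ)) fun u => by
      rw [abs_mul]; exact mul_le_mul (abs_slope_le hc0.le hc) (hf₁b _) (abs_nonneg _) zero_le_one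
    have e : ∀ x : R3, slope s c (x k) * f₁ (squeeze s c (x k), (outL k x).2) =
        (fun u : ℝ × (ℝ × ℝ) => slope s c u.1 * f₁ (squeeze s c u.1, u.2)) (outL k x) :=
      fun x => by simp [outL_apply]
    simp only [e]
    rw [setIntegral_eq_slices (k := k) hD hi, setIntegral_eq_slices (k := k) hD
      (integrableOn_outL hdown.1 k (measurable_lineD hK₂.continuous k)
        (abs_lineD_le fun w => lipschitz_ins_line hK₂ k w))]
    refine integral_congr_ae ?_
    filter_upwards [volume.ae_ne s] with z hz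
    simp only [outL_ins]
    congr 1
    funext w
    simp only [hf₁, lineD, F₂, squeezeMap_ins]
    rcases lt_or_gt_of_ne hz with h | h
    · have ev : (fun t => Y (ins k (squeeze s c t) w) k) =ᶠ[𝓝 z] fun t => Y (ins k t w) k := by
        filter_upwards [Iio_mem_nhds h] with t ht
        rw [squeeze_of_le hc (le_of_lt ht)]
      rw [ev.deriv_eq, squeeze_of_le hc h.le, slope, if_pos h, one_mul]
    · have ev : (fun t => Y (ins k (squeeze s c t) w) k) =ᶠ[𝓝 z]
          fun t => (fun r => Y (ins k (s - c * s + r) w) k) (c * t) := by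
        filter_upwards [Ioi_mem_nhds h] with t ht
        rw [squeeze_of_ge hc (le_of_lt ht), show s + c * (t - s) = s - c * s + c * t by ring]
      rw [ev.deriv_eq, deriv_comp_mul_left c (fun r => Y (ins k (s - c * s + r) w) k) z,
        deriv_comp_const_add (fun r => Y (ins k r w) k) (s - c * s), squeeze_of_ge hc h.le,
        slope, if_neg (not_lt.2 h.le), smul_eq_mul,
        show s - c * s + c * z = s + c * (z - s) by ring]
  have hmain := setIntegral_lineD_sub_le hD hdown k hK₁ hK₂
    (L := A / δ + 2 * K) (fun u => by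
      refine (abs_sub _ _).trans ((add_le_add (abs_lineD_le hline₂ u)
        (abs_lineD_le hline₁ u)).trans (le_of_eq ?_))
      rw [NNReal.coe_add, NNReal.coe_mul, Real.coe_toNNReal _ (inv_pos.2 hδ0).le,
        Real.coe_toNNReal _ hA.le]
      ring) ⟨hδ0, hδ1⟩ (fun z w hz => by
      have : lowCut 1 δ z = 1 := clamp01_of_one_le (by
        rw [inv_one, le_inv_mul_iff₀ hδ0]; linarith)
      simp [F₁, ins_apply_self, this])
  have hend : ∀ w, (F₂ (ins k 1 w) - F₂ (ins k 0 w)) - (F₁ (ins k 1 w) - F₁ (ins k 0 w)) =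
      F₂ (ins k 1 w) := fun w => by
    have e0 : lowCut 1 δ 0 = 1 := clamp01_of_one_le (by
      rw [inv_one, le_inv_mul_iff₀ hδ0]; linarith)
    have e1 : lowCut 1 δ 1 = 0 := clamp01_of_nonpos (by simp)
    simp [F₁, ins_apply_self, e0, e1]
  simp only [hend] at hmain
  -- the jump of the soft slope
  have hsoft : (∫ x in D, slope s c (x k) * h₂ (outL k x)) -
      ∫ x in D, soft s c δ (x k) * h₂ (outL k x) ≤ ((N : ℝ) + N) * δ := by
    obtain ⟨Ks, hKs⟩ := exists_lipschitz_soft s c δ
    have hi : ∀ (ρ : ℝ → ℝ), Measurable ρ → (∀ z, |ρ z| ≤ 1) →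
        IntegrableOn (fun x : R3 => ρ (x k) * h₂ (outL k x)) D := fun ρ hρ hρ1 => by
      have := integrableOn_outL hdown.1 k (g := fun u => ρ u.1 * h₂ u)
        ((hρ.comp measurable_fst).mul hh₂m) (M := 1 * ((N : ℝ) + N)) fun u => by
          rw [abs_mul]; exact mul_le_mul (hρ1 _) (hf₂b _) (abs_nonneg _) zero_le_one
      simpa [outL_apply] using this
    have hia := hi _ (measurable_slope s c) fun z => abs_slope_le hc0.le hc
    have hib := hi _ hKs.continuous.measurable fun z => abs_soft_le hc0.le hc z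
    rw [← integral_sub hia hib]
    have hS : IntegrableOn (fun x : R3 => (Icc s (s + δ)).indicator (fun _ => (1 : ℝ)) (x k)) D :=
      IntegrableOn.of_bound (volume_lt_top_of_downset hdown)
        ((measurable_const.indicator measurableSet_Icc).comp (by fun_prop)).aestronglyMeasurable 1
        (ae_of_all _ fun x => by by_cases h : x k ∈ Icc s (s + δ) <;> simp [h])
    calc _ ≤ ∫ x in D, ((N : ℝ) + N) * (Icc s (s + δ)).indicator (fun _ => (1 : ℝ)) (x k) := by
          refine setIntegral_mono_on (hia.sub hib) (hS.const_mul _) hD fun x hx => ?_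
          have hx0 : 0 ≤ x k := ((hdown.1 hx) k).1
          have key : |slope s c (x k) - soft s c δ (x k)| ≤
              (Icc s (s + δ)).indicator (fun _ => (1 : ℝ)) (x k) := by
            by_cases hm : x k ∈ Icc s (s + δ)
            · rw [indicator_of_mem hm, slope, if_neg (not_lt.2 hm.1)]
              have t0 : 0 ≤ (if s = 0 then (1 : ℝ) else clamp01 (δ⁻¹ * (x k - s))) ∧
                  (if s = 0 then (1 : ℝ) else clamp01 (δ⁻¹ * (x k - s))) ≤ 1 := by
                split_ifs
                · exact ⟨zero_le_one, le_rfl⟩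
                · exact clamp01_mem _
              rw [soft, abs_le]
              constructor <;>
                nlinarith [mul_nonneg (sub_nonneg.2 hc) (sub_nonneg.2 t0.2),
                  mul_nonneg (sub_nonneg.2 hc) t0.1]
            · rw [indicator_of_notMem hm, slope, soft]
              by_cases hlt : x k < s
              · have h0 : s ≠ 0 := by rintro rfl; linarith
                rw [if_pos hlt, if_neg h0, clamp01_of_nonpos
                  (mul_nonpos_of_nonneg_of_nonpos (inv_pos.2 hδ0).le (by linarith))]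
                simp
              · have hgt : s + δ < x k := not_le.1 fun h => hm ⟨not_lt.1 hlt, h⟩
                have : (if s = 0 then (1 : ℝ) else clamp01 (δ⁻¹ * (x k - s))) = 1 := by
                  split_ifs
                  · rfl
                  · exact clamp01_of_one_le (by rw [le_inv_mul_iff₀ hδ0]; linarith)
                rw [if_neg hlt, this]
                simp
          calc slope s c (x k) * h₂ (outL k x) - soft s c δ (x k) * h₂ (outL k x)
              ≤ |slope s c (x k) - soft s c δ (x k)| * |h₂ (outL k x)| := by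
                rw [← sub_mul, ← abs_mul]; exact le_abs_self _
            _ ≤ (Icc s (s + δ)).indicator (fun _ => (1 : ℝ)) (x k) * ((N : ℝ) + N) :=
                mul_le_mul key (hf₂b _) (abs_nonneg _)
                  (indicator_nonneg (fun _ _ => zero_le_one) _)
            _ = _ := mul_comm _ _
      _ = ((N : ℝ) + N) * ∫ x in D, (Icc s (s + δ)).indicator (fun _ => (1 : ℝ)) (x k) :=
          integral_const_mul _ _
      _ ≤ _ := mul_le_mul_of_nonneg_left
          ((integral_indicator_strip_le hD hdown k (le_add_of_nonneg_right hδ0.le)).trans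
            (by linarith)) (by positivity)
  -- the face
  have hi₂ : IntegrableOn (fun w => F₂ (ins k 1 w)) (endSlice D k) :=
    IntegrableOn.of_bound ((measure_mono hE.sub).trans_lt sq_finite)
      (hK₂.continuous.comp ((insL k).continuous.comp
        (continuous_const.prodMk continuous_id))).aestronglyMeasurable A
      (ae_of_all _ fun w => hF₂b _)
  have hface : (∫ w in endSlice D k, F₂ (ins k 1 w)) +
      ∫ w in B, (Y (ins k 1 w) k - Y (ins k top w) k) ≤
        A * (faceArea D k - volume.real B) := by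
    have e : ∫ w in B, (Y (ins k 1 w) k - Y (ins k top w) k) = -∫ w in B, F₂ (ins k 1 w) := by
      rw [← integral_neg]
      refine setIntegral_congr_fun hB.meas fun w _ => ?_
      simp [F₂, squeezeMap_ins, top, ht (ins k 1 w) k (Or.inr (ins_apply_self _ _ _))]
    rw [e, ← sub_eq_add_neg, ← setIntegral_sdiff (f := fun w => F₂ (ins k 1 w)) hB.meas hi₂ hBe]
    refine (le_abs_self _).trans ((Real.norm_eq_abs _).symm.trans_le ((norm_setIntegral_le_of_norm_le_const
      ((measure_mono (sdiff_subset.trans hE.sub)).trans_lt sq_finite)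
      fun w _ => hF₂b _).trans (le_of_eq ?_)))
    rw [measureReal_sdiff hBe hB.meas ((measure_mono hE.sub).trans_lt sq_finite).ne,
      volume_endSlice hD hdown]
  -- the errors
  have herr : (A / δ + 2 * (K : ℝ)) * δ * (areaExt D k (1 - δ) - faceArea D k) +
      ((N : ℝ) + N) * δ ≤ ε := by
    have hδM : δ * (M + 1) ≤ ε / 4 := by
      have := hδ.2.le.trans (min_le_right δ₁ (ε / (4 * (M + 1))))
      rw [le_div_iff₀ (by positivity)] at this
      linarith
    have hd1 : areaExt D k (1 - δ) ≤ 1 := sliceArea_le_one hdown.1 k _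
    have hm0 := faceArea_nonneg_stretch hdown k
    have hd0 : faceArea D k ≤ areaExt D k (1 - δ) := by
      rw [areaExt_eq (by linarith)]
      exact faceArea_le_sliceArea hdown k ⟨by linarith, by linarith⟩
    have e : (A / δ + 2 * (K : ℝ)) * δ * (areaExt D k (1 - δ) - faceArea D k) =
        A * (areaExt D k (1 - δ) - faceArea D k) +
          2 * K * δ * (areaExt D k (1 - δ) - faceArea D k) := by
      field_simp
    have h1 : A * (areaExt D k (1 - δ) - faceArea D k) ≤ ε / 4 := by
      calc A * (areaExt D k (1 - δ) - faceArea D k) ≤ A * (ε / (4 * (A + 1))) :=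
            mul_le_mul_of_nonneg_left (by linarith) hA.le
        _ ≤ (A + 1) * (ε / (4 * (A + 1))) := by gcongr; linarith
        _ = ε / 4 := by field_simp
    have h2 : 2 * (K : ℝ) * δ * (areaExt D k (1 - δ) - faceArea D k) ≤ 2 * K * δ :=
      mul_le_of_le_one_right (by positivity) (by linarith)
    rw [e]
    nlinarith
  rw [hfl, hflZ, hchain]
  linarith

end Vale.Agent.P232
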