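import Vale.Agent.P232.Fold

/-!
Weighted perimeters of a set in the cube and their derivative at weight one.

`wPer D u` is the supremum of the flux of the fields `((1 + u i) X i)`. It is convex in `u` and
has a two-sided second-order bound at `0`, so its derivative `wDer D u` exists and is linear.
-/

open MeasureTheory Set Filter
open scoped Topology NNReal

namespace Vale.Agent.P232.Weighted

/-- The integral of the divergence. -/
noncomputable def fl (D : Set R3) (X : R3 → R3) : ℝ := ∫ x in D, dv X x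

/-- A bounded Lipschitz weight for each coordinate. -/
structure IsWeight (u : R3 → Fin 3 → ℝ) : Prop where
  lip : ∀ i, ∃ K, LipschitzWith K fun x => u x i
  bdd : ∃ C, 0 ≤ C ∧ ∀ x i, |u x i| ≤ C

/-- The componentwise product. -/
noncomputable def sc (u : R3 → Fin 3 → ℝ) (X : R3 → R3) (x : R3) : R3 :=
  WithLp.toLp 2 fun i => u x i * X x i

@[simp] lemma sc_apply (u : R3 → Fin 3 → ℝ) (X : R3 → R3) (x : R3) (i : Fin 3) :
    sc u X x i = u x i * X x i := rfl

/-- The fluxes of the weighted fields. -/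
def fluxSet (D : Set R3) (u : R3 → Fin 3 → ℝ) : Set ℝ :=
  {r | ∃ X, IsCubeField X ∧ r = fl D (X + sc u X)}

/-- The weighted perimeter. -/
noncomputable def wPer (D : Set R3) (u : R3 → Fin 3 → ℝ) : ℝ := sSup (fluxSet D u)

/-- The perimeter of `D` relative to the cube, as a number. -/
noncomputable def relPer (D : Set R3) : ℝ := wPer D 0

/-- The derivative of the weighted perimeter at weight one. -/
noncomputable def wDer (D : Set R3) (u : R3 → Fin 3 → ℝ) : ℝ :=
  sInf ((fun t : ℝ => (wPer D (t • u) - wPer D 0) / t) '' Ioi 0)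

/-- The standing hypotheses: a measurable set in the cell with finite relative perimeter. -/
structure Finite (D : Set R3) : Prop where
  meas : MeasurableSet D
  sub : D ⊆ cell
  bound : ∃ P, RelPerLE D P

variable {D : Set R3} {u v : R3 → Fin 3 → ℝ} {X Y : R3 → R3}

lemma lip_coord {K : ℝ≥0} (hX : LipschitzWith K X) (i : Fin 3) :
    LipschitzWith K fun x => X x i := by
  refine LipschitzWith.of_dist_le_mul fun a b => ?_
  refine le_trans ?_ (hX.dist_le_mul a b)
  rw [dist_eq_norm, dist_eq_norm]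
  simpa using PiLp.norm_apply_le (X a - X b) i

lemma exists_lip_toLp {f : R3 → Fin 3 → ℝ} (h : ∀ i, ∃ K, LipschitzWith K fun x => f x i) :
    ∃ K, LipschitzWith K fun x => (WithLp.toLp 2 (f x) : R3) := by
  choose K hK using h
  have : LipschitzWith (Finset.univ.sup K) f := LipschitzWith.of_dist_le_mul fun a b => by
    refine (dist_pi_le_iff (by positivity)).2 fun i => ((hK i).dist_le_mul a b).trans ?_
    gcongr
    exact_mod_cast Finset.le_sup (Finset.mem_univ i)
  exact ⟨_, (PiLp.lipschitzWith_toLp 2 _).comp this⟩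

lemma exists_lip_mul {f g : R3 → ℝ} {K L : ℝ≥0} (hf : LipschitzWith K f) (hg : LipschitzWith L g)
    {A B : ℝ} (hA : 0 ≤ A) (hB : 0 ≤ B) (bf : ∀ x, |f x| ≤ A) (bg : ∀ x, |g x| ≤ B) :
    ∃ M, LipschitzWith M fun x => f x * g x := by
  refine ⟨K * B.toNNReal + A.toNNReal * L, LipschitzWith.of_dist_le_mul fun a b => ?_⟩
  rw [Real.dist_eq, NNReal.coe_add, NNReal.coe_mul, NNReal.coe_mul, Real.coe_toNNReal _ hA,
    Real.coe_toNNReal _ hB]
  calc |f a * g a - f b * g b| = |(f a - f b) * g a + f b * (g a - g b)| := by ring_nf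
    _ ≤ |f a - f b| * |g a| + |f b| * |g a - g b| := by
        rw [← abs_mul, ← abs_mul]; exact abs_add_le _ _
    _ ≤ (K * dist a b) * B + A * (L * dist a b) := by
        gcongr
        · exact Real.dist_eq _ _ ▸ hf.dist_le_mul a b
        · exact bg a
        · exact bf b
        · exact Real.dist_eq _ _ ▸ hg.dist_le_mul a b
    _ = _ := by ring

lemma abs_coord_le (hX : ∀ x, ‖X x‖ ≤ 1) (x : R3) (i : Fin 3) : |X x i| ≤ 1 :=
  (by simpa using PiLp.norm_apply_le (X x) i : |X x i| ≤ ‖X x‖).trans (hX x)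

lemma exists_lip_sc (hu : IsWeight u) (hX : IsCubeField X) : ∃ K, LipschitzWith K (sc u X) := by
  obtain ⟨L, hL⟩ := hX.lipschitz
  obtain ⟨C, hC0, hC⟩ := hu.bdd
  refine exists_lip_toLp fun i => ?_
  obtain ⟨K, hK⟩ := hu.lip i
  exact exists_lip_mul hK (lip_coord hL i) hC0 zero_le_one (fun x => hC x i)
    (fun x => abs_coord_le hX.norm_le x i)

lemma norm_sc_le {C : ℝ} (hC : ∀ x i, |u x i| ≤ C) (hC0 : 0 ≤ C) (X : R3 → R3) (x : R3) :
    ‖sc u X x‖ ≤ C * ‖X x‖ := by
  have h : ‖sc u X x‖ ^ 2 ≤ (C * ‖X x‖) ^ 2 := by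
    rw [mul_pow, EuclideanSpace.norm_sq_eq, EuclideanSpace.norm_sq_eq, Finset.mul_sum]
    refine Finset.sum_le_sum fun i _ => ?_
    simp only [sc_apply, Real.norm_eq_abs, abs_mul, mul_pow]
    gcongr
    exact hC x i
  nlinarith [norm_nonneg (sc u X x), mul_nonneg hC0 (norm_nonneg (X x))]

lemma fl_add (hD : Finite D) {K L : ℝ≥0} (hX : LipschitzWith K X) (hY : LipschitzWith L Y) :
    fl D (X + Y) = fl D X + fl D Y := by
  have h1 : Integrable (dv X) (volume.restrict D) :=
    (integrable_dv hX).mono_measure (Measure.restrict_mono hD.sub le_rfl)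
  have h2 : Integrable (dv Y) (volume.restrict D) :=
    (integrable_dv hY).mono_measure (Measure.restrict_mono hD.sub le_rfl)
  rw [fl, fl, fl, ← integral_add h1 h2]
  refine integral_congr_ae (ae_restrict_of_ae ?_)
  filter_upwards [hX.ae_differentiableAt, hY.ae_differentiableAt] with x hx hy
  rw [dv_eq_trL, dv_eq_trL, dv_eq_trL, fderiv_add hx hy, map_add]

lemma fl_smul (c : ℝ) {K : ℝ≥0} (hX : LipschitzWith K X) : fl D (c • X) = c * fl D X := by
  rw [fl, fl, ← MeasureTheory.integral_const_mul]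
  refine integral_congr_ae (ae_restrict_of_ae ?_)
  filter_upwards [hX.ae_differentiableAt] with x hx
  rw [dv_eq_trL, dv_eq_trL, fderiv_const_smul hx, map_smul, smul_eq_mul]

lemma fl_zero : fl D 0 = 0 := by simp [fl, dv]

/-- A field of length at most `c` has flux at most `c` times any perimeter bound. -/
lemma fl_le_of_norm_le {P : ℝ} (hP : RelPerLE D P) {K : ℝ≥0} (hX : LipschitzWith K X)
    {c : ℝ} (hc : 0 < c) (hn : ∀ x, ‖X x‖ ≤ c)
    (ht : ∀ x i, x i = 0 ∨ x i = 1 → X x i = 0) : fl D X ≤ c * P := by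
  have hcf : IsCubeField (c⁻¹ • X) := by
    refine ⟨⟨_, (lipschitzWith_smul c⁻¹).comp hX⟩, fun x => ?_, fun x i h => by simp [ht x i h]⟩
    rw [Pi.smul_apply, norm_smul, Real.norm_of_nonneg (inv_nonneg.2 hc.le), inv_mul_le_one₀ hc]
    exact hn x
  have := hP _ hcf
  rw [← fl, fl_smul _ hX, inv_mul_le_iff₀ hc] at this
  exact this

lemma tangent_sc (hX : IsCubeField X) {x : R3} {i : Fin 3} (h : x i = 0 ∨ x i = 1) :
    sc u X x i = 0 := by simp [hX.tangent x i h]

lemma isCubeField_zero : IsCubeField (0 : R3 → R3) :=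
  ⟨⟨0, LipschitzWith.const 0⟩, fun _ => by simp, fun _ _ _ => rfl⟩

lemma fluxSet_nonempty (D : Set R3) (u : R3 → Fin 3 → ℝ) : (fluxSet D u).Nonempty :=
  ⟨_, 0, isCubeField_zero, rfl⟩

lemma bddAbove_fluxSet (hD : Finite D) (hu : IsWeight u) : BddAbove (fluxSet D u) := by
  obtain ⟨P, hP⟩ := hD.bound
  obtain ⟨C, hC0, hC⟩ := hu.bdd
  refine ⟨(1 + C) * P, ?_⟩
  rintro r ⟨X, hX, rfl⟩
  obtain ⟨K, hK⟩ := hX.lipschitz
  obtain ⟨L, hL⟩ := exists_lip_sc hu hX
  refine fl_le_of_norm_le hP (hK.add hL) (by linarith) (fun x => ?_) fun x i h => ?_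
  · refine (norm_add_le _ _).trans ?_
    nlinarith [norm_sc_le hC hC0 X x, hX.norm_le x, norm_nonneg (X x)]
  · show X x i + sc u X x i = 0
    rw [hX.tangent x i h, tangent_sc hX h, add_zero]

lemma le_wPer (hD : Finite D) (hu : IsWeight u) (hX : IsCubeField X) :
    fl D (X + sc u X) ≤ wPer D u :=
  le_csSup (bddAbove_fluxSet hD hu) ⟨X, hX, rfl⟩

lemma wPer_le {r : ℝ} (h : ∀ X, IsCubeField X → fl D (X + sc u X) ≤ r) : wPer D u ≤ r :=
  csSup_le (fluxSet_nonempty D u) (by rintro _ ⟨X, hX, rfl⟩; exact h X hX)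

lemma isWeight_zero : IsWeight (0 : R3 → Fin 3 → ℝ) :=
  ⟨fun _ => ⟨0, LipschitzWith.const 0⟩, 0, le_rfl, fun _ _ => by simp⟩

lemma IsWeight.smul (hu : IsWeight u) (c : ℝ) : IsWeight (c • u) := by
  obtain ⟨C, hC0, hC⟩ := hu.bdd
  refine ⟨fun i => ?_, |c| * C, by positivity, fun x i => ?_⟩
  · obtain ⟨K, hK⟩ := hu.lip i
    exact ⟨_, (lipschitzWith_smul c).comp hK⟩
  · simp only [Pi.smul_apply, smul_eq_mul, abs_mul]
    gcongr
    exact hC x i

lemma IsWeight.add (hu : IsWeight u) (hv : IsWeight v) : IsWeight (u + v) := by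
  obtain ⟨C, hC0, hC⟩ := hu.bdd
  obtain ⟨C', hC0', hC'⟩ := hv.bdd
  refine ⟨fun i => ?_, C + C', by positivity, fun x i => (abs_add_le _ _).trans (add_le_add (hC x i) (hC' x i))⟩
  obtain ⟨K, hK⟩ := hu.lip i
  obtain ⟨L, hL⟩ := hv.lip i
  exact ⟨_, hK.add hL⟩

lemma IsWeight.neg (hu : IsWeight u) : IsWeight (-u) := by simpa using hu.smul (-1)

lemma sc_zero (X : R3 → R3) : sc 0 X = 0 := by ext x i; simp

lemma relPer_eq : relPer D = wPer D 0 := rfl

lemma relPerLE_relPer (hD : Finite D) : RelPerLE D (relPer D) := fun X hX => by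
  simpa [fl, relPer, sc_zero] using le_wPer hD isWeight_zero hX

lemma relPer_le {P : ℝ} (h : RelPerLE D P) : relPer D ≤ P :=
  wPer_le fun X hX => by simpa [fl, sc_zero] using h X hX

lemma relPer_nonneg (hD : Finite D) : 0 ≤ relPer D := by
  simpa [fl, dv] using relPerLE_relPer hD 0 isCubeField_zero

/-- The weighted perimeter is convex. -/
lemma wPer_convex (hD : Finite D) (hu : IsWeight u) (hv : IsWeight v) {a b : ℝ} (ha : 0 ≤ a)
    (hb : 0 ≤ b) (hab : a + b = 1) :
    wPer D (a • u + b • v) ≤ a * wPer D u + b * wPer D v := by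
  refine wPer_le fun X hX => ?_
  obtain ⟨K, hK⟩ := hX.lipschitz
  obtain ⟨L, hL⟩ := exists_lip_sc hu hX
  obtain ⟨M, hM⟩ := exists_lip_sc hv hX
  have e : X + sc (a • u + b • v) X = a • (X + sc u X) + b • (X + sc v X) := by
    ext x i
    simp only [Pi.add_apply, Pi.smul_apply, PiLp.add_apply, PiLp.smul_apply, sc_apply, smul_eq_mul]
    linear_combination (1 - a - b) * 0 - hab * X x i
  have h1 : LipschitzWith (K + L) (X + sc u X) := hK.add hL
  have h2 : LipschitzWith (K + M) (X + sc v X) := hK.add hM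
  have h3 : LipschitzWith _ (a • (X + sc u X)) := (lipschitzWith_smul a).comp h1
  have h4 : LipschitzWith _ (b • (X + sc v X)) := (lipschitzWith_smul b).comp h2
  rw [e, fl_add hD h3 h4, fl_smul a h1, fl_smul b h2]
  exact add_le_add (mul_le_mul_of_nonneg_left (le_wPer hD hu hX) ha)
    (mul_le_mul_of_nonneg_left (le_wPer hD hv hX) hb)

/-- The second-order bound at weight one. -/
lemma wPer_pair (hD : Finite D) (hu : IsWeight u) {C : ℝ} (hC0 : 0 ≤ C)
    (hC : ∀ x i, |u x i| ≤ C) :
    wPer D u + wPer D (-u) ≤ (2 + 2 * C ^ 2) * relPer D := by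
  rw [← le_sub_iff_add_le]
  refine wPer_le fun X hX => ?_
  rw [le_sub_comm]
  refine wPer_le fun Y hY => ?_
  rw [le_sub_iff_add_le']
  obtain ⟨K, hK⟩ := hX.lipschitz
  obtain ⟨L, hL⟩ := hY.lipschitz
  obtain ⟨K', hK'⟩ := exists_lip_sc hu hX
  obtain ⟨L', hL'⟩ := exists_lip_sc hu.neg hY
  have g1 : LipschitzWith (K + K') (X + sc u X) := hK.add hK'
  have g2 : LipschitzWith (L + L') (Y + sc (-u) Y) := hL.add hL'
  rw [← fl_add hD g1 g2]
  refine fl_le_of_norm_le (relPerLE_relPer hD) ((hK.add hK').add (hL.add hL')) (by positivity)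
    (fun x => ?_) fun x i h => ?_
  · have e : X x + sc u X x + (Y x + sc (-u) Y x) =
        (X x + Y x) + sc u (fun z => X z - Y z) x := by
      ext i
      simp only [PiLp.add_apply, PiLp.sub_apply, sc_apply, Pi.neg_apply]
      ring
    show ‖X x + sc u X x + (Y x + sc (-u) Y x)‖ ≤ _
    rw [e]
    refine (norm_add_le _ _).trans ((add_le_add le_rfl (norm_sc_le hC hC0 _ x)).trans ?_)
    have hp := parallelogram_law_with_norm ℝ (X x) (Y x)
    have h1 := hX.norm_le x
    have h2 := hY.norm_le x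
    have s1 : ‖X x‖ * ‖X x‖ ≤ 1 := by nlinarith [norm_nonneg (X x)]
    have s2 : ‖Y x‖ * ‖Y x‖ ≤ 1 := by nlinarith [norm_nonneg (Y x)]
    set p := ‖X x + Y x‖ with hp'
    set q := ‖X x - Y x‖ with hq'
    nlinarith [norm_nonneg (X x + Y x), sq_nonneg (C * 2 - q), sq_nonneg (p - 2), sq_nonneg q]
  · show X x i + sc u X x i + (Y x i + sc (-u) Y x i) = 0
    simp [hX.tangent x i h, hY.tangent x i h]

variable (hD : Finite D)
include hD

lemma wPer_slope {a b : ℝ} (ha : 0 < a) (hb : 0 < b) (hu : IsWeight u) :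
    (wPer D 0 - wPer D ((-a) • u)) / a ≤ (wPer D (b • u) - wPer D 0) / b := by
  have h := wPer_convex hD (hu.smul (-a)) (hu.smul b) (a := b / (a + b)) (b := a / (a + b))
    (by positivity) (by positivity) (by field_simp; ring)
  rw [show (b / (a + b)) • ((-a) • u) + (a / (a + b)) • (b • u) = 0 by
    rw [smul_smul, smul_smul, ← add_smul,
      show b / (a + b) * -a + a / (a + b) * b = 0 by field_simp; ring, zero_smul]] at h
  have h' : (a + b) * wPer D 0 ≤ b * wPer D ((-a) • u) + a * wPer D (b • u) := by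
    calc (a + b) * wPer D 0
        ≤ (a + b) * (b / (a + b) * wPer D ((-a) • u) + a / (a + b) * wPer D (b • u)) :=
          mul_le_mul_of_nonneg_left h (by positivity)
      _ = _ := by field_simp
  rw [div_le_div_iff₀ ha hb]
  nlinarith

lemma bddBelow_slopes (hu : IsWeight u) :
    BddBelow ((fun t : ℝ => (wPer D (t • u) - wPer D 0) / t) '' Ioi 0) :=
  ⟨(wPer D 0 - wPer D ((-1 : ℝ) • u)) / 1, forall_mem_image.2 fun b hb =>
    wPer_slope hD one_pos hb hu⟩

/-- The tangent line lies below. -/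
lemma wPer_ge (hu : IsWeight u) (t : ℝ) : relPer D + t * wDer D u ≤ wPer D (t • u) := by
  rcases lt_trichotomy t 0 with ht | rfl | ht
  · have h : (wPer D 0 - wPer D ((- -t) • u)) / -t ≤ wDer D u :=
      le_csInf (nonempty_Ioi.image _) (forall_mem_image.2 fun b hb => wPer_slope hD (neg_pos.2 ht) hb hu)
    rw [neg_neg, div_le_iff₀ (neg_pos.2 ht)] at h
    rw [relPer]; linarith
  · simp [relPer]
  · have h : wDer D u ≤ (wPer D (t • u) - wPer D 0) / t :=
      csInf_le (bddBelow_slopes hD hu) (mem_image_of_mem _ ht)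
    rw [le_div_iff₀ ht] at h
    rw [relPer]; linarith

/-- The second-order bound above the tangent line. -/
lemma wPer_upper (hu : IsWeight u) {C : ℝ} (hC0 : 0 ≤ C) (hC : ∀ x i, |u x i| ≤ C) (t : ℝ) :
    wPer D (t • u) ≤ relPer D + t * wDer D u + 2 * C ^ 2 * relPer D * t ^ 2 := by
  have h := wPer_pair hD (hu.smul t) (C := |t| * C) (by positivity) fun x i => by
    simp only [Pi.smul_apply, smul_eq_mul, abs_mul]; gcongr; exact hC x i
  rw [← neg_smul, mul_pow, sq_abs] at h
  nlinarith [wPer_ge hD hu (-t)]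

/-- A linear function squeezed between `wPer` and a parabola is the derivative. -/
lemma wDer_eq_of_bounds (hu : IsWeight u) {d K : ℝ}
    (hlo : ∀ t > 0, relPer D + t * d ≤ wPer D (t • u))
    (hhi : ∀ t ∈ Ioc (0 : ℝ) 1, wPer D (t • u) ≤ relPer D + t * d + K * t ^ 2) : wDer D u = d := by
  refine le_antisymm (le_of_forall_pos_le_add fun e he => ?_)
    (le_csInf (nonempty_Ioi.image _) (forall_mem_image.2 fun b hb => ?_))
  · set t := min 1 (e / (|K| + 1)) with ht
    have t0 : 0 < t := lt_min one_pos (by positivity)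
    have h1 := csInf_le (bddBelow_slopes hD hu) (mem_image_of_mem _ t0)
    have h2 := hhi t ⟨t0, min_le_left _ _⟩
    have h3 : (wPer D (t • u) - wPer D 0) / t ≤ d + K * t := by
      rw [div_le_iff₀ t0]; rw [relPer] at h2; nlinarith
    have h4 : K * t ≤ e := by
      have : t ≤ e / (|K| + 1) := min_le_right _ _
      rw [le_div_iff₀ (by positivity)] at this
      nlinarith [le_abs_self K, abs_nonneg K]
    exact h1.trans (h3.trans (by linarith))
  · rw [le_div_iff₀ (show (0 : ℝ) < b from hb)]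
    have := hlo b hb
    rw [relPer] at this; linarith

lemma wDer_smul (hu : IsWeight u) (c : ℝ) : wDer D (c • u) = c * wDer D u := by
  obtain ⟨C, hC0, hC⟩ := hu.bdd
  refine wDer_eq_of_bounds hD (hu.smul c) (K := 2 * C ^ 2 * relPer D * c ^ 2) (fun t _ => ?_)
    fun t _ => ?_
  · rw [smul_smul]; linarith [wPer_ge hD hu (t * c)]
  · rw [smul_smul]; linarith [wPer_upper hD hu hC0 hC (t * c)]

lemma wDer_neg (hu : IsWeight u) : wDer D (-u) = -wDer D u := by
  simpa using wDer_smul hD hu (-1)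

lemma wDer_add_le (hu : IsWeight u) (hv : IsWeight v) :
    wDer D (u + v) ≤ wDer D u + wDer D v := by
  obtain ⟨A, hA0, hA⟩ := hu.bdd
  obtain ⟨B, hB0, hB⟩ := hv.bdd
  refine le_of_forall_pos_le_add fun e he => ?_
  set K := 4 * (A ^ 2 + B ^ 2) * relPer D with hK
  have hK0 : 0 ≤ K := by have := relPer_nonneg hD; positivity
  set t := e / (K + 1) with ht
  have t0 : 0 < t := by positivity
  have h := wPer_convex hD (hu.smul (2 * t)) (hv.smul (2 * t)) (a := 1 / 2) (b := 1 / 2)
    (by norm_num) (by norm_num) (by norm_num)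
  rw [smul_smul, smul_smul, show (1 / 2 : ℝ) * (2 * t) = t by ring, ← smul_add] at h
  have h1 := wPer_upper hD hu hA0 hA (2 * t)
  have h2 := wPer_upper hD hv hB0 hB (2 * t)
  have h3 := wPer_ge hD (hu.add hv) t
  have h4 : K * t ≤ e := by
    rw [ht, mul_div_assoc', div_le_iff₀ (by positivity)]; nlinarith
  have h5 : t * wDer D (u + v) ≤ t * (wDer D u + wDer D v + K * t) := by nlinarith
  linarith [le_of_mul_le_mul_left h5 t0]

/-- The derivative is linear. -/
theorem wDer_add (hu : IsWeight u) (hv : IsWeight v) :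
    wDer D (u + v) = wDer D u + wDer D v := by
  refine le_antisymm (wDer_add_le hD hu hv) ?_
  have h := wDer_add_le hD (hu.add hv) hv.neg
  rw [add_neg_cancel_right, wDer_neg hD hv] at h
  linarith

/-- The same weight in every coordinate. -/
def iso (f : R3 → ℝ) : R3 → Fin 3 → ℝ := fun x _ => f x

omit hD in
lemma isWeight_iso {f : R3 → ℝ} {K : ℝ≥0} (hf : LipschitzWith K f) {C : ℝ} (hC0 : 0 ≤ C)
    (hC : ∀ x, |f x| ≤ C) : IsWeight (iso f) :=
  ⟨fun _ => ⟨K, hf⟩, C, hC0, fun x _ => hC x⟩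

/-- A field of length at most `f` has flux at most the derivative in the direction `f`. -/
theorem fl_le_wDer {f : R3 → ℝ} {K L : ℝ≥0} (hf : LipschitzWith K f) (hf0 : ∀ x, 0 ≤ f x) {C : ℝ}
    (hC : ∀ x, f x ≤ C) (hY : LipschitzWith L Y) (hn : ∀ x, ‖Y x‖ ≤ f x)
    (ht : ∀ x i, x i = 0 ∨ x i = 1 → Y x i = 0) : fl D Y ≤ wDer D (iso f) := by
  have hC0 : 0 ≤ C := (hf0 0).trans (hC 0)
  have hw := isWeight_iso hf hC0 fun x => (abs_of_nonneg (hf0 x)).trans_le (hC x)
  refine le_csInf (nonempty_Ioi.image _) (forall_mem_image.2 fun t (ht0 : (0 : ℝ) < t) => ?_)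
  rw [le_div_iff₀ ht0, le_sub_iff_add_le']
  have key : ∀ X, IsCubeField X → fl D X + t * fl D Y ≤ wPer D (t • iso f) := by
    intro X hX
    obtain ⟨M, hM⟩ := hX.lipschitz
    set g : R3 → ℝ := fun x => (1 + t * f x)⁻¹ with hg
    have g1 : ∀ x, 0 < 1 + t * f x := fun x => by have := hf0 x; positivity
    have gb : ∀ x, |g x| ≤ 1 := fun x => by
      rw [hg, abs_inv, abs_of_pos (g1 x)]
      exact inv_le_one_of_one_le₀ (by nlinarith [hf0 x])
    have glip : LipschitzWith (t.toNNReal * K) g := by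
      refine LipschitzWith.of_dist_le_mul fun a b => ?_
      rw [Real.dist_eq, NNReal.coe_mul, Real.coe_toNNReal _ ht0.le]
      have e : g a - g b = g a * g b * (t * (f b - f a)) := by
        simp only [hg]
        field_simp [(g1 a).ne', (g1 b).ne']
        ring
      rw [e, abs_mul, abs_mul, abs_mul, abs_of_pos ht0, abs_sub_comm]
      calc |g a| * |g b| * (t * |f a - f b|) ≤ 1 * 1 * (t * (K * dist a b)) := by
            gcongr
            · exact gb a
            · exact gb b
            · exact Real.dist_eq _ _ ▸ hf.dist_le_mul a b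
        _ = _ := by ring
    set Z : R3 → R3 := fun x => WithLp.toLp 2 fun i => g x * (X x i + t * Y x i) with hZ
    have hYc : ∀ x i, |Y x i| ≤ C := fun x i =>
      ((by simpa using PiLp.norm_apply_le (Y x) i : |Y x i| ≤ ‖Y x‖).trans (hn x)).trans (hC x)
    have hZf : IsCubeField Z := by
      refine ⟨exists_lip_toLp fun i => ?_, fun x => ?_, fun x i h => ?_⟩
      · refine exists_lip_mul glip ((lip_coord hM i).add ((lipschitzWith_smul t).comp (lip_coord hY i)))
          zero_le_one (B := 1 + t * C) (by positivity) gb fun x => ?_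
        refine (abs_add_le _ _).trans (add_le_add (abs_coord_le hX.norm_le x i) ?_)
        simp only [Function.comp_apply, smul_eq_mul, abs_mul, abs_of_pos ht0]
        gcongr
        exact hYc x i
      · have : Z x = g x • (X x + t • Y x) := by ext i; simp [hZ, mul_add]
        rw [this, norm_smul, Real.norm_eq_abs, hg, abs_inv, abs_of_pos (g1 x),
          inv_mul_le_one₀ (g1 x)]
        refine (norm_add_le _ _).trans (add_le_add (hX.norm_le x) ?_)
        rw [norm_smul, Real.norm_of_nonneg ht0.le]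
        gcongr
        exact hn x
      · simp [hZ, hX.tangent x i h, ht x i h]
    have e : Z + sc (t • iso f) Z = X + t • Y := by
      ext x i
      simp only [Pi.add_apply, Pi.smul_apply, PiLp.add_apply, PiLp.smul_apply, sc_apply, iso,
        smul_eq_mul, hZ, hg]
      field_simp [(g1 x).ne']
    have := le_wPer hD (hw.smul t) hZf
    have htY : LipschitzWith _ (t • Y) := (lipschitzWith_smul t).comp hY
    rw [e, fl_add hD hM htY, fl_smul t hY] at this
    exact this
  have h0 : wPer D 0 ≤ wPer D (t • iso f) - t * fl D Y := wPer_le fun X hX => by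
    have := key X hX
    rw [sc_zero, add_zero]; linarith
  linarith

/-- Nonnegative weights have nonnegative derivative. -/
theorem wDer_nonneg (hu : IsWeight u) (h0 : ∀ x i, 0 ≤ u x i) : 0 ≤ wDer D u := by
  refine le_csInf (nonempty_Ioi.image _) (forall_mem_image.2 fun t (ht : (0 : ℝ) < t) => ?_)
  rw [le_div_iff₀ ht, zero_mul, sub_nonneg]
  refine wPer_le fun X hX => ?_
  obtain ⟨M, hM⟩ := hX.lipschitz
  set g : R3 → Fin 3 → ℝ := fun x i => (1 + t * u x i)⁻¹ with hg
  have g1 : ∀ x i, 0 < 1 + t * u x i := fun x i => by have := h0 x i; positivity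
  have gb : ∀ x i, |g x i| ≤ 1 := fun x i => by
    rw [hg, abs_inv, abs_of_pos (g1 x i)]
    exact inv_le_one_of_one_le₀ (by nlinarith [h0 x i])
  have hgw : IsWeight g := by
    refine ⟨fun i => ?_, 1, zero_le_one, gb⟩
    obtain ⟨K, hK⟩ := hu.lip i
    refine ⟨t.toNNReal * K, LipschitzWith.of_dist_le_mul fun a b => ?_⟩
    rw [Real.dist_eq, NNReal.coe_mul, Real.coe_toNNReal _ ht.le]
    have e : g a i - g b i = g a i * g b i * (t * (u b i - u a i)) := by
      simp only [hg]
      field_simp [(g1 a i).ne', (g1 b i).ne']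
      ring
    rw [e, abs_mul, abs_mul, abs_mul, abs_of_pos ht, abs_sub_comm]
    calc |g a i| * |g b i| * (t * |u a i - u b i|) ≤ 1 * 1 * (t * (K * dist a b)) := by
          gcongr
          · exact gb a i
          · exact gb b i
          · exact Real.dist_eq _ _ ▸ hK.dist_le_mul a b
      _ = _ := by ring
  have hZ : IsCubeField (sc g X) := by
    refine ⟨exists_lip_sc hgw hX, fun x => ?_, fun x i h => tangent_sc hX h⟩
    exact (norm_sc_le gb zero_le_one X x).trans (by rw [one_mul]; exact hX.norm_le x)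
  have e : sc g X + sc (t • u) (sc g X) = X + sc 0 X := by
    ext x i
    simp only [Pi.add_apply, Pi.smul_apply, PiLp.add_apply, sc_apply, smul_eq_mul, hg,
      Pi.zero_apply, zero_mul, add_zero]
    field_simp [(g1 x i).ne']
  rw [← e]
  exact le_wPer hD (hu.smul t) hZ

/-- The uniform weight gives the perimeter. -/
theorem wDer_one : wDer D (iso fun _ => 1) = relPer D := by
  have hw : IsWeight (iso fun _ : R3 => (1 : ℝ)) :=
    isWeight_iso (K := 0) (LipschitzWith.const 1) zero_le_one fun _ => by simp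
  have e : ∀ t : ℝ, -1 < t → wPer D (t • iso fun _ => 1) = (1 + t) * relPer D := by
    intro t ht
    have ex : ∀ X : R3 → R3, X + sc (t • iso fun _ => 1) X = (1 + t) • X := fun X => by
      ext x i
      simp only [Pi.add_apply, Pi.smul_apply, PiLp.add_apply, PiLp.smul_apply, sc_apply, iso,
        smul_eq_mul]
      ring
    refine le_antisymm (wPer_le fun X hX => ?_) ?_
    · obtain ⟨K, hK⟩ := hX.lipschitz
      rw [ex, fl_smul _ hK]
      exact mul_le_mul_of_nonneg_left (relPerLE_relPer hD X hX) (by linarith)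
    · rw [← le_div_iff₀' (by linarith)]
      refine wPer_le fun X hX => ?_
      obtain ⟨K, hK⟩ := hX.lipschitz
      rw [sc_zero, add_zero, le_div_iff₀' (by linarith), ← fl_smul _ hK, ← ex]
      exact le_wPer hD (hw.smul t) hX
  refine wDer_eq_of_bounds hD hw (K := 0) (fun t ht => ?_) fun t ht => ?_
  · rw [e t (by linarith)]; linarith
  · rw [e t (by linarith [ht.1])]; linarith

end Vale.Agent.P232.Weighted
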