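import Vale.Agent.P232.Stretch
import Vale.Agent.P232.Weighted

/-!
Line derivatives in one coordinate, the split of the divergence into a line derivative and a planar
divergence, cylinders over planar sets, and the squeeze of a coordinate toward a height.
-/

open MeasureTheory Set Filter Function
open scoped NNReal Topology

namespace Vale.Agent.P232

variable {D : Set R3} {k : Fin 3}

/-- The derivative of `F` along the `k`-th coordinate. -/
noncomputable def lineD (k : Fin 3) (F : R3 → ℝ) (u : ℝ × (ℝ × ℝ)) : ℝ :=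
  deriv (fun s => F (ins k s u.2)) u.1

theorem dist_ins_line (k : Fin 3) (w : ℝ × ℝ) (s t : ℝ) :
    dist (ins k s w) (ins k t w) = dist s t := by
  have h : ins k s w - ins k t w = ins k (s - t) (0, 0) := by
    rw [← insL_apply k (s, w), ← insL_apply k (t, w), ← map_sub, insL_apply]
    simp [Prod.mk_zero_zero]
  rw [dist_eq_norm, h, Real.dist_eq, ← Real.sqrt_sq (norm_nonneg _), norm_ins_sq,
    ← Real.sqrt_sq_eq_abs]
  simp

theorem lipschitz_ins_line {F : R3 → ℝ} {K : ℝ≥0} (hF : LipschitzWith K F) (k : Fin 3)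
    (w : ℝ × ℝ) : LipschitzWith K fun s => F (ins k s w) :=
  LipschitzWith.of_dist_le_mul fun a b => by
    rw [← dist_ins_line k w a b]
    exact hF.dist_le_mul _ _

theorem abs_lineD_le {F : R3 → ℝ} {L : ℝ≥0}
    (hF : ∀ w, LipschitzWith L fun s => F (ins k s w)) (u : ℝ × (ℝ × ℝ)) :
    |lineD k F u| ≤ L :=
  norm_deriv_le_of_lipschitz (hF u.2)

theorem measurable_lineD {F : R3 → ℝ} (hF : Continuous F) (k : Fin 3) :
    Measurable (lineD k F) := by
  have h1 : Measurable fun a : (ℝ × ℝ) × ℝ => deriv (fun s => F (ins k s a.1)) a.2 :=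
    measurable_deriv_with_param (f := fun (w : ℝ × ℝ) s => F (ins k s w))
      (hF.comp ((insL k).continuous.comp (continuous_snd.prodMk continuous_fst)))
  exact h1.comp measurable_swap

theorem fderiv_coord_of_line {X : R3 → R3} {x : R3} {i : Fin 3} (hd : DifferentiableAt ℝ X x)
    {line : ℝ → R3} {s₀ : ℝ} (hl : HasDerivAt line (e i) s₀) (hx : line s₀ = x) :
    deriv (fun s => X (line s) i) s₀ = fderiv ℝ X x (e i) i := by
  subst hx
  have h := (EuclideanSpace.proj i : R3 →L[ℝ] ℝ).hasFDerivAt.comp_hasDerivAt s₀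
    (hd.hasFDerivAt.comp_hasDerivAt s₀ hl)
  exact h.deriv

/-- The first planar component of a field, as a slice function. -/
noncomputable def horFst (k : Fin 3) (X : R3 → R3) (u : ℝ × (ℝ × ℝ)) : ℝ :=
  X (ins k u.1 u.2) (k.succAbove 0)

/-- The second planar component of a field, as a slice function. -/
noncomputable def horSnd (k : Fin 3) (X : R3 → R3) (u : ℝ × (ℝ × ℝ)) : ℝ :=
  X (ins k u.1 u.2) (k.succAbove 1)

/-- The divergence split along the `k`-th coordinate. -/
theorem dv_split {X : R3 → R3} (k : Fin 3) {u : ℝ × (ℝ × ℝ)}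
    (hd : DifferentiableAt ℝ X (ins k u.1 u.2)) :
    dv X (ins k u.1 u.2) = lineD k (fun y => X y k) u + dvS (horFst k X) (horSnd k X) u := by
  have key : ∀ (g : ℝ → ℝ × (ℝ × ℝ)) (s₀ : ℝ) (d : ℝ × (ℝ × ℝ)) (i : Fin 3), HasDerivAt g d s₀ →
      g s₀ = u → insL k d = e i →
      deriv (fun s => X (ins k (g s).1 (g s).2) i) s₀ = fderiv ℝ X (ins k u.1 u.2) (e i) i := by
    intro g s₀ d i hg hu hi
    refine fderiv_coord_of_line hd (line := fun s => insL k (g s)) ?_ ?_
    · have h := (insL k).hasFDerivAt.comp_hasDerivAt s₀ hg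
      rw [hi] at h
      exact h
    · rw [hu, insL_apply]
  have e0 := key (fun s => (s, u.2)) u.1 (1, 0) k
    ((hasDerivAt_id u.1).prodMk (hasDerivAt_const _ u.2)) rfl (by
      ext i
      rcases Fin.eq_self_or_eq_succAbove k i with rfl | ⟨j, rfl⟩
      · simp [insL_apply, ins_apply_self, e]
      · fin_cases j <;> simp [insL_apply, ins_apply_succAbove, e, Fin.succAbove_ne])
  have e1 := key (fun s => (u.1, (s, u.2.2))) u.2.1 (0, (1, 0)) (k.succAbove 0)
    ((hasDerivAt_const _ u.1).prodMk ((hasDerivAt_id _).prodMk (hasDerivAt_const _ _))) rfl (by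
      ext i
      rcases Fin.eq_self_or_eq_succAbove k i with rfl | ⟨j, rfl⟩
      · simp [insL_apply, ins_apply_self, e, (Fin.succAbove_ne _ 0).symm]
      · fin_cases j <;> simp [insL_apply, ins_apply_succAbove, e])
  have e2 := key (fun t => (u.1, (u.2.1, t))) u.2.2 (0, (0, 1)) (k.succAbove 1)
    ((hasDerivAt_const _ u.1).prodMk ((hasDerivAt_const _ _).prodMk (hasDerivAt_id _))) rfl (by
      ext i
      rcases Fin.eq_self_or_eq_succAbove k i with rfl | ⟨j, rfl⟩
      · simp [insL_apply, ins_apply_self, e, (Fin.succAbove_ne _ 1).symm]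
      · fin_cases j <;> simp [insL_apply, ins_apply_succAbove, e])
  rw [dv, Fin.sum_univ_succAbove _ k, Fin.sum_univ_two, ← e0, ← e1, ← e2]
  rfl

theorem ae_dv_split {X : R3 → R3} {K : ℝ≥0} (hX : LipschitzWith K X) (k : Fin 3) :
    ∀ᵐ x : R3, dv X x =
      lineD k (fun y => X y k) (outL k x) + dvS (horFst k X) (horSnd k X) (outL k x) := by
  filter_upwards [hX.ae_differentiableAt (μ := volume)] with x hx
  conv_lhs => rw [← ins_outL k x]
  exact dv_split k (by rwa [ins_outL])

theorem exists_lipschitz_hor {X : R3 → R3} {K : ℝ≥0} (hX : LipschitzWith K X) (k : Fin 3) :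
    ∃ N, LipschitzWith N (horFst k X) ∧ LipschitzWith N (horSnd k X) :=
  ⟨_, (Weighted.lip_coord hX (k.succAbove 0)).comp (insL k).lipschitz,
    (Weighted.lip_coord hX (k.succAbove 1)).comp (insL k).lipschitz⟩

theorem measurable_slice_integral (hD : MeasurableSet D) (k : Fin 3) {g : ℝ × (ℝ × ℝ) → ℝ}
    (hg : Measurable g) : Measurable fun z => ∫ w in slice D k z, g (z, w) := by
  have hm : StronglyMeasurable (((fun u : ℝ × (ℝ × ℝ) => ins k u.1 u.2) ⁻¹' D).indicator g) :=
    (hg.indicator ((measurable_ins k) hD)).stronglyMeasurable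
  have := (hm.integral_prod_right' (ν := (volume : Measure (ℝ × ℝ)))).measurable
  convert this using 1
  funext z
  rw [← integral_indicator (measurableSet_slice hD k z)]
  rfl

theorem abs_slice_integral_le (hc : D ⊆ cell) (k : Fin 3) {g : ℝ × (ℝ × ℝ) → ℝ} {M : ℝ}
    (hb : ∀ u, |g u| ≤ M) (z : ℝ) :
    |∫ w in slice D k z, g (z, w)| ≤ M * sliceArea D k z := by
  rw [← Real.norm_eq_abs]
  exact norm_setIntegral_le_of_norm_le_const (lt_top_iff_ne_top.2 (volume_slice_ne_top hc k z))
    fun w _ => (Real.norm_eq_abs _).trans_le (hb _)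

theorem integrable_slice_integral (hD : MeasurableSet D) (hc : D ⊆ cell) (k : Fin 3)
    {g : ℝ × (ℝ × ℝ) → ℝ} (hg : Measurable g) {M : ℝ} (hb : ∀ u, |g u| ≤ M) :
    Integrable fun z => ∫ w in slice D k z, g (z, w) :=
  ((integrable_sliceArea hD hc k).const_mul M).mono'
    (measurable_slice_integral hD k hg).aestronglyMeasurable
    (ae_of_all _ fun z => (Real.norm_eq_abs _).trans_le (abs_slice_integral_le hc k hb z))

theorem integrableOn_outL (hc : D ⊆ cell) (k : Fin 3) {g : ℝ × (ℝ × ℝ) → ℝ} (hg : Measurable g)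
    {M : ℝ} (hb : ∀ u, |g u| ≤ M) : IntegrableOn (fun x => g (outL k x)) D :=
  IntegrableOn.of_bound ((measure_mono hc).trans_lt (by rw [volume_cell]; exact ENNReal.one_lt_top))
    (hg.comp (outL k).continuous.measurable).aestronglyMeasurable M
    (ae_of_all _ fun _ => (Real.norm_eq_abs _).trans_le (hb _))

/-- The cylinder over a planar set. -/
def cyl (k : Fin 3) (a b : ℝ) (B : Set (ℝ × ℝ)) : Set R3 :=
  {y | y k ∈ Ico a b ∧ (outL k y).2 ∈ B}

theorem measurableSet_cyl {B : Set (ℝ × ℝ)} (hB : MeasurableSet B) (k : Fin 3) (a b : ℝ) :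
    MeasurableSet (cyl k a b B) :=
  ((show Measurable fun y : R3 => y k by fun_prop) measurableSet_Ico).inter
    ((measurable_snd.comp (outL k).continuous.measurable) hB)

theorem cyl_subset_cell {B : Set (ℝ × ℝ)} (hB : B ⊆ square) {a b : ℝ} (ha : 0 ≤ a) (hb : b ≤ 1) :
    cyl k a b B ⊆ cell := fun y hy => by
  rw [← ins_outL k y, ins_mem_cell]
  exact ⟨⟨ha.trans (by simpa [outL_apply] using hy.1.1),
    lt_of_lt_of_le (by simpa [outL_apply] using hy.1.2) hb⟩, hB hy.2⟩

theorem slice_cyl (k : Fin 3) (a b : ℝ) (B : Set (ℝ × ℝ)) (z : ℝ) :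
    slice (cyl k a b B) k z = if z ∈ Ico a b then B else ∅ := by
  ext w
  simp only [mem_slice, cyl, mem_ofPred_eq, ins_apply_self, outL_ins]
  split_ifs with h <;> simp [h]

theorem setIntegral_cyl {B : Set (ℝ × ℝ)} (hB : MeasurableSet B) (k : Fin 3) (a b : ℝ)
    {f : R3 → ℝ} (hf : IntegrableOn f (cyl k a b B)) :
    ∫ x in cyl k a b B, f x = ∫ z in Ico a b, ∫ w in B, f (ins k z w) := by
  rw [setIntegral_eq_slices (k := k) (measurableSet_cyl hB k a b) hf,
    ← integral_indicator measurableSet_Ico]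
  refine integral_congr_ae (ae_of_all _ fun z => ?_)
  simp only [slice_cyl, indicator]
  split_ifs <;> simp

/-- The fundamental theorem of calculus along a cylinder. -/
theorem setIntegral_cyl_lineD {B : Set (ℝ × ℝ)} (hB : MeasurableSet B) (hBs : B ⊆ square)
    (k : Fin 3) {F : R3 → ℝ} {K : ℝ≥0} (hF : LipschitzWith K F) {a b : ℝ} (ha : 0 ≤ a)
    (hab : a ≤ b) (hb : b ≤ 1) :
    ∫ x in cyl k a b B, lineD k F (outL k x) = ∫ w in B, (F (ins k b w) - F (ins k a w)) := by
  have hbd := abs_lineD_le (k := k) fun w => lipschitz_ins_line hF k w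
  have hm := measurable_lineD hF.continuous k
  rw [setIntegral_cyl hB k a b
    (integrableOn_outL (cyl_subset_cell hBs ha hb) k hm hbd)]
  simp only [outL_ins]
  have hBf : volume B < ⊤ := (measure_mono hBs).trans_lt (by rw [volume_square]; simp)
  have hint : Integrable (uncurry fun z w => lineD k F (z, w))
      ((volume.restrict (Ico a b)).prod (volume.restrict B)) := by
    rw [Measure.prod_restrict]
    exact IntegrableOn.of_bound
      (by rw [Measure.prod_prod]; exact ENNReal.mul_lt_top measure_Ico_lt_top hBf)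
      hm.aestronglyMeasurable K (ae_of_all _ fun u => (Real.norm_eq_abs _).trans_le (hbd u))
  rw [integral_integral_swap hint]
  refine setIntegral_congr_fun hB fun w _ => ?_
  rw [← integral_Icc_eq_integral_Ico, integral_Icc_eq_integral_Ioc,
    ← intervalIntegral.integral_of_le hab]
  exact (lipschitz_ins_line hF k w).lipschitzOnWith.absolutelyContinuousOnInterval
    |>.integral_deriv_eq_sub

/-- The squeeze toward the height `s` by the factor `c` above it. -/
noncomputable def squeeze (s c z : ℝ) : ℝ := min z (s + c * (z - s))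

/-- The inverse of `squeeze`. -/
noncomputable def unsqueeze (s c z : ℝ) : ℝ := max z (s + c⁻¹ * (z - s))

/-- The slope of `squeeze`. -/
noncomputable def slope (s c z : ℝ) : ℝ := if z < s then 1 else c

section squeeze

variable {s c z : ℝ}

theorem squeeze_of_le (hc : c ≤ 1) (hz : z ≤ s) : squeeze s c z = z := by
  refine min_eq_left ?_
  nlinarith [mul_nonneg (sub_nonneg.2 hc) (sub_nonneg.2 hz)]

theorem squeeze_of_ge (hc : c ≤ 1) (hz : s ≤ z) : squeeze s c z = s + c * (z - s) := by
  refine min_eq_right ?_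
  nlinarith [mul_nonneg (sub_nonneg.2 hc) (sub_nonneg.2 hz)]

theorem unsqueeze_of_le (hc0 : 0 < c) (hc : c ≤ 1) (hz : z ≤ s) : unsqueeze s c z = z := by
  refine max_eq_left ?_
  nlinarith [mul_nonneg (sub_nonneg.2 (one_le_inv₀ hc0 |>.2 hc)) (sub_nonneg.2 hz)]

theorem unsqueeze_of_ge (hc0 : 0 < c) (hc : c ≤ 1) (hz : s ≤ z) :
    unsqueeze s c z = s + c⁻¹ * (z - s) := by
  refine max_eq_right ?_
  nlinarith [mul_nonneg (sub_nonneg.2 (one_le_inv₀ hc0 |>.2 hc)) (sub_nonneg.2 hz)]

theorem squeeze_unsqueeze (hc0 : 0 < c) (hc : c ≤ 1) : squeeze s c (unsqueeze s c z) = z := by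
  rcases le_total z s with h | h
  · rw [unsqueeze_of_le hc0 hc h, squeeze_of_le hc h]
  · rw [unsqueeze_of_ge hc0 hc h, squeeze_of_ge hc
      (by linarith [mul_nonneg (inv_nonneg.2 hc0.le) (sub_nonneg.2 h)]), add_sub_cancel_left,
      mul_inv_cancel_left₀ hc0.ne', add_sub_cancel]

theorem lipschitz_squeeze (hc0 : 0 ≤ c) (hc : c ≤ 1) : LipschitzWith 1 (squeeze s c) := by
  refine LipschitzWith.of_dist_le_mul fun a b => ?_
  rw [NNReal.coe_one, one_mul, Real.dist_eq, Real.dist_eq]
  refine (abs_min_sub_min_le_max _ _ _ _).trans (max_le le_rfl ?_)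
  rw [add_sub_add_left_eq_sub, ← mul_sub, sub_sub_sub_cancel_right, abs_mul, abs_of_nonneg hc0]
  exact mul_le_of_le_one_left (abs_nonneg _) hc

theorem squeeze_nonneg_of_nonneg (hs : 0 ≤ s) (hc0 : 0 ≤ c) (hc : c ≤ 1) (hz : 0 ≤ z) :
    0 ≤ squeeze s c z := by
  refine le_min hz ?_
  nlinarith [mul_nonneg (sub_nonneg.2 hc) hs, mul_nonneg hc0 hz]

theorem abs_slope_le (hc0 : 0 ≤ c) (hc : c ≤ 1) : |slope s c z| ≤ 1 := by
  unfold slope
  split_ifs
  · simp
  · rwa [abs_of_nonneg hc0]

theorem measurable_slope (s c : ℝ) : Measurable (slope s c) :=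
  Measurable.ite measurableSet_Iio measurable_const measurable_const

/-- The change of variables of `unsqueeze`. -/
theorem integral_comp_unsqueeze (hc0 : 0 < c) (hc : c ≤ 1) {G : ℝ → ℝ} (hG : Integrable G) :
    ∫ z, G (unsqueeze s c z) = ∫ z, slope s c z * G z := by
  set K : ℝ → ℝ := (Ici s).indicator G with hK
  have hKi : Integrable K := hG.indicator measurableSet_Ici
  have hLi : Integrable ((Iio s).indicator G) := hG.indicator measurableSet_Iio
  have hKc : Integrable fun z => K (s + c⁻¹ * (z - s)) :=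
    ((hKi.comp_add_left s).comp_mul_left' (inv_ne_zero hc0.ne')).comp_sub_right s
  have e1 : ∀ z, G (unsqueeze s c z) = (Iio s).indicator G z + K (s + c⁻¹ * (z - s)) := fun z => by
    by_cases h : z < s
    · have : ¬ s ≤ s + c⁻¹ * (z - s) := by
        nlinarith [mul_neg_of_pos_of_neg (inv_pos.2 hc0) (sub_neg.2 h)]
      simp [K, h, this, unsqueeze_of_le hc0 hc h.le]
    · have h' := not_lt.1 h
      have : s ≤ s + c⁻¹ * (z - s) := by
        linarith [mul_nonneg (inv_nonneg.2 hc0.le) (sub_nonneg.2 h')]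
      simp [K, h, this, unsqueeze_of_ge hc0 hc h']
  have e2 : ∀ z, slope s c z * G z = (Iio s).indicator G z + c * K z := fun z => by
    by_cases h : z < s
    · simp [K, slope, h, not_le.2 h]
    · simp [K, slope, h, not_lt.1 h]
  simp only [e1, e2]
  rw [integral_add hLi hKc, integral_add hLi (hKi.const_mul c), integral_const_mul,
    integral_sub_right_eq_self (fun z => K (s + c⁻¹ * z)) s,
    stretch_integral_aux (G := fun z => K (s + z)) (inv_pos.2 hc0), inv_inv,
    integral_add_left_eq_self K s]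

end squeeze

end Vale.Agent.P232
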