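import Vale.Agent.P232.Moves

/-!
The first variation of a minimiser among smaller volumes: one multiplier `lam` gives, in every
coordinate, the identity `C = lam (v - m) + l` between the derivative of the perimeter in the two
other coordinates, the trace area `m` and the perimeter `l` of the last slice.
-/

open MeasureTheory Set Filter Function
open scoped NNReal Topology

namespace Vale.Agent.P232

open Weighted (fl sc wPer wDer relPer IsWeight)

variable {D : Set R3} {i j k : Fin 3} {s c δ : ℝ}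

theorem soft_zero (c δ z : ℝ) : soft 0 c δ z = c := by simp [soft]

/-- The weight of a squeeze by `c` composed with a constant weight. -/
theorem pullW_const (k : Fin 3) (c δ : ℝ) (a : Fin 3 → ℝ) :
    pullW k 0 c δ (fun _ => a) = fun _ i => (if i = k then 1 else c) * (1 + a i) - 1 := by
  funext x i
  simp [pullW, softW, soft_zero]

theorem fillSet_endSlice_subset (hD : MeasurableSet D) (hdown : IsDownset D) (hc0 : 0 < c)
    (hc : c ≤ 1) : fillSet D k 0 c (endSlice D k) ⊆ D := by
  intro y hy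
  have e : ins k (y k) (outL k y).2 = y := by
    conv_rhs => rw [← ins_outL k y]
    simp [outL_apply]
  rcases hy with hy | hy
  · have hsub := lowPart_subset_cell (k := k) hc0 hc le_rfl hdown hy
    have h := slice_anti hdown (hsub k).1 (le_max_left _ _ : y k ≤ unsqueeze 0 c (y k)) hy
    rwa [mem_slice, e] at h
  · have h0 : 0 ≤ y k := (squeeze_one_mem hc0 hc le_rfl zero_le_one).2.1.trans hy.1.1
    have h := endSlice_subset hdown k ⟨h0, hy.1.2⟩ hy.2
    rwa [mem_slice, e] at h

theorem measurableSet_lowPart (hD : MeasurableSet D) (k : Fin 3) (s c : ℝ) :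
    MeasurableSet (lowPart D k s c) :=
  ((measurable_ins k).comp ((show Measurable fun y : R3 => unsqueeze s c (y k) by
      unfold unsqueeze; fun_prop).prodMk
    (measurable_snd.comp (outL k).continuous.measurable))) hD

/-- A squeeze changes the integral over a top layer in another coordinate by little. -/
theorem abs_layer_sub_le (hD : MeasurableSet D) (hdown : IsDownset D) (hij : i ≠ j) (hc0 : 0 < c)
    (hc : c ≤ 1) {τ : ℝ} (hτ : τ ≤ 1) {g : ℝ × ℝ → ℝ} (hg : Measurable g) {M : ℝ}
    (hM : ∀ w, |g w| ≤ M) :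
    |(∫ z in Ici τ, ∫ w in slice (fillSet D j 0 c (endSlice D j)) i z, g w) -
      ∫ z in Ici τ, ∫ w in slice D i z, g w| ≤ M * (1 - c) * (1 - τ) := by
  set E := fillSet D j 0 c (endSlice D j) with hE
  have hB := isSqDown_endSlice hD hdown j
  have hEm : MeasurableSet E := measurableSet_fillSet hD hB
  have hED : E ⊆ D := fillSet_endSlice_subset hD hdown hc0 hc
  have hM0 : 0 ≤ M := (abs_nonneg _).trans (hM 0)
  set ind : ℝ → ℝ := (Ici τ).indicator fun _ => (1 : ℝ) with hind
  have hindm : Measurable ind := measurable_const.indicator measurableSet_Ici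
  have hindb : ∀ z, |ind z| ≤ 1 := fun z => by by_cases h : z ∈ Ici τ <;> simp [ind, h]
  have hind0 : ∀ z, 0 ≤ ind z := fun z => indicator_nonneg (fun _ _ => zero_le_one) z
  set h : ℝ × (ℝ × ℝ) → ℝ := fun u => ind u.1 * g u.2 with hh
  have hhm : Measurable h := (hindm.comp measurable_fst).mul (hg.comp measurable_snd)
  have hhb : ∀ u, |h u| ≤ 1 * M := fun u => by
    rw [hh, abs_mul]; exact mul_le_mul (hindb _) (hM _) (abs_nonneg _) zero_le_one
  have key : ∀ S : Set R3, MeasurableSet S → S ⊆ cell →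
      (∫ z in Ici τ, ∫ w in slice S i z, g w) = ∫ x in S, h (outL i x) := fun S hS hSc => by
    rw [setIntegral_eq_slices (k := i) hS (integrableOn_outL hSc i hhm hhb),
      ← integral_indicator measurableSet_Ici]
    refine integral_congr_ae (ae_of_all _ fun z => ?_)
    simp only [outL_ins, hh, integral_const_mul]
    by_cases hz : z ∈ Ici τ <;> simp [ind, hz]
  rw [key E hEm (hED.trans hdown.1), key D hD hdown.1, abs_sub_comm,
    ← setIntegral_sdiff (f := fun x => h (outL i x)) hEm (integrableOn_outL hdown.1 i hhm hhb) hED]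
  have hii : ∀ {S : Set R3}, S ⊆ cell → IntegrableOn (fun x : R3 => ind (x i)) S := fun hS => by
    have := integrableOn_outL hS i (g := fun u => ind u.1) (hindm.comp measurable_fst)
      fun u => hindb _
    simpa [outL_apply] using this
  have hLm := measurableSet_lowPart hD j 0 c
  have hLE : lowPart D j 0 c ⊆ E := subset_union_left
  have hlow : ∫ x in lowPart D j 0 c, ind (x i) = c * ∫ x in D, ind (x i) := by
    obtain ⟨m, rfl⟩ := Fin.exists_succAbove_eq hij
    have h1 := setIntegral_lowPart (k := j) (s := 0) hc0 hc le_rfl hD hdown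
      (g := fun u => ind (ins j 0 u.2 (j.succAbove m))) (M := 1)
      (hindm.comp ((show Measurable fun u : ℝ × (ℝ × ℝ) => ins j 0 u.2 (j.succAbove m) from
        (show Measurable fun x : R3 => x (j.succAbove m) by fun_prop).comp
          ((measurable_ins j).comp (measurable_const.prodMk measurable_snd)))))
      (fun u => hindb _)
    have e : ∀ x : R3, ins j 0 (outL j x).2 (j.succAbove m) = x (j.succAbove m) := fun x => by
      fin_cases m <;> simp [ins_apply_succAbove, outL_apply]
    simp only [e] at h1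
    rw [h1, ← integral_const_mul]
    refine setIntegral_congr_fun hD fun x hx => ?_
    have := ((hdown.1 hx) j).1
    simp [slope, not_lt.2 this]
  have hbound : ∫ x in D \ E, ind (x i) ≤ (1 - c) * (1 - τ) := by
    calc ∫ x in D \ E, ind (x i) ≤ ∫ x in D \ lowPart D j 0 c, ind (x i) :=
          setIntegral_mono_set (hii (sdiff_subset.trans hdown.1))
            (ae_of_all _ fun x => hind0 _) (sdiff_subset_sdiff_right hLE).eventuallyLE
      _ = (1 - c) * ∫ x in D, ind (x i) := by
          rw [MeasureTheory.setIntegral_sdiff (f := fun x : R3 => ind (x i)) hLm (hii hdown.1)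
            (hLE.trans hED), hlow]
          ring
      _ ≤ _ := by
          refine mul_le_mul_of_nonneg_left ?_ (sub_nonneg.2 hc)
          refine le_trans (le_of_eq (setIntegral_congr_fun hD fun x hx => ?_))
            (integral_indicator_strip_le hD hdown i hτ)
          have := ((hdown.1 hx) i).2
          simp [ind, indicator, this.le]
  calc |∫ x in D \ E, h (outL i x)| ≤ ∫ x in D \ E, M * ind (x i) := by
        refine (Real.norm_eq_abs _).symm.trans_le (norm_integral_le_of_norm_le
          ((hii (sdiff_subset.trans hdown.1)).const_mul M) (ae_of_all _ fun x => ?_))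
        rw [Real.norm_eq_abs, hh, abs_mul, mul_comm, outL_apply, abs_of_nonneg (hind0 _)]
        exact mul_le_mul_of_nonneg_right (hM _) (hind0 _)
    _ = M * ∫ x in D \ E, ind (x i) := integral_const_mul _ _
    _ ≤ _ := by rw [mul_assoc]; exact mul_le_mul_of_nonneg_left hbound hM0

/-- The scalar step of the pair move. -/
theorem pair_step {t r η ε v mi mj A A' V : ℝ} (ht0 : 0 < t) (ht1 : t ≤ 1) (hε : 0 ≤ ε)
    (hr : (1 + t) * r = t) (hA : mi * r ≤ A) (hA2 : A ≤ (mi + η) * r)
    (hA' : |A' - A| ≤ ε * t * r) (hV : V = (1 + t) * (v - ε * t * (v - mj) - A'))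
    (hj : 0 ≤ v - mj) (hj1 : v - mj ≤ 1) :
    |V - v - t * ((v - mi) - ε * (v - mj))| ≤ t * (η + 2 * ε * t) := by
  have h1 := (abs_le.1 hA')
  have e1 : (1 + t) * (mi * r) = t * mi := by linear_combination mi * hr
  have e2 : (1 + t) * ((mi + η) * r) = t * (mi + η) := by linear_combination (mi + η) * hr
  have e3 : (1 + t) * (ε * t * r) = t * (ε * t) := by linear_combination (ε * t) * hr
  have a1 := mul_le_mul_of_nonneg_left hA (by linarith : (0 : ℝ) ≤ 1 + t)
  have a2 := mul_le_mul_of_nonneg_left hA2 (by linarith : (0 : ℝ) ≤ 1 + t)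
  have a3 := mul_le_mul_of_nonneg_left h1.1 (by linarith : (0 : ℝ) ≤ 1 + t)
  have a4 := mul_le_mul_of_nonneg_left h1.2 (by linarith : (0 : ℝ) ≤ 1 + t)
  have b1 : t * (ε * t) * (v - mj) ≤ t * (ε * t) :=
    mul_le_of_le_one_right (by positivity) hj1
  have b2 : 0 ≤ t * (ε * t) * (v - mj) := mul_nonneg (by positivity) hj
  have b3 : 0 ≤ t * (ε * t) := by positivity
  rw [abs_le, hV]
  constructor <;> linarith

/-- The competitor of the pair move. -/
theorem exists_pair_competitor (hD : MeasurableSet D) (hdown : IsDownset D) {P : ℝ}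
    (hP : RelPerLE D P) (hij : i ≠ j) {ε t : ℝ} (hε : 0 ≤ ε) (ht0 : 0 < t) (ht1 : t < 1)
    (hεt : ε * t < 1 / 2) {p q : ℝ × ℝ → ℝ} (hpq : IsSqField p q) {Kp Kq : ℝ≥0}
    (hKp : LipschitzWith Kp p) (hKq : LipschitzWith Kq q) :
    ∃ (E : Set R3) (A' : ℝ), MeasurableSet E ∧ IsDownset E ∧
      (volume E).toReal =
        (1 + t) * ((volume D).toReal - ε * t * ((volume D).toReal - faceArea D j) - A') ∧
      |A' - ∫ z in Ici (1 + t)⁻¹, sliceArea D i z| ≤ ε * t * (1 - (1 + t)⁻¹) ∧
      RelPerLE E (P + (-(ε * t) * wDer D (horW j) + (t * wDer D (horW i) +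
          -(ε * t ^ 2) * wDer D (fun _ b => if b = i ∨ b = j then 0 else 1))) +
        2 * ((2 * ε + 1) * t) ^ 2 * |P| + ε * t * (1 + t) * endPer D j -
        ((∫ z in Ici (1 + t)⁻¹, flux p q (slice D i z)) -
          (Kp + Kq : ℝ) * (ε * t) * (1 - (1 + t)⁻¹))) := by
  set v := (volume D).toReal with hv
  set mj := faceArea D j
  have hFD : Weighted.Finite D := ⟨hD, hdown.1, P, hP⟩
  set W3 : R3 → Fin 3 → ℝ := fun _ b => if b = i ∨ b = j then 0 else 1 with hW3
  have hW3w : IsWeight W3 := ⟨fun _ => ⟨0, LipschitzWith.const _⟩, 1, zero_le_one, fun _ b => by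
    simp only [hW3]; split_ifs <;> simp⟩
  have hg : ∀ w, |dv2 p q w| ≤ (Kp + Kq : ℝ) := fun w =>
    norm_dvS_le (p := fun u => p u.2) (q := fun u => q u.2)
      (by simpa [Function.comp_def] using hKp.comp LipschitzWith.prod_snd)
      (by simpa [Function.comp_def] using hKq.comp LipschitzWith.prod_snd) ((0 : ℝ), w)
  have hgm : Measurable (dv2 p q) :=
    (measurable_dvS (p := fun u => p u.2) (q := fun u => q u.2)
      (hKp.continuous.comp continuous_snd) (hKq.continuous.comp continuous_snd)).comp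
      (measurable_prodMk_left (x := (0 : ℝ)))
  set c := 1 - ε * t with hcd
  have hεt0 : 0 ≤ ε * t := mul_nonneg hε ht0.le
  have hc0 : 0 < c := by linarith
  have hc : c ≤ 1 := by linarith
  have hEj := isSqDown_endSlice hD hdown j
  set D' := fillSet D j 0 c (endSlice D j) with hD'
  have hD'm : MeasurableSet D' := measurableSet_fillSet hD hEj
  have hD'd : IsDownset D' :=
    isDownset_fillSet hc0 hc le_rfl zero_le_one hdown hEj (subset_refl _)
  have htop : squeeze (0 : ℝ) c 1 = c := by rw [squeeze_of_ge hc zero_le_one]; ring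
  -- the perimeter after the squeeze
  have hfill : ∀ (b : Fin 3 → ℝ) (C : ℝ), 0 ≤ C → (∀ l, |b l| ≤ C) → ∀ Y, IsCubeField Y →
      fl D' (Y + sc (fun _ => b) Y) ≤
        wPer D (fun _ l => (if l = j then 1 else c) * (1 + b l) - 1) +
          ε * t * (1 + C) * endPer D j := fun b C hC0 hC Y hY => by
    have h := wPer_fillSet_le (k := j) hD hdown hP hc0 hc le_rfl zero_le_one hEj (subset_refl _)
      (u := fun _ => b) ⟨fun _ => ⟨0, LipschitzWith.const _⟩, C, hC0, fun _ l => hC l⟩ hC0
      (fun _ l => hC l) (fun p q h => le_endPer hD hdown j h)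
      (fun δ _ => (congrArg (wPer D) (pullW_const j c δ b)).le) hY
    rw [htop, volume_endSlice hD hdown, sub_self, mul_zero, add_zero] at h
    rw [hD']
    simpa [c] using h
  obtain ⟨P', hP'⟩ : ∃ P', RelPerLE D' P' := by
    refine ⟨wPer D (fun _ l => (if l = j then 1 else c) * (1 + (0 : ℝ)) - 1) +
      ε * t * (1 + 0) * endPer D j, fun Y hY => ?_⟩
    have h := hfill (fun _ => 0) 0 le_rfl (fun _ => by simp) Y hY
    have e : Y + sc (fun _ _ => (0 : ℝ)) Y = Y := by ext x l; simp
    rw [e] at h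
    exact h
  set w : R3 → Fin 3 → ℝ :=
    (-(ε * t)) • horW j + (t • horW i + (-(ε * t ^ 2)) • W3) with hwd
  have hwhor : (fun _ : R3 => fun l => (if l = j then 1 else c) * (1 + t * if l = i then 0 else 1) - 1)
      = w := by
    funext x l
    simp only [hwd, Pi.add_apply, Pi.smul_apply, smul_eq_mul, horW, hW3, c]
    by_cases h1 : l = i
    · subst h1; simp [hij]
    · by_cases h2 : l = j
      · subst h2; simp [h1]
      · simp [h1, h2]; ring
  have hwb : ∀ (x : R3) (l : Fin 3), |w x l| ≤ (2 * ε + 1) * t := fun x l => by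
    rw [← hwhor]
    have h1 : ε * t * t ≤ ε * t := mul_le_of_le_one_right hεt0 ht1.le
    have h2 : 0 ≤ ε * t * t := mul_nonneg hεt0 ht0.le
    simp only [c]
    split_ifs <;> rw [abs_le] <;> constructor <;> linarith
  have hww : IsWeight w := (((isWeight_horW j).smul _).add (((isWeight_horW i).smul _).add
    (hW3w.smul _)))
  have hwDer : wDer D w = -(ε * t) * wDer D (horW j) + (t * wDer D (horW i) +
      -(ε * t ^ 2) * wDer D W3) := by
    rw [hwd, Weighted.wDer_add hFD ((isWeight_horW j).smul _)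
      (((isWeight_horW i).smul _).add (hW3w.smul _)), Weighted.wDer_add hFD
      ((isWeight_horW i).smul _) (hW3w.smul _), Weighted.wDer_smul hFD (isWeight_horW j),
      Weighted.wDer_smul hFD (isWeight_horW i), Weighted.wDer_smul hFD hW3w]
  have hrel : relPer D ≤ |P| := (Weighted.relPer_le hP).trans (le_abs_self _)
  have hwPer : wPer D' (((1 + t) - 1) • horW i) ≤
      P + wDer D w + 2 * ((2 * ε + 1) * t) ^ 2 * |P| + ε * t * (1 + t) * endPer D j := by
    refine Weighted.wPer_le fun Y hY => ?_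
    have h := hfill (fun l => t * if l = i then 0 else 1) t ht0.le (fun l => by
      split_ifs <;> simp [abs_of_pos ht0, ht0.le]) Y hY
    rw [hwhor] at h
    have e : ((1 + t) - 1) • horW i = fun (_ : R3) l => t * if l = i then 0 else 1 := by
      funext x l; simp [horW]
    rw [e]
    refine h.trans (add_le_add ?_ le_rfl)
    have h1 := Weighted.wPer_upper hFD hww (by positivity) hwb 1
    rw [one_smul, one_mul, one_pow, mul_one] at h1
    have h2 := Weighted.relPer_le hP
    have h3 : 2 * ((2 * ε + 1) * t) ^ 2 * relPer D ≤ 2 * ((2 * ε + 1) * t) ^ 2 * |P| :=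
      mul_le_mul_of_nonneg_left hrel (by positivity)
    linarith
  -- the stretched set
  have hst := relPerLE_stretchSet (k := i) hD'm hD'd hP' (show (1 : ℝ) ≤ 1 + t by linarith) hpq
  set τ := (1 + t)⁻¹ with hτd
  have hτ1 : τ ≤ 1 := inv_le_one_of_one_le₀ (by linarith)
  have e : 1 - c = ε * t := by simp [c]
  have hAA : |(∫ z in Ici τ, sliceArea D' i z) - ∫ z in Ici τ, sliceArea D i z| ≤
      ε * t * (1 - τ) := by
    have h := abs_layer_sub_le hD hdown hij hc0 hc hτ1 (g := fun _ => (1 : ℝ)) measurable_const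
      (M := 1) fun _ => abs_one.le
    simp only [setIntegral_const, smul_eq_mul, mul_one, one_mul, e] at h
    simpa [sliceArea, Measure.real] using h
  have hvD' : (volume D').toReal = v - ε * t * (v - mj) := by
    rw [hD', volume_fillSet hc0 hc le_rfl zero_le_one hD hdown hEj, htop,
      volume_endSlice hD hdown]
    have : (∫ z, slope 0 c z * sliceArea D j z) = c * v := by
      rw [hv, volume_eq_integral_sliceArea hD hdown.1 j, ← integral_const_mul]
      refine integral_congr_ae (ae_of_all _ fun z => ?_)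
      by_cases hz : z < 0
      · simp [sliceArea_eq_zero hdown.1 (z := z) fun h => absurd h.1 (not_le.2 hz)]
      · simp [slope, hz]
    rw [this]
    simp only [c]
    ring
  refine ⟨stretchSet D' i (1 + t), ∫ z in Ici τ, sliceArea D' i z, measurableSet_stretchSet hD'm _ _,
    isDownset_stretchSet hD'd (by linarith) i, ?_, hAA, fun Y hY => (hst Y hY).trans ?_⟩
  · rw [volume_stretchSet hD'm hD'd (by linarith) i, hvD', ← hτd]
  · have h := abs_layer_sub_le hD hdown hij hc0 hc hτ1 hgm hg
    rw [e] at h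
    simp only [flux]
    linarith [(abs_le.1 h).1, hwPer, hwDer]

/-- The scalar inequality of the pair move. -/
theorem pair_limit {t r η ε d G Ci Cj W lj li P Kb F V : ℝ} (ht0 : 0 < t) (hε : 0 ≤ ε)
    (hr : (1 + t) * r = t) (hr0 : 0 ≤ r) (hη : 0 ≤ η) (hKb : 0 ≤ Kb)
    (hstep : |V - t * G| ≤ t * (η + 2 * ε * t)) (habs : |V| ≤ (|G| + 2) * t)
    (hF : (li - η) * r ≤ F)
    (hφ : d * V - η * |V| ≤ -(ε * t) * Cj + (t * Ci + -(ε * t ^ 2) * W) +
      2 * ((2 * ε + 1) * t) ^ 2 * |P| + ε * t * (1 + t) * lj - (F - Kb * (ε * t) * r)) :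
    d * G ≤ (Ci - li) - ε * (Cj - lj) + η * (3 + |d| + |G|) +
      (2 * |d| * ε + ε * |W| + 2 * (2 * ε + 1) ^ 2 * |P| + ε * |lj| + |li - η| + Kb * ε +
        2 * ε) * t := by
  have hd : d * (t * G) - |d| * (t * (η + 2 * ε * t)) ≤ d * V := by
    have h := abs_mul d (V - t * G)
    have h' := mul_le_mul_of_nonneg_left hstep (abs_nonneg d)
    have := neg_abs_le (d * (V - t * G))
    linarith
  have hηabs : η * |V| ≤ η * ((|G| + 2) * t) := mul_le_mul_of_nonneg_left habs hη
  have hr1 : r ≤ t := by linarith [mul_nonneg ht0.le hr0]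
  have hsave : t * (li - η) - t ^ 2 * |li - η| ≤ (li - η) * r := by
    have e : t * (li - η) - (li - η) * r = t * r * (li - η) := by
      linear_combination (li - η) * hr.symm
    have : t * r * (li - η) ≤ t * t * |li - η| :=
      (mul_le_mul_of_nonneg_left (le_abs_self _) (mul_nonneg ht0.le hr0)).trans
        (mul_le_mul_of_nonneg_right (mul_le_mul_of_nonneg_left hr1 ht0.le) (abs_nonneg _))
    rw [pow_two]; linarith
  have hK : Kb * (ε * t) * r ≤ Kb * (ε * t) * t := mul_le_mul_of_nonneg_left hr1 (by positivity)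
  have hQ3 : -(ε * t ^ 2) * W ≤ ε * t ^ 2 * |W| := by
    rw [neg_mul, ← mul_neg]
    exact mul_le_mul_of_nonneg_left (neg_le_abs _) (by positivity)
  have hlj : ε * t * t * lj ≤ ε * t * t * |lj| :=
    mul_le_mul_of_nonneg_left (le_abs_self _) (by positivity)
  have hc2 : 0 ≤ ε * t ^ 2 := by positivity
  have hη2 : 0 ≤ t * η := by positivity
  refine le_of_mul_le_mul_left ?_ ht0
  linarith

/-- Squeeze coordinate `j` by `ε t`, stretch coordinate `i` by `t`: no first order gain. -/
theorem variation_pair (hD : MeasurableSet D) (hdown : IsDownset D) {φ : ℝ → ℝ}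
    (hP : RelPerLE D (φ (volume D).toReal)) {a : ℝ} (ha : a < (volume D).toReal)
    (hopt : ∀ (E : Set R3) (p : ℝ), MeasurableSet E → IsDownset E → RelPerLE E p →
      (volume E).toReal ∈ Icc a (volume D).toReal → φ (volume E).toReal ≤ p)
    {d : ℝ} (hφ : ∀ η > 0, ∀ᶠ w in 𝓝 (volume D).toReal, w ≤ (volume D).toReal →
      φ (volume D).toReal + d * (w - (volume D).toReal) - η * |w - (volume D).toReal| ≤ φ w)
    (hij : i ≠ j) {ε : ℝ} (hε : 0 ≤ ε)
    (hG : ((volume D).toReal - faceArea D i) - ε * ((volume D).toReal - faceArea D j) < 0) :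
    d * (((volume D).toReal - faceArea D i) - ε * ((volume D).toReal - faceArea D j)) ≤
      (wDer D (horW i) - endPer D i) - ε * (wDer D (horW j) - endPer D j) := by
  set v := (volume D).toReal with hv
  set P := φ v with hPd
  have hFD : Weighted.Finite D := ⟨hD, hdown.1, P, hP⟩
  set mi := faceArea D i
  set mj := faceArea D j
  set G := (v - mi) - ε * (v - mj) with hGd
  set X := (wDer D (horW i) - endPer D i) - ε * (wDer D (horW j) - endPer D j) with hX
  set W3 : R3 → Fin 3 → ℝ := fun _ b => if b = i ∨ b = j then 0 else 1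
  refine le_of_forall_pos_le_add fun e₀ he₀ => ?_
  set B₀ := 3 + |d| + |G| with hB₀
  set η := min (-G / 4) (min 1 (e₀ / (2 * B₀))) with hη
  have hB0 : 0 < B₀ := by positivity
  have hη0 : 0 < η := lt_min (by linarith) (lt_min one_pos (by positivity))
  obtain ⟨p, q, hpq, hflux⟩ := exists_field_endPer hD hdown i hη0
  obtain ⟨Kp, hKp⟩ := hpq.lip_fst
  obtain ⟨Kq, hKq⟩ := hpq.lip_snd
  obtain ⟨z₀, hz₀, hz₀'⟩ : ∃ z₀ ∈ Ico (0 : ℝ) 1, ∀ z ∈ Ioo z₀ 1,
      endPer D i - η ≤ flux p q (slice D i z) ∧ sliceArea D i z ≤ mi + η := by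
    have h1 : ∀ᶠ z in 𝓝[<] (1 : ℝ),
        endPer D i - η ≤ flux p q (slice D i z) ∧ sliceArea D i z ≤ mi + η := by
      refine hflux.and ?_
      filter_upwards [(tendsto_areaExt_faceArea hdown i).eventually
        (eventually_lt_nhds (show mi < mi + η by linarith)),
        Ioo_mem_nhdsLT (show (0 : ℝ) < 1 by norm_num)] with z hz h01
      rw [areaExt_eq h01.1.le] at hz
      exact hz.le
    obtain ⟨l0, hl0, hsub⟩ := mem_nhdsLT_iff_exists_Ioo_subset.1 h1
    exact ⟨max l0 0, ⟨le_max_right _ _, max_lt hl0 one_pos⟩,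
      fun z hz => hsub ⟨(le_max_left _ _).trans_lt hz.1, hz.2⟩⟩
  set K₁ := 2 * |d| * ε + ε * |wDer D W3| + 2 * (2 * ε + 1) ^ 2 * |P| + ε * |endPer D j| +
    |endPer D i - η| + (Kp + Kq) * ε + 2 * ε with hK₁
  have hev : ∀ᶠ t in 𝓝[>] (0 : ℝ), (0 < t ∧ t < 1) ∧ z₀ < (1 + t)⁻¹ ∧ ε * t < 1 / 2 ∧
      2 * ε * t ≤ η ∧ (|G| + 2) * t < v - a ∧ K₁ * t ≤ e₀ / 2 ∧
      ∀ w, |w - v| ≤ (|G| + 2) * t → w ≤ v → P + d * (w - v) - η * |w - v| ≤ φ w := by
    obtain ⟨r, hr, hball⟩ := Metric.eventually_nhds_iff.1 (hφ η hη0)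
    have ht0 : Tendsto (fun t : ℝ => t) (𝓝[>] 0) (𝓝 0) :=
      tendsto_nhdsWithin_of_tendsto_nhds tendsto_id
    have hτ : Tendsto (fun t : ℝ => (1 + t)⁻¹) (𝓝[>] 0) (𝓝 1) := by
      have h := ((ht0.const_add 1).inv₀ (by norm_num : (1 : ℝ) + 0 ≠ 0))
      simpa using h
    filter_upwards [Ioo_mem_nhdsGT (show (0 : ℝ) < 1 by norm_num),
      hτ.eventually (eventually_gt_nhds hz₀.2),
      (ht0.const_mul ε).eventually (eventually_lt_nhds (show ε * 0 < 1 / 2 by norm_num)),
      (ht0.const_mul (2 * ε)).eventually (eventually_le_nhds (show 2 * ε * 0 < η by simpa using hη0)),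
      (ht0.const_mul (|G| + 2)).eventually
        (eventually_lt_nhds (show (|G| + 2) * 0 < v - a by simpa using ha)),
      (ht0.const_mul K₁).eventually
        (eventually_le_nhds (show K₁ * 0 < e₀ / 2 by simpa using half_pos he₀)),
      (ht0.const_mul (|G| + 2)).eventually
        (eventually_lt_nhds (show (|G| + 2) * 0 < r by simpa using hr))]
      with t h1 h2 h3 h4 h5 h6 h7
    exact ⟨h1, h2, h3, h4, h5, h6, fun w hw => hball (by rw [Real.dist_eq]; linarith)⟩
  obtain ⟨t, ⟨ht0, ht1⟩, hzt, hεt, hεη, hta, htK, hφt⟩ := hev.exists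
  set τ := (1 + t)⁻¹ with hτd
  have hτ1 : τ ≤ 1 := inv_le_one_of_one_le₀ (by linarith)
  have hτ' : (1 + t) * (1 - τ) = t := by rw [hτd]; field_simp; ring
  obtain ⟨E, A', hEm, hEd, hV, hAA, hst⟩ :=
    exists_pair_competitor hD hdown hP hij hε ht0 ht1 hεt hpq hKp hKq
  rw [← hτd] at hAA hst
  rw [← hv] at hV
  have eW : (fun (_ : R3) (b : Fin 3) => if b = i ∨ b = j then (0 : ℝ) else 1) = W3 := rfl
  rw [eW] at hst
  set A := ∫ z in Ici τ, sliceArea D i z
  have hmem : ∀ z ∈ Ioo τ 1, z ∈ Ioo z₀ 1 ∧ z ∈ Ico (0 : ℝ) 1 := fun z hz =>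
    ⟨⟨hzt.trans hz.1, hz.2⟩, ⟨hz₀.1.trans (hzt.trans hz.1).le, hz.2⟩⟩
  have hi := integrable_sliceArea hD hdown.1 i
  have hout : ∀ z, (1 : ℝ) ≤ z → sliceArea D i z = 0 := fun z hz =>
    sliceArea_eq_zero hdown.1 fun h => absurd h.2 (not_lt.2 hz)
  have hA1 : mi * (1 - τ) ≤ A :=
    mul_le_integral_Ici hi hout hτ1 fun z hz => faceArea_le_sliceArea hdown i (hmem z hz).2
  have hA2 : -(mi + η) * (1 - τ) ≤ ∫ z in Ici τ, -sliceArea D i z :=
    mul_le_integral_Ici hi.neg (fun z hz => by simp [hout z hz]) hτ1 fun z hz =>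
      neg_le_neg ((hz₀' z (hmem z hz).1).2)
  rw [integral_neg] at hA2
  have hF : (endPer D i - η) * (1 - τ) ≤ ∫ z in Ici τ, flux p q (slice D i z) :=
    mul_le_integral_Ici (hpq.toSlice.integrable_fluxS hD hdown.1)
      (fun z hz => fluxS_eq_zero hdown.1 _ _ fun h => absurd h.2 (not_lt.2 hz)) hτ1
      fun z hz => (hz₀' z (hmem z hz).1).1
  have hv1 : v ≤ 1 := by
    have := ENNReal.toReal_mono (by rw [volume_cell]; simp) (measure_mono (μ := volume) hdown.1)
    rw [volume_cell] at this
    simpa using this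
  have hstep := pair_step (η := η) ht0 ht1.le hε hτ' hA1 (by linarith) hAA hV
    (sub_nonneg.2 (faceArea_le_volume_stretch hD hdown j))
    (by linarith [faceArea_nonneg_stretch hdown j])
  have hηG : η ≤ -G / 4 := min_le_left _ _
  have hη1 : η ≤ 1 := (min_le_right _ _).trans (min_le_left _ _)
  have hηe : η * B₀ ≤ e₀ / 2 := by
    have h : η ≤ e₀ / (2 * B₀) := (min_le_right _ _).trans (min_le_right _ _)
    calc η * B₀ ≤ e₀ / (2 * B₀) * B₀ := mul_le_mul_of_nonneg_right h hB0.le
      _ = e₀ / 2 := by field_simp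
  obtain ⟨hs1, hs2⟩ := abs_le.1 hstep
  have hneg : (volume E).toReal - v ≤ 0 := by
    have : t * (G + η + 2 * ε * t) ≤ 0 := mul_nonpos_of_nonneg_of_nonpos ht0.le (by linarith)
    linarith
  have habs : |(volume E).toReal - v| ≤ (|G| + 2) * t := by
    have h1 : t * (η + 2 * ε * t) ≤ t * 2 := mul_le_mul_of_nonneg_left (by linarith) ht0.le
    have h2 : -(t * |G|) ≤ t * G ∧ t * G ≤ t * |G| :=
      ⟨by rw [← mul_neg]; exact mul_le_mul_of_nonneg_left (neg_abs_le _) ht0.le,
        mul_le_mul_of_nonneg_left (le_abs_self _) ht0.le⟩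
    rw [abs_le]
    constructor <;> linarith
  have hφ'' := hopt E _ hEm hEd hst ⟨by linarith [(abs_le.1 habs).1], by linarith⟩
  have hlow := hφt _ habs (by linarith)
  have hmain := pair_limit (d := d) (G := G) (P := P) (Ci := wDer D (horW i))
    (Cj := wDer D (horW j)) (W := wDer D W3) (lj := endPer D j) ht0 hε hτ' (sub_nonneg.2 hτ1) hη0.le
    (by positivity : (0 : ℝ) ≤ (Kp : ℝ) + Kq) hstep habs hF (by linarith [hφ'', hlow])
  rw [hB₀] at hηe
  rw [hK₁] at htK
  linarith

/-- One multiplier for all coordinates. -/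
theorem exists_lagrange (hD : MeasurableSet D) (hdown : IsDownset D) {φ : ℝ → ℝ}
    (hP : RelPerLE D (φ (volume D).toReal)) {a : ℝ} (ha : a < (volume D).toReal)
    (hopt : ∀ (E : Set R3) (p : ℝ), MeasurableSet E → IsDownset E → RelPerLE E p →
      (volume E).toReal ∈ Icc a (volume D).toReal → φ (volume E).toReal ≤ p)
    {d : ℝ} (hφ : ∀ η > 0, ∀ᶠ w in 𝓝 (volume D).toReal, w ≤ (volume D).toReal →
      φ (volume D).toReal + d * (w - (volume D).toReal) - η * |w - (volume D).toReal| ≤ φ w)
    (hm : ∀ k, faceArea D k < (volume D).toReal) :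
    ∃ lam ≤ d, ∀ k, wDer D (horW k) =
      lam * ((volume D).toReal - faceArea D k) + endPer D k := by
  set v := (volume D).toReal with hv
  set X : Fin 3 → ℝ := fun k => wDer D (horW k) - endPer D k with hX
  set b : Fin 3 → ℝ := fun k => v - faceArea D k with hb
  have hb0 : ∀ k, 0 < b k := fun k => sub_pos.2 (hm k)
  have hpair : ∀ i j, i ≠ j → ∀ ε, 0 ≤ ε → b i - ε * b j < 0 →
      d * (b i - ε * b j) ≤ X i - ε * X j :=
    fun i j hij ε hε hG => variation_pair hD hdown hP ha hopt hφ hij hε hG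
  have hle : ∀ j, X j ≤ d * b j := by
    intro j
    obtain ⟨i, hij⟩ : ∃ i, i ≠ j := exists_ne j
    by_contra! hlt
    set D0 := X j - d * b j with hD0
    set A0 := X i - d * b i with hA0
    have hD0p : 0 < D0 := sub_pos.2 hlt
    set ε := (|A0| + 1) / D0 + b i / b j + 1 with hεd
    have h0 : 0 ≤ b i / b j := div_nonneg (hb0 i).le (hb0 j).le
    have h0' : 0 ≤ (|A0| + 1) / D0 := by positivity
    have hG : b i - ε * b j < 0 := by
      have : b i = b i / b j * b j := (div_mul_cancel₀ _ (hb0 j).ne').symm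
      have h2 : 0 < ((|A0| + 1) / D0 + 1) * b j := mul_pos (by linarith) (hb0 j)
      rw [hεd]; linarith
    have h := hpair i j hij ε (by linarith) hG
    have h3 : |A0| + 1 ≤ ε * D0 := by
      calc |A0| + 1 = (|A0| + 1) / D0 * D0 := (div_mul_cancel₀ _ hD0p.ne').symm
        _ ≤ ε * D0 := mul_le_mul_of_nonneg_right (by linarith) hD0p.le
    have h4 : 0 ≤ A0 - ε * D0 := by rw [hA0, hD0]; linarith
    linarith [le_abs_self A0]
  have hge : ∀ i j, i ≠ j → X j * b i ≤ X i * b j := by
    intro i j hij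
    refine le_of_forall_pos_le_add fun e he => ?_
    set K := b j * (|d| * b j + |X j|) + 1 with hK
    have hK0 : 0 < K := by
      have := (hb0 j).le
      positivity
    set ν := e / K with hν
    have hν0 : 0 < ν := by positivity
    set ε := b i / b j + ν with hεd
    have hG : b i - ε * b j = -(ν * b j) := by
      rw [hεd]
      have : b i / b j * b j = b i := div_mul_cancel₀ _ (hb0 j).ne'
      linarith
    have h := hpair i j hij ε (by have := div_nonneg (hb0 i).le (hb0 j).le; linarith)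
      (by rw [hG]; exact neg_neg_of_pos (mul_pos hν0 (hb0 j)))
    rw [hG] at h
    have h1 := mul_le_mul_of_nonneg_left h (hb0 j).le
    have e1 : b j * (X i - ε * X j) = X i * b j - X j * b i - ν * (b j * X j) := by
      rw [hεd]
      have : b i / b j * b j = b i := div_mul_cancel₀ _ (hb0 j).ne'
      linear_combination (-X j) * this
    rw [e1] at h1
    have h2 : ν * (b j * -(X j)) ≤ ν * (b j * |X j|) :=
      mul_le_mul_of_nonneg_left (mul_le_mul_of_nonneg_left (neg_le_abs _) (hb0 j).le) hν0.le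
    have h3 : d * (ν * (b j * b j)) ≤ |d| * (ν * (b j * b j)) :=
      mul_le_mul_of_nonneg_right (le_abs_self _) (mul_nonneg hν0.le (mul_self_nonneg _))
    have h4 : ν * K = e := div_mul_cancel₀ _ hK0.ne'
    rw [hK] at h4
    linarith
  refine ⟨X 0 / b 0, by rw [div_le_iff₀ (hb0 0)]; exact hle 0, fun k => ?_⟩
  have key : X k = X 0 / b 0 * b k := by
    rw [div_mul_eq_mul_div, eq_div_iff (hb0 0).ne']
    rcases eq_or_ne k 0 with rfl | hk
    · rfl
    · exact le_antisymm (hge 0 k (Ne.symm hk)) (hge k 0 hk)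
  simp only [hX, hb] at key ⊢
  linarith

/-- The three derivatives add up to twice the perimeter. -/
theorem sum_wDer_horW {P : ℝ} (hD : MeasurableSet D) (hdown : IsDownset D) (hP : RelPerLE D P) :
    ∑ k, wDer D (horW k) = 2 * relPer D := by
  have hFD : Weighted.Finite D := ⟨hD, hdown.1, P, hP⟩
  have e : horW 0 + (horW 1 + horW 2) = (2 : ℝ) • Weighted.iso fun _ => 1 := by
    funext x l
    fin_cases l <;> simp [horW, Weighted.iso] <;> norm_num
  have h := congrArg (wDer D) e
  rw [Weighted.wDer_add hFD (isWeight_horW 0) ((isWeight_horW 1).add (isWeight_horW 2)),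
    Weighted.wDer_add hFD (isWeight_horW 1) (isWeight_horW 2),
    Weighted.wDer_smul hFD (Weighted.isWeight_iso (K := 0) (LipschitzWith.const 1) zero_le_one
      fun _ => by simp), Weighted.wDer_one hFD] at h
  rw [Fin.sum_univ_three]
  linarith

/-- The weight one on coordinate `k` alone carries the rest of the perimeter. -/
theorem wDer_horW_le {P : ℝ} (hD : MeasurableSet D) (hdown : IsDownset D) (hP : RelPerLE D P)
    (k : Fin 3) : wDer D (horW k) ≤ relPer D := by
  have hFD : Weighted.Finite D := ⟨hD, hdown.1, P, hP⟩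
  set u : R3 → Fin 3 → ℝ := fun _ l => if l = k then 1 else 0 with hu
  have huw : IsWeight u := ⟨fun _ => ⟨0, LipschitzWith.const _⟩, 1, zero_le_one, fun _ l => by
    simp only [hu]; split_ifs <;> simp⟩
  have e : horW k + u = Weighted.iso fun _ => 1 := by
    funext x l
    simp only [Pi.add_apply, horW, hu, Weighted.iso]
    split_ifs <;> norm_num
  have h := congrArg (wDer D) e
  rw [Weighted.wDer_add hFD (isWeight_horW k) huw, Weighted.wDer_one hFD] at h
  have := Weighted.wDer_nonneg hFD huw fun x l => by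
    simp only [hu]; split_ifs <;> norm_num
  linarith

end Vale.Agent.P232
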