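import Vale.Agent.P232.Deform
import Vale.Agent.P232.DownFinite
import Vale.Agent.P232.Variation

/-!
First order competitors built from deformations of one coordinate: a change with zero mean rate,
after a squeeze with filling or after a stretch in another coordinate.
-/

open MeasureTheory Set Filter Function
open scoped NNReal Topology

namespace Vale.Agent.P232

open Weighted (fl sc wPer wDer relPer IsWeight)

variable {D : Set R3} {k j : Fin 3} {u : ℝ → ℝ} {Ku : ℝ≥0} {C : ℝ}

/-- The rate `u` of the coordinate `k`, put on the two other coordinates. -/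
def horU (k : Fin 3) (u : ℝ → ℝ) : R3 → Fin 3 → ℝ := fun x i => if i = k then 0 else u (x k)

theorem isWeight_horU (hu : LipschitzWith Ku u) (hb : ∀ z, |u z| ≤ C) (k : Fin 3) :
    IsWeight (horU k u) := by
  refine ⟨fun i => ?_, C, (abs_nonneg _).trans (hb 0), fun x i => ?_⟩
  · by_cases h : i = k
    · simp only [horU, h, if_true]
      exact ⟨0, LipschitzWith.const _⟩
    · simp only [horU, h, if_false]
      exact ⟨_, hu.comp (Weighted.lip_coord LipschitzWith.id k)⟩
  · unfold horU
    split_ifs
    · rw [abs_zero]; exact (abs_nonneg _).trans (hb 0)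
    · exact hb _

/-- The product of the weight of a squeeze in `j` and a rate in `k`. -/
def crossW (j k : Fin 3) (u : ℝ → ℝ) : R3 → Fin 3 → ℝ :=
  fun x i => if i = j then 0 else horU k u x i

theorem isWeight_crossW (hu : LipschitzWith Ku u) (hb : ∀ z, |u z| ≤ C) (j k : Fin 3) :
    IsWeight (crossW j k u) := by
  have h := isWeight_horU hu hb k
  obtain ⟨B, hB0, hB⟩ := h.bdd
  refine ⟨fun i => ?_, B, hB0, fun x i => ?_⟩
  · by_cases hi : i = j
    · simp only [crossW, hi, if_true]
      exact ⟨0, LipschitzWith.const _⟩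
    · simpa [crossW, hi] using h.lip i
  · unfold crossW
    split_ifs
    · rw [abs_zero]; exact hB0
    · exact hB x i

/-- The coordinate change with rate `t u`. -/
noncomputable def shiftProfile (hu : LipschitzWith Ku u) (hb : ∀ z, |u z| ≤ C) {t : ℝ}
    (ht0 : 0 ≤ t) (ht : t * C ≤ 1 / 2) : Deform.Profile where
  φ z := z + t * ∫ r in (0 : ℝ)..z, u r
  d z := 1 + t * u z
  deriv_eq z := by
    have h := hu.continuous
    exact (hasDerivAt_id z).add ((intervalIntegral.integral_hasDerivAt_right
      (h.intervalIntegrable _ _) (h.stronglyMeasurableAtFilter _ _) h.continuousAt).const_mul t)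
  lip := ⟨_, (LipschitzWith.const (1 : ℝ)).add ((lipschitzWith_smul t).comp hu)⟩
  mem z := by
    have h := mul_le_mul_of_nonneg_left (hb z) ht0
    have h1 := abs_le.1 (show |t * u z| ≤ 1 / 2 by rw [abs_mul, abs_of_nonneg ht0]; linarith)
    exact ⟨by linarith [h1.1], by linarith [h1.2]⟩
  zero_le := by simp

/-- The linear stretch of one coordinate. -/
noncomputable def stretchProfile {s : ℝ} (hs0 : 0 ≤ s) (hs1 : s ≤ 1) : Deform.Profile where
  φ z := (1 + s) * z
  d _ := 1 + s
  deriv_eq z := by simpa using (hasDerivAt_id z).const_mul (1 + s)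
  lip := ⟨0, LipschitzWith.const _⟩
  mem _ := ⟨by linarith, by linarith⟩
  zero_le := by simp

section shift

variable (hu : LipschitzWith Ku u) (hb : ∀ z, |u z| ≤ C) {t : ℝ} (ht0 : 0 ≤ t)
  (ht : t * C ≤ 1 / 2) (hmean : ∫ r in (0 : ℝ)..1, u r = 0)

include hmean in
theorem shiftProfile_one : (shiftProfile hu hb ht0 ht).φ 1 = 1 := by
  simp [shiftProfile, hmean]

include hmean in
theorem shiftProfile_mem (z : ℝ) :
    (shiftProfile hu hb ht0 ht).φ z ∈ Ico (0 : ℝ) 1 ↔ z ∈ Ico (0 : ℝ) 1 := by
  have hm := (shiftProfile hu hb ht0 ht).strictMono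
  have h0 : (shiftProfile hu hb ht0 ht).φ 0 = 0 := by simp [shiftProfile]
  have h1 := shiftProfile_one hu hb ht0 ht hmean
  rw [mem_Ico, mem_Ico]
  constructor
  · rintro ⟨a, b⟩
    exact ⟨hm.le_iff_le.1 (h0.le.trans a), hm.lt_iff_lt.1 (b.trans_eq h1.symm)⟩
  · rintro ⟨a, b⟩
    exact ⟨h0.ge.trans (hm.monotone a), (hm b).trans_eq h1⟩

include hmean in
theorem volume_image_shift {E : Set R3} (hE : MeasurableSet E) (hEd : IsDownset E) :
    (volume (Deform.image (shiftProfile hu hb ht0 ht) k E)).toReal =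
      (volume E).toReal + t * ∫ z, u z * sliceArea E k z := by
  set p := shiftProfile hu hb ht0 ht
  have hsub : Deform.image p k E ⊆ cell := fun x hx => hx.1
  have h := Deform.setIntegral_image (k := k) hE hEd.1 p (f := fun _ => (1 : ℝ))
    (integrableOn_const ((measure_mono hsub).trans_lt (by rw [volume_cell]; simp)).ne)
  simp only [setIntegral_const, smul_eq_mul, mul_one] at h
  have e : ∀ z, (if p.φ z ∈ Ico (0 : ℝ) 1 then p.d z * volume.real (slice E k z) else 0) =
      sliceArea E k z + t * (u z * sliceArea E k z) := fun z => by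
    simp only [p, shiftProfile_mem hu hb ht0 ht hmean]
    by_cases hz : z ∈ Ico (0 : ℝ) 1
    · rw [if_pos hz]
      simp only [shiftProfile, sliceArea, Measure.real]
      ring
    · rw [if_neg hz, sliceArea_eq_zero hEd.1 hz]
      ring
  simp only [e] at h
  have hi := integrable_sliceArea hE hEd.1 k
  have hi2 : Integrable fun z => u z * sliceArea E k z :=
    hi.bdd_mul hu.continuous.aestronglyMeasurable
      (ae_of_all _ fun z => (Real.norm_eq_abs _).trans_le (hb z))
  rw [integral_add hi (hi2.const_mul t), integral_const_mul,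
    ← volume_eq_integral_sliceArea hE hEd.1] at h
  exact h

include hmean in
theorem relPerLE_image_shift {E : Set R3} (hE : MeasurableSet E) (hEd : IsDownset E) :
    RelPerLE (Deform.image (shiftProfile hu hb ht0 ht) k E) (wPer E (t • horU k u)) := by
  set p := shiftProfile hu hb ht0 ht
  have hF : Weighted.Finite E := finite_of_downset hE hEd
  have hF' : Weighted.Finite (Deform.image p k E) :=
    finite_of_downset (Deform.measurableSet_image hE p k) (Deform.image_downset hEd p k)
  have h := Deform.wPer_image_gain hF p k (shiftProfile_one hu hb ht0 ht hmean).ge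
    Weighted.isWeight_zero (κ := 0) zero_lt_one (fun _ _ => by simp) isSqField_zero.toSlice
  have e : Deform.wPull p k 0 = t • horU k u := by
    funext x i
    simp only [Deform.wPull, Pi.zero_apply, add_zero, mul_one, Pi.smul_apply, smul_eq_mul, horU]
    split_ifs
    · ring
    · simp [p, shiftProfile]
  simp only [fluxS, flux_zero, mul_zero, ite_self, integral_zero, add_zero, e] at h
  exact fun X hX => (Weighted.relPerLE_relPer hF' X hX).trans h

end shift

/-- The gain of a linear stretch. -/
theorem wPer_image_stretch (hD : MeasurableSet D) (hdown : IsDownset D) {s : ℝ} (hs0 : 0 ≤ s)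
    (hs1 : s ≤ 1) {w' : R3 → Fin 3 → ℝ} (hw : IsWeight w') {κ : ℝ} (hκ1 : κ < 1)
    (hκ : ∀ x i, -κ ≤ w' x i) {p q : ℝ × ℝ → ℝ} (hpq : IsSqField p q) :
    wPer (Deform.image (stretchProfile hs0 hs1) j D) w' +
        (1 - κ) * ((1 + s) * ∫ z in Ici (1 + s)⁻¹, flux p q (slice D j z)) ≤
      wPer D (Deform.wPull (stretchProfile hs0 hs1) j w') := by
  have h := Deform.wPer_image_gain (finite_of_downset hD hdown) (stretchProfile hs0 hs1) j
    (by simp [stretchProfile, hs0]) hw hκ1 hκ hpq.toSlice
  refine le_trans (le_of_eq ?_) h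
  congr 2
  rw [← integral_indicator measurableSet_Ici, ← integral_const_mul]
  refine integral_congr_ae (ae_of_all _ fun z => ?_)
  simp only [stretchProfile, indicator, mem_Ici, mem_Ico]
  have hpos : 0 < 1 + s := by linarith
  by_cases h0 : 0 ≤ z
  · by_cases h1 : (1 + s) * z < 1
    · have : ¬ (1 + s)⁻¹ ≤ z := fun h => by
        have := mul_le_mul_of_nonneg_left h hpos.le
        rw [mul_inv_cancel₀ hpos.ne'] at this
        linarith
      simp [h1, this, mul_nonneg hpos.le h0]
    · have : (1 + s)⁻¹ ≤ z := by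
        rw [inv_eq_one_div, div_le_iff₀ hpos]; linarith
      simp [h1, this, fluxS]
  · have hz : fluxS (fun a => p a.2) (fun a => q a.2) D j z = 0 :=
      fluxS_eq_zero hdown.1 _ _ fun h => h0 h.1
    have h1 : ¬ (1 + s)⁻¹ ≤ z := fun h => h0 ((inv_pos.2 hpos).le.trans h)
    have h2 : ¬ (0 ≤ (1 + s) * z) := fun h => h0 (by
      by_contra hn
      exact absurd h (not_le.2 (mul_neg_of_pos_of_neg hpos (not_le.1 hn))))
    simp [h1, h2, hz]

theorem volume_image_stretch (hD : MeasurableSet D) (hdown : IsDownset D) {s : ℝ} (hs0 : 0 ≤ s)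
    (hs1 : s ≤ 1) :
    (volume (Deform.image (stretchProfile hs0 hs1) j D)).toReal =
      (1 + s) * ((volume D).toReal - ∫ z in Ici (1 + s)⁻¹, sliceArea D j z) := by
  set p := stretchProfile hs0 hs1
  have hsub : Deform.image p j D ⊆ cell := fun x hx => hx.1
  have h := Deform.setIntegral_image (k := j) hD hdown.1 p (f := fun _ => (1 : ℝ))
    (integrableOn_const ((measure_mono hsub).trans_lt (by rw [volume_cell]; simp)).ne)
  simp only [setIntegral_const, smul_eq_mul, mul_one] at h
  have hpos : 0 < 1 + s := by linarith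
  have e : ∀ z, (if p.φ z ∈ Ico (0 : ℝ) 1 then p.d z * volume.real (slice D j z) else 0) =
      (1 + s) * (Iio (1 + s)⁻¹).indicator (sliceArea D j) z := fun z => by
    simp only [p, stretchProfile, indicator, mem_Iio, mem_Ico]
    by_cases h0 : 0 ≤ z
    · have hiff : (1 + s) * z < 1 ↔ z < (1 + s)⁻¹ := by
        rw [inv_eq_one_div, lt_div_iff₀ hpos, mul_comm]
      by_cases h1 : z < (1 + s)⁻¹
      · simp [mul_nonneg hpos.le h0, h1, hiff.2 h1, sliceArea, Measure.real]
      · simp [h1, mt hiff.1 h1]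
    · have h2 : ¬ (0 ≤ (1 + s) * z) :=
        not_le.2 (mul_neg_of_pos_of_neg hpos (not_le.1 h0))
      simp [h2, sliceArea_eq_zero hdown.1 (z := z) fun h => h0 h.1]
  simp only [e] at h
  rw [integral_const_mul, integral_indicator measurableSet_Iio] at h
  have hsum := integral_add_compl (s := Iio (1 + s)⁻¹) measurableSet_Iio
    (integrable_sliceArea hD hdown.1 j)
  rw [compl_Iio] at hsum
  rw [volume_eq_integral_sliceArea hD hdown.1 j]
  rw [show (volume (Deform.image p j D)).toReal = volume.real (Deform.image p j D) from rfl, h]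
  linear_combination (1 + s) * hsum

theorem subset_image_stretch (hdown : IsDownset D) {s : ℝ} (hs0 : 0 ≤ s) (hs1 : s ≤ 1) :
    D ⊆ Deform.image (stretchProfile hs0 hs1) j D := by
  intro x hx
  set p := stretchProfile hs0 hs1
  have hc := hdown.1 hx
  have hle : p.ψ (x j) ≤ x j := by
    refine p.strictMono.le_iff_le.1 ?_
    rw [p.right_inv]
    simp only [p, stretchProfile]
    linarith [mul_nonneg hs0 (hc j).1]
  have h0 : 0 ≤ p.ψ (x j) := p.ψ_nonneg.trans (p.ψ_mono.monotone (hc j).1)
  refine ⟨hc, hdown.2 _ hx _ (fun i => ?_) fun i => ?_⟩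
  all_goals rcases eq_or_ne i j with rfl | hi
  all_goals simp only [Deform.pull, PiLp.add_apply, PiLp.smul_apply, smul_eq_mul]
  · rw [Deform.e_apply_self]; constructor <;> linarith [(hc i).2]
  · rw [Deform.e_apply_ne hi]; simpa using hc i
  · rw [Deform.e_apply_self]; linarith
  · rw [Deform.e_apply_ne hi]; simp

theorem abs_integral_rate_sub_le (hu : LipschitzWith Ku u) (hb : ∀ z, |u z| ≤ C) {A B : Set R3}
    (hA : MeasurableSet A) (hAd : IsDownset A) (hB : MeasurableSet B) (hBd : IsDownset B)
    (hAB : A ⊆ B) (k : Fin 3) :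
    |(∫ z, u z * sliceArea A k z) - ∫ z, u z * sliceArea B k z| ≤
      C * ((volume B).toReal - (volume A).toReal) := by
  have iA := integrable_sliceArea hA hAd.1 k
  have iB := integrable_sliceArea hB hBd.1 k
  have hbd : ∀ᵐ z : ℝ, ‖u z‖ ≤ C := ae_of_all _ fun z => (Real.norm_eq_abs _).trans_le (hb z)
  rw [← integral_sub (iA.bdd_mul hu.continuous.aestronglyMeasurable hbd)
    (iB.bdd_mul hu.continuous.aestronglyMeasurable hbd), volume_eq_integral_sliceArea hB hBd.1 k,
    volume_eq_integral_sliceArea hA hAd.1 k, ← integral_sub iB iA, ← integral_const_mul,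
    ← Real.norm_eq_abs]
  refine norm_integral_le_of_norm_le ((iB.sub iA).const_mul C) (ae_of_all _ fun z => ?_)
  have h : sliceArea A k z ≤ sliceArea B k z :=
    ENNReal.toReal_mono (volume_slice_ne_top hBd.1 k z) (measure_mono fun w hw => hAB hw)
  rw [Real.norm_eq_abs, ← mul_sub, abs_mul, abs_sub_comm, abs_of_nonneg (sub_nonneg.2 h)]
  exact mul_le_mul_of_nonneg_right (hb z) (sub_nonneg.2 h)

/-- A family of competitors of first order change `G < 0` of the volume costs at least `d G`. -/
theorem first_order {φ : ℝ → ℝ} {v a d : ℝ} (ha : a < v)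
    (hopt : ∀ (E : Set R3) (p : ℝ), MeasurableSet E → IsDownset E → RelPerLE E p →
      (volume E).toReal ∈ Icc a v → φ (volume E).toReal ≤ p)
    (hφ : ∀ η > 0, ∀ᶠ w in 𝓝 v, w ≤ v → φ v + d * (w - v) - η * |w - v| ≤ φ w)
    {G X : ℝ} (hG : G < 0)
    (hfam : ∀ η > 0, ∃ K : ℝ, ∀ᶠ t in 𝓝[>] (0 : ℝ), ∃ (E : Set R3) (p : ℝ), MeasurableSet E ∧
      IsDownset E ∧ RelPerLE E p ∧ |(volume E).toReal - v - t * G| ≤ t * (η + K * t) ∧
      p ≤ φ v + t * (X + η) + K * t ^ 2) :
    d * G ≤ X := by
  refine le_of_forall_pos_le_add fun e he => ?_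
  set B := 2 + |d| + |G| with hBd
  have hB : 0 < B := by positivity
  set η := min (-G / 4) (min 1 (e / (4 * B))) with hη
  have hη0 : 0 < η := lt_min (by linarith) (lt_min one_pos (by positivity))
  obtain ⟨K, hK⟩ := hfam η hη0
  obtain ⟨r, hr, hball⟩ := Metric.eventually_nhds_iff.1 (hφ η hη0)
  set M := |G| + 2 with hM
  set N := (|d| + 1) * |K| with hN
  have ht0' : Tendsto (fun t : ℝ => t) (𝓝[>] 0) (𝓝 0) :=
    tendsto_nhdsWithin_of_tendsto_nhds tendsto_id
  have hev : ∀ᶠ t in 𝓝[>] (0 : ℝ), (∃ (E : Set R3) (p : ℝ), MeasurableSet E ∧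
      IsDownset E ∧ RelPerLE E p ∧ |(volume E).toReal - v - t * G| ≤ t * (η + K * t) ∧
      p ≤ φ v + t * (X + η) + K * t ^ 2) ∧ 0 < t ∧ |K| * t < η ∧ M * t < v - a ∧ M * t < r ∧
      N * t ≤ e / 2 := by
    filter_upwards [hK, self_mem_nhdsWithin,
      (ht0'.const_mul |K|).eventually (eventually_lt_nhds (show |K| * 0 < η by simpa using hη0)),
      (ht0'.const_mul M).eventually (eventually_lt_nhds (show M * 0 < v - a by simpa using ha)),
      (ht0'.const_mul M).eventually (eventually_lt_nhds (show M * 0 < r by simpa using hr)),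
      (ht0'.const_mul N).eventually
        (eventually_le_nhds (show N * 0 < e / 2 by simpa using half_pos he))] with t h1 h2 h3 h4 h5 h6
    exact ⟨h1, h2, h3, h4, h5, h6⟩
  obtain ⟨t, ⟨E, p, hEm, hEd, hEp, hV, hp⟩, ht0, htK, hta, htr, htN⟩ := hev.exists
  have hη1 : η ≤ 1 := (min_le_right _ _).trans (min_le_left _ _)
  have hηG : η ≤ -G / 4 := min_le_left _ _
  have hηe : η * B ≤ e / 4 := by
    calc η * B ≤ e / (4 * B) * B :=
          mul_le_mul_of_nonneg_right ((min_le_right _ _).trans (min_le_right _ _)) hB.le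
      _ = e / 4 := by field_simp
  have hKt : t * (K * t) ≤ t * (|K| * t) :=
    mul_le_mul_of_nonneg_left (mul_le_mul_of_nonneg_right (le_abs_self K) ht0.le) ht0.le
  have hKη : t * (|K| * t) ≤ t * η := mul_le_mul_of_nonneg_left htK.le ht0.le
  obtain ⟨hV1, hV2⟩ := abs_le.1 hV
  have hneg : (volume E).toReal - v ≤ 0 := by
    have : t * (G + 4 * η) ≤ 0 := mul_nonpos_of_nonneg_of_nonpos ht0.le (by linarith)
    linarith [mul_nonneg ht0.le hη0.le]
  have habs : |(volume E).toReal - v| ≤ M * t := by
    have h1 : -(t * |G|) ≤ t * G ∧ t * G ≤ t * |G| :=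
      ⟨by rw [← mul_neg]; exact mul_le_mul_of_nonneg_left (neg_abs_le _) ht0.le,
        mul_le_mul_of_nonneg_left (le_abs_self _) ht0.le⟩
    have h2 : t * η ≤ t * 1 := mul_le_mul_of_nonneg_left hη1 ht0.le
    rw [abs_le, hM]
    constructor <;> linarith
  have hlow := hball (show dist (volume E).toReal v < r by rw [Real.dist_eq]; linarith)
    (by linarith)
  have hφE := hopt E p hEm hEd hEp ⟨by linarith [(abs_le.1 habs).1], by linarith⟩
  have hd : d * (t * G) - |d| * (t * (η + |K| * t)) ≤ d * ((volume E).toReal - v) := by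
    have h := abs_mul d ((volume E).toReal - v - t * G)
    have h' : |d| * |(volume E).toReal - v - t * G| ≤ |d| * (t * (η + |K| * t)) :=
      mul_le_mul_of_nonneg_left (hV.trans (by linarith)) (abs_nonneg d)
    have := neg_abs_le (d * ((volume E).toReal - v - t * G))
    linarith
  have hηabs : η * |(volume E).toReal - v| ≤ η * (M * t) :=
    mul_le_mul_of_nonneg_left habs hη0.le
  have hK2 : K * t ^ 2 ≤ |K| * t ^ 2 :=
    mul_le_mul_of_nonneg_right (le_abs_self K) (sq_nonneg t)
  have main : t * (d * G) ≤ t * (X + η * B + η + N * t) := by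
    rw [hBd, hN]
    rw [hM] at hηabs
    linarith
  have h2 := le_of_mul_le_mul_left main ht0
  have h3 : η ≤ η * B := le_mul_of_one_le_right hη0.le (by linarith [abs_nonneg d, abs_nonneg G])
  linarith

end Vale.Agent.P232
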