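import Mathlib

/-! Helly selection for antitone functions of several variables. -/

open MeasureTheory Set Filter Topology

namespace Vale.Agent.P232

variable {ι : Type*} [Fintype ι]

/-- A sequence of antitone functions with values in [0,1] has a subsequence converging almost
everywhere to an antitone function. -/
theorem exists_ae_tendsto_of_antitone (h : ℕ → (ι → ℝ) → ℝ) (ha : ∀ n, Antitone (h n))
    (h01 : ∀ n x, h n x ∈ Icc (0 : ℝ) 1) :
    ∃ φ : ℕ → ℕ, StrictMono φ ∧ ∃ f : (ι → ℝ) → ℝ, Antitone f ∧ (∀ x, f x ∈ Icc (0 : ℝ) 1) ∧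
      ∀ᵐ x, Tendsto (fun k => h (φ k) x) atTop (𝓝 (f x)) := by
  classical
  obtain ⟨L, hL, φ, hφ, hlim⟩ :=
    (isCompact_univ_pi fun _ : ι → ℚ => isCompact_Icc (a := (0 : ℝ)) (b := 1)).isSeqCompact
      (x := fun n q => h n fun i => (q i : ℝ)) fun n q _ => h01 n _
  have hL1 : ∀ q, L q ∈ Icc (0 : ℝ) 1 := fun q => hL q (mem_univ _)
  have hlim' : ∀ q : ι → ℚ, Tendsto (fun k => h (φ k) fun i => (q i : ℝ)) atTop (𝓝 (L q)) :=
    fun q => tendsto_pi_nhds.1 hlim q
  set T : (ι → ℝ) → (ι → ℚ) → ℝ := fun x q => if ∀ i, x i < q i then L q else 0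
  have hT : ∀ x q, T x q ∈ Icc (0 : ℝ) 1 := fun x q => by
    show (if _ then _ else _) ∈ _
    split_ifs
    exacts [hL1 q, left_mem_Icc.2 zero_le_one]
  have hb : ∀ x, BddAbove (range (T x)) := fun x => ⟨1, forall_mem_range.2 fun q => (hT x q).2⟩
  set f : (ι → ℝ) → ℝ := fun x => ⨆ q, T x q
  have hf1 : ∀ x, f x ∈ Icc (0 : ℝ) 1 := fun x =>
    ⟨le_ciSup_of_le (hb x) (fun _ => 0) (hT x _).1, ciSup_le fun q => (hT x q).2⟩
  have hf : Antitone f := fun x y hxy => ciSup_mono (hb x) fun q => by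
    show (if _ then _ else _) ≤ T x q
    split_ifs with hq
    · rw [show T x q = L q from if_pos fun i => (hxy i).trans_lt (hq i)]
    · exact (hT x q).1
  refine ⟨φ, hφ, f, hf, hf1, ?_⟩
  have hlow : ∀ t : ℚ, IsLowerSet {x | (t : ℝ) < f x} := fun t x y hyx hx =>
    lt_of_lt_of_le hx (hf hyx)
  filter_upwards [ae_all_iff.2 fun t : ℚ =>
    measure_eq_zero_iff_ae_notMem.1 (hlow t).null_frontier] with x hx
  refine tendsto_order.2 ⟨fun a ha' => ?_, fun b hb' => ?_⟩
  · obtain ⟨q, hq⟩ := exists_lt_of_lt_ciSup ha'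
    change a < if _ then _ else _ at hq
    split_ifs at hq with hxq
    · filter_upwards [(hlim' q).eventually (lt_mem_nhds hq)] with k hk
      exact hk.trans_le (ha _ fun i => (hxq i).le)
    · exact Eventually.of_forall fun k => hq.trans_le (h01 _ x).1
  · obtain ⟨t, ht1, ht2⟩ := exists_rat_btwn hb'
    have hxc : x ∉ closure {y | (t : ℝ) < f y} := fun hc =>
      hx t ⟨hc, fun hi => absurd (interior_subset hi : x ∈ {y | (t : ℝ) < f y}) ht1.le.not_gt⟩
    obtain ⟨ε, hε, hball⟩ := Metric.mem_nhds_iff.1 (isClosed_closure.isOpen_compl.mem_nhds hxc)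
    set y : ι → ℝ := fun i => x i - ε / 2 with hy
    have hyb : y ∈ Metric.ball x ε := Metric.mem_ball.2 <| ((dist_pi_le_iff (by linarith)).2
      fun i => by rw [Real.dist_eq, hy, sub_sub_cancel_left, abs_neg, abs_of_pos (by linarith)])
        |>.trans_lt (half_lt_self hε)
    have hfy : f y ≤ t := le_of_not_gt fun hlt => hball hyb (subset_closure hlt)
    choose q hq1 hq2 using fun i => exists_rat_btwn (show y i < x i by simp [hy, hε])
    have hLq : L q ≤ t := by
      refine le_trans ?_ hfy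
      rw [← show T y q = L q from if_pos hq1]
      exact le_ciSup (hb y) q
    filter_upwards [(hlim' q).eventually (gt_mem_nhds (hLq.trans_lt ht2))] with k hk
    exact (ha _ fun i => (hq2 i).le).trans_lt hk

end Vale.Agent.P232
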