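import Vale.Agent.P232.InteriorCrux
import Vale.Agent.P232.CylinderEq

/-!
Equality below `1/π`: a down-set attaining the candidate profile has no far contact in the ball
range and one full far contact in the tube range.
-/

open MeasureTheory Set Filter Function Real
open scoped Topology

namespace Vale.Agent.P232

open Cylinder

theorem Interior.contacts_small_strict {a b c : ℝ} (hb : 0 ≤ b) (hba : b ≤ a) (hc : 0 ≤ c)
    (hca : c ≤ a) (ha0 : 0 < a) (ha1 : a < 1)
    (hsum : (a - a ^ 2 / 2) + (b - b ^ 2 / 2) + (c - c ^ 2 / 2) ≤ 1 / 2) :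
    b ^ 2 + c ^ 2 < Interior.gain a := by
  have hg : 0 < Interior.gain a := by
    rw [Interior.gain]
    exact mul_pos (mul_pos ha0 (pow_pos (by linarith) 2)) (by linarith)
  have hD : (b - b ^ 2 / 2) + (c - c ^ 2 / 2) ≤ (1 - a) ^ 2 / 2 := by linarith
  suffices h : 1001 / 1000 * (b ^ 2 + c ^ 2) ≤ Interior.gain a by
    nlinarith [sq_nonneg b, sq_nonneg c]
  rw [Interior.gain]
  rcases le_or_gt a (3 / 10) with h | h
  · have h1 : (b + c) * (2 - a) ≤ (1 - a) ^ 2 := by
      nlinarith [mul_le_mul_of_nonneg_left hba hb, mul_le_mul_of_nonneg_left hca hc]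
    have h2 : b ^ 2 + c ^ 2 ≤ a * (b + c) := by
      nlinarith [mul_le_mul_of_nonneg_left hba hb, mul_le_mul_of_nonneg_left hca hc]
    have h3 : 1001 / 1000 ≤ (13 / 20 - a / 6) * (2 - a) := by
      nlinarith [mul_nonneg ha0.le (sub_nonneg.2 h)]
    have h4 := mul_le_mul_of_nonneg_left h1 (show 0 ≤ a * (13 / 20 - a / 6) from
      mul_nonneg ha0.le (by linarith))
    have h5 := mul_le_mul_of_nonneg_left h3 (mul_nonneg ha0.le (add_nonneg hb hc))
    linarith
  · have hf : ∀ x : ℝ, 0 ≤ x → x ≤ 1 → x - x ^ 2 / 2 ≤ 245 / 1000 → x ≤ 29 / 100 := by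
      intro x hx hx1 hx2
      by_contra hh
      nlinarith [mul_nonneg (sub_nonneg.2 (not_le.1 hh).le) (sub_nonneg.2 hx1)]
    have hD0 : (1 - a) ^ 2 / 2 ≤ 245 / 1000 := by nlinarith
    have hb2 := hf b hb (hba.trans ha1.le) (by nlinarith [hca.trans ha1.le])
    have hc2 := hf c hc (hca.trans ha1.le) (by nlinarith [hba.trans ha1.le])
    have h1 : (b + c) * (855 / 1000) ≤ (1 - a) ^ 2 / 2 := by
      nlinarith [mul_le_mul_of_nonneg_left hb2 hb, mul_le_mul_of_nonneg_left hc2 hc]
    have h2 : b ^ 2 + c ^ 2 ≤ 343 / 1000 * ((1 - a) ^ 2) ^ 2 := by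
      nlinarith [mul_le_mul h1 h1 (mul_nonneg (add_nonneg hb hc) (by norm_num))
        (by positivity), mul_nonneg hb hc]
    have h3 : 1001 / 1000 * (343 / 1000) * (1 - a) ^ 2 ≤ a * (13 / 20 - a / 6) := by
      nlinarith [mul_nonneg (sub_nonneg.2 h.le) (sub_nonneg.2 ha1.le)]
    have h4 := mul_le_mul_of_nonneg_left h3 (sq_nonneg (1 - a))
    linarith

/-- Equality in the tube range: one contact is full, or all contacts vanish. -/
theorem Interior.tube_eq {v : ℝ} (hv : 4 * π / 81 ≤ v) (m : Fin 3 → ℝ) (hm0 : ∀ k, 0 ≤ m k)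
    (hmv : ∀ k, m k ≤ v)
    (hstretch : ∑ k, (Real.sqrt (π * m k) - Real.sqrt (π * v) / (2 * v) * m k)
      ≤ Real.sqrt (π * v) / 2)
    (hchord : ∀ k, ∃ w, Real.sqrt v ≤ w ∧
      (Real.sqrt π * (v + Real.sqrt (m k) * w) + 2 * H (Real.sqrt (m k)) w)
        / (Real.sqrt (m k) + w) ≤ Real.sqrt (π * v) + (∑ j, m j - m k)) :
    (∃ k, m k = v) ∨ (v = 4 * π / 81 ∧ ∀ k, m k = 0) := by
  have hv0 : 0 < v := lt_of_lt_of_le (by positivity) hv
  set s := Real.sqrt v with hs
  have hs2 : s ^ 2 = v := Real.sq_sqrt hv0.le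
  have hs0 : 0 < s := Real.sqrt_pos.2 hv0
  set J := Real.sqrt (π * v) with hJ
  have hJ0 : 0 < J := Real.sqrt_pos.2 (by positivity)
  set a : Fin 3 → ℝ := fun k => Real.sqrt (m k) / s with ha
  have ha0 : ∀ k, 0 ≤ a k := fun k => by positivity
  have ha1 : ∀ k, a k ≤ 1 := fun k => (div_le_one hs0).2 (Real.sqrt_le_sqrt (hmv k))
  have hma : ∀ k, m k = v * a k ^ 2 := fun k => by
    rw [ha]; simp only [div_pow]; rw [Real.sq_sqrt (hm0 k), hs2]; field_simp
  have hl : ∀ k, Real.sqrt (π * m k) = J * a k := fun k => by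
    rw [hma k, ← mul_assoc, Real.sqrt_mul (by positivity), Real.sqrt_sq (ha0 k)]
  have e : ∀ k, J / (2 * v) * m k = J * (a k ^ 2 / 2) := fun k => by rw [hma k]; field_simp
  simp only [hl, e, Fin.sum_univ_three] at hstretch
  have hsum : (a 0 - a 0 ^ 2 / 2) + (a 1 - a 1 ^ 2 / 2) + (a 2 - a 2 ^ 2 / 2) ≤ 1 / 2 :=
    le_of_mul_le_mul_left (by linarith) hJ0
  obtain ⟨i, -, hi⟩ := Finset.exists_max_image Finset.univ a ⟨0, Finset.mem_univ 0⟩
  rcases eq_or_lt_of_le (ha1 i) with h1 | h1
  · exact Or.inl ⟨i, by rw [hma i, h1]; ring⟩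
  obtain ⟨w, hw, hF⟩ := hchord i
  rcases eq_or_lt_of_le (ha0 i) with h0 | h0
  · have hz : ∀ k, m k = 0 := fun k => by
      rw [hma k, le_antisymm ((hi k (Finset.mem_univ k)).trans h0.ge) (ha0 k)]; ring
    rcases eq_or_lt_of_le hv with hv' | hv'
    · exact Or.inr ⟨hv'.symm, hz⟩
    exfalso
    simp only [hz, Real.sqrt_zero, Fin.sum_univ_three] at hF
    rw [div_le_iff₀ (by linarith)] at hF
    have := chord_eq hv' le_rfl hs0.le hw (by linarith)
    linarith
  exfalso
  have hgain := (Interior.chord_gain hv (Real.sqrt_nonneg (m i))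
    (Real.sqrt_le_sqrt (hmv i)) hw).trans hF
  rw [← hs, show Real.sqrt (m i) / s = a i from rfl] at hgain
  rw [Fin.sum_univ_three, hma 0, hma 1, hma 2, hma i] at hgain
  have hsmall : a 0 ^ 2 + a 1 ^ 2 + a 2 ^ 2 - a i ^ 2 < Interior.gain (a i) := by
    fin_cases i <;> simp only [Finset.mem_univ, forall_const, Fin.isValue, Fin.zero_eta,
      Fin.mk_one, Fin.reduceFinMk] at hi h0 h1 ⊢
    · have := Interior.contacts_small_strict (ha0 1) (hi 1) (ha0 2) (hi 2) h0 h1 (by linarith)
      linarith
    · have := Interior.contacts_small_strict (ha0 0) (hi 0) (ha0 2) (hi 2) h0 h1 (by linarith)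
      linarith
    · have := Interior.contacts_small_strict (ha0 0) (hi 0) (ha0 1) (hi 1) h0 h1 (by linarith)
      linarith
  nlinarith [mul_lt_mul_of_pos_left hsmall hv0]

variable {D : Set R3}

/-- **Equality below `1/π`.** Given the inequality for down-sets, a down-set attaining the bound
has no far contact in the ball range, and one full far contact in the tube range. -/
theorem faces_of_eq (hc : CruxBound) (hD : MeasurableSet D) (hdown : IsDownset D) {P : ℝ}
    (hP : RelPerLE D P) (hv : 0 < (volume D).toReal) (hv1 : (volume D).toReal < 1 / π)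
    (hPle : P ≤ ballTube (volume D).toReal) :
    ((volume D).toReal ≤ 4 * π / 81 ∧ ∀ k, faceArea D k = 0) ∨
      (4 * π / 81 ≤ (volume D).toReal ∧ ∃ k, faceArea D k = (volume D).toReal) := by
  set v := (volume D).toReal with hvdef
  set f := ballTube with hf
  have hPf : RelPerLE D (f v) := fun X hX => (hP X hX).trans hPle
  have hf0 : 0 < f v := ballTube_pos hv
  have hm2 : ∀ k, faceArea D k ≤ 1 / 2 := fun k =>
    (faceArea_le_volume hD hdown k).trans (by linarith [inv_pi_le_half])
  have hmin1 : ∀ k, min (Real.sqrt (π * faceArea D k)) 1 = Real.sqrt (π * faceArea D k) :=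
    fun k => min_eq_left (sqrt_le_one_of_le ((faceArea_le_volume hD hdown k).trans hv1.le))
  set δ₀ := min v (1 / π - v) with hδ₀
  have hopt : ∀ φ : ℝ → ℝ, ∀ δ ≤ δ₀, (∀ w, |w - v| < δ → φ w ≤ f w) →
      ∀ (E : Set R3) (p : ℝ), MeasurableSet E → IsDownset E → RelPerLE E p →
        |(volume E).toReal - v| < δ → φ (volume E).toReal ≤ p := by
    intro φ δ hδ hφ E p hE hEd hEp hEv
    refine (hφ _ hEv).trans (hc E p hE hEd hEp ?_ ?_) <;>
      linarith [(abs_lt.1 hEv).1, (abs_lt.1 hEv).2, min_le_left v (1 / π - v),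
        min_le_right v (1 / π - v)]
  rcases lt_or_ge v (4 * π / 81) with hb | hb
  · left
    have hfv : f v = ballVal v := ballTube_eq_ball hv.le hb.le
    set δ := min δ₀ (4 * π / 81 - v) with hδ
    have hd : HasDerivAt ballVal (2 * f v / (3 * v)) v := hfv ▸ hasDerivAt_ballVal hv
    have h := stretch_deriv hD hdown (φ := ballVal) (hfv ▸ hPf)
      (lt_min (lt_min hv (by linarith)) (by linarith))
      (hopt ballVal δ (min_le_left _ _) fun w hw => by
        have h1 : δ ≤ 4 * π / 81 - v := min_le_right _ _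
        have h2 : δ ≤ v := (min_le_left _ _).trans (min_le_left _ _)
        rw [hf, ballTube_eq_ball (v := w) (by linarith [(abs_lt.1 hw).1])
          (by linarith [(abs_lt.1 hw).2])])
      hd (β := fun _ => 1) (fun _ => zero_le_one) (by norm_num) (b := 1) (fun _ => le_rfl) hm2
    simp only [hmin1, ← hvdef, ← hfv, Fin.sum_univ_three] at h
    refine ⟨hb.le, ?_⟩
    have hlt : 2 / 3 * f v < Real.sqrt (π * v) := by
      linarith [min_le_right (ballVal v) (Real.sqrt (π * v)), hf0,
        show f v ≤ Real.sqrt (π * v) from min_le_right _ _]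
    have e : 2 * f v / (3 * v) * v = 2 * f v / 3 := by field_simp
    have hterm : ∀ j, (Real.sqrt (π * v) - 2 / 3 * f v) * (faceArea D j / v)
        ≤ Real.sqrt (π * faceArea D j) - 2 * f v / (3 * v) * faceArea D j := by
      intro j
      set x := faceArea D j / v with hx
      have hx0 : 0 ≤ x := div_nonneg (faceArea_nonneg hdown j) hv.le
      have hx1 : x ≤ 1 := (div_le_one hv).2 (faceArea_le_volume hD hdown j)
      have hs : x ≤ Real.sqrt x := Real.le_sqrt_of_sq_le (by nlinarith)
      have e1 : Real.sqrt (π * faceArea D j) = Real.sqrt (π * v) * Real.sqrt x := by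
        rw [← Real.sqrt_mul (by positivity), hx]; congr 1; field_simp
      have e2 : 2 * f v / (3 * v) * faceArea D j = 2 / 3 * f v * x := by rw [hx]; field_simp
      rw [e1, e2]
      nlinarith [mul_le_mul_of_nonneg_left hs (Real.sqrt_nonneg (π * v))]
    have hnn : ∀ j, 0 ≤ faceArea D j / v := fun j => div_nonneg (faceArea_nonneg hdown j) hv.le
    have h3 : (Real.sqrt (π * v) - 2 / 3 * f v)
        * (faceArea D 0 / v + faceArea D 1 / v + faceArea D 2 / v) ≤ 0 := by
      linarith [hterm 0, hterm 1, hterm 2]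
    have h4 := nonpos_of_mul_nonpos_right h3 (sub_pos.2 hlt)
    intro k
    have h5 := Finset.single_le_sum (f := fun j => faceArea D j / v) (fun j _ => hnn j)
      (Finset.mem_univ k)
    rw [Fin.sum_univ_three] at h5
    have h6 : faceArea D k / v = 0 := le_antisymm (h5.trans h4) (hnn k)
    exact (div_eq_zero_iff.1 h6).resolve_right hv.ne'
  · have hfv : f v = Real.sqrt (π * v) := ballTube_eq_tube hb
    set d := Real.sqrt (π * v) / (2 * v) with hddef
    set g := 2 * ballVal v / (3 * v) with hg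
    have hdt : HasDerivAt (fun w => Real.sqrt (π * w)) d v := hasDerivAt_tubeVal hv
    have hdb : HasDerivAt ballVal g v := hasDerivAt_ballVal hv
    have h := stretch_sum hD hdown (φ := f) hPf (lt_min hv (by linarith))
      (hopt f δ₀ le_rfl fun w _ => le_rfl) (d := d) (K := |d| + |g|) (by positivity)
      (fun η hη => by
        filter_upwards [eventually_minorant hdt hη, eventually_minorant hdb hη] with w ht hb'
        rw [← hvdef]
        rcases le_or_gt v w with hw | hw
        · have hK : 0 ≤ (|d| + |g|) * max (v - w) 0 := by positivity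
          rw [hf, ballTube_eq_tube (hb.trans hw), ← hf, hfv]
          linarith
        · have hK : 0 ≤ (|d| + |g|) * (v - w) := mul_nonneg (by positivity) (by linarith)
          rw [max_eq_left (by linarith : 0 ≤ v - w), hf, ballTube_eq_min w]
          refine le_min ?_ ?_
          · have hge : f v ≤ ballVal v := min_le_left _ _
            rw [hf] at hge
            have e := mul_le_mul_of_nonneg_right
              (show -(|d| + |g|) ≤ d - g by linarith [neg_abs_le d, le_abs_self g])
              (show 0 ≤ v - w by linarith)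
            linarith
          · rw [← hf, hfv]; linarith)
      (β := fun _ => 1) (fun _ => zero_le_one) (by norm_num) (b := 1) (fun _ => le_rfl)
      (l := fun k => min (Real.sqrt (π * faceArea D k)) 1)
      (fun k η hη => exists_end_field hD hdown k (hm2 k) hη)
    simp only [hmin1, ← hvdef, hfv, Fin.sum_univ_three] at h
    have e : d * v = Real.sqrt (π * v) / 2 := by rw [hddef]; field_simp
    rcases Interior.tube_eq hb (faceArea D) (faceArea_nonneg hdown)
        (faceArea_le_volume hD hdown)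
        (by rw [Fin.sum_univ_three, ← hddef]; linarith)
        (fun k => hfv ▸ exists_chord hD hdown hPf hv k) with h' | ⟨h', hz⟩
    · exact Or.inr ⟨hb, h'⟩
    · exact Or.inl ⟨h'.le, hz⟩

end Vale.Agent.P232
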