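import Vale.Agent.P232.Defs

/-! Symmetric decreasing functions which almost are indicators of sets of bounded perimeter. -/

open MeasureTheory Set

namespace Vale.Agent.P232

/-- A periodic function, with values in [0,1], even in each coordinate and decreasing in each
coordinate on [0,1/2], which has mass V, perimeter at most P and is within δ of an indicator. -/
structure IsSymApprox (P V δ : ℝ) (g : R3 → ℝ) : Prop where
  continuous : Continuous g
  periodic : IsPer g
  mem : ∀ x, 0 ≤ g x ∧ g x ≤ 1
  mass : ∫ x in cell, g x = V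
  defect : ∫ x in cell, g x * (1 - g x) ≤ δ
  test : ∀ X, IsTestField X → ∫ x in cell, g x * dv X x ≤ P
  even : ∀ (i : Fin 3) (x : R3), g (x - (2 * x i) • e i) = g x
  anti : ∀ x y : R3, (∀ i, 0 ≤ x i ∧ x i ≤ y i ∧ y i ≤ 1 / 2) → g y ≤ g x

end Vale.Agent.P232
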