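import Vale.Agent.P232.Fold
import Vale.Agent.P232.Helly
import Vale.Agent.P232.SymApprox

/-!
Symmetric decreasing almost-indicators have a limit, which is a down-set of the cube with half the
perimeter.
-/

open MeasureTheory Set Filter Topology
open scoped ENNReal

namespace Vale.Agent.P232

/-- The point of the half cube under a point of the cube, clamped. -/
noncomputable def halfClamp (v : Fin 3 → ℝ) : R3 :=
  WithLp.toLp 2 fun i => max 0 (min 1 (v i)) / 2

lemma halfClamp_fold (x : R3) :
    halfClamp (WithLp.ofLp (fold x)) = WithLp.toLp 2 fun i => |x i - round (x i)| := by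
  ext i
  show max 0 (min 1 (tent (x i))) / 2 = _
  rw [min_eq_right (tent_mem _).2, max_eq_right (tent_mem _).1]
  simp [tent]

/-- An even periodic function is determined by the distances of the coordinates to the
integers. -/
lemma eq_halfClamp_fold {g : R3 → ℝ} (hp : IsPer g)
    (he : ∀ (i : Fin 3) (x : R3), g (x - (2 * x i) • e i) = g x) (x : R3) :
    g x = g (halfClamp (WithLp.ofLp (fold x))) := by
  classical
  have habs : ∀ (s : Finset (Fin 3)) (y : R3), g (y + ∑ i ∈ s, (|y i| - y i) • e i) = g y := by
    intro s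
    induction s using Finset.induction_on with
    | empty => simp
    | @insert i s hi ih =>
      intro y
      rcases le_total 0 (y i) with h | h
      · rw [Finset.sum_insert hi, abs_of_nonneg h, sub_self, zero_smul, zero_add, ih]
      · have hy : (y + ∑ j ∈ s, (|y j| - y j) • e j) i = y i := by
          simp [WithLp.ofLp_sum, Finset.sum_apply, e_apply, hi]
        rw [← ih y, ← he i (y + ∑ j ∈ s, (|y j| - y j) • e j), Finset.sum_insert hi, hy,
          abs_of_nonpos h]
        congr 1; module
  set l : R3 := ∑ i, (-round (x i) : ℤ) • e i with hl'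
  have hl : l ∈ lattice := Submodule.sum_mem _ fun i _ => Submodule.smul_mem _ _
    (Submodule.subset_span ⟨i, stdBasis_apply i⟩)
  rw [halfClamp_fold, ← hp.add_mem_lattice hl x, ← habs Finset.univ (x + l)]
  congr 1; ext j
  have hlj : l j = -(round (x j) : ℝ) := by
    simp [hl', WithLp.ofLp_sum, Finset.sum_apply, e_apply, ← Int.cast_smul_eq_zsmul ℝ]
  simp [WithLp.ofLp_sum, Finset.sum_apply, e_apply, hlj, ← sub_eq_add_neg]

/-- From a sequence of symmetric decreasing almost-indicators of perimeter at most P, a down-set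
of the cube with the same volume and relative perimeter at most P/2, to whose unfolding a
subsequence converges in mean. -/
theorem exists_downset_of_symApprox_seq {P V : ℝ} {g : ℕ → R3 → ℝ}
    (hg : ∀ n : ℕ, IsSymApprox P V (1 / (n + 1 : ℝ)) (g n)) :
    ∃ D, MeasurableSet D ∧ IsDownset D ∧ (volume D).toReal = V ∧ RelPerLE D (P / 2) ∧
      ∃ φ : ℕ → ℕ, StrictMono φ ∧
        Tendsto (fun k => ∫ x in cell, |g (φ k) x - D.indicator 1 (fold x)|) atTop (𝓝 0) := by
  set h : ℕ → (Fin 3 → ℝ) → ℝ := fun n v => g n (halfClamp v) with hh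
  have hcont : ∀ n, Continuous (h n) := fun n => (hg n).continuous.comp (by
    refine (PiLp.continuous_toLp 2 _).comp (continuous_pi fun i => ?_)
    fun_prop)
  obtain ⟨φ, hφ, f, hf, hf1, hlim⟩ := exists_ae_tendsto_of_antitone h
    (fun n u v huv => (hg n).anti _ _ fun i => by
      simp only [halfClamp]
      refine ⟨by positivity, by have := huv i; gcongr, ?_⟩
      have : max 0 (min 1 (v i)) ≤ 1 := max_le zero_le_one (min_le_left _ _)
      linarith)
    fun n v => (hg n).mem _
  set hR : ℕ → R3 → ℝ := fun k x => h (φ k) (WithLp.ofLp x) with hhR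
  set fR : R3 → ℝ := fun x => f (WithLp.ofLp x) with hfR
  have hfold : ∀ n x, g n x = h n (WithLp.ofLp (fold x)) := fun n x =>
    eq_halfClamp_fold (hg n).periodic (hg n).even x
  have hRc : ∀ k, Continuous (hR k) := fun k => (hcont (φ k)).comp (PiLp.continuous_ofLp 2 _)
  have hR1 : ∀ k x, 0 ≤ hR k x ∧ hR k x ≤ 1 := fun k x => (hg _).mem _
  have hae : ∀ᵐ x ∂volume.restrict cell, Tendsto (fun k => hR k x) atTop (𝓝 (fR x)) :=
    ae_restrict_of_ae ((PiLp.volume_preserving_ofLp (Fin 3)).quasiMeasurePreserving.ae
      (p := fun v => Tendsto (fun k => h (φ k) v) atTop (𝓝 (f v))) hlim)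
  have hfm : AEStronglyMeasurable fR (volume.restrict cell) :=
    aestronglyMeasurable_of_tendsto_ae atTop (fun k => (hRc k).aestronglyMeasurable) hae
  -- mass
  have hmass : ∫ x in cell, fR x = V := by
    refine tendsto_nhds_unique (tendsto_integral_of_dominated_convergence (fun _ => (1 : ℝ))
      (fun k => (hRc k).aestronglyMeasurable) (integrable_const 1)
      (fun k => ae_of_all _ fun x => by rw [Real.norm_of_nonneg (hR1 k x).1]; exact (hR1 k x).2)
      hae) (tendsto_const_nhds.congr fun k => ?_)
    rw [← setIntegral_fold (hRc k).aestronglyMeasurable, ← (hg (φ k)).mass]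
    simp only [hhR, hfold]
  -- the limit is an indicator
  have hdef0 : ∫ x in cell, fR x * (1 - fR x) = 0 := by
    refine tendsto_nhds_unique (tendsto_integral_of_dominated_convergence (fun _ => (1 : ℝ))
      (F := fun k x => hR k x * (1 - hR k x))
      (fun k => ((hRc k).mul (continuous_const.sub (hRc k))).aestronglyMeasurable)
      (integrable_const 1) (fun k => ae_of_all _ fun x => by
        obtain ⟨a, b⟩ := hR1 k x
        rw [Real.norm_of_nonneg (mul_nonneg a (sub_nonneg.2 b))]; nlinarith)
      (hae.mono fun x hx => hx.mul (hx.const_sub 1))) ?_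
    refine squeeze_zero (fun k => integral_nonneg fun x =>
      mul_nonneg (hR1 k x).1 (sub_nonneg.2 (hR1 k x).2)) (fun k => ?_)
      ((tendsto_one_div_add_atTop_nhds_zero_nat (𝕜 := ℝ)).comp hφ.tendsto_atTop)
    refine le_trans (le_of_eq ?_) (hg (φ k)).defect
    rw [← setIntegral_fold (F := fun x => hR k x * (1 - hR k x))
      ((hRc k).mul (continuous_const.sub (hRc k))).aestronglyMeasurable]
    simp only [hhR, hfold]
  have h01 : ∀ᵐ x ∂volume.restrict cell, fR x = 0 ∨ fR x = 1 := by
    have hi : Integrable (fun x => fR x * (1 - fR x)) (volume.restrict cell) :=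
      Integrable.of_bound (hfm.mul (aestronglyMeasurable_const.sub hfm)) 1 (ae_of_all _ fun x => by
        obtain ⟨a, b⟩ := hf1 (WithLp.ofLp x)
        rw [Real.norm_of_nonneg (mul_nonneg a (sub_nonneg.2 b))]; nlinarith)
    have := (integral_eq_zero_iff_of_nonneg_ae (ae_of_all _ fun x =>
      mul_nonneg (hf1 _).1 (sub_nonneg.2 (hf1 (WithLp.ofLp x)).2)) hi).1 hdef0
    filter_upwards [this] with x hx
    exact (mul_eq_zero.1 hx).imp_right fun h => (sub_eq_zero.1 h).symm
  -- the down-set
  set S : Set (Fin 3 → ℝ) := {v | 1 / 2 < f v} with hS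
  have hSl : IsLowerSet S := fun a b hba ha => lt_of_lt_of_le ha (hf hba)
  set D : Set R3 := cell ∩ WithLp.ofLp ⁻¹' interior S with hD
  have hDm : MeasurableSet D := measurableSet_cell.inter
    (isOpen_interior.preimage (PiLp.continuous_ofLp 2 _)).measurableSet
  have hind : ∀ᵐ x ∂volume.restrict cell, fR x = D.indicator 1 x := by
    have hfr : ∀ᵐ x ∂volume.restrict cell, WithLp.ofLp x ∉ frontier S :=
      ae_restrict_of_ae ((PiLp.volume_preserving_ofLp (Fin 3)).quasiMeasurePreserving.ae
        (p := fun v => v ∉ frontier S) (measure_eq_zero_iff_ae_notMem.1 hSl.null_frontier))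
    filter_upwards [h01, hfr, ae_restrict_mem measurableSet_cell] with x hx hxf hxc
    have hiff : x ∈ D ↔ 1 / 2 < fR x := by
      refine ⟨fun hxD => (interior_subset hxD.2 : WithLp.ofLp x ∈ S), fun hlt => ⟨hxc, ?_⟩⟩
      by_contra hni
      exact hxf ⟨subset_closure hlt, hni⟩
    rcases hx with hx | hx
    · rw [indicator_of_notMem (by rw [hiff, hx]; norm_num), hx]
    · rw [indicator_of_mem (by rw [hiff, hx]; norm_num), hx]; rfl
  have hL1 : Tendsto (fun k => ∫ x in cell, |g (φ k) x - D.indicator 1 (fold x)|) atTop (𝓝 0) := by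
    have hm : Measurable (D.indicator (1 : R3 → ℝ)) := measurable_one.indicator hDm
    have e : ∀ k, ∫ x in cell, |g (φ k) x - D.indicator 1 (fold x)|
        = ∫ x in cell, |hR k x - D.indicator 1 x| := fun k => by
      rw [← setIntegral_fold (F := fun x => |hR k x - D.indicator 1 x|)
        ((hRc k).measurable.sub hm).abs.aestronglyMeasurable]
      simp only [hhR, hfold]
    simp only [e]
    rw [← integral_zero R3 ℝ (μ := volume.restrict cell)]
    refine tendsto_integral_of_dominated_convergence (fun _ => (1 : ℝ))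
      (fun k => ((hRc k).measurable.sub hm).abs.aestronglyMeasurable) (integrable_const 1)
      (fun k => ae_of_all _ fun x => ?_) ?_
    · have h2 := indicator_one_mem D x
      rw [Real.norm_eq_abs, abs_abs, abs_le]
      constructor <;> linarith [(hR1 k x).1, (hR1 k x).2]
    · filter_upwards [hae, hind] with x hx hx'
      simpa [hx'] using (hx.sub_const (D.indicator (1 : R3 → ℝ) x)).abs
  refine ⟨D, hDm, ⟨inter_subset_left, fun x hx y hy hle => ⟨hy, hSl.interior hle hx.2⟩⟩, ?_, ?_,
    φ, hφ, hL1⟩
  · rw [← hmass, integral_congr_ae hind, integral_indicator_one hDm, measureReal_def,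
      Measure.restrict_apply hDm, inter_eq_self_of_subset_left inter_subset_left]
  intro X hX
  obtain ⟨K, hK⟩ := hX.lipschitz
  obtain ⟨K', hK'⟩ := lipschitz_refl hX
  have e1 : ∫ x in D, dv X x = ∫ x in cell, fR x * dv X x := by
    have h1 := setIntegral_inter_cell hDm (dv X)
    rw [inter_eq_self_of_subset_left inter_subset_left] at h1
    rw [h1]
    exact integral_congr_ae (hind.mono fun x hx => by dsimp only; rw [hx])
  rw [e1]
  refine le_of_tendsto (tendsto_integral_of_dominated_convergence (fun _ => 3 * (K : ℝ))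
    (F := fun k x => hR k x * dv X x)
    (fun k => (hRc k).aestronglyMeasurable.mul (measurable_dv X).aestronglyMeasurable)
    (integrable_const _) (fun k => ae_of_all _ fun x => by
      rw [norm_mul, Real.norm_of_nonneg (hR1 k x).1, Real.norm_eq_abs]
      exact (mul_le_of_le_one_left (abs_nonneg _) (hR1 k x).2).trans (abs_dv_le hK x))
    (hae.mono fun x hx => hx.mul_const _)) (Eventually.of_forall fun k => ?_)
  have h2 := test_lipschitz (hg (φ k)).continuous.aestronglyMeasurable (G := 1)
    (fun x => by rw [abs_of_nonneg ((hg (φ k)).mem x).1]; exact ((hg (φ k)).mem x).2)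
    (hg (φ k)).test hK' (isPer_reflField X) (norm_refl_le hX)
  have h3 : ∫ x in cell, g (φ k) x * dv (reflField X) x = 2 * ∫ x in cell, hR k x * dv X x := by
    rw [← setIntegral_fold (F := fun x => hR k x * dv X x)
      ((hRc k).aestronglyMeasurable.mul (measurable_dv X).aestronglyMeasurable),
      ← integral_const_mul]
    refine integral_congr_ae ((dv_refl hX).mono fun x hx => ?_)
    dsimp only
    rw [hx, hfold, hhR]
    ring
  linarith

/-- From symmetric decreasing almost-indicators of perimeter at most P, a down-set of the cube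
with the same volume and relative perimeter at most P/2. -/
theorem exists_downset_of_symApprox {P V : ℝ} (H : ∀ δ > 0, ∃ g, IsSymApprox P V δ g) :
    ∃ D, MeasurableSet D ∧ IsDownset D ∧ (volume D).toReal = V ∧ RelPerLE D (P / 2) := by
  choose g hg using fun n : ℕ => H (1 / (n + 1 : ℝ)) (by positivity)
  obtain ⟨D, h1, h2, h3, h4, -⟩ := exists_downset_of_symApprox_seq hg
  exact ⟨D, h1, h2, h3, h4⟩

end Vale.Agent.P232
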