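import Vale.Agent.P232.Crux
import Vale.Agent.P232.Minimizer

/-!
Slices priced by the plain planar bound `min (√(π a), 1, √(π (1 - a)))`: small volumes and a full
contact face; the reduction of the inequality for down-sets to minimisers of `P / ballTube`.
-/

open MeasureTheory Set Filter Function
open scoped Topology Real

namespace Vale.Agent.P232

open Cylinder

variable {D : Set R3}

/-- Any planar down-set: the least of a quarter disc, a strip and a co-quarter disc. -/
theorem sq_plain {B : Set (ℝ × ℝ)} (hB : IsSqDown B) {ε : ℝ} (hε : 0 < ε) :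
    ∃ p q, IsSqField p q ∧
      min √(π * volume.real B) (min 1 √(π * (1 - volume.real B))) - ε ≤ flux p q B := by
  have hy0 : 0 ≤ contactY B := measureReal_nonneg
  set r₁ := √(π * volume.real B) with hr₁
  set r₂ := √(π * (1 - volume.real B)) with hr₂
  have m₁ := min_le_left r₁ (min 1 r₂)
  have m₂ := (min_le_right r₁ (min 1 r₂)).trans (min_le_left 1 r₂)
  have m₃ := (min_le_right r₁ (min 1 r₂)).trans (min_le_right 1 r₂)
  rcases eq_or_lt_of_le hB.contactX_nonneg with hx | hx <;> rcases eq_or_lt_of_le hy0 with hy | hy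
  · obtain ⟨p, q, h, hle⟩ := sq_quarter hB hε
    exact ⟨p, q, h, by rw [← hr₁] at hle; linarith⟩
  · obtain ⟨p, q, h, hle⟩ := sq_wall hB hy hε
    exact ⟨p, q, h, by linarith⟩
  · obtain ⟨p, q, h, hle⟩ := sq_floor hB hx hε
    exact ⟨p, q, h, by linarith⟩
  · obtain ⟨p, q, h, hle⟩ := sq_both hB hx hy hε
    exact ⟨p, q, h, by rw [← hr₂] at hle; linarith⟩

theorem one_le_sqrt_compl {a : ℝ} (h : a ≤ 1 / π) : (1 : ℝ) ≤ √(π * (1 - a)) := by
  rw [Real.one_le_sqrt]
  have h1 : π * a ≤ 1 := by
    calc π * a ≤ π * (1 / π) := by gcongr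
      _ = 1 := by field_simp
  nlinarith [Real.pi_gt_three]

theorem sqrt_le_one_of_le {a : ℝ} (h : a ≤ 1 / π) : √(π * a) ≤ 1 := by
  rw [Real.sqrt_le_one]
  calc π * a ≤ π * (1 / π) := by gcongr
    _ = 1 := by field_simp

theorem faceArea_nonneg (hdown : IsDownset D) (k : Fin 3) : 0 ≤ faceArea D k :=
  (sliceArea_nonneg D k _).trans ((areaExt_antitone hdown k).le_leftLim le_rfl)

/-- The area of a far face is at most the volume. -/
theorem faceArea_le_volume (hD : MeasurableSet D) (hdown : IsDownset D) (k : Fin 3) :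
    faceArea D k ≤ (volume D).toReal := by
  have hA := areaExt_antitone hdown k
  rw [volume_eq_integral_areaExt hD hdown k]
  calc faceArea D k = ∫ _ in (0 : ℝ)..1, faceArea D k := by simp
    _ ≤ _ := intervalIntegral.integral_mono_on_of_le_Ioo zero_le_one intervalIntegrable_const
        hA.intervalIntegrable fun z hz => hA.leftLim_le hz.2

/-- If every slice area in one direction is at most `1/π`, the bound is exact. -/
theorem ballTube_le_of_slices (hD : MeasurableSet D) (hdown : IsDownset D) {P : ℝ}
    (hP : RelPerLE D P) (k : Fin 3) (hM : rightLim (areaExt D k) 0 ≤ 1 / π) :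
    ballTube (volume D).toReal ≤ P := by
  have hA := areaExt_antitone hdown k
  refine cylinder_1d hA (fun x => sliceArea_nonneg D k _) ENNReal.toReal_nonneg
    (volume_eq_integral_areaExt hD hdown k).le fun n t ht => ?_
  set A := areaExt D k with hA'
  have hden : (0 : ℝ) < (n : ℝ) + 1 := by positivity
  have htlt : ∀ i, t i < t (i + 1) := fun i => by
    rw [ht, ht]; gcongr; exact Nat.cast_lt.2 i.lt_succ_self
  have ht0 : t 0 = 0 := by simp [ht]
  have htn : t (n + 1) = 1 := by rw [ht]; push_cast; exact div_self hden.ne'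
  have htmono : Monotone t := monotone_nat_of_le_succ fun i => (htlt i).le
  have hsub : ∀ i ≤ n, Ioo (t i) (t (i + 1)) ⊆ Ioo (0 : ℝ) 1 := fun i hi =>
    Ioo_subset_Ioo (ht0 ▸ htmono (Nat.zero_le _)) (htn ▸ htmono (by omega))
  set f : ℝ → ℝ := fun z => √(π * A z) with hf
  have hfi : IntegrableOn f (Ioo (0 : ℝ) 1) :=
    IntegrableOn.of_bound (by simp)
      ((Real.continuous_sqrt.measurable.comp
        (hA.measurable.const_mul π)).aestronglyMeasurable)
      (√(π * 1)) (Eventually.of_forall fun z => by
        rw [Real.norm_of_nonneg (Real.sqrt_nonneg _)]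
        exact Real.sqrt_le_sqrt (mul_le_mul_of_nonneg_left (sliceArea_le_one hdown.1 k _)
          Real.pi_nonneg))
  have h := slice_partition_jumps hD hdown hP k (t := t) (M := n) (fun i _ => htlt i)
    ht0.ge htn.le (f := f) (fun i hi => hfi.mono_set (hsub i hi))
    (fun i hi => Eventually.of_forall fun z hz ε hε => by
      obtain ⟨p, q, hpq, hle⟩ := sq_plain (isSqDown_slice hD hdown k z) hε
      refine ⟨p, q, hpq, ?_⟩
      have hz0 := (hsub i hi hz).1
      have hz' : A z ≤ 1 / π := (hA.le_rightLim hz0).trans hM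
      have he : A z = volume.real (slice D k z) := areaExt_eq hz0.le
      rw [← he, min_eq_left ((sqrt_le_one_of_le hz').trans
        (le_min le_rfl (one_le_sqrt_compl hz')))] at hle
      simp only [hf]
      linarith)
  refine le_trans (add_le_add (Finset.sum_le_sum fun i hi => ?_) le_rfl) h
  have hi' : i ≤ n := by have := Finset.mem_range.1 hi; omega
  have hle : 1 / ((n : ℝ) + 1) * √(π * leftLim A (t (i + 1)))
      ≤ ∫ z in Ioo (t i) (t (i + 1)), f z := by
    calc 1 / ((n : ℝ) + 1) * √(π * leftLim A (t (i + 1)))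
        = ∫ _ in Ioo (t i) (t (i + 1)), √(π * leftLim A (t (i + 1))) := by
          have e : t (i + 1) - t i = 1 / ((n : ℝ) + 1) := by rw [ht, ht]; push_cast; ring
          rw [setIntegral_const, smul_eq_mul, Measure.real, Real.volume_Ioo, e,
            ENNReal.toReal_ofReal (by positivity)]
      _ ≤ _ := setIntegral_mono_on (integrableOn_const (by simp [Real.volume_Ioo]))
          (hfi.mono_set (hsub i hi')) measurableSet_Ioo fun z hz =>
          Real.sqrt_le_sqrt (mul_le_mul_of_nonneg_left (hA.leftLim_le hz.2) Real.pi_nonneg)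
  gcongr
  exact hle.trans (le_max_left _ _)

/-- The drop of the slice area is at most the perimeter. -/
theorem drop_le (hD : MeasurableSet D) (hdown : IsDownset D) {P : ℝ} (hP : RelPerLE D P)
    (k : Fin 3) : rightLim (areaExt D k) 0 - faceArea D k ≤ P := by
  have h := slice_partition hD hdown hP k (N := 1) (t := fun i => (i : ℝ))
    (fun i _ => by push_cast; linarith) (by simp) (by simp) (f := fun _ => 0)
    (fun i _ => integrableOn_zero) (fun i _ => Eventually.of_forall fun z _ ε hε =>
      ⟨_, _, isSqField_zero, by simpa [flux_zero] using hε.le⟩)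
  simp only [Finset.sum_range_one, integral_zero, max_self, Nat.cast_zero, Nat.cast_one,
    zero_add, ne_eq, OfNat.ofNat_ne_zero, not_false_eq_true, zero_pow] at h
  exact ((le_abs_self _).trans_eq (Real.sqrt_sq_eq_abs _).symm).trans h

/-- Volumes up to `1/40`. -/
theorem ballTube_le_small (hD : MeasurableSet D) (hdown : IsDownset D) {P : ℝ}
    (hP : RelPerLE D P) (hv : (volume D).toReal ≤ 1 / 40) :
    ballTube (volume D).toReal ≤ P := by
  rcases le_or_gt (rightLim (areaExt D 0) 0) (1 / π) with h | h
  · exact ballTube_le_of_slices hD hdown hP 0 h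
  refine le_trans (min_le_right _ _) ?_
  have h1 := drop_le hD hdown hP 0
  have h2 := faceArea_le_volume hD hdown 0
  have h3 : (318 : ℝ) / 1000 ≤ 1 / π := by
    rw [le_div_iff₀ Real.pi_pos]; linarith [Real.pi_lt_d4]
  have h4 : √(π * (volume D).toReal) ≤ 281 / 1000 := by
    refine (Real.sqrt_le_left (by norm_num)).2 ?_
    calc π * (volume D).toReal ≤ π * (1 / 40) := by gcongr
      _ ≤ _ := by linarith [Real.pi_lt_d4]
  linarith

/-- A full contact face at volume `1/π` forces perimeter at least one. -/
theorem one_le_of_full_face (hD : MeasurableSet D) (hdown : IsDownset D) {P : ℝ}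
    (hP : RelPerLE D P) (hv : (volume D).toReal = 1 / π) {k : Fin 3}
    (hm : faceArea D k = 1 / π) : 1 ≤ P := by
  have hA := areaExt_antitone hdown k
  have hle : ∀ z ∈ Ioo (0 : ℝ) 1, areaExt D k z = 1 / π := by
    intro z hz
    refine le_antisymm ?_ (hm ▸ hA.leftLim_le hz.2)
    have h1 : ∫ s in (0 : ℝ)..z, areaExt D k z ≤ ∫ s in (0 : ℝ)..z, areaExt D k s :=
      intervalIntegral.integral_mono_on hz.1.le intervalIntegrable_const hA.intervalIntegrable
        fun s hs => hA hs.2
    have h2 : ∫ s in z..1, faceArea D k ≤ ∫ s in z..1, areaExt D k s :=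
      intervalIntegral.integral_mono_on_of_le_Ioo hz.2.le intervalIntegrable_const
        hA.intervalIntegrable fun s hs => hA.leftLim_le hs.2
    have h3 := intervalIntegral.integral_add_adjacent_intervals
      (hA.intervalIntegrable (μ := volume) (a := 0) (b := z))
      (hA.intervalIntegrable (μ := volume) (a := z) (b := 1))
    rw [← volume_eq_integral_areaExt hD hdown k, hv] at h3
    simp only [intervalIntegral.integral_const, smul_eq_mul, sub_zero] at h1 h2
    rw [hm] at h2
    refine le_of_mul_le_mul_left ?_ hz.1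
    linarith
  have h := slice_partition hD hdown hP k (N := 1) (t := fun i => (i : ℝ))
    (fun i _ => by push_cast; linarith) (by simp) (by simp) (f := fun _ => 1)
    (fun i _ => integrableOn_const (by simp))
    (fun i hi => Eventually.of_forall fun z hz ε hε => by
      obtain rfl : i = 0 := by omega
      simp only [Nat.cast_zero, zero_add, Nat.cast_one] at hz
      obtain ⟨p, q, hpq, hle'⟩ := sq_plain (isSqDown_slice hD hdown k z) hε
      refine ⟨p, q, hpq, ?_⟩
      have he : volume.real (slice D k z) = 1 / π := (areaExt_eq hz.1.le).symm.trans (hle z hz)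
      rw [he, show π * (1 / π) = 1 by field_simp, Real.sqrt_one,
        min_eq_left (le_min le_rfl (one_le_sqrt_compl le_rfl))] at hle'
      linarith)
  simp only [Finset.sum_range_one, Nat.cast_zero, zero_add, Nat.cast_one, integral_const,
    smul_eq_mul, mul_one] at h
  refine le_trans ?_ h
  refine Real.le_sqrt_of_sq_le ?_
  simp [Measure.real, Real.volume_Ioo]
  positivity

/-! ### The reduction to minimisers -/

/-- `D` minimises `P / ballTube` among down-sets of volume in `[1/40, 1/π]`, and does not exceed
the bound. -/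
def IsCritical (D : Set R3) (P : ℝ) : Prop :=
  MeasurableSet D ∧ IsDownset D ∧ RelPerLE D P ∧ (volume D).toReal ∈ Icc (1 / 40 : ℝ) (1 / π) ∧
    P ≤ ballTube (volume D).toReal ∧
    ∀ D' P', MeasurableSet D' → IsDownset D' → (volume D').toReal ∈ Icc (1 / 40 : ℝ) (1 / π) →
      RelPerLE D' P' →
      P / ballTube (volume D).toReal * ballTube (volume D').toReal ≤ P'

/-- No strict violation by a minimiser strictly inside the range. -/
def InteriorBound : Prop :=
  ∀ D P, IsCritical D P → P < ballTube (volume D).toReal →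
    1 / 40 < (volume D).toReal → (volume D).toReal < 1 / π → False

/-- A minimiser at volume `1/π` has a full contact face. -/
def EndpointBound : Prop :=
  ∀ D P, IsCritical D P → (volume D).toReal = 1 / π → ∃ k, faceArea D k = 1 / π

theorem continuous_ballTube : Continuous ballTube :=
  (continuous_const.mul (Real.continuous_rpow_const (by norm_num))).min
    (Real.continuous_sqrt.comp (continuous_const.mul continuous_id))

theorem ballTube_pos {v : ℝ} (hv : 0 < v) : 0 < ballTube v :=
  lt_min (mul_pos (Real.rpow_pos_of_pos (by positivity) _) (Real.rpow_pos_of_pos hv _))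
    (Real.sqrt_pos.2 (by positivity))

theorem ballTube_inv_pi_le : ballTube (1 / π) ≤ 1 :=
  (min_le_right _ _).trans (sqrt_le_one_of_le le_rfl)

/-- The inequality for down-sets follows from the statements about minimisers. -/
theorem cruxBound_of (hint : InteriorBound) (hend : EndpointBound) : CruxBound := by
  intro D P hD hdown hP hv0 hv1
  rcases le_or_gt (volume D).toReal (1 / 40) with hs | hs
  · exact ballTube_le_small hD hdown hP hs
  have hpos : ∀ w ∈ Icc (1 / 40 : ℝ) (1 / π), 0 < ballTube w :=
    fun w hw => ballTube_pos (lt_of_lt_of_le (by norm_num) hw.1)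
  obtain ⟨E, Q, hE, hEd, hEv, hQ, hmin⟩ := exists_minimizer continuous_ballTube.continuousOn hpos
    ⟨D, P, hD, hdown, ⟨hs.le, hv1⟩, hP⟩
  have hDm := hmin D P hD hdown ⟨hs.le, hv1⟩ hP
  by_contra! hlt
  have hPlt : P / ballTube (volume D).toReal < 1 :=
    (div_lt_one (ballTube_pos hv0)).2 hlt
  have hQlt : Q < ballTube (volume E).toReal :=
    (div_lt_one (hpos _ hEv)).1 (hDm.trans_lt hPlt)
  have hcrit : IsCritical E Q := ⟨hE, hEd, hQ, hEv, hQlt.le, fun D' P' h1 h2 h3 h4 =>
    (le_div_iff₀ (hpos _ h3)).1 (hmin D' P' h1 h2 h3 h4)⟩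
  rcases eq_or_lt_of_le hEv.1 with he | he
  · exact absurd (ballTube_le_small hE hEd hQ he.ge) (not_le.2 hQlt)
  rcases eq_or_lt_of_le hEv.2 with he' | he'
  · obtain ⟨k, hk⟩ := hend E Q hcrit he'
    have := one_le_of_full_face hE hEd hQ he' hk
    rw [he'] at hQlt
    linarith [ballTube_inv_pi_le]
  · exact hint E Q hcrit hQlt he he'

/-- With the inequality known, a down-set attaining it at `1/π` has a full contact face. -/
theorem full_face_of_le_one (hc : CruxBound) (hend : EndpointBound) (hD : MeasurableSet D)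
    (hdown : IsDownset D) {P : ℝ} (hP : RelPerLE D P) (hv : (volume D).toReal = 1 / π)
    (hP1 : P ≤ 1) : ∃ k, faceArea D k = 1 / π := by
  have hbt : ballTube (1 / π) = 1 := by
    have h := profileJ_inv_pi
    rw [profileJ_eq_ballTube le_rfl] at h
    linarith
  refine hend D P ⟨hD, hdown, hP, ?_, ?_, fun D' P' h1 h2 h3 h4 => ?_⟩ hv
  · rw [hv]; exact ⟨(one_div_le_one_div_of_le Real.pi_pos (by linarith [Real.pi_lt_four])), le_rfl⟩
  · rw [hv, hbt]; exact hP1
  · rw [hv, hbt, div_one]
    have h5 := hc D' P' h1 h2 h4 (lt_of_lt_of_le (by norm_num) h3.1) h3.2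
    exact (mul_le_of_le_one_left (ballTube_pos (lt_of_lt_of_le (by norm_num) h3.1)).le hP1).trans h5

end Vale.Agent.P232
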