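import Vale.Agent.P232.SliceSelect

/-!
The slicing inequality: over a partition of the height, the relative perimeter of a down-set is at
least the sum of the lengths of the vectors (integral of the slice bound, drop of the slice area).
-/

open MeasureTheory Set Filter Function
open scoped NNReal Topology

namespace Vale.Agent.P232

variable {D : Set R3} {k : Fin 3}

/-- The trapezoid supported in `[a,b]`, equal to one on `[a+δ, b-δ]`. -/
noncomputable def ramp (a b δ z : ℝ) : ℝ :=
  max 0 (min 1 (min (δ⁻¹ * (z - a)) (δ⁻¹ * (b - z))))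

theorem ramp_mem (a b δ z : ℝ) : ramp a b δ z ∈ Icc (0 : ℝ) 1 :=
  ⟨le_max_left _ _, max_le zero_le_one (min_le_left _ _)⟩

theorem ramp_eq_zero {a b δ z : ℝ} (hδ : 0 < δ) (h : z ≤ a ∨ b ≤ z) : ramp a b δ z = 0 := by
  refine max_eq_left ((min_le_right _ _).trans ?_)
  rcases h with h | h
  · exact (min_le_left _ _).trans
      (mul_nonpos_of_nonneg_of_nonpos (inv_nonneg.2 hδ.le) (by linarith))
  · exact (min_le_right _ _).trans
      (mul_nonpos_of_nonneg_of_nonpos (inv_nonneg.2 hδ.le) (by linarith))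

theorem exists_lipschitz_ramp (a b δ : ℝ) : ∃ K, LipschitzWith K (ramp a b δ) := by
  have h1 : LipschitzWith ‖δ⁻¹‖₊ fun z : ℝ => δ⁻¹ * (z - a) :=
    LipschitzWith.of_dist_le_mul fun x y => by
      simp only [Real.dist_eq, coe_nnnorm, Real.norm_eq_abs, ← mul_sub, abs_mul]
      rw [show x - a - (y - a) = x - y by ring]
  have h2 : LipschitzWith ‖δ⁻¹‖₊ fun z : ℝ => δ⁻¹ * (b - z) :=
    LipschitzWith.of_dist_le_mul fun x y => by
      simp only [Real.dist_eq, coe_nnnorm, Real.norm_eq_abs, ← mul_sub, abs_mul]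
      rw [show b - x - (b - y) = y - x by ring, abs_sub_comm]
  exact ⟨_, ((h1.min h2).const_min 1).const_max 0⟩

theorem ramp_eq_one {a b δ z : ℝ} (hδ : 0 < δ) (h : z ∈ Icc (a + δ) (b - δ)) :
    ramp a b δ z = 1 := by
  have e1 : 1 ≤ δ⁻¹ * (z - a) := by
    rw [← div_eq_inv_mul, le_div_iff₀ hδ]; linarith [h.1]
  have e2 : 1 ≤ δ⁻¹ * (b - z) := by
    rw [← div_eq_inv_mul, le_div_iff₀ hδ]; linarith [h.2]
  rw [ramp, min_eq_left (le_min e1 e2), max_eq_right zero_le_one]

theorem deriv_ramp_ae {a b δ : ℝ} (hδ : 0 < δ) (hab : 2 * δ ≤ b - a) :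
    ∀ᵐ z, deriv (ramp a b δ) z = δ⁻¹ * (Ioo a (a + δ)).indicator 1 z
      - δ⁻¹ * (Ioo (b - δ) b).indicator 1 z := by
  have hnull : ∀ᵐ z : ℝ, z ∉ ({a, a + δ, b - δ, b} : Set ℝ) :=
    measure_eq_zero_iff_ae_notMem.1 ((Set.toFinite _).measure_zero _)
  filter_upwards [hnull] with z hz
  simp only [mem_insert_iff, mem_singleton_iff, not_or] at hz
  obtain ⟨z1, z2, z3, z4⟩ := hz
  rcases lt_or_gt_of_ne z1 with h1 | h1
  · have : ramp a b δ =ᶠ[𝓝 z] fun _ => (0 : ℝ) := by
      filter_upwards [eventually_lt_nhds h1] with y hy using ramp_eq_zero hδ (Or.inl hy.le)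
    rw [this.deriv_eq, deriv_const, indicator_of_notMem, indicator_of_notMem] <;>
      simp <;> intros <;> linarith
  rcases lt_or_gt_of_ne z2 with h2 | h2
  · have : ramp a b δ =ᶠ[𝓝 z] fun y => δ⁻¹ * (y - a) := by
      filter_upwards [eventually_lt_nhds h2, eventually_gt_nhds h1] with y hy hy'
      have e1 : δ⁻¹ * (y - a) ≤ 1 := by
        rw [← div_eq_inv_mul, div_le_iff₀ hδ]; linarith
      have e2 : δ⁻¹ * (y - a) ≤ δ⁻¹ * (b - y) :=
        mul_le_mul_of_nonneg_left (by linarith) (by positivity)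
      rw [ramp, min_eq_left e2, min_eq_right e1,
        max_eq_right (mul_nonneg (by positivity) (by linarith))]
    rw [this.deriv_eq, (((hasDerivAt_id' z).sub_const a).const_mul δ⁻¹).deriv, indicator_of_mem
      (by exact ⟨h1, h2⟩), indicator_of_notMem (by simp; intros; linarith)]
    simp
  rcases lt_or_gt_of_ne z3 with h3 | h3
  · have : ramp a b δ =ᶠ[𝓝 z] fun _ => (1 : ℝ) := by
      filter_upwards [eventually_lt_nhds h3, eventually_gt_nhds h2] with y hy hy'
        using ramp_eq_one hδ ⟨hy'.le, hy.le⟩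
    rw [this.deriv_eq, deriv_const, indicator_of_notMem, indicator_of_notMem] <;>
      simp <;> intros <;> linarith
  rcases lt_or_gt_of_ne z4 with h4 | h4
  · have : ramp a b δ =ᶠ[𝓝 z] fun y => δ⁻¹ * (b - y) := by
      filter_upwards [eventually_gt_nhds h3, eventually_lt_nhds h4] with y hy hy'
      have e1 : δ⁻¹ * (b - y) ≤ 1 := by
        rw [← div_eq_inv_mul, div_le_iff₀ hδ]; linarith
      have e2 : δ⁻¹ * (b - y) ≤ δ⁻¹ * (y - a) :=
        mul_le_mul_of_nonneg_left (by linarith) (by positivity)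
      rw [ramp, min_eq_right e2, min_eq_right e1,
        max_eq_right (mul_nonneg (by positivity) (by linarith))]
    rw [this.deriv_eq, (((hasDerivAt_id' z).const_sub b).const_mul δ⁻¹).deriv, indicator_of_notMem
      (by simp; intros; linarith), indicator_of_mem (by exact ⟨h3, h4⟩)]
    simp
  · have : ramp a b δ =ᶠ[𝓝 z] fun _ => (0 : ℝ) := by
      filter_upwards [eventually_gt_nhds h4] with y hy using ramp_eq_zero hδ (Or.inr hy.le)
    rw [this.deriv_eq, deriv_const, indicator_of_notMem, indicator_of_notMem] <;>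
      simp <;> intros <;> linarith

theorem drop_le_integral_ramp (hD : MeasurableSet D) (hdown : IsDownset D) {a b δ : ℝ}
    (ha : 0 ≤ a) (hδ : 0 < δ) (hab : 2 * δ ≤ b - a) :
    areaExt D k (a + δ) - areaExt D k (b - δ) ≤ ∫ z, deriv (ramp a b δ) z * sliceArea D k z := by
  have hi := integrable_sliceArea hD hdown.1 k
  have heq : ∫ z, deriv (ramp a b δ) z * sliceArea D k z
      = δ⁻¹ * (∫ z in Ioo a (a + δ), sliceArea D k z)
        - δ⁻¹ * ∫ z in Ioo (b - δ) b, sliceArea D k z := by
    rw [← MeasureTheory.integral_const_mul, ← MeasureTheory.integral_const_mul,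
      ← integral_indicator measurableSet_Ioo, ← integral_indicator measurableSet_Ioo,
      ← integral_sub ((hi.const_mul _).indicator measurableSet_Ioo)
        ((hi.const_mul _).indicator measurableSet_Ioo)]
    refine integral_congr_ae ((deriv_ramp_ae hδ hab).mono fun z hz => ?_)
    simp only
    rw [hz]
    by_cases m1 : z ∈ Ioo a (a + δ) <;> by_cases m2 : z ∈ Ioo (b - δ) b <;>
      simp [m1, m2]
  have hm := areaExt_antitone hdown k
  have e1 : δ * areaExt D k (a + δ) ≤ ∫ z in Ioo a (a + δ), sliceArea D k z := by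
    calc δ * areaExt D k (a + δ) = ∫ _ in Ioo a (a + δ), areaExt D k (a + δ) := by
          simp [Measure.real, Real.volume_Ioo, hδ.le]
      _ ≤ _ := setIntegral_mono_on (integrableOn_const (by simp [Real.volume_Ioo]))
          hi.integrableOn measurableSet_Ioo fun z hz => by
            rw [← areaExt_eq (D := D) (k := k) (by linarith [hz.1] : 0 ≤ z)]
            exact hm hz.2.le
  have e2 : ∫ z in Ioo (b - δ) b, sliceArea D k z ≤ δ * areaExt D k (b - δ) := by
    calc _ ≤ ∫ _ in Ioo (b - δ) b, areaExt D k (b - δ) :=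
          setIntegral_mono_on hi.integrableOn (integrableOn_const (by simp [Real.volume_Ioo]))
            measurableSet_Ioo fun z hz => by
              rw [← areaExt_eq (D := D) (k := k) (by linarith [hz.1] : 0 ≤ z)]
              exact hm hz.1.le
      _ = _ := by simp [Measure.real, Real.volume_Ioo, hδ.le]
  rw [heq, ← mul_sub]
  calc areaExt D k (a + δ) - areaExt D k (b - δ)
      = δ⁻¹ * (δ * areaExt D k (a + δ) - δ * areaExt D k (b - δ)) := by field_simp
    _ ≤ _ := by gcongr

/-- Slice fields `(p i, q i)` with weights `c i, s i` on the intervals of a partition. -/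
theorem slice_partition_fields (hD : MeasurableSet D) (hdown : IsDownset D) {P : ℝ}
    (hP : RelPerLE D P) (k : Fin 3) {N : ℕ} {t : ℕ → ℝ} (ht : ∀ i < N, t i < t (i + 1))
    (h0 : 0 ≤ t 0) (h1 : t N ≤ 1) {c s : ℕ → ℝ} (hc0 : ∀ i < N, 0 ≤ c i) (hs0 : ∀ i < N, 0 ≤ s i)
    (hcs : ∀ i < N, s i ^ 2 + c i ^ 2 ≤ 1) {p q : ℕ → ℝ × (ℝ × ℝ) → ℝ}
    (hpq : ∀ i < N, IsSliceField (p i) (q i)) :
    ∑ i ∈ Finset.range N,
      (c i * (∫ z in Ioo (t i) (t (i + 1)), fluxS (p i) (q i) D k z)
        + s i * (rightLim (areaExt D k) (t i) - leftLim (areaExt D k) (t (i + 1)))) ≤ P := by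
  have hA := areaExt_antitone hdown k
  have hord : ∀ i j, i ≤ j → j ≤ N → t i ≤ t j := by
    intro i j hij
    induction j, hij using Nat.le_induction with
    | base => intro _; exact le_rfl
    | succ j _ ih => intro hj; exact (ih (by omega)).trans (ht j (by omega)).le
  choose! C hC using fun i (hi : i < N) => (hpq i hi).exists_bound (D := D) (k := k) hdown.1
  obtain ⟨δ0, hδ0, hgap⟩ : ∃ δ0 > 0, ∀ i < N, 2 * δ0 ≤ t (i + 1) - t i := by
    have : ∀ᶠ d : ℝ in 𝓝[>] 0, ∀ i ∈ Finset.range N, 2 * d ≤ t (i + 1) - t i := by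
      rw [eventually_all_finset]
      intro i hi
      have hpos := ht i (Finset.mem_range.1 hi)
      refine mem_of_superset (Ioo_mem_nhdsGT (show (0 : ℝ) < (t (i + 1) - t i) / 2 by linarith))
        fun d hd => ?_
      simp only [Set.mem_ofPred_eq]
      linarith [hd.2]
    obtain ⟨d, hd, hd0⟩ := (this.and self_mem_nhdsWithin).exists
    exact ⟨d, hd0, fun i hi => hd i (Finset.mem_range.2 hi)⟩
  have key : ∀ δ ∈ Ioc 0 δ0, ∑ i ∈ Finset.range N,
      (c i * ((∫ z in Ioo (t i) (t (i + 1)), fluxS (p i) (q i) D k z) - 2 * δ * C i)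
        + s i * (areaExt D k (t i + δ) - areaExt D k (t (i + 1) - δ))) ≤ P := by
    intro δ hδ
    set r : ℕ → ℝ → ℝ := fun i => ramp (t i) (t (i + 1)) δ with hr
    have hdisj : ∀ i < N, ∀ j < N, ∀ z, r i z ≠ 0 → j ≠ i → r j z = 0 := by
      intro i hi j hj z hne hji
      have hzi : t i < z ∧ z < t (i + 1) := by
        constructor <;> by_contra hh <;> push Not at hh
        · exact hne (ramp_eq_zero hδ.1 (Or.inl hh))
        · exact hne (ramp_eq_zero hδ.1 (Or.inr hh))
      refine ramp_eq_zero hδ.1 ?_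
      rcases lt_or_gt_of_ne hji with h | h
      · exact Or.inr ((hord _ _ h hi.le).trans hzi.1.le)
      · exact Or.inl (hzi.2.le.trans (hord _ _ h hj.le))
    have hsingle : ∀ (a : ℕ → ℝ) (z : ℝ), ∀ i < N, r i z ≠ 0 →
        ∑ j ∈ Finset.range N, a j * r j z = a i * r i z := fun a z i hi hne =>
      Finset.sum_eq_single i (fun j hj hji => by
        rw [hdisj i hi j (Finset.mem_range.1 hj) z hne hji, mul_zero])
        (fun hh => absurd (Finset.mem_range.2 hi) hh)
    set g : ℝ → ℝ := fun z => ∑ i ∈ Finset.range N, s i * r i z with hg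
    set pp : ℝ × (ℝ × ℝ) → ℝ := fun u => ∑ i ∈ Finset.range N, (c i * r i u.1) * p i u with hpp
    set qq : ℝ × (ℝ × ℝ) → ℝ := fun u => ∑ i ∈ Finset.range N, (c i * r i u.1) * q i u with hqq
    have hrlip : ∀ i, ∃ K, LipschitzWith K (r i) := fun i => exists_lipschitz_ramp _ _ _
    have hc1 : ∀ i < N, |c i| ≤ 1 := fun i hi =>
      (sq_le_one_iff_abs_le_one _).1 (by nlinarith [hcs i hi, sq_nonneg (s i)])
    have hsumlip : ∀ {α : Type} [PseudoMetricSpace α] (n : ℕ) (f : ℕ → α → ℝ),
        (∀ i < n, ∃ K, LipschitzWith K (f i)) →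
        ∃ K, LipschitzWith K fun x => ∑ i ∈ Finset.range n, f i x := by
      intro α _ n f
      induction n with
      | zero => intro _; exact ⟨0, by simpa using LipschitzWith.const (0 : ℝ)⟩
      | succ n ih =>
        intro hf
        obtain ⟨K, hK⟩ := ih fun i hi => hf i (by omega)
        obtain ⟨L, hL⟩ := hf n (by omega)
        refine ⟨K + L, ?_⟩
        simp only [Finset.sum_range_succ]
        exact hK.add hL
    have hglip : ∃ K, LipschitzWith K g := hsumlip N _ fun i hi => by
      obtain ⟨K, hK⟩ := hrlip i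
      exact ⟨_, (lipschitzWith_smul (s i)).comp hK⟩
    have hlipc : ∀ (f : ℕ → ℝ × (ℝ × ℝ) → ℝ),
        (∀ i < N, ∃ K, LipschitzWith K (f i)) → (∀ i < N, ∀ u, |f i u| ≤ 1) →
        ∃ K, LipschitzWith K fun u => ∑ i ∈ Finset.range N, (c i * r i u.1) * f i u := by
      intro f hf hf1
      refine hsumlip N _ fun i hi => ?_
      obtain ⟨K, hK⟩ := hrlip i
      obtain ⟨L, hL⟩ := hf i hi
      refine ⟨_, lipschitz_mul (K := ‖c i‖₊ * (K * 1)) ?_ hL (fun u => ?_) (hf1 i hi)⟩
      · exact (lipschitzWith_smul (c i)).comp (hK.comp LipschitzWith.prod_fst)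
      · rw [abs_mul, abs_of_nonneg (ramp_mem _ _ _ _).1]
        exact mul_le_one₀ (hc1 i hi) (ramp_mem _ _ _ _).1 (ramp_mem _ _ _ _).2
    -- at every height at most one term is present
    have hform : ∀ z, ((∀ i < N, r i z = 0)) ∨ ∃ i < N, r i z ≠ 0 := fun z => by
      by_cases h : ∀ i < N, r i z = 0
      · exact Or.inl h
      · push Not at h; exact Or.inr h
    have hnorm : ∀ u : ℝ × (ℝ × ℝ), g u.1 ^ 2 + (pp u ^ 2 + qq u ^ 2) ≤ 1 := by
      intro u
      rcases hform u.1 with h | ⟨i, hi, hne⟩
      · have e1 : g u.1 = 0 := Finset.sum_eq_zero fun i hi => by simp [h i (Finset.mem_range.1 hi)]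
        have e2 : pp u = 0 := Finset.sum_eq_zero fun i hi => by simp [h i (Finset.mem_range.1 hi)]
        have e3 : qq u = 0 := Finset.sum_eq_zero fun i hi => by simp [h i (Finset.mem_range.1 hi)]
        rw [e1, e2, e3]; norm_num
      · have e1 : g u.1 = s i * r i u.1 := hsingle s u.1 i hi hne
        have e2 : pp u = c i * r i u.1 * p i u := by
          simp only [hpp]
          rw [Finset.sum_eq_single i (fun j hj hji => by
            rw [hdisj i hi j (Finset.mem_range.1 hj) _ hne hji]; simp)
            (fun hh => absurd (Finset.mem_range.2 hi) hh)]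
        have e3 : qq u = c i * r i u.1 * q i u := by
          simp only [hqq]
          rw [Finset.sum_eq_single i (fun j hj hji => by
            rw [hdisj i hi j (Finset.mem_range.1 hj) _ hne hji]; simp)
            (fun hh => absurd (Finset.mem_range.2 hi) hh)]
        rw [e1, e2, e3]
        have hr01 := ramp_mem (t i) (t (i + 1)) δ u.1
        have hb : (c i * r i u.1) ^ 2 * (p i u ^ 2 + q i u ^ 2) ≤ (c i * r i u.1) ^ 2 :=
          mul_le_of_le_one_right (sq_nonneg _) ((hpq i hi).norm_le u)
        nlinarith [mul_le_mul_of_nonneg_left (hcs i hi) (sq_nonneg (r i u.1)),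
          mul_le_one₀ hr01.2 hr01.1 hr01.2]
    have hfield : IsSliceField pp qq :=
      ⟨hlipc p (fun i hi => (hpq i hi).lip_fst) (fun i hi => (hpq i hi).abs_fst_le),
        hlipc q (fun i hi => (hpq i hi).lip_snd) (fun i hi => (hpq i hi).abs_snd_le),
        fun u => by nlinarith [hnorm u, sq_nonneg (g u.1)],
        fun u hu => Finset.sum_eq_zero fun i hi => by
          simp [(hpq i (Finset.mem_range.1 hi)).tangent_fst u hu],
        fun u hu => Finset.sum_eq_zero fun i hi => by
          simp [(hpq i (Finset.mem_range.1 hi)).tangent_snd u hu]⟩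
    have hends : g 0 = 0 ∧ g 1 = 0 := by
      constructor <;> refine Finset.sum_eq_zero fun i hi => mul_eq_zero_of_right _ ?_
      · exact ramp_eq_zero hδ.1 (Or.inl (h0.trans (hord 0 i (Nat.zero_le _)
          (Finset.mem_range.1 hi).le)))
      · exact ramp_eq_zero hδ.1 (Or.inr ((hord (i + 1) N (Finset.mem_range.1 hi) le_rfl).trans h1))
    have hcal := slice_calib hD hdown hP k hglip hends.1 hends.2 hfield hnorm
    have hflux : ∀ z, fluxS pp qq D k z
        = ∑ i ∈ Finset.range N, (c i * r i z) * fluxS (p i) (q i) D k z := by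
      intro z
      rcases hform z with h | ⟨i, hi, hne⟩
      · rw [Finset.sum_eq_zero fun i hi => by simp [h i (Finset.mem_range.1 hi)], fluxS_eq]
        refine integral_eq_zero_of_ae (Eventually.of_forall fun w => ?_)
        have e : ∀ (f : ℕ → ℝ × (ℝ × ℝ) → ℝ) (v : ℝ × ℝ),
            ∑ j ∈ Finset.range N, (c j * r j z) * f j (z, v) = 0 := fun f v =>
          Finset.sum_eq_zero fun j hj => by simp [h j (Finset.mem_range.1 hj)]
        simp [dvS, hpp, hqq, e]
      · have e : ∀ (f : ℕ → ℝ × (ℝ × ℝ) → ℝ) (v : ℝ × ℝ),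
            ∑ j ∈ Finset.range N, (c j * r j z) * f j (z, v) = c i * r i z * f i (z, v) :=
          fun f v => Finset.sum_eq_single i (fun j hj hji => by
            rw [hdisj i hi j (Finset.mem_range.1 hj) _ hne hji]; simp)
            (fun hh => absurd (Finset.mem_range.2 hi) hh)
        rw [Finset.sum_eq_single i (fun j hj hji => by
            rw [hdisj i hi j (Finset.mem_range.1 hj) _ hne hji]; simp)
            (fun hh => absurd (Finset.mem_range.2 hi) hh),
          fluxS_eq, fluxS_eq, ← MeasureTheory.integral_const_mul]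
        congr 1
        funext w
        simp [dvS, hpp, hqq, e, deriv_const_mul_field, mul_add]
    have hgd : ∫ z, deriv g z * sliceArea D k z
        = ∑ i ∈ Finset.range N, s i * ∫ z, deriv (r i) z * sliceArea D k z := by
      choose K hK using hrlip
      have hint : ∀ i, Integrable fun z => deriv (r i) z * sliceArea D k z := fun i =>
        (integrable_sliceArea hD hdown.1 k).bdd_mul (measurable_deriv (r i)).aestronglyMeasurable
          (Eventually.of_forall fun z => norm_deriv_le_of_lipschitz (hK i))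
      simp only [← MeasureTheory.integral_const_mul]
      rw [← integral_finsetSum _ fun i _ => (hint i).const_mul (s i)]
      refine integral_congr_ae ?_
      have hall : ∀ᵐ z, ∀ i, DifferentiableAt ℝ (r i) z :=
        ae_all_iff.2 fun i => (hK i).ae_differentiableAt_real
      filter_upwards [hall] with z hz
      rw [(HasDerivAt.fun_sum fun i _ => (hz i).hasDerivAt.const_mul (s i)).deriv, Finset.sum_mul]
      simp [mul_assoc]
    have hrF : ∀ i < N, Integrable fun z => r i z * fluxS (p i) (q i) D k z := fun i hi => by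
      obtain ⟨K, hK⟩ := hrlip i
      exact ((hpq i hi).integrable_fluxS hD hdown.1).bdd_mul hK.continuous.aestronglyMeasurable
        (Eventually.of_forall fun z => by
          rw [Real.norm_of_nonneg (ramp_mem _ _ _ _).1]; exact (ramp_mem _ _ _ _).2)
    have hfsum : ∫ z, fluxS pp qq D k z
        = ∑ i ∈ Finset.range N, c i * ∫ z, r i z * fluxS (p i) (q i) D k z := by
      simp only [← MeasureTheory.integral_const_mul]
      rw [← integral_finsetSum _ fun i hi => (hrF i (Finset.mem_range.1 hi)).const_mul (c i)]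
      exact integral_congr_ae (Eventually.of_forall fun z => by simp [hflux, mul_assoc])
    rw [hgd, hfsum] at hcal
    refine le_trans ?_ hcal
    rw [← Finset.sum_add_distrib]
    refine Finset.sum_le_sum fun i hi => ?_
    replace hi := Finset.mem_range.1 hi
    have hgapi : 2 * δ ≤ t (i + 1) - t i := by linarith [hgap i hi, hδ.2]
    have hA1 := drop_le_integral_ramp (k := k) hD hdown (h0.trans (hord 0 i (Nat.zero_le _) hi.le))
      hδ.1 hgapi
    have hF1 : (∫ z in Ioo (t i) (t (i + 1)), fluxS (p i) (q i) D k z) - 2 * δ * C i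
        ≤ ∫ z, r i z * fluxS (p i) (q i) D k z := by
      set F := fluxS (p i) (q i) D k with hF
      have hFi : Integrable F := (hpq i hi).integrable_fluxS hD hdown.1
      set J : Set ℝ := Ioo (t i) (t i + δ) ∪ Ioo (t (i + 1) - δ) (t (i + 1)) with hJ
      have hJm : MeasurableSet J := measurableSet_Ioo.union measurableSet_Ioo
      have hC0 : 0 ≤ C i := (norm_nonneg _).trans (hC i hi 0)
      have hJv : volume.real J ≤ 2 * δ := by
        refine (measureReal_union_le _ _).trans ?_
        simp [Measure.real, Real.volume_Ioo, hδ.1.le]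
        linarith
      have hJf : volume J ≠ ⊤ := by
        refine ne_top_of_le_ne_top ?_ (measure_union_le _ _)
        simp [Real.volume_Ioo]
      have hne : ∀ᵐ z : ℝ, z ∉ ({t i + δ, t (i + 1) - δ} : Set ℝ) :=
        measure_eq_zero_iff_ae_notMem.1 ((Set.toFinite _).measure_zero _)
      have hle : (∫ z, (Ioo (t i) (t (i + 1))).indicator F z - J.indicator (fun _ => C i) z)
          ≤ ∫ z, r i z * F z := by
        refine integral_mono_ae ((hFi.indicator measurableSet_Ioo).sub
          ((integrable_indicator_iff hJm).2 (integrableOn_const hJf))) (hrF i hi)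
          (hne.mono fun z hz => ?_)
        simp only [mem_insert_iff, mem_singleton_iff, not_or] at hz
        simp only
        have hb := abs_le.1 (hC i hi z)
        have hr01 := ramp_mem (t i) (t (i + 1)) δ z
        by_cases hz1 : z ∈ Ioo (t i) (t (i + 1))
        · rw [indicator_of_mem hz1]
          by_cases hz2 : z ∈ J
          · rw [indicator_of_mem hz2]
            simp only [hr, hF] at *
            nlinarith [mul_nonneg (sub_nonneg.2 hr01.2) (sub_nonneg.2 hb.2), mul_nonneg hr01.1 hC0]
          · rw [indicator_of_notMem hz2]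
            have : r i z = 1 := ramp_eq_one hδ.1 (by
              simp only [hJ, mem_union, mem_Ioo, not_or, not_and, not_lt] at hz2
              exact ⟨hz2.1 hz1.1, le_of_not_gt fun hh => absurd (hz2.2 hh) (not_le.2 hz1.2)⟩)
            simp [this]
        · rw [indicator_of_notMem hz1, show r i z = 0 from ramp_eq_zero hδ.1 (by
            simp only [mem_Ioo, not_and, not_lt] at hz1
            exact (le_or_gt z (t i)).imp id fun hh => hz1 hh)]
          by_cases hz2 : z ∈ J
          · rw [indicator_of_mem hz2]; linarith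
          · rw [indicator_of_notMem hz2]; simp
      rw [integral_sub (hFi.indicator measurableSet_Ioo)
        ((integrable_indicator_iff hJm).2 (integrableOn_const hJf)),
        integral_indicator measurableSet_Ioo, integral_indicator hJm, setIntegral_const,
        smul_eq_mul] at hle
      nlinarith [mul_le_mul_of_nonneg_right hJv hC0]
    have := mul_le_mul_of_nonneg_left hF1 (hc0 i hi)
    have := mul_le_mul_of_nonneg_left hA1 (hs0 i hi)
    linarith
  refine le_of_tendsto (x := 𝓝[>] (0 : ℝ)) ?_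
    (mem_of_superset (Ioc_mem_nhdsGT hδ0) key)
  refine tendsto_finsetSum _ fun i _ => Tendsto.add ?_ (Tendsto.const_mul _ (Tendsto.sub ?_ ?_))
  · have : Tendsto (fun δ : ℝ => c i * ((∫ z in Ioo (t i) (t (i + 1)), fluxS (p i) (q i) D k z)
        - 2 * δ * C i)) (𝓝 0) (𝓝 (c i * ((∫ z in Ioo (t i) (t (i + 1)), fluxS (p i) (q i) D k z)
        - 2 * 0 * C i))) := (Continuous.tendsto (by fun_prop) 0)
    simpa using this.mono_left nhdsWithin_le_nhds
  · refine (hA.tendsto_rightLim _).comp (tendsto_nhdsWithin_iff.2 ⟨?_, ?_⟩)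
    · have hc : Tendsto (fun x : ℝ => t i + x) (𝓝 0) (𝓝 (t i + 0)) :=
        Continuous.tendsto (by fun_prop) 0
      rw [add_zero] at hc
      exact hc.mono_left nhdsWithin_le_nhds
    · exact eventually_nhdsWithin_of_forall fun x (hx : 0 < x) =>
        show t i < t i + x by linarith
  · refine (hA.tendsto_leftLim _).comp (tendsto_nhdsWithin_iff.2 ⟨?_, ?_⟩)
    · have hc : Tendsto (fun x : ℝ => t (i + 1) - x) (𝓝 0) (𝓝 (t (i + 1) - 0)) :=
        Continuous.tendsto (by fun_prop) 0
      rw [sub_zero] at hc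
      exact hc.mono_left nhdsWithin_le_nhds
    · exact eventually_nhdsWithin_of_forall fun x (hx : 0 < x) =>
        show t (i + 1) - x < t (i + 1) by linarith

/-- **The slicing inequality.** If `f` is at most, up to every `ε`, the flux of some square field
through the slice, slice by slice, then over every partition of the height the relative perimeter
is at least the sum of `√((∫ f)₊² + (drop of the area)²)`. -/
theorem slice_partition (hD : MeasurableSet D) (hdown : IsDownset D) {P : ℝ}
    (hP : RelPerLE D P) (k : Fin 3) {N : ℕ} {t : ℕ → ℝ} (ht : ∀ i < N, t i < t (i + 1))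
    (h0 : 0 ≤ t 0) (h1 : t N ≤ 1) {f : ℝ → ℝ}
    (hf : ∀ i < N, IntegrableOn f (Ioo (t i) (t (i + 1))))
    (hb : ∀ i < N, ∀ᵐ z, z ∈ Ioo (t i) (t (i + 1)) → ∀ ε > 0, ∃ p q, IsSqField p q ∧
      f z ≤ flux p q (slice D k z) + ε) :
    ∑ i ∈ Finset.range N,
      Real.sqrt (max (∫ z in Ioo (t i) (t (i + 1)), f z) 0 ^ 2
        + (rightLim (areaExt D k) (t i) - leftLim (areaExt D k) (t (i + 1))) ^ 2) ≤ P := by
  set A : ℕ → ℝ := fun i => max (∫ z in Ioo (t i) (t (i + 1)), f z) 0 with hA
  set Δ : ℕ → ℝ := fun i =>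
    rightLim (areaExt D k) (t i) - leftLim (areaExt D k) (t (i + 1)) with hΔ
  set R : ℕ → ℝ := fun i => Real.sqrt (A i ^ 2 + Δ i ^ 2) with hR
  have hA0 : ∀ i, 0 ≤ A i := fun i => le_max_right _ _
  have hΔ0 : ∀ i < N, 0 ≤ Δ i := fun i hi => by
    have hm := areaExt_antitone hdown k
    obtain ⟨m, hm1, hm2⟩ := exists_between (ht i hi)
    have := hm.le_rightLim hm1
    have := hm.leftLim_le hm2
    simp only [hΔ]
    linarith
  refine le_of_forall_pos_le_add fun ε hε => ?_
  have hex : ∀ i < N, ∃ p q, IsSliceField p q ∧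
      A i ≤ (∫ z in Ioo (t i) (t (i + 1)), fluxS p q D k z) + ε / (N + 1) := by
    intro i hi
    rcases le_or_gt (∫ z in Ioo (t i) (t (i + 1)), f z) 0 with h | h
    · refine ⟨_, _, isSqField_zero.toSlice, ?_⟩
      have : ∀ z, fluxS (fun _ => (0 : ℝ)) (fun _ => (0 : ℝ)) D k z = 0 := fun z => flux_zero _
      simp only [hA, max_eq_right h, this, integral_zero, zero_add]
      positivity
    · obtain ⟨p, q, hpq, hle⟩ := exists_sliceField_ge hD hdown.1 (hf i hi) (hb i hi)
        (show 0 < ε / (N + 1) by positivity)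
      exact ⟨p, q, hpq, by rw [hA]; simpa [max_eq_left h.le] using hle⟩
  choose! p q hpq hle using hex
  have hcs : ∀ i < N, (Δ i / R i) ^ 2 + (A i / R i) ^ 2 ≤ 1 := fun i _ => by
    rw [div_pow, div_pow, ← add_div, add_comm]
    simp only [hR]
    rw [Real.sq_sqrt (by positivity)]
    exact div_self_le_one _
  have h := slice_partition_fields hD hdown hP k ht h0 h1 (c := fun i => A i / R i)
    (s := fun i => Δ i / R i) (fun i _ => div_nonneg (hA0 i) (Real.sqrt_nonneg _))
    (fun i hi => div_nonneg (hΔ0 i hi) (Real.sqrt_nonneg _)) hcs (p := p) (q := q) hpq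
  have hterm : ∀ i ∈ Finset.range N, R i ≤ (A i / R i)
      * (∫ z in Ioo (t i) (t (i + 1)), fluxS (p i) (q i) D k z) + Δ i / R i * Δ i
      + ε / (N + 1) := by
    intro i hi
    replace hi := Finset.mem_range.1 hi
    have hR0 : 0 ≤ R i := Real.sqrt_nonneg _
    have hc1 : A i / R i ≤ 1 :=
      div_le_one_of_le₀ (Real.le_sqrt_of_sq_le (by nlinarith [sq_nonneg (Δ i)])) hR0
    have he : A i / R i * A i + Δ i / R i * Δ i = R i := by
      rw [div_mul_eq_mul_div, div_mul_eq_mul_div, ← add_div, ← sq, ← sq]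
      exact Real.div_sqrt
    have h2 := mul_le_mul_of_nonneg_left (hle i hi) (div_nonneg (hA0 i) hR0)
    have h3 := mul_le_of_le_one_left (show 0 ≤ ε / ((N : ℝ) + 1) by positivity) hc1
    linarith [mul_add (A i / R i)
      (∫ z in Ioo (t i) (t (i + 1)), fluxS (p i) (q i) D k z) (ε / ((N : ℝ) + 1))]
  calc ∑ i ∈ Finset.range N, R i
      ≤ ∑ i ∈ Finset.range N, ((A i / R i)
        * (∫ z in Ioo (t i) (t (i + 1)), fluxS (p i) (q i) D k z) + Δ i / R i * Δ i
        + ε / (N + 1)) := Finset.sum_le_sum hterm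
    _ ≤ P + ε := by
        rw [Finset.sum_add_distrib, Finset.sum_const, Finset.card_range, nsmul_eq_mul]
        refine add_le_add h ?_
        rw [← mul_div_assoc, div_le_iff₀ (by positivity)]
        nlinarith

end Vale.Agent.P232
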