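import Vale.Agent.P232.SliceDefs

/-!
Slices of a down-set in the cube: Fubini, the area function, and measurability.
-/

open MeasureTheory Set
open scoped NNReal

namespace Vale.Agent.P232

variable {D : Set R3} {k : Fin 3}

theorem ins_apply_self (k : Fin 3) (z : ℝ) (w : ℝ × ℝ) : ins k z w k = z := by
  simp [ins]

theorem ins_apply_succAbove (k : Fin 3) (z : ℝ) (w : ℝ × ℝ) (j : Fin 2) :
    ins k z w (k.succAbove j) = ![w.1, w.2] j := by
  simp [ins]

theorem norm_ins_sq (k : Fin 3) (z : ℝ) (w : ℝ × ℝ) :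
    ‖ins k z w‖ ^ 2 = z ^ 2 + (w.1 ^ 2 + w.2 ^ 2) := by
  rw [EuclideanSpace.norm_sq_eq, Fin.sum_univ_succAbove _ k]
  simp [ins_apply_self, ins_apply_succAbove, Fin.sum_univ_two]

/-- `ins` as a continuous linear map. -/
noncomputable def insL (k : Fin 3) : ℝ × (ℝ × ℝ) →L[ℝ] R3 :=
  LinearMap.toContinuousLinearMap
    { toFun := fun p => ins k p.1 p.2
      map_add' := by
        intro p q
        ext i
        rcases Fin.eq_self_or_eq_succAbove k i with rfl | ⟨j, rfl⟩
        · simp [ins_apply_self]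
        · fin_cases j <;> simp [ins_apply_succAbove]
      map_smul' := by
        intro c p
        ext i
        rcases Fin.eq_self_or_eq_succAbove k i with rfl | ⟨j, rfl⟩
        · simp [ins_apply_self]
        · fin_cases j <;> simp [ins_apply_succAbove] }

theorem insL_apply (k : Fin 3) (p : ℝ × (ℝ × ℝ)) : insL k p = ins k p.1 p.2 := rfl

/-- The inverse of `ins`. -/
noncomputable def outL (k : Fin 3) : R3 →L[ℝ] ℝ × (ℝ × ℝ) :=
  LinearMap.toContinuousLinearMap
    { toFun := fun x => (x k, (x (k.succAbove 0), x (k.succAbove 1)))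
      map_add' := by intro x y; simp
      map_smul' := by intro c x; simp }

theorem outL_apply (k : Fin 3) (x : R3) :
    outL k x = (x k, (x (k.succAbove 0), x (k.succAbove 1))) := rfl

theorem outL_ins (k : Fin 3) (z : ℝ) (w : ℝ × ℝ) : outL k (ins k z w) = (z, w) := by
  simp [outL_apply, ins_apply_self, ins_apply_succAbove]

theorem ins_outL (k : Fin 3) (x : R3) : ins k (outL k x).1 (outL k x).2 = x := by
  ext i
  rcases Fin.eq_self_or_eq_succAbove k i with rfl | ⟨j, rfl⟩
  · simp [ins_apply_self, outL_apply]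
  · fin_cases j <;> simp [ins_apply_succAbove, outL_apply]

theorem measurable_ins (k : Fin 3) : Measurable fun p : ℝ × (ℝ × ℝ) => ins k p.1 p.2 :=
  (insL k).continuous.measurable

/-- `ins` as a measurable equivalence. -/
noncomputable def insEquiv (k : Fin 3) : ℝ × (ℝ × ℝ) ≃ᵐ R3 where
  toFun p := ins k p.1 p.2
  invFun x := outL k x
  left_inv p := by simp [outL_ins]
  right_inv x := ins_outL k x
  measurable_toFun := measurable_ins k
  measurable_invFun := (outL k).continuous.measurable

theorem measurePreserving_ins (k : Fin 3) :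
    MeasurePreserving (fun p : ℝ × (ℝ × ℝ) => ins k p.1 p.2) := by
  have h1 : MeasurePreserving (MeasurableEquiv.finTwoArrow (α := ℝ)).symm
      (volume : Measure (ℝ × ℝ)) (volume : Measure (Fin 2 → ℝ)) :=
    (volume_preserving_finTwoArrow ℝ).symm _
  have h1b : MeasurePreserving
      (Prod.map (id : ℝ → ℝ) (MeasurableEquiv.finTwoArrow (α := ℝ)).symm)
      (volume : Measure (ℝ × (ℝ × ℝ))) (volume : Measure (ℝ × (Fin 2 → ℝ))) :=
    (MeasurePreserving.id _).prod h1
  have h2 : MeasurePreserving (MeasurableEquiv.piFinSuccAbove (fun _ : Fin 3 => ℝ) k).symm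
      (volume : Measure (ℝ × (Fin 2 → ℝ))) (volume : Measure (Fin 3 → ℝ)) :=
    (volume_preserving_piFinSuccAbove (fun _ : Fin 3 => ℝ) k).symm _
  have h3 := (PiLp.volume_preserving_toLp (Fin 3)).comp (h2.comp h1b)
  have heq : (fun p : ℝ × (ℝ × ℝ) => ins k p.1 p.2) = (WithLp.toLp 2) ∘
      ⇑(MeasurableEquiv.piFinSuccAbove (fun _ : Fin 3 => ℝ) k).symm ∘
        Prod.map (id : ℝ → ℝ) ⇑(MeasurableEquiv.finTwoArrow (α := ℝ)).symm := rfl
  rw [heq]
  exact h3

theorem mem_slice {z : ℝ} {w : ℝ × ℝ} : w ∈ slice D k z ↔ ins k z w ∈ D := Iff.rfl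

theorem measurableSet_slice (hD : MeasurableSet D) (k : Fin 3) (z : ℝ) :
    MeasurableSet (slice D k z) :=
  ((measurable_ins k).comp (measurable_const.prodMk measurable_id)) hD

/-- The unit square. -/
def square : Set (ℝ × ℝ) := Ico (0 : ℝ) 1 ×ˢ Ico (0 : ℝ) 1

theorem measurableSet_square : MeasurableSet square :=
  measurableSet_Ico.prod measurableSet_Ico

theorem volume_square : volume square = 1 := by
  rw [square, Measure.volume_eq_prod, Measure.prod_prod, Real.volume_Ico]; simp

theorem ins_mem_cell {k : Fin 3} {z : ℝ} {w : ℝ × ℝ} :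
    ins k z w ∈ cell ↔ z ∈ Ico (0 : ℝ) 1 ∧ w ∈ square := by
  simp only [cell, mem_ofPred_eq, Fin.forall_iff_succAbove k, ins_apply_self, ins_apply_succAbove,
    Fin.forall_fin_two, square, mem_prod]
  simp

theorem slice_subset_square (hD : D ⊆ cell) (k : Fin 3) (z : ℝ) : slice D k z ⊆ square :=
  fun _ hw => (ins_mem_cell.1 (hD hw)).2

theorem slice_eq_empty (hD : D ⊆ cell) {z : ℝ} (hz : z ∉ Ico (0 : ℝ) 1) : slice D k z = ∅ :=
  eq_empty_of_forall_notMem fun _ hw => hz (ins_mem_cell.1 (hD hw)).1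

theorem volume_slice_le (hD : D ⊆ cell) (k : Fin 3) (z : ℝ) : volume (slice D k z) ≤ 1 :=
  volume_square ▸ measure_mono (slice_subset_square hD k z)

theorem volume_slice_ne_top (hD : D ⊆ cell) (k : Fin 3) (z : ℝ) : volume (slice D k z) ≠ ⊤ :=
  ne_top_of_le_ne_top ENNReal.one_ne_top (volume_slice_le hD k z)

theorem sliceArea_nonneg (D : Set R3) (k : Fin 3) (z : ℝ) : 0 ≤ sliceArea D k z :=
  ENNReal.toReal_nonneg

theorem sliceArea_le_one (hD : D ⊆ cell) (k : Fin 3) (z : ℝ) : sliceArea D k z ≤ 1 :=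
  ENNReal.toReal_le_of_le_ofReal zero_le_one (by simpa using volume_slice_le hD k z)

theorem sliceArea_eq_zero (hD : D ⊆ cell) {z : ℝ} (hz : z ∉ Ico (0 : ℝ) 1) :
    sliceArea D k z = 0 := by
  simp [sliceArea, slice_eq_empty hD hz]

theorem slice_anti (hD : IsDownset D) {z z' : ℝ} (hz : 0 ≤ z) (hzz : z ≤ z') :
    slice D k z' ⊆ slice D k z := by
  intro w hw
  have h := ins_mem_cell.1 (hD.1 hw)
  refine hD.2 _ hw _ (ins_mem_cell.2 ⟨⟨hz, lt_of_le_of_lt hzz h.1.2⟩, h.2⟩) fun i => ?_
  rcases Fin.eq_self_or_eq_succAbove k i with rfl | ⟨j, rfl⟩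
  · simpa [ins_apply_self] using hzz
  · simp [ins_apply_succAbove]

theorem slice_downset (hD : IsDownset D) {z : ℝ} {w w' : ℝ × ℝ} (hw : w ∈ slice D k z)
    (hw' : w' ∈ square) (h1 : w'.1 ≤ w.1) (h2 : w'.2 ≤ w.2) : w' ∈ slice D k z := by
  have h := ins_mem_cell.1 (hD.1 hw)
  refine hD.2 _ hw _ (ins_mem_cell.2 ⟨h.1, hw'⟩) fun i => ?_
  rcases Fin.eq_self_or_eq_succAbove k i with rfl | ⟨j, rfl⟩
  · simp [ins_apply_self]
  · fin_cases j <;> simpa [ins_apply_succAbove]

theorem areaExt_eq {z : ℝ} (hz : 0 ≤ z) : areaExt D k z = sliceArea D k z := by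
  simp [areaExt, max_eq_left hz]

theorem areaExt_antitone (hD : IsDownset D) (k : Fin 3) : Antitone (areaExt D k) := by
  intro z z' h
  exact ENNReal.toReal_mono (volume_slice_ne_top hD.1 k _)
    (measure_mono (slice_anti hD (le_max_right _ _) (max_le_max h le_rfl)))

theorem measurable_sliceArea (hD : MeasurableSet D) (k : Fin 3) :
    Measurable (sliceArea D k) :=
  (measurable_measure_prodMk_left ((measurable_ins k) hD)).ennreal_toReal

/-- Fubini along the slices. -/
theorem setIntegral_eq_slices (hD : MeasurableSet D) {f : R3 → ℝ} (hf : IntegrableOn f D) :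
    ∫ x in D, f x = ∫ z, ∫ w in slice D k z, f (ins k z w) := by
  have hmp := measurePreserving_ins k
  have hi : IntegrableOn (fun p : ℝ × (ℝ × ℝ) => f (ins k p.1 p.2))
      ((fun p : ℝ × (ℝ × ℝ) => ins k p.1 p.2) ⁻¹' D) :=
    (hmp.integrableOn_comp_preimage (insEquiv k).measurableEmbedding).2 hf
  rw [← hmp.setIntegral_preimage_emb (insEquiv k).measurableEmbedding f D]
  rw [← integral_indicator ((measurable_ins k) hD), Measure.volume_eq_prod,
    integral_prod _ (by
      simpa only [Measure.volume_eq_prod] using hi.integrable_indicator ((measurable_ins k) hD))]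
  refine integral_congr_ae (Filter.Eventually.of_forall fun z => ?_)
  simp only
  rw [← integral_indicator (measurableSet_slice hD k z)]
  rfl

/-- Cavalieri: the volume is the integral of the slice areas. -/
theorem volume_eq_integral_sliceArea (hD : MeasurableSet D) (hc : D ⊆ cell) (k : Fin 3) :
    (volume D).toReal = ∫ z, sliceArea D k z := by
  have hfin : volume D < ⊤ := by
    have h := (measurePreserving_ins k).measure_preimage hD.nullMeasurableSet
    rw [← h]
    have hsub : (fun p : ℝ × (ℝ × ℝ) => ins k p.1 p.2) ⁻¹' D ⊆ Ico (0 : ℝ) 1 ×ˢ square :=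
      fun p hp => ins_mem_cell.1 (hc hp)
    refine lt_of_le_of_lt (measure_mono hsub) ?_
    rw [Measure.volume_eq_prod, Measure.prod_prod, volume_square, Real.volume_Ico]
    simp
  have h := setIntegral_eq_slices (k := k) hD (f := fun _ => (1 : ℝ))
    (integrableOn_const hfin.ne)
  simpa [sliceArea, Measure.real] using h

end Vale.Agent.P232
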