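import Vale.Agent.P232.Cube

/-! Planar slices of sets in the cube and planar test fields. -/

open MeasureTheory Set
open scoped NNReal

namespace Vale.Agent.P232

/-- The point of space with `k`-th coordinate `z` and remaining coordinates `w`. -/
noncomputable def ins (k : Fin 3) (z : ℝ) (w : ℝ × ℝ) : R3 :=
  WithLp.toLp 2 (Fin.insertNth k z ![w.1, w.2])

/-- The slice of `D` at height `z` in the direction `k`. -/
def slice (D : Set R3) (k : Fin 3) (z : ℝ) : Set (ℝ × ℝ) := {w | ins k z w ∈ D}

/-- The area of a slice. -/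
noncomputable def sliceArea (D : Set R3) (k : Fin 3) (z : ℝ) : ℝ :=
  (volume (slice D k z)).toReal

/-- The slice area, continued constantly to negative heights (so antitone on a down-set). -/
noncomputable def areaExt (D : Set R3) (k : Fin 3) (z : ℝ) : ℝ := sliceArea D k (max z 0)

/-- Planar test fields `(p, q)` on the unit square: Lipschitz, of Euclidean length at most one,
tangent to the sides. -/
structure IsSqField (p q : ℝ × ℝ → ℝ) : Prop where
  lip_fst : ∃ K : ℝ≥0, LipschitzWith K p
  lip_snd : ∃ K : ℝ≥0, LipschitzWith K q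
  norm_le : ∀ w, p w ^ 2 + q w ^ 2 ≤ 1
  tangent_fst : ∀ w : ℝ × ℝ, w.1 = 0 ∨ w.1 = 1 → p w = 0
  tangent_snd : ∀ w : ℝ × ℝ, w.2 = 0 ∨ w.2 = 1 → q w = 0

/-- The planar divergence. -/
noncomputable def dv2 (p q : ℝ × ℝ → ℝ) (w : ℝ × ℝ) : ℝ :=
  deriv (fun s => p (s, w.2)) w.1 + deriv (fun t => q (w.1, t)) w.2

/-- The integral of the divergence of a planar field over a planar set: a lower bound for its
relative perimeter. -/
noncomputable def flux (p q : ℝ × ℝ → ℝ) (B : Set (ℝ × ℝ)) : ℝ := ∫ w in B, dv2 p q w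

end Vale.Agent.P232
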