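import Vale.Agent.P232.StretchField
import Vale.Agent.P232.SliceContacts

/-!
First variation by stretching: stretch a down-set in each coordinate, cut back to the cube, and sum
the pulled back fields into one test field.
-/

open MeasureTheory Set Filter Function
open scoped NNReal Topology RealInnerProductSpace

namespace Vale.Agent.P232

variable {D : Set R3} {k : Fin 3}

theorem volume_lt_top_of_downset (hdown : IsDownset D) : volume D < ⊤ :=
  (measure_mono hdown.1).trans_lt (by rw [volume_cell]; exact ENNReal.one_lt_top)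

theorem integrableOn_dv {X : R3 → R3} {K : ℝ≥0} (hX : LipschitzWith K X) (hdown : IsDownset D) :
    IntegrableOn (dv X) D :=
  IntegrableOn.of_bound (volume_lt_top_of_downset hdown) (measurable_dv X).aestronglyMeasurable
    (3 * K) (ae_of_all _ fun x => abs_dv_le hX x)

theorem pullField_coord (Y : R3 → R3) (k : Fin 3) (c δ : ℝ) (x : R3) (i : Fin 3) :
    pullField Y k c δ x i = (if i = k then 1 else c * lowCut c δ (x k)) *
      Y (ins k (min (c * x k) 1) (x (k.succAbove 0), x (k.succAbove 1))) i := by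
  rcases Fin.eq_self_or_eq_succAbove k i with rfl | ⟨j, rfl⟩
  · simp [pullField, ins_apply_self]
  · rw [if_neg (Fin.succAbove_ne k j)]
    fin_cases j <;> simp [pullField, ins_apply_succAbove]

theorem exists_lipschitz_clampMap (k : Fin 3) (c : ℝ) : ∃ N, LipschitzWith N fun x : R3 =>
    ins k (min (c * x k) 1) (x (k.succAbove 0), x (k.succAbove 1)) := by
  obtain ⟨N, hg⟩ : ∃ N, LipschitzWith N fun u : ℝ × (ℝ × ℝ) => (min (c * u.1) 1, u.2) :=
    ⟨_, ((((lipschitzWith_smul c).comp LipschitzWith.prod_fst)).min_const 1).prodMk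
      LipschitzWith.prod_snd⟩
  obtain ⟨R, hR⟩ : ∃ R, LipschitzWith R _ :=
    ⟨_, ((insL k).lipschitz.comp hg).comp (outL k).lipschitz⟩
  refine ⟨R, ?_⟩
  convert hR using 1
  funext x
  simp [insL_apply, outL_apply]

theorem abs_fderiv_coord_le {X : R3 → R3} {x : R3} {i : Fin 3} {B : ℝ≥0}
    (hd : DifferentiableAt ℝ X x) (hlip : LipschitzWith B fun t : ℝ => X (x + t • e i) i) :
    |fderiv ℝ X x (e i) i| ≤ B := by
  have hl : HasDerivAt (fun t : ℝ => x + t • e i) (e i) 0 := by
    simpa using ((hasDerivAt_id (0:ℝ)).smul_const (e i)).const_add x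
  have h0 : DifferentiableAt ℝ X (x + (0:ℝ) • e i) := by simpa using hd
  have h1 := (EuclideanSpace.proj i : R3 →L[ℝ] ℝ).hasFDerivAt.comp_hasDerivAt (0:ℝ)
    (h0.hasFDerivAt.comp_hasDerivAt (0:ℝ) hl)
  have hder : HasDerivAt (fun t : ℝ => X (x + t • e i) i) (fderiv ℝ X x (e i) i) 0 := by
    simpa [Function.comp_def] using h1
  have := norm_deriv_le_of_lipschitz (x₀ := (0:ℝ)) hlip
  rwa [hder.deriv, Real.norm_eq_abs] at this

theorem pullField_line (Y : R3 → R3) (k : Fin 3) (c δ : ℝ) (x : R3) (i : Fin 3) (t : ℝ) :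
    pullField Y k c δ (x + t • e i) i = (if i = k then 1 else c * lowCut c δ (x k)) *
      Y (ins k (min (c * (x + t • e i) k) 1)
        ((x + t • e i) (k.succAbove 0), (x + t • e i) (k.succAbove 1))) i := by
  rw [pullField_coord]
  by_cases h : i = k
  · rw [if_pos h, if_pos h]
  · rw [if_neg h, if_neg h]
    have : (x + t • e i) k = x k := by
      simp [e_apply, show ¬ k = i from fun h' => h h'.symm]
    rw [this]

/-- The divergence of the pulled back field is bounded independently of the cut-off. -/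
theorem exists_bound_dv_pullField {Y : R3 → R3} (hY : IsCubeField Y) (k : Fin 3) {c : ℝ}
    (hc : 1 ≤ c) : ∃ M, ∀ δ x, DifferentiableAt ℝ (pullField Y k c δ) x →
      |dv (pullField Y k c δ) x| ≤ M := by
  obtain ⟨K, hK⟩ := hY.lipschitz
  obtain ⟨N, hN⟩ := exists_lipschitz_clampMap k c
  refine ⟨3 * (c.toNNReal * (K * N) : ℝ≥0), fun δ x hd => ?_⟩
  have hi : ∀ i, |fderiv ℝ (pullField Y k c δ) x (e i) i| ≤ (c.toNNReal * (K * N) : ℝ≥0) := by
    intro i
    refine abs_fderiv_coord_le hd (LipschitzWith.of_dist_le_mul fun s t => ?_)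
    have ha : |if i = k then (1:ℝ) else c * lowCut c δ (x k)| ≤ c := by
      split_ifs
      · simpa using hc
      · rw [abs_mul, abs_of_nonneg (zero_le_one.trans hc)]
        exact mul_le_of_le_one_right (zero_le_one.trans hc) (abs_clamp01_le _)
    rw [Real.dist_eq, pullField_line, pullField_line, ← mul_sub, abs_mul, NNReal.coe_mul,
      NNReal.coe_mul, Real.coe_toNNReal _ (zero_le_one.trans hc), mul_assoc]
    refine mul_le_mul ha ?_ (abs_nonneg _) (zero_le_one.trans hc)
    have hd1 : dist (x + s • e i) (x + t • e i) = dist s t := by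
      rw [dist_add_left, dist_eq_norm, ← sub_smul, norm_smul]
      simp [e, Real.dist_eq]
    have h1 := (hK.comp hN).dist_le_mul (x + s • e i) (x + t • e i)
    rw [hd1, dist_eq_norm, NNReal.coe_mul, mul_assoc] at h1
    have h2 := (PiLp.norm_apply_le _ i).trans h1
    rw [PiLp.sub_apply, Real.norm_eq_abs] at h2
    simp only [Function.comp_apply] at h2
    exact h2.trans_eq (by ring)
  calc |dv (pullField Y k c δ) x| ≤ ∑ i, |fderiv ℝ (pullField Y k c δ) x (e i) i| :=
        Finset.abs_sum_le_sum_abs _ _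
    _ ≤ ∑ _i : Fin 3, ((c.toNNReal * (K * N) : ℝ≥0) : ℝ) := Finset.sum_le_sum fun i _ => hi i
    _ = _ := by simp

theorem integral_indicator_strip_le (hD : MeasurableSet D) (hdown : IsDownset D) (k : Fin 3)
    {u v : ℝ} (huv : u ≤ v) :
    ∫ x in D, (Icc u v).indicator (fun _ => (1:ℝ)) (x k) ≤ v - u := by
  have hm : Measurable fun x : R3 => (Icc u v).indicator (fun _ => (1:ℝ)) (x k) :=
    (measurable_const.indicator measurableSet_Icc).comp (by fun_prop)
  have hi : IntegrableOn (fun x : R3 => (Icc u v).indicator (fun _ => (1:ℝ)) (x k)) D :=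
    IntegrableOn.of_bound (volume_lt_top_of_downset hdown) hm.aestronglyMeasurable 1
      (ae_of_all _ fun x => by by_cases h : x k ∈ Icc u v <;> simp [h])
  rw [setIntegral_eq_slices (k := k) hD hi]
  simp only [ins_apply_self, setIntegral_const, smul_eq_mul]
  calc ∫ z, volume.real (slice D k z) * (Icc u v).indicator (fun _ => (1:ℝ)) z
      ≤ ∫ z, (Icc u v).indicator (fun _ => (1:ℝ)) z := by
        refine integral_mono_of_nonneg (ae_of_all _ fun z => mul_nonneg measureReal_nonneg
          (indicator_nonneg (fun _ _ => zero_le_one) _)) ?_ (ae_of_all _ fun z => ?_)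
        · exact (integrableOn_const (by simp [Real.volume_Icc])).integrable_indicator
            measurableSet_Icc
        · exact mul_le_of_le_one_left (indicator_nonneg (fun _ _ => zero_le_one) _)
            (sliceArea_le_one hdown.1 k z)
    _ = v - u := by simp [integral_indicator, Measure.real, Real.volume_Icc, huv]

theorem ae_differentiable_scale {Y : R3 → R3} {K : ℝ≥0} (hY : LipschitzWith K Y) (k : Fin 3)
    {c : ℝ} (hc : c ≠ 0) : ∀ᵐ x : R3, DifferentiableAt ℝ Y (scaleL k c x) := by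
  have h0 : volume {y : R3 | ¬ DifferentiableAt ℝ Y y} = 0 := ae_iff.1 hY.ae_differentiableAt
  refine ae_iff.2 (measure_mono_null (t := (scaleL k c⁻¹).toLinearMap ''
    {y : R3 | ¬ DifferentiableAt ℝ Y y}) (fun x hx => ⟨scaleL k c x, hx, ?_⟩) ?_)
  · ext i
    simp only [ContinuousLinearMap.coe_coe, scaleL_coord]
    split_ifs <;> field_simp
  · rw [Measure.addHaar_image_linearMap, h0, mul_zero]

theorem setIntegral_pull_ge (hD : MeasurableSet D) (hdown : IsDownset D) {Y : R3 → R3}
    (hY : IsCubeField Y) (k : Fin 3) {c : ℝ} (hc : 1 ≤ c) :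
    ∃ M, ∀ δ, 0 < δ → (∫ x in stretchSet D k c, dv Y x) - M * δ ≤
      ∫ x in D, dv (pullField Y k c δ) x := by
  have hc0 : 0 < c := zero_lt_one.trans_le hc
  obtain ⟨K, hK⟩ := hY.lipschitz
  obtain ⟨M, hM⟩ := exists_bound_dv_pullField hY k hc
  set R : R3 → ℝ := fun x => (Iio c⁻¹).indicator (fun _ => c) (x k) * dv Y (scaleL k c x)
  have hRb : ∀ x, |R x| ≤ c * (3 * K) := fun x => by
    simp only [R, abs_mul]
    refine mul_le_mul ?_ (abs_dv_le hK _) (abs_nonneg _) hc0.le
    by_cases h : x k ∈ Iio c⁻¹ <;> simp [h, abs_of_pos hc0, hc0.le]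
  have hRm : Measurable R :=
    ((measurable_const.indicator measurableSet_Iio).comp (by fun_prop)).mul
      ((measurable_dv Y).comp (scaleL k c).continuous.measurable)
  have hRi : IntegrableOn R D := IntegrableOn.of_bound (volume_lt_top_of_downset hdown)
    hRm.aestronglyMeasurable (c * (3 * K)) (ae_of_all _ hRb)
  have hRint : ∫ x in D, R x = ∫ x in stretchSet D k c, dv Y x := by
    rw [setIntegral_eq_slices (k := k) hD hRi, setIntegral_eq_slices (k := k)
      (measurableSet_stretchSet hD k c)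
      (integrableOn_dv hK (isDownset_stretchSet hdown hc k))]
    set G : ℝ → ℝ := fun z => ∫ w in slice D k (c⁻¹ * z), dv Y (ins k z w)
    have e1 : ∀ z, (∫ w in slice (stretchSet D k c) k z, dv Y (ins k z w)) =
        (Iio 1).indicator G z := by
      intro z
      rw [slice_stretchSet hdown, indicator]
      by_cases h : z ∈ Ico (0:ℝ) 1
      · rw [if_pos h, if_pos (show z ∈ Iio (1:ℝ) from h.2)]
      · rw [if_neg h, setIntegral_empty]
        split_ifs with h1
        · have hz : c⁻¹ * z ∉ Ico (0:ℝ) 1 := fun h2 => h ⟨by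
            nlinarith [h2.1, inv_pos.2 hc0], h1⟩
          simp [G, slice_eq_empty hdown.1 hz]
        · rfl
    have e2 : ∀ z, (∫ w in slice D k z, R (ins k z w)) = c * (Iio 1).indicator G (c * z) := by
      intro z
      simp only [R, ins_apply_self, scaleL_ins]
      rw [integral_const_mul]
      have hiff : z < c⁻¹ ↔ c * z < 1 := by
        rw [inv_eq_one_div, lt_div_iff₀ hc0, mul_comm]
      by_cases h : z < c⁻¹
      · simp [h, hiff.1 h, G, inv_mul_cancel_left₀ hc0.ne']
      · have h' : ¬ c * z < 1 := fun h' => h (hiff.2 h')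
        simp [h, indicator, h']
    simp only [e1, e2]
    rw [integral_const_mul, stretch_integral_aux hc0, ← mul_assoc, mul_inv_cancel₀ hc0.ne',
      one_mul]
  refine ⟨M + c * (3 * K), fun δ hδ => ?_⟩
  obtain ⟨L, hL⟩ := exists_lipschitz_pullField hY k c δ
  set S : R3 → ℝ := fun x => (Icc (c⁻¹ - δ) c⁻¹).indicator (fun _ => (1:ℝ)) (x k)
  have hS0 : ∀ x, 0 ≤ S x := fun x => indicator_nonneg (fun _ _ => zero_le_one) _
  have hSi : IntegrableOn S D :=
    IntegrableOn.of_bound (volume_lt_top_of_downset hdown)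
      ((measurable_const.indicator measurableSet_Icc).comp (by fun_prop)).aestronglyMeasurable 1
      (ae_of_all _ fun x => by by_cases h : x k ∈ Icc (c⁻¹ - δ) c⁻¹ <;> simp [S, h])
  have hM0 : 0 ≤ M + c * (3 * K) := by
    obtain ⟨x, hx⟩ := hL.ae_differentiableAt (μ := (volume : Measure R3)).exists
    have := hM δ x hx
    nlinarith [abs_nonneg (dv (pullField Y k c δ) x), K.2]
  have hpt : ∀ᵐ x : R3, R x - (M + c * (3 * K)) * S x ≤ dv (pullField Y k c δ) x := by
    filter_upwards [hL.ae_differentiableAt, ae_differentiable_scale hK k hc0.ne'] with x h1 h2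
    rcases lt_trichotomy (x k) (c⁻¹ - δ) with h | h | h
    · rw [dv_pullField_lt k hc0 hδ h h2]
      have : x k < c⁻¹ := by linarith
      have hs : R x = c * dv Y (scaleL k c x) := by simp [R, this]
      have := mul_nonneg hM0 (hS0 x)
      linarith
    · have hs : S x = 1 := by simp [S, h, hδ.le]
      rw [hs]
      linarith [(abs_le.1 (hM δ x h1)).1, (abs_le.1 (hRb x)).2]
    · by_cases h' : x k ≤ c⁻¹
      · have hs : S x = 1 := by simp [S, h.le, h']
        rw [hs]
        linarith [(abs_le.1 (hM δ x h1)).1, (abs_le.1 (hRb x)).2]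
      · have hx : c⁻¹ < x k := not_le.1 h'
        rw [dv_pullField_gt hY k hc0 hδ hx]
        have hR : R x = 0 := by simp [R, hx.le]
        have := mul_nonneg hM0 (hS0 x)
        linarith
  calc (∫ x in stretchSet D k c, dv Y x) - (M + c * (3 * K)) * δ
      ≤ (∫ x in D, R x) - (M + c * (3 * K)) * ∫ x in D, S x := by
        rw [hRint]
        have := integral_indicator_strip_le hD hdown k (show c⁻¹ - δ ≤ c⁻¹ by linarith)
        rw [sub_sub_cancel] at this
        linarith [mul_le_mul_of_nonneg_left this hM0]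
    _ = ∫ x in D, (R x - (M + c * (3 * K)) * S x) := by
        rw [integral_sub hRi (hSi.const_mul _), integral_const_mul]
    _ ≤ _ := setIntegral_mono_ae (hRi.sub (hSi.const_mul _)) (integrableOn_dv hL hdown) hpt

/-- The field above the cut: a planar field switched on above `c⁻¹`. -/
noncomputable def topField (p q : ℝ × ℝ → ℝ) (k : Fin 3) (c δ : ℝ) (x : R3) : R3 :=
  ins k 0 (blend (highCut c δ) (fun u => p u.2) (fun _ => 0) (outL k x),
    blend (highCut c δ) (fun u => q u.2) (fun _ => 0) (outL k x))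

theorem setIntegral_top_ge (hD : MeasurableSet D) (hdown : IsDownset D) {p q : ℝ × ℝ → ℝ}
    (h : IsSqField p q) (k : Fin 3) (c : ℝ) :
    ∃ M, ∀ δ, 0 < δ → ∃ L, LipschitzWith L (topField p q k c δ) ∧
      (∫ z in Ici c⁻¹, flux p q (slice D k z)) - M * δ ≤ ∫ x in D, dv (topField p q k c δ) x := by
  have hs := h.toSlice
  have hz : IsSliceField (fun _ : ℝ × (ℝ × ℝ) => (0:ℝ)) (fun _ => 0) := isSqField_zero.toSlice
  obtain ⟨C, hC⟩ := hs.exists_bound (k := k) hdown.1
  have hC0 : 0 ≤ C := (norm_nonneg _).trans (hC 0)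
  refine ⟨C, fun δ hδ => ?_⟩
  have hw : LipschitzWith _ (highCut c δ) := lipschitz_clamp01.comp
    ((lipschitzWith_smul δ⁻¹).comp (LipschitzWith.id.sub (LipschitzWith.const c⁻¹)))
  have hb := hs.blend hz hw fun z => clamp01_mem _
  obtain ⟨Kp, hKp⟩ := hb.lip_fst
  obtain ⟨Kq, hKq⟩ := hb.lip_snd
  obtain ⟨L, hL⟩ : ∃ L, LipschitzWith L (topField p q k c δ) :=
    ⟨_, ((insL k).lipschitz.comp ((LipschitzWith.const (0:ℝ)).prodMk (hKp.prodMk hKq))).comp
      (outL k).lipschitz⟩
  refine ⟨L, hL, ?_⟩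
  set P' := blend (highCut c δ) (fun u : ℝ × (ℝ × ℝ) => p u.2) (fun _ => 0)
  set Q' := blend (highCut c δ) (fun u : ℝ × (ℝ × ℝ) => q u.2) (fun _ => 0)
  have hae : ∀ᵐ x : R3, x ∈ D → dv (topField p q k c δ) x = dvS P' Q' (outL k x) := by
    filter_upwards [hL.ae_differentiableAt] with x hx _
    have := dv_insField (k := k) (g := fun _ => (0:ℝ)) (p := P') (q := Q') hL (fun y => rfl)
      (u := outL k x) (by rwa [ins_outL])
    rw [ins_outL, deriv_const, zero_add] at this
    exact this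
  rw [setIntegral_congr_ae hD hae,
    setIntegral_eq_slices (k := k) hD (f := fun x => dvS P' Q' (outL k x))
      (IntegrableOn.of_bound (volume_lt_top_of_downset hdown)
        ((measurable_dvS hKp.continuous hKq.continuous).comp
          (outL k).continuous.measurable).aestronglyMeasurable (Kp + Kq)
        (ae_of_all _ fun x => norm_dvS_le hKp hKq _))]
  simp only [outL_ins]
  have e : ∀ z, (∫ w in slice D k z, dvS P' Q' (z, w)) =
      highCut c δ z * flux p q (slice D k z) := fun z => by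
    rw [← fluxS_eq, fluxS_blend hs hz hD hdown.1]
    simp [fluxS_toSlice, fluxS, flux_zero]
  simp only [e]
  have hi : Integrable fun z => flux p q (slice D k z) := hs.integrable_fluxS hD hdown.1
  have hi2 : Integrable fun z => highCut c δ z * flux p q (slice D k z) :=
    hi.bdd_mul hw.continuous.aestronglyMeasurable
      (ae_of_all _ fun z => (Real.norm_eq_abs _).trans_le (abs_clamp01_le _))
  have hi3 : Integrable ((Icc c⁻¹ (c⁻¹ + δ)).indicator fun _ => C) :=
    (integrableOn_const (by simp [Real.volume_Icc])).integrable_indicator measurableSet_Icc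
  rw [← integral_indicator measurableSet_Ici, sub_le_iff_le_add,
    show C * δ = ∫ z, (Icc c⁻¹ (c⁻¹ + δ)).indicator (fun _ => C) z by
      simp [integral_indicator, Measure.real, Real.volume_Icc, hδ.le, mul_comm],
    ← integral_add hi2 hi3]
  refine integral_mono (hi.indicator measurableSet_Ici) (hi2.add hi3) fun z => ?_
  have hb' : |flux p q (slice D k z)| ≤ C := hC z
  have hw01 := clamp01_mem (δ⁻¹ * (z - c⁻¹))
  rcases lt_trichotomy z c⁻¹ with hz' | hz' | hz'
  · have : highCut c δ z = 0 := clamp01_of_nonpos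
      (mul_nonpos_of_nonneg_of_nonpos (by positivity) (by linarith))
    simp [this, not_le.2 hz']
  · have : highCut c δ z = 0 := clamp01_of_nonpos (by simp [hz'])
    rw [hz'] at this hb' ⊢
    simp [this, hδ.le]
    exact (le_abs_self _).trans hb'
  · rw [indicator_of_mem (show z ∈ Ici c⁻¹ from hz'.le)]
    by_cases h' : z ≤ c⁻¹ + δ
    · rw [indicator_of_mem (show z ∈ Icc c⁻¹ (c⁻¹ + δ) from ⟨hz'.le, h'⟩)]
      simp only [highCut]
      nlinarith [abs_le.1 hb', hw01.1, hw01.2]
    · have : highCut c δ z = 1 := clamp01_of_one_le (by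
        calc (1:ℝ) = δ⁻¹ * δ := (inv_mul_cancel₀ hδ.ne').symm
          _ ≤ δ⁻¹ * (z - c⁻¹) := mul_le_mul_of_nonneg_left (by linarith) (by positivity))
      rw [indicator_of_notMem (show z ∉ Icc c⁻¹ (c⁻¹ + δ) from fun h => h' h.2), this]
      linarith

theorem dv_finset_sum {ι : Type*} (s : Finset ι) (Z : ι → R3 → R3) (a : ι → ℝ) {x : R3}
    (h : ∀ j ∈ s, DifferentiableAt ℝ (Z j) x) :
    dv (fun y => ∑ j ∈ s, a j • Z j y) x = ∑ j ∈ s, a j * dv (Z j) x := by
  simp only [dv, Finset.mul_sum]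
  rw [Finset.sum_comm]
  refine Finset.sum_congr rfl fun i _ => ?_
  rw [fderiv_fun_sum (fun j hj => (h j hj).fun_const_smul (a j))]
  simp only [FunLike.coe_sum, Finset.sum_apply, WithLp.ofLp_sum]
  refine Finset.sum_congr rfl fun j hj => ?_
  rw [fderiv_fun_const_smul (h j hj)]
  simp

/-- One stretched field for each coordinate, with its weighted norm and its flux. -/
theorem exists_stretch_field (hD : MeasurableSet D) (hdown : IsDownset D) {Y : R3 → R3}
    (hY : IsCubeField Y) {p q : ℝ × ℝ → ℝ} (hψ : IsSqField p q) (k : Fin 3) {c : ℝ} (hc : 1 ≤ c)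
    {ε : ℝ} (hε : 0 < ε) :
    ∃ Z : R3 → R3, (∃ L, LipschitzWith L Z) ∧ (∀ x i, x i = 0 ∨ x i = 1 → Z x i = 0) ∧
      (∀ x, Z x k ^ 2 + (Z x (k.succAbove 0) ^ 2 + Z x (k.succAbove 1) ^ 2) / c ^ 2 ≤ 1) ∧
      (∫ x in stretchSet D k c, dv Y x) + (∫ z in Ici c⁻¹, flux p q (slice D k z)) - ε ≤
        ∫ x in D, dv Z x := by
  have hc0 : 0 < c := zero_lt_one.trans_le hc
  obtain ⟨M, hM⟩ := setIntegral_pull_ge hD hdown hY k hc
  obtain ⟨M', hM'⟩ := setIntegral_top_ge hD hdown hψ k c
  set δ := ε / (|M| + |M'| + 1) with hδd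
  have hδ : 0 < δ := by positivity
  obtain ⟨L, hL⟩ := exists_lipschitz_pullField hY k c δ
  obtain ⟨L', hL', hflux⟩ := hM' δ hδ
  refine ⟨fun x => pullField Y k c δ x + topField p q k c δ x, ⟨_, hL.add hL'⟩, ?_, ?_, ?_⟩
  · intro x i hi
    rw [PiLp.add_apply, pullField_tangent hY k hc δ x i hi, zero_add]
    rcases Fin.eq_self_or_eq_succAbove k i with rfl | ⟨j, rfl⟩
    · simp [topField, ins_apply_self]
    · fin_cases j
      · simp [topField, ins_apply_succAbove, blend, outL_apply,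
          hψ.tangent_fst (x (k.succAbove 0), x (k.succAbove 1)) hi]
      · simp [topField, ins_apply_succAbove, blend, outL_apply,
          hψ.tangent_snd (x (k.succAbove 0), x (k.succAbove 1)) hi]
  · intro x
    by_cases hx : c⁻¹ ≤ x k
    · simp only [pullField_eq_zero_of_gt hY k hc0 hδ hx, zero_add, topField, ins_apply_self,
        ins_apply_succAbove, blend, outL_apply, mul_zero, add_zero, Matrix.cons_val_zero,
        Matrix.cons_val_one, Matrix.cons_val_fin_one]
      have h1 := hψ.norm_le (x (k.succAbove 0), x (k.succAbove 1))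
      have hl : highCut c δ (x k) ^ 2 ≤ 1 := (sq_le_one_iff_abs_le_one _).2 (abs_clamp01_le _)
      rw [zero_pow two_ne_zero, zero_add, div_le_one (by positivity)]
      nlinarith [mul_le_mul_of_nonneg_right hl (add_nonneg
        (sq_nonneg (p (x (k.succAbove 0), x (k.succAbove 1))))
        (sq_nonneg (q (x (k.succAbove 0), x (k.succAbove 1)))))]
    · have hh : highCut c δ (x k) = 0 := clamp01_of_nonpos
        (mul_nonpos_of_nonneg_of_nonpos (by positivity) (by linarith))
      have ht : topField p q k c δ x = 0 := by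
        ext i
        rcases Fin.eq_self_or_eq_succAbove k i with rfl | ⟨j, rfl⟩
        · simp [topField, ins_apply_self]
        · fin_cases j <;> simp [topField, ins_apply_succAbove, blend, outL_apply, hh]
      simpa [ht] using pullField_weighted_le hY k hc0 δ x
  · have e : ∀ᵐ x : R3, x ∈ D → dv (fun x => pullField Y k c δ x + topField p q k c δ x) x =
        dv (pullField Y k c δ) x + dv (topField p q k c δ) x := by
      filter_upwards [hL.ae_differentiableAt, hL'.ae_differentiableAt] with x h1 h2 _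
      simp [dv, fderiv_fun_add h1 h2, Finset.sum_add_distrib]
    rw [setIntegral_congr_ae hD e, integral_add (integrableOn_dv hL hdown)
      (integrableOn_dv hL' hdown)]
    have h1 := hM δ hδ
    have h3 : (M + M') * δ ≤ ε := by
      calc (M + M') * δ ≤ (|M| + |M'| + 1) * δ := mul_le_mul_of_nonneg_right
            (by linarith [le_abs_self M, le_abs_self M']) hδ.le
        _ = ε := by rw [hδd]; field_simp
    linarith

/-- The pairing of a vector with a weighted unit vector. -/
theorem dot_le_of_weighted {c T r a0 a1 a2 z0 z1 z2 : ℝ} (hc : 0 < c) (hc2 : c ^ 2 = 1 + 2 * T)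
    (hT : 0 ≤ T) (hr : 0 < r) (hsq : r ^ 2 = a0 ^ 2 + (a1 ^ 2 + a2 ^ 2))
    (hz : z0 ^ 2 + (z1 ^ 2 + z2 ^ 2) / c ^ 2 ≤ 1) :
    a0 * z0 + (a1 * z1 + a2 * z2) ≤ r + T * (r ^ 2 - a0 ^ 2) / r := by
  set U := r + T * (r ^ 2 - a0 ^ 2) / r with hU
  have hU0 : 0 ≤ U := by
    have h1 : 0 ≤ r ^ 2 - a0 ^ 2 := by linarith [sq_nonneg a1, sq_nonneg a2]
    positivity
  obtain ⟨u1, rfl⟩ : ∃ u, z1 = c * u := ⟨z1 / c, by field_simp⟩
  obtain ⟨u2, rfl⟩ : ∃ u, z2 = c * u := ⟨z2 / c, by field_simp⟩
  have hW : z0 ^ 2 + (u1 ^ 2 + u2 ^ 2) ≤ 1 := by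
    have e : ((c * u1) ^ 2 + (c * u2) ^ 2) / c ^ 2 = u1 ^ 2 + u2 ^ 2 := by field_simp
    rwa [e] at hz
  have hcs : (a0 * z0 + (a1 * (c * u1) + a2 * (c * u2))) ^ 2 ≤
      a0 ^ 2 + c ^ 2 * (a1 ^ 2 + a2 ^ 2) := by
    nlinarith [sq_nonneg (a0 * u1 - c * a1 * z0), sq_nonneg (a0 * u2 - c * a2 * z0),
      sq_nonneg (c * a1 * u2 - c * a2 * u1),
      mul_le_mul_of_nonneg_left hW (add_nonneg (sq_nonneg a0)
        (add_nonneg (sq_nonneg (c * a1)) (sq_nonneg (c * a2))))]
  have hUsq : a0 ^ 2 + c ^ 2 * (a1 ^ 2 + a2 ^ 2) ≤ U ^ 2 := by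
    have e : U ^ 2 = r ^ 2 + 2 * T * (r ^ 2 - a0 ^ 2) + (T * (r ^ 2 - a0 ^ 2) / r) ^ 2 := by
      rw [hU]; field_simp; ring
    rw [e, hc2]
    nlinarith [sq_nonneg (T * (r ^ 2 - a0 ^ 2) / r)]
  exact (abs_le_of_sq_le_sq' (hcs.trans hUsq) hU0).2

/-- A weighted combination of weighted unit vectors. -/
theorem norm_combination_le {β : Fin 3 → ℝ} (hβ : ∀ k, 0 ≤ β k) {b : ℝ} (hb : ∀ k, b ≤ β k)
    {t : ℝ} (ht : 0 < t) {v : Fin 3 → R3}
    (hv : ∀ k, v k k ^ 2 + (v k (k.succAbove 0) ^ 2 + v k (k.succAbove 1) ^ 2) / (1 + t) ^ 2 ≤ 1) :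
    ‖∑ k, β k • v k‖ ≤ (∑ k, β k) + (t + t ^ 2 / 2) * ((∑ k, β k) - b) := by
  set S := ∑ k, β k • v k with hS
  set T := t + t ^ 2 / 2 with hTd
  have hT : 0 ≤ T := by positivity
  have hb0 : b ≤ ∑ k, β k :=
    (hb 0).trans (Finset.single_le_sum (fun k _ => hβ k) (Finset.mem_univ 0))
  set C := (∑ k, β k) + T * ((∑ k, β k) - b) with hC
  have hC0 : 0 ≤ C :=
    add_nonneg (Finset.sum_nonneg fun k _ => hβ k) (mul_nonneg hT (by linarith))
  set r := ‖S‖ with hr
  rcases (norm_nonneg S).eq_or_lt with h0 | hrpos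
  · rw [hr, ← h0]; exact hC0
  rw [← hr] at hrpos
  have hsqk : ∀ k : Fin 3,
      r ^ 2 = S k ^ 2 + (S (k.succAbove 0) ^ 2 + S (k.succAbove 1) ^ 2) := fun k => by
    rw [hr, EuclideanSpace.norm_sq_eq, Fin.sum_univ_succAbove _ k, Fin.sum_univ_two]
    simp [sq_abs]
  have hk : ∀ k, ⟪S, v k⟫ ≤ r + T * (r ^ 2 - S k ^ 2) / r := fun k => by
    rw [PiLp.inner_apply, Fin.sum_univ_succAbove _ k, Fin.sum_univ_two]
    simp only [RCLike.inner_apply, conj_trivial, mul_comm (v k _)]
    exact dot_le_of_weighted (by linarith) (by rw [hTd]; ring) hT hrpos (hsqk k) (hv k)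
  have hsum : r ^ 2 = ∑ k, β k * ⟪S, v k⟫ := by
    rw [hr, ← real_inner_self_eq_norm_sq]
    calc ⟪S, S⟫ = ⟪S, ∑ k, β k • v k⟫ := rfl
      _ = _ := by rw [inner_sum]; exact Finset.sum_congr rfl fun k _ => real_inner_smul_right _ _ _
  have hbig : (∑ k, β k * (r ^ 2 - S k ^ 2)) ≤ ((∑ k, β k) - b) * r ^ 2 := by
    have h1 : b * r ^ 2 ≤ ∑ k, β k * S k ^ 2 := by
      rw [hr, EuclideanSpace.norm_sq_eq, Finset.mul_sum]
      exact Finset.sum_le_sum fun k _ => by
        rw [Real.norm_eq_abs, sq_abs]; exact mul_le_mul_of_nonneg_right (hb k) (sq_nonneg _)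
    simp only [mul_sub, Finset.sum_sub_distrib, sub_mul, ← Finset.sum_mul]
    linarith
  have : r ^ 2 ≤ C * r := by
    calc r ^ 2 = ∑ k, β k * ⟪S, v k⟫ := hsum
      _ ≤ ∑ k, β k * (r + T * (r ^ 2 - S k ^ 2) / r) :=
          Finset.sum_le_sum fun k _ => mul_le_mul_of_nonneg_left (hk k) (hβ k)
      _ = (∑ k, β k) * r + T / r * ∑ k, β k * (r ^ 2 - S k ^ 2) := by
          rw [Finset.sum_mul, Finset.mul_sum, ← Finset.sum_add_distrib]
          exact Finset.sum_congr rfl fun k _ => by ring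
      _ ≤ (∑ k, β k) * r + T / r * (((∑ k, β k) - b) * r ^ 2) := by gcongr
      _ = C * r := by rw [hC]; field_simp
  nlinarith

/-- The finite stretching inequality. -/
theorem stretch_finite (hD : MeasurableSet D) (hdown : IsDownset D) {P : ℝ} (hP : RelPerLE D P)
    {t : ℝ} (ht : 0 < t) {β : Fin 3 → ℝ} (hβ : ∀ k, 0 ≤ β k) (hβs : 0 < ∑ k, β k)
    {b : ℝ} (hb : ∀ k, b ≤ β k) {Q : Fin 3 → ℝ}
    (hQ : ∀ k p, RelPerLE (stretchSet D k (1 + t)) p → Q k ≤ p)
    {p q : Fin 3 → ℝ × ℝ → ℝ} (hpq : ∀ k, IsSqField (p k) (q k)) :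
    ∑ k, β k * (Q k + ∫ z in Ici (1 + t)⁻¹, flux (p k) (q k) (slice D k z)) ≤
      ((∑ k, β k) + (t + t ^ 2 / 2) * ((∑ k, β k) - b)) * P := by
  set c := 1 + t with hcd
  have hc : 1 ≤ c := by linarith
  refine le_of_forall_pos_le_add fun ε hε => ?_
  set η := ε / (2 * ∑ k, β k) with hηd
  have hη : 0 < η := by positivity
  have hY : ∀ k, ∃ Y, IsCubeField Y ∧ Q k - η < ∫ x in stretchSet D k c, dv Y x := fun k => by
    by_contra h
    push Not at h
    linarith [hQ k (Q k - η) fun Y hY => h Y hY]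
  choose Y hY hYQ using hY
  choose Z hZL hZt hZn hZf using fun k =>
    exists_stretch_field (ε := η) hD hdown (hY k) (hpq k) k hc hη
  choose L hL using hZL
  have hb0 : b ≤ ∑ k, β k := (hb 0).trans (Finset.single_le_sum (fun k _ => hβ k) (Finset.mem_univ 0))
  set C := (∑ k, β k) + (t + t ^ 2 / 2) * ((∑ k, β k) - b) with hCd
  have hC : 0 < C := by
    have : 0 ≤ (t + t ^ 2 / 2) * ((∑ k, β k) - b) := mul_nonneg (by positivity) (by linarith)
    linarith
  set W : R3 → R3 := fun x => ∑ k, (C⁻¹ * β k) • Z k x with hWd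
  obtain ⟨LS, hLS⟩ : ∃ LS, LipschitzWith LS W := ⟨_, by
    simpa [hWd, Fin.sum_univ_three] using
      (((lipschitzWith_smul (C⁻¹ * β 0)).comp (hL 0)).add
        ((lipschitzWith_smul (C⁻¹ * β 1)).comp (hL 1))).add
          ((lipschitzWith_smul (C⁻¹ * β 2)).comp (hL 2))⟩
  have hW : IsCubeField W := by
    refine ⟨⟨LS, hLS⟩, fun x => ?_, fun x i hi => ?_⟩
    · have h1 := norm_combination_le hβ hb ht (v := fun k => Z k x) fun k => hZn k x
      have e : W x = C⁻¹ • ∑ k, β k • Z k x := by simp [hWd, Finset.smul_sum, mul_smul]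
      rw [e, norm_smul, Real.norm_of_nonneg (inv_nonneg.2 hC.le), inv_mul_le_iff₀ hC, mul_one]
      exact h1
    · simp [hWd, fun k => hZt k x i hi]
  have h0 := hP W hW
  have hae : ∀ᵐ x : R3, x ∈ D → dv W x = ∑ k, C⁻¹ * β k * dv (Z k) x := by
    filter_upwards [(hL 0).ae_differentiableAt, (hL 1).ae_differentiableAt,
      (hL 2).ae_differentiableAt] with x h1 h2 h3 _
    exact dv_finset_sum Finset.univ Z (fun k => C⁻¹ * β k)
      (fun k _ => by fin_cases k <;> assumption)
  rw [setIntegral_congr_ae hD hae,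
    integral_finsetSum _ fun k _ => (integrableOn_dv (hL k) hdown).const_mul _] at h0
  simp only [integral_const_mul, mul_assoc, ← Finset.mul_sum] at h0
  rw [inv_mul_le_iff₀ hC] at h0
  have h3 : ∑ k, β k * (Q k + ∫ z in Ici c⁻¹, flux (p k) (q k) (slice D k z)) ≤
      ∑ k, (β k * (∫ x in D, dv (Z k) x) + β k * (2 * η)) := Finset.sum_le_sum fun k _ => by
    rw [← mul_add]
    exact mul_le_mul_of_nonneg_left (by linarith [hYQ k, hZf k]) (hβ k)
  have h2 : ∑ k, β k * (2 * η) = ε := by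
    rw [← Finset.sum_mul, hηd]; field_simp
  rw [Finset.sum_add_distrib, h2] at h3
  linarith

end Vale.Agent.P232
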