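import Vale.Agent.P232.Minimizer
import Vale.Agent.P232.Slice
import Vale.Agent.P232.SliceContacts

/-!
Translating a down-set towards a side of the cube that it does not touch.
-/

open MeasureTheory Set Filter Function
open scoped NNReal Topology

namespace Vale.Agent.P232

variable {D : Set R3} {k : Fin 3}

/-- The down-set moved down by `t` in the direction `k` and cut to the cube. -/
def shiftDown (D : Set R3) (k : Fin 3) (t : ℝ) : Set R3 := {x | x ∈ cell ∧ x + t • e k ∈ D}

theorem outL_e (k : Fin 3) : outL k (e k) = (1, (0, 0)) := by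
  simp [outL_apply, e, Fin.succAbove_ne]

theorem ins_add_smul (k : Fin 3) (z t : ℝ) (w : ℝ × ℝ) :
    ins k z w + t • e k = ins k (z + t) w := by
  conv_lhs => rw [← ins_outL k (ins k z w + t • e k)]
  simp [map_add, outL_ins, outL_e, ← Prod.zero_eq_mk]

theorem measurableSet_cell_R3 : MeasurableSet cell := by
  rw [cell, Set.ofPred_forall]
  exact MeasurableSet.iInter fun i =>
    measurableSet_Ico.preimage (EuclideanSpace.proj i : R3 →L[ℝ] ℝ).continuous.measurable

theorem measurableSet_shiftDown (hD : MeasurableSet D) (k : Fin 3) (t : ℝ) :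
    MeasurableSet (shiftDown D k t) :=
  measurableSet_cell_R3.inter ((measurable_id.add_const (t • e k)) hD)

theorem shiftDown_isDownset (hdown : IsDownset D) (k : Fin 3) {t : ℝ} (ht : 0 ≤ t) :
    IsDownset (shiftDown D k t) := by
  refine ⟨fun x hx => hx.1, fun x hx y hy hyx => ⟨hy, hdown.2 _ hx.2 _ (fun i => ?_) fun i => ?_⟩⟩
  · have hx1 := hdown.1 hx.2 i
    simp only [PiLp.add_apply, PiLp.smul_apply, smul_eq_mul] at hx1 ⊢
    have he : 0 ≤ e k i := by simp [e, PiLp.single_apply]; split_ifs <;> norm_num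
    exact ⟨add_nonneg (hy i).1 (mul_nonneg ht he), by linarith [hyx i, hx1.2]⟩
  · simp only [PiLp.add_apply, PiLp.smul_apply, smul_eq_mul]
    linarith [hyx i]

theorem slice_shiftDown (hc : D ⊆ cell) (k : Fin 3) {t z : ℝ} (ht : 0 ≤ t) (hz : 0 ≤ z) :
    slice (shiftDown D k t) k z = slice D k (z + t) := by
  ext w
  simp only [mem_slice, shiftDown, mem_ofPred_eq, ins_add_smul]
  refine ⟨fun h => h.2, fun h => ⟨?_, h⟩⟩
  have := ins_mem_cell.1 (hc h)
  exact ins_mem_cell.2 ⟨⟨hz, by linarith [this.1.2]⟩, this.2⟩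

theorem sliceArea_le_areaExt (hdown : IsDownset D) (k : Fin 3) {z z' : ℝ} (hz : 0 ≤ z)
    (h : z ≤ z') : sliceArea D k z' ≤ areaExt D k z :=
  (areaExt_eq (hz.trans h)) ▸ areaExt_antitone hdown k h

theorem volume_shiftDown (hD : MeasurableSet D) (hdown : IsDownset D) (k : Fin 3) {t : ℝ}
    (ht : 0 ≤ t) : (volume (shiftDown D k t)).toReal
      = (volume D).toReal - ∫ z in Ioo 0 t, sliceArea D k z := by
  have hi := integrable_sliceArea hD hdown.1 k
  rw [volume_eq_integral_sliceArea (measurableSet_shiftDown hD k t)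
      (fun x (hx : x ∈ shiftDown D k t) => hx.1) k,
    volume_eq_integral_sliceArea hD hdown.1 k]
  have e1 : sliceArea (shiftDown D k t) k = fun z => (Ici t).indicator (sliceArea D k) (z + t) := by
    funext z
    rcases le_or_gt 0 z with hz | hz
    · rw [indicator_of_mem (by simpa using hz)]
      simp [sliceArea, slice_shiftDown hdown.1 k ht hz]
    · rw [indicator_of_notMem (by simpa using hz),
        sliceArea_eq_zero (fun x (hx : x ∈ shiftDown D k t) => hx.1)
          (fun h => by linarith [h.1])]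
  rw [e1, integral_add_right_eq_self (fun z => (Ici t).indicator (sliceArea D k) z) t,
    integral_indicator measurableSet_Ici]
  have hsum := integral_add_compl (measurableSet_Ici (a := t)) hi
  rw [compl_Ici] at hsum
  have hlow : ∫ z in Iio t, sliceArea D k z = ∫ z in Ioo 0 t, sliceArea D k z := by
    rw [← integral_indicator measurableSet_Iio, ← integral_indicator measurableSet_Ioo]
    refine integral_congr_ae ((measure_eq_zero_iff_ae_notMem.1
      (Real.volume_singleton (a := (0 : ℝ)))).mono fun z hz => ?_)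
    simp only [mem_singleton_iff] at hz
    rcases lt_or_gt_of_ne hz with h | h
    · rw [indicator_of_notMem (s := Ioo 0 t) (fun hh => by linarith [hh.1])]
      by_cases hzt : z ∈ Iio t
      · rw [indicator_of_mem hzt, sliceArea_eq_zero hdown.1 fun hh => by linarith [hh.1]]
      · rw [indicator_of_notMem hzt]
    · by_cases hzt : z < t
      · rw [indicator_of_mem (show z ∈ Iio t from hzt), indicator_of_mem (show z ∈ Ioo 0 t from ⟨h, hzt⟩)]
      · rw [indicator_of_notMem (show z ∉ Iio t from hzt),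
          indicator_of_notMem fun hh : z ∈ Ioo 0 t => hzt hh.2]
  linarith

theorem ins_sub_smul (k : Fin 3) (z t : ℝ) (w : ℝ × ℝ) :
    ins k z w - t • e k = ins k (z - t) w := by
  rw [sub_eq_iff_eq_add, ins_add_smul, sub_add_cancel]

/-- A cut-off integral loses little. -/
theorem le_integral_ramp_mul {F : ℝ → ℝ} {C δ t : ℝ} (hFi : Integrable F) (hC : ∀ z, ‖F z‖ ≤ C)
    (hδ : 0 < δ) :
    (∫ z in Ioo 0 t, F z) - δ * (2 * C) ≤ ∫ z, ramp 0 t δ z * F z := by
  have hC0 : 0 ≤ C := (norm_nonneg _).trans (hC 0)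
  obtain ⟨L, hLζ⟩ := exists_lipschitz_ramp 0 t δ
  set ζ : ℝ → ℝ := ramp 0 t δ with hζ
  set J : Set ℝ := Ioo 0 δ ∪ Ioo (t - δ) t with hJ
  have hJm : MeasurableSet J := measurableSet_Ioo.union measurableSet_Ioo
  have hJv : volume.real J ≤ 2 * δ := by
    refine (measureReal_union_le _ _).trans ?_
    simp [Measure.real, Real.volume_Ioo, hδ.le]
    linarith
  have hJf : volume J ≠ ⊤ := by
    refine ne_top_of_le_ne_top ?_ (measure_union_le _ _)
    simp [Real.volume_Ioo]
  have hne : ∀ᵐ z : ℝ, z ∉ ({δ, t - δ} : Set ℝ) :=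
    measure_eq_zero_iff_ae_notMem.1 ((Set.toFinite _).measure_zero _)
  have hζF : Integrable fun z => ζ z * F z := hFi.bdd_mul hLζ.continuous.aestronglyMeasurable
    (Eventually.of_forall fun z => by
      rw [Real.norm_of_nonneg (ramp_mem _ _ _ _).1]; exact (ramp_mem _ _ _ _).2)
  have hle : (∫ z, (Ioo 0 t).indicator F z - J.indicator (fun _ => C) z)
      ≤ ∫ z, ζ z * F z := by
    refine integral_mono_ae ((hFi.indicator measurableSet_Ioo).sub
      ((integrable_indicator_iff hJm).2 (integrableOn_const hJf))) hζF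
      (hne.mono fun z hz => ?_)
    simp only [mem_insert_iff, mem_singleton_iff, not_or] at hz
    simp only
    have hb := abs_le.1 (hC z)
    have hr01 := ramp_mem 0 t δ z
    by_cases hz1 : z ∈ Ioo 0 t
    · rw [indicator_of_mem hz1]
      by_cases hz2 : z ∈ J
      · rw [indicator_of_mem hz2]
        simp only [hζ] at *
        nlinarith [mul_nonneg (sub_nonneg.2 hr01.2) (sub_nonneg.2 hb.2),
          mul_nonneg hr01.1 hC0]
      · rw [indicator_of_notMem hz2]
        have : ζ z = 1 := ramp_eq_one hδ (by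
          simp only [hJ, mem_union, mem_Ioo, not_or, not_and, not_lt] at hz2
          exact ⟨by linarith [hz2.1 hz1.1],
            le_of_not_gt fun hh => absurd (hz2.2 hh) (not_le.2 hz1.2)⟩)
        simp [this]
    · rw [indicator_of_notMem hz1, show ζ z = 0 from ramp_eq_zero hδ (by
        simp only [mem_Ioo, not_and, not_lt] at hz1
        exact (le_or_gt z 0).imp id fun hh => hz1 hh)]
      by_cases hz2 : z ∈ J
      · rw [indicator_of_mem hz2]; linarith
      · rw [indicator_of_notMem hz2]; simp
  rw [integral_sub (hFi.indicator measurableSet_Ioo)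
    ((integrable_indicator_iff hJm).2 (integrableOn_const hJf)),
    integral_indicator measurableSet_Ioo, integral_indicator hJm, setIntegral_const,
    smul_eq_mul] at hle
  nlinarith [mul_le_mul_of_nonneg_right hJv hC0]

/-- The shifted divergence, cut off near the two ends. -/
theorem le_integral_shift_dv (hD : MeasurableSet D) (hdown : IsDownset D) (k : Fin 3) {K : ℝ≥0}
    {Y : R3 → R3} (hK : LipschitzWith K Y) {t δ : ℝ} (ht : 0 < t) (hδ : 0 < δ)
    (hδ1 : 2 * δ ≤ 1 - t)
    (hSi : IntegrableOn (dv Y) (shiftDown D k t))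
    (hT1i : IntegrableOn (fun x => ramp t 1 δ (x k) * dv Y (x - t • e k)) D) :
    (∫ x in shiftDown D k t, dv Y x) - 3 * K * (δ + areaExt D k (1 - δ))
      ≤ ∫ x in D, ramp t 1 δ (x k) * dv Y (x - t • e k) := by
  obtain ⟨Lη, hLη⟩ := exists_lipschitz_ramp t 1 δ
  set S := shiftDown D k t with hS
  set A := areaExt D k with hA'
  set η : ℝ → ℝ := ramp t 1 δ with hη
  rw [setIntegral_eq_slices (k := k) (measurableSet_shiftDown hD k t) hSi,
    setIntegral_eq_slices (k := k) hD hT1i]
  set g : ℝ → ℝ := fun z => ∫ w in slice D k z, dv Y (ins k (z - t) w) with hg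
  have hgb : ∀ z, ‖g z‖ ≤ 3 * K * sliceArea D k z := fun z =>
    norm_setIntegral_le_of_norm_le_const (lt_top_iff_ne_top.2 (volume_slice_ne_top hdown.1 k z))
      fun w _ => (Real.norm_eq_abs _).trans_le (abs_dv_le_lipschitz hK _)
  have hT1eq : ∀ z, ∫ w in slice D k z, η ((ins k z w) k) * dv Y (ins k z w - t • e k) = η z * g z := by
    intro z
    rw [hg, ← MeasureTheory.integral_const_mul]
    simp only [ins_apply_self, ins_sub_smul]
  have hSeq : (fun z => ∫ w in slice S k z, dv Y (ins k z w))
      = fun z => (Ici t).indicator g (z + t) := by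
    funext z
    rcases le_or_gt 0 z with hz | hz
    · rw [indicator_of_mem (by simpa using hz)]
      simp only [hg, hS, slice_shiftDown hdown.1 k ht.le hz, add_sub_cancel_right]
    · rw [indicator_of_notMem (by simpa using hz),
        slice_eq_empty (fun x (hx : x ∈ shiftDown D k t) => hx.1)
          (fun h => by linarith [h.1])]
      simp
  simp only [hT1eq]
  rw [hSeq, integral_add_right_eq_self (fun z => (Ici t).indicator g z) t]
  have hgm : AEStronglyMeasurable g volume := by
    have hm : StronglyMeasurable (((fun u : ℝ × (ℝ × ℝ) => ins k u.1 u.2) ⁻¹' D).indicator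
        fun u => dv Y (ins k (u.1 - t) u.2)) :=
      (((measurable_dv_min Y).comp ((measurable_ins k).comp
        ((measurable_fst.sub_const t).prodMk measurable_snd))).indicator
          ((measurable_ins k) hD)).stronglyMeasurable
    have hres := (hm.integral_prod_right' (ν := (volume : Measure (ℝ × ℝ)))).aestronglyMeasurable
      (μ := volume)
    convert hres using 1
    funext z
    simp only [hg]
    rw [← integral_indicator (measurableSet_slice hD k z)]
    rfl
  have hgi : Integrable g := ((integrable_sliceArea hD hdown.1 k).const_mul (3 * (K : ℝ))).mono'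
    hgm (Eventually.of_forall hgb)
  have hηg : Integrable fun z => η z * g z := hgi.bdd_mul hLη.continuous.aestronglyMeasurable
    (Eventually.of_forall fun z => by
      rw [Real.norm_of_nonneg (ramp_mem _ _ _ _).1]; exact (ramp_mem _ _ _ _).2)
  set B : ℝ → ℝ := fun z => (Ioo t (t + δ)).indicator (fun _ => 3 * (K : ℝ)) z
    + (Ioo (1 - δ) 1).indicator (fun _ => 3 * K * A (1 - δ)) z with hB
  have hBi : Integrable B := ((integrable_indicator_iff measurableSet_Ioo).2
    (integrableOn_const (by simp [Real.volume_Ioo]))).add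
    ((integrable_indicator_iff measurableSet_Ioo).2
    (integrableOn_const (by simp [Real.volume_Ioo])))
  have hne : ∀ᵐ z : ℝ, z ∉ ({t, t + δ, 1 - δ} : Set ℝ) :=
    measure_eq_zero_iff_ae_notMem.1 ((Set.toFinite _).measure_zero _)
  have hle : ∫ z, ((Ici t).indicator g z - B z) ≤ ∫ z, η z * g z := by
    refine integral_mono_ae ((hgi.indicator measurableSet_Ici).sub hBi) hηg
      (hne.mono fun z hz => ?_)
    simp only [mem_insert_iff, mem_singleton_iff, not_or] at hz
    simp only [hB]
    have hB1 : 0 ≤ (Ioo t (t + δ)).indicator (fun _ => 3 * (K : ℝ)) z :=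
      indicator_nonneg (fun _ _ => by positivity) z
    have hB2 : 0 ≤ (Ioo (1 - δ) 1).indicator (fun _ => 3 * (K : ℝ) * A (1 - δ)) z :=
      indicator_nonneg (fun _ _ => mul_nonneg (by positivity) (sliceArea_nonneg D k _)) z
    have hgz := abs_le.1 ((Real.norm_eq_abs _).symm.trans_le (hgb z))
    have hr01 := ramp_mem t 1 δ z
    have hcmp : g z - η z * g z ≤ 3 * K * sliceArea D k z := by
      have := sliceArea_nonneg D k z
      simp only [hη]
      nlinarith [mul_nonneg (sub_nonneg.2 hr01.2) (sub_nonneg.2 hgz.2),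
        mul_nonneg hr01.1 (mul_nonneg (show (0 : ℝ) ≤ 3 * K by positivity) this)]
    rcases lt_or_gt_of_ne hz.1 with h | h
    · rw [indicator_of_notMem (show z ∉ Ici t by simpa using h),
        show η z = 0 from ramp_eq_zero hδ (Or.inl h.le)]
      linarith
    rw [indicator_of_mem (show z ∈ Ici t from h.le)]
    rcases lt_or_ge z 1 with h1 | h1
    · rcases lt_or_gt_of_ne hz.2.1 with h2 | h2
      · rw [indicator_of_mem (show z ∈ Ioo t (t + δ) from ⟨h, h2⟩)]
        have : 3 * (K : ℝ) * sliceArea D k z ≤ 3 * K :=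
          mul_le_of_le_one_right (by positivity) (sliceArea_le_one hdown.1 k z)
        linarith
      · rcases lt_or_gt_of_ne hz.2.2 with h3 | h3
        · rw [show η z = 1 from ramp_eq_one hδ ⟨h2.le, h3.le⟩]
          linarith
        · rw [indicator_of_mem (show z ∈ Ioo (1 - δ) 1 from ⟨h3, h1⟩)]
          have : 3 * (K : ℝ) * sliceArea D k z ≤ 3 * K * A (1 - δ) :=
            mul_le_mul_of_nonneg_left
              (sliceArea_le_areaExt hdown k (by linarith) h3.le) (by positivity)
          linarith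
    · have h0 : sliceArea D k z = 0 := sliceArea_eq_zero hdown.1 fun hh => by linarith [hh.2]
      rw [h0, mul_zero] at hgz hcmp
      linarith
  rw [integral_sub (hgi.indicator measurableSet_Ici) hBi, hB,
    integral_add ((integrable_indicator_iff measurableSet_Ioo).2
      (integrableOn_const (by simp [Real.volume_Ioo])))
      ((integrable_indicator_iff measurableSet_Ioo).2
      (integrableOn_const (by simp [Real.volume_Ioo]))),
    integral_indicator_const _ measurableSet_Ioo, integral_indicator_const _ measurableSet_Ioo]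
    at hle
  simp [Measure.real, Real.volume_Ioo, hδ.le] at hle
  have hA1 : 0 ≤ A (1 - δ) := sliceArea_nonneg D k _
  nlinarith [mul_le_mul_of_nonneg_left (show δ ≤ 1 by linarith)
    (show (0 : ℝ) ≤ 3 * K * A (1 - δ) by positivity)]

/-- The two ramps of the cut-off cost little. -/
theorem le_integral_shift_ramp (hD : MeasurableSet D) (hdown : IsDownset D) (k : Fin 3) {K : ℝ≥0}
    {Y : R3 → R3} (hY : IsCubeField Y) (hK : LipschitzWith K Y) {t δ : ℝ} (ht : 0 < t)
    (hδ : 0 < δ) (hδ1 : 2 * δ ≤ 1 - t)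
    (hT2i : IntegrableOn (fun x => deriv (ramp t 1 δ) (x k) * Y (x - t • e k) k) D) :
    -(K * δ) - areaExt D k (1 - δ) ≤ ∫ x in D, deriv (ramp t 1 δ) (x k) * Y (x - t • e k) k := by
  set A := areaExt D k with hA'
  set η : ℝ → ℝ := ramp t 1 δ with hη
  have hY1 : ∀ x, |Y x k| ≤ 1 := fun x =>
    (Real.norm_eq_abs (Y x k)) ▸ (PiLp.norm_apply_le (Y x) k).trans (hY.norm_le x)
  rw [setIntegral_eq_slices (k := k) hD hT2i]
  have heq : ∀ z, ∫ w in slice D k z, (deriv η ((ins k z w) k) * Y (ins k z w - t • e k) k)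
      = deriv η z * ∫ w in slice D k z, Y (ins k (z - t) w) k := by
    intro z
    rw [← MeasureTheory.integral_const_mul]
    simp only [ins_apply_self, ins_sub_smul]
  set B : ℝ → ℝ := fun z => (Ioo t (t + δ)).indicator (fun _ => (K : ℝ)) z
    + δ⁻¹ * (Ioo (1 - δ) 1).indicator (fun _ => A (1 - δ)) z with hB
  have hb : ∀ᵐ z : ℝ, ‖∫ w in slice D k z, (deriv η ((ins k z w) k) * Y (ins k z w - t • e k) k)‖ ≤ B z := by
    filter_upwards [deriv_ramp_ae (a := t) (b := 1) hδ hδ1] with z hz
    rw [heq, norm_mul]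
    have hfin' := lt_top_iff_ne_top.2 (volume_slice_ne_top hdown.1 k z)
    have hK1 : ‖deriv η z‖ = ‖δ⁻¹ * (Ioo t (t + δ)).indicator 1 z
        - δ⁻¹ * (Ioo (1 - δ) 1).indicator 1 z‖ := by rw [hη, hz]
    rw [hK1]
    by_cases m1 : z ∈ Ioo t (t + δ)
    · have m2 : z ∉ Ioo (1 - δ) 1 := fun hh => by linarith [m1.2, hh.1]
      simp only [hB, indicator_of_mem m1, indicator_of_notMem m2, Pi.one_apply, mul_one,
        mul_zero, sub_zero, add_zero]
      rw [Real.norm_of_nonneg (inv_nonneg.2 hδ.le)]
      have hY0 : ∀ w, ‖Y (ins k (z - t) w) k‖ ≤ K * δ := by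
        intro w
        have h0 : Y (ins k 0 w) k = 0 := hY.tangent _ _ (Or.inl (ins_apply_self k 0 w))
        have hd := hK.dist_le_mul (ins k (z - t) w) (ins k 0 w)
        have hd2 : dist (ins k (z - t) w) (ins k 0 w) = |z - t| := by
          rw [dist_eq_norm]
          have h3 : ins k (z - t) w - ins k 0 w = (z - t) • e k := by
            rw [sub_eq_iff_eq_add', ins_add_smul, zero_add]
          rw [h3, norm_smul]; simp [e]
        rw [hd2, dist_eq_norm, abs_of_nonneg (by linarith [m1.1])] at hd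
        have h4 := (PiLp.norm_apply_le (Y (ins k (z - t) w) - Y (ins k 0 w)) k).trans hd
        rw [PiLp.sub_apply, h0, sub_zero] at h4
        refine h4.trans (mul_le_mul_of_nonneg_left (by linarith [m1.2]) K.coe_nonneg)
      have h5 := norm_setIntegral_le_of_norm_le_const hfin'
        (f := fun w => Y (ins k (z - t) w) k) fun w _ => hY0 w
      calc δ⁻¹ * ‖∫ w in slice D k z, Y (ins k (z - t) w) k‖
          ≤ δ⁻¹ * (K * δ * sliceArea D k z) := by gcongr; exact h5
        _ ≤ δ⁻¹ * (K * δ * 1) := by gcongr; exact sliceArea_le_one hdown.1 k z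
        _ = K := by field_simp
    · by_cases m2 : z ∈ Ioo (1 - δ) 1
      · simp only [hB, indicator_of_notMem m1, indicator_of_mem m2, Pi.one_apply, mul_one,
          mul_zero, zero_sub, zero_add, norm_neg]
        rw [Real.norm_of_nonneg (inv_nonneg.2 hδ.le)]
        gcongr
        refine (norm_setIntegral_le_of_norm_le_const hfin'
          (fun w _ => (Real.norm_eq_abs _).trans_le (hY1 _))).trans ?_
        rw [one_mul]
        exact sliceArea_le_areaExt hdown k (by linarith) m2.1.le
      · simp [hB, indicator_of_notMem m1, indicator_of_notMem m2]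
  have i1 : Integrable ((Ioo t (t + δ)).indicator fun _ => (K : ℝ)) :=
    (integrable_indicator_iff measurableSet_Ioo).2 (integrableOn_const (by simp [Real.volume_Ioo]))
  have i2 : Integrable fun z => δ⁻¹ * (Ioo (1 - δ) 1).indicator (fun _ => A (1 - δ)) z :=
    ((integrable_indicator_iff measurableSet_Ioo).2
      (integrableOn_const (by simp [Real.volume_Ioo]))).const_mul _
  have hn := norm_integral_le_of_norm_le (i1.add i2) hb
  simp only [Pi.add_apply] at hn
  rw [integral_add i1 i2, integral_indicator_const _ measurableSet_Ioo,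
    MeasureTheory.integral_const_mul, integral_indicator_const _ measurableSet_Ioo,
    Real.norm_eq_abs] at hn
  simp [Measure.real, Real.volume_Ioo, hδ.le] at hn
  have h6 : δ⁻¹ * (δ * A (1 - δ)) = A (1 - δ) := by field_simp
  linarith [(abs_le.1 hn).1]

/-- **Translation.** If `D` does not touch the far side in the direction `k`, moving it down by `t`
saves at least the flux through the slices in `(0, t)`. -/
theorem shiftDown_relPerLE_field (hD : MeasurableSet D) (hdown : IsDownset D) {P : ℝ}
    (hP : RelPerLE D P) (k : Fin 3) (hm : faceArea D k = 0) {t : ℝ} (ht : 0 < t) (ht1 : t < 1)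
    {p q : ℝ × (ℝ × ℝ) → ℝ} (hpq : IsSliceField p q) :
    RelPerLE (shiftDown D k t) (P - ∫ z in Ioo 0 t, fluxS p q D k z) := by
  intro Y hY
  obtain ⟨K, hK⟩ := hY.lipschitz
  obtain ⟨Cp, hCp⟩ := hpq.lip_fst
  obtain ⟨Cq, hCq⟩ := hpq.lip_snd
  obtain ⟨C, hC⟩ := hpq.exists_bound (D := D) (k := k) hdown.1
  have hC0 : 0 ≤ C := (norm_nonneg _).trans (hC 0)
  have hfin : volume D ≠ ⊤ := ne_top_of_le_ne_top volume_cell_ne_top (measure_mono hdown.1)
  set S := shiftDown D k t with hS
  set F := fluxS p q D k with hF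
  set A := areaExt D k with hA'
  have hA := areaExt_antitone hdown k
  -- the main estimate for a fixed ramp width
  have key : ∀ δ : ℝ, 0 < δ → 2 * δ ≤ t → 2 * δ ≤ 1 - t →
      (∫ x in S, dv Y x) + (∫ z in Ioo 0 t, F z)
        - δ * (2 * C + 7 * K) - A (1 - δ) * (1 + 3 * K) ≤ P := by
    intro δ hδ hδt hδ1
    set η : ℝ → ℝ := ramp t 1 δ with hη
    set ζ : ℝ → ℝ := ramp 0 t δ with hζ
    obtain ⟨Lη, hLη⟩ := exists_lipschitz_ramp t 1 δ
    obtain ⟨Lζ, hLζ⟩ := exists_lipschitz_ramp 0 t δ
    have habs : ∀ a b z, |ramp a b δ z| ≤ 1 := fun a b z => by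
      rw [abs_of_nonneg (ramp_mem a b δ z).1]; exact (ramp_mem a b δ z).2
    have hdisj : ∀ z, η z = 0 ∨ ζ z = 0 := fun z =>
      (le_or_gt z t).imp (fun h => ramp_eq_zero hδ (Or.inl h))
        fun h => ramp_eq_zero hδ (Or.inr h.le)
    set Ys : R3 → R3 := fun x => Y (x - t • e k) with hYs
    have hYsL : LipschitzWith K Ys := LipschitzWith.of_dist_le_mul fun x y => by
      simpa [hYs, dist_eq_norm] using hK.dist_le_mul (x - t • e k) (y - t • e k)
    have hzeta : LipschitzWith (Lζ * 1) fun u : ℝ × (ℝ × ℝ) => ζ u.1 :=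
      hLζ.comp LipschitzWith.prod_fst
    set p' : ℝ × (ℝ × ℝ) → ℝ := fun u => ζ u.1 * p u with hp'
    set q' : ℝ × (ℝ × ℝ) → ℝ := fun u => ζ u.1 * q u with hq'
    have hp'L := lipschitz_mul hzeta hCp (fun u => habs _ _ _) hpq.abs_fst_le
    have hq'L := lipschitz_mul hzeta hCq (fun u => habs _ _ _) hpq.abs_snd_le
    set Hf : R3 → R3 := fun x =>
      ins k ((fun _ => (0 : ℝ)) (outL k x).1) (p' (outL k x), q' (outL k x)) with hHf
    have hHfL : LipschitzWith _ Hf := ((insL k).lipschitz.comp
      ((LipschitzWith.const (0 : ℝ)).prodMk (hp'L.prodMk hq'L))).comp (outL k).lipschitz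
    have hηx : LipschitzWith (Lη * ‖(EuclideanSpace.proj k : R3 →L[ℝ] ℝ)‖₊)
        fun x : R3 => η (x k) := hLη.comp (EuclideanSpace.proj k : R3 →L[ℝ] ℝ).lipschitz
    set G : R3 → R3 := fun x => η (x k) • Ys x with hG
    have hGL : LipschitzWith (Lη * ‖(EuclideanSpace.proj k : R3 →L[ℝ] ℝ)‖₊ + K) G := by
      refine LipschitzWith.of_dist_le_mul fun x y => ?_
      have h1 := hηx.dist_le_mul x y
      have h2 := hYsL.dist_le_mul x y
      rw [Real.dist_eq] at h1
      rw [dist_eq_norm, dist_eq_norm] at *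
      have e1 : G x - G y = (η (x k) - η (y k)) • Ys x + η (y k) • (Ys x - Ys y) := by
        simp only [hG, sub_smul, smul_sub]; abel
      rw [e1]
      refine (norm_add_le _ _).trans ?_
      rw [norm_smul, norm_smul, Real.norm_eq_abs, Real.norm_eq_abs]
      have u1 : |η (x k) - η (y k)| * ‖Ys x‖
          ≤ ↑(Lη * ‖(EuclideanSpace.proj k : R3 →L[ℝ] ℝ)‖₊) * ‖x - y‖ * 1 :=
        mul_le_mul h1 (hY.norm_le _) (norm_nonneg _) (by positivity)
      have u2 : |η (y k)| * ‖Ys x - Ys y‖ ≤ 1 * (K * ‖x - y‖) :=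
        mul_le_mul (habs t 1 (y k)) h2 (norm_nonneg _) zero_le_one
      rw [NNReal.coe_add, add_mul]
      linarith
    set X : R3 → R3 := fun x => G x + Hf x with hX
    have hXcube : IsCubeField X := by
      refine ⟨⟨_, hGL.add hHfL⟩, fun x => ?_, fun x i hi => ?_⟩
      · rcases hdisj (x k) with h0 | h0
        · have : X x = Hf x := by simp [hX, hG, h0]
          rw [this]
          have h2 : ‖Hf x‖ ^ 2 ≤ 1 := by
            rw [hHf, norm_ins_sq]
            have := hpq.norm_le (outL k x)
            have hz := ramp_mem (0 : ℝ) t δ (outL k x).1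
            simp only [hp', hq', hζ]
            nlinarith [mul_le_mul_of_nonneg_left this (sq_nonneg (ramp 0 t δ (outL k x).1)),
              mul_le_one₀ hz.2 hz.1 hz.2]
          nlinarith [norm_nonneg (Hf x)]
        · have : Hf x = 0 := by
            simp only [hHf, hp', hq', outL_apply, h0, zero_mul]
            exact (insL k).map_zero
          simp only [hX, this, add_zero, hG, norm_smul, Real.norm_eq_abs]
          exact mul_le_one₀ (habs _ _ _) (norm_nonneg _) (hY.norm_le _)
      · rcases Fin.eq_self_or_eq_succAbove k i with rfl | ⟨j, rfl⟩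
        · have hη0 : η (x i) = 0 := by
            rcases hi with hi | hi <;> rw [hi]
            · exact ramp_eq_zero hδ (Or.inl ht.le)
            · exact ramp_eq_zero hδ (Or.inr le_rfl)
          simp [hX, hG, hη0, hHf, ins_apply_self]
        · have hy0 : Ys x (k.succAbove j) = 0 :=
            hY.tangent _ _ (by simpa [e, Fin.succAbove_ne] using hi)
          have hH0 : Hf x (k.succAbove j) = 0 := by
            fin_cases j
            · simp only [hHf, ins_apply_succAbove, hp']
              simp [hpq.tangent_fst (outL k x) (by simpa [outL_apply] using hi)]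
            · simp only [hHf, ins_apply_succAbove, hq']
              simp [hpq.tangent_snd (outL k x) (by simpa [outL_apply] using hi)]
          simp [hX, hG, hy0, hH0]
    have hPX := hP X hXcube
    -- the divergence
    set T1 : R3 → ℝ := fun x => η (x k) * dv Y (x - t • e k) with hT1
    set T2 : R3 → ℝ := fun x => deriv η (x k) * Y (x - t • e k) k with hT2
    set T3 : R3 → ℝ := fun x => dvS p' q' (outL k x) with hT3
    have hdiv : ∀ᵐ x : R3, dv X x = T1 x + T2 x + T3 x := by
      have hkm : ∀ᵐ x : R3, DifferentiableAt ℝ η (x k) := by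
        have hm' : ∀ᵐ u : ℝ × (ℝ × ℝ), DifferentiableAt ℝ η u.1 := by
          rw [Measure.volume_eq_prod]
          exact Measure.quasiMeasurePreserving_fst.ae hLη.ae_differentiableAt_real
        have hq := ((measurePreserving_ins k).symm (insEquiv k)).quasiMeasurePreserving.ae hm'
        filter_upwards [hq] with x hx
        exact hx
      filter_upwards [hkm, hYsL.ae_differentiableAt (μ := volume),
        hHfL.ae_differentiableAt (μ := volume)] with x hxη hxY hxH
      have hη' : HasFDerivAt (fun y : R3 => η (y k))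
          (deriv η (x k) • (EuclideanSpace.proj k : R3 →L[ℝ] ℝ)) x :=
        HasDerivAt.comp_hasFDerivAt (h₂ := η) (f := fun y : R3 => y k) x hxη.hasDerivAt
          (EuclideanSpace.proj k : R3 →L[ℝ] ℝ).hasFDerivAt
      have hXd : HasFDerivAt X _ x := (hη'.smul hxY.hasFDerivAt).add hxH.hasFDerivAt
      have hYfd : fderiv ℝ Ys x = fderiv ℝ Y (x - t • e k) := fderiv_comp_sub (t • e k)
      have hHd : dv Hf x = T3 x := by
        have := dv_insField (k := k) hHfL (g := fun _ => (0 : ℝ)) (p := p') (q := q') (fun y => rfl)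
          (u := outL k x)
          (by rwa [ins_outL])
        rwa [ins_outL, deriv_const, zero_add] at this
      rw [dv, hXd.fderiv, ← hHd]
      simp only [hT1, hT2, dv, ← hYfd, Finset.mul_sum]
      simp [Finset.sum_add_distrib, Fin.sum_univ_succAbove _ k, e, hYs]
      ring
    have hbd1 : ∀ x, ‖T1 x‖ ≤ 3 * K := fun x => by
      rw [hT1, Real.norm_eq_abs, abs_mul]
      exact (mul_le_mul (habs _ _ _) (abs_dv_le_lipschitz hK _) (abs_nonneg _) zero_le_one).trans_eq
        (one_mul _)
    have hY1 : ∀ x, |Y x k| ≤ 1 := fun x =>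
      (Real.norm_eq_abs (Y x k)) ▸ (PiLp.norm_apply_le (Y x) k).trans (hY.norm_le x)
    have hdη : ∀ z, |deriv η z| ≤ Lη := fun z =>
      (Real.norm_eq_abs _) ▸ norm_deriv_le_of_lipschitz hLη
    have hmeas : Measurable fun x : R3 => x - t • e k := measurable_id.sub_const _
    have hpk : Measurable fun x : R3 => x k :=
      (EuclideanSpace.proj k : R3 →L[ℝ] ℝ).continuous.measurable
    have hT1i : IntegrableOn T1 D := IntegrableOn.of_bound (lt_top_iff_ne_top.2 hfin)
      ((hLη.continuous.measurable.comp hpk).mul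
        ((measurable_dv_min Y).comp hmeas)).aestronglyMeasurable _ (Eventually.of_forall hbd1)
    have hT2i : IntegrableOn T2 D := IntegrableOn.of_bound (lt_top_iff_ne_top.2 hfin)
      (((measurable_deriv η).comp hpk).mul
        ((EuclideanSpace.proj k : R3 →L[ℝ] ℝ).continuous.measurable.comp
          (hK.continuous.measurable.comp hmeas))).aestronglyMeasurable Lη
      (Eventually.of_forall fun x => by
        rw [Real.norm_eq_abs, abs_mul]
        exact (mul_le_mul (hdη _) (hY1 _) (abs_nonneg _) Lη.coe_nonneg).trans_eq (mul_one _))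
    have hT3i : IntegrableOn T3 D := IntegrableOn.of_bound (lt_top_iff_ne_top.2 hfin)
      ((measurable_dvS hp'L.continuous hq'L.continuous).comp
        (outL k).continuous.measurable).aestronglyMeasurable _
      (Eventually.of_forall fun x => norm_dvS_le hp'L hq'L _)
    rw [setIntegral_congr_ae hD (hdiv.mono fun x hx _ => hx),
      integral_add (f := fun x => T1 x + T2 x) (hT1i.add hT2i) hT3i,
      integral_add hT1i hT2i] at hPX
    -- T3: the saved slices
    have e3 : (∫ z in Ioo 0 t, F z) - δ * (2 * C) ≤ ∫ x in D, T3 x := by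
      rw [setIntegral_eq_slices (k := k) hD hT3i]
      have hf : ∀ z, ∫ w in slice D k z, T3 (ins k z w) = ζ z * F z := by
        intro z
        rw [hF, fluxS_eq, ← MeasureTheory.integral_const_mul]
        refine setIntegral_congr_fun (measurableSet_slice hD k z) fun w _ => ?_
        simp only [hT3, outL_ins, dvS, hp', hq', deriv_const_mul_field]
        ring
      simp only [hf]
      exact le_integral_ramp_mul (hpq.integrable_fluxS hD hdown.1) hC hδ
    -- T1: the shifted divergence
    have e1 : (∫ x in S, dv Y x) - 3 * K * (δ + A (1 - δ)) ≤ ∫ x in D, T1 x := by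
      have hSi : IntegrableOn (dv Y) S :=
        IntegrableOn.of_bound
          (lt_of_le_of_lt (measure_mono fun x (hx : x ∈ S) => hx.1)
            (lt_top_iff_ne_top.2 volume_cell_ne_top))
          (measurable_dv_min Y).aestronglyMeasurable _
          (Eventually.of_forall fun x => (Real.norm_eq_abs _).trans_le (abs_dv_le_lipschitz hK x))
      exact le_integral_shift_dv hD hdown k hK ht hδ hδ1 hSi hT1i
    -- T2: the two ramps
    have e2 : -(K * δ) - A (1 - δ) ≤ ∫ x in D, T2 x := by
      exact le_integral_shift_ramp hD hdown k hY hK ht hδ hδ1 hT2i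
    have : (0 : ℝ) ≤ K := K.coe_nonneg
    nlinarith
  -- let the ramp width tend to zero
  have hlim : Tendsto (fun δ => (∫ x in S, dv Y x) + (∫ z in Ioo 0 t, F z)
      - δ * (2 * C + 7 * K) - A (1 - δ) * (1 + 3 * K)) (𝓝[>] 0)
      (𝓝 ((∫ x in S, dv Y x) + (∫ z in Ioo 0 t, F z) - 0 * (2 * C + 7 * K)
        - faceArea D k * (1 + 3 * K))) := by
    refine Tendsto.sub (Tendsto.sub tendsto_const_nhds
      ((tendsto_id.mono_left nhdsWithin_le_nhds).mul_const _)) (Tendsto.mul_const _ ?_)
    refine (hA.tendsto_leftLim 1).comp (tendsto_nhdsWithin_iff.2 ⟨?_, ?_⟩)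
    · have hc : Tendsto (fun x : ℝ => 1 - x) (𝓝 0) (𝓝 (1 - 0)) :=
        Continuous.tendsto (by fun_prop) 0
      rw [sub_zero] at hc
      exact hc.mono_left nhdsWithin_le_nhds
    · exact eventually_nhdsWithin_of_forall fun x (hx : 0 < x) => show 1 - x < 1 by linarith
  rw [hm, zero_mul, zero_mul, sub_zero, sub_zero] at hlim
  have hsmall : (0 : ℝ) < min (t / 2) ((1 - t) / 2) := lt_min (by linarith) (by linarith)
  have := le_of_tendsto hlim (mem_of_superset (Ioo_mem_nhdsGT hsmall) fun δ hδ =>
    key δ hδ.1 (by linarith [hδ.2, min_le_left (t / 2) ((1 - t) / 2)])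
      (by linarith [hδ.2, min_le_right (t / 2) ((1 - t) / 2)]))
  linarith

/-- Translation with a bound on the slices. -/
theorem shiftDown_relPerLE (hD : MeasurableSet D) (hdown : IsDownset D) {P : ℝ}
    (hP : RelPerLE D P) (k : Fin 3) (hm : faceArea D k = 0) {t : ℝ} (ht : 0 < t) (ht1 : t < 1)
    {f : ℝ → ℝ} (hf : IntegrableOn f (Ioo 0 t))
    (hb : ∀ᵐ z, z ∈ Ioo 0 t → ∀ ε > 0, ∃ p q, IsSqField p q ∧
      f z ≤ flux p q (slice D k z) + ε) :
    RelPerLE (shiftDown D k t) (P - ∫ z in Ioo 0 t, f z) := by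
  intro Y hY
  refine le_of_forall_pos_le_add fun ε hε => ?_
  obtain ⟨p, q, hpq, hle⟩ := exists_sliceField_ge hD hdown.1 hf hb hε
  linarith [shiftDown_relPerLE_field hD hdown hP k hm ht ht1 hpq Y hY]

/-- **First-order condition.** If `D` minimises `P / φ` among down-sets of nearby smaller volume
and does not touch the far side in the direction `k`, a bound on the first slices that tends to
`ℓ` gives `ℓ ≤ (P / φ v) φ'(v) a(0+)`. -/
theorem first_order_translation (hD : MeasurableSet D) (hdown : IsDownset D) {P : ℝ}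
    (hP : RelPerLE D P) (k : Fin 3) (hm : faceArea D k = 0) {φ : ℝ → ℝ} {d η : ℝ}
    (hφ : 0 < φ (volume D).toReal)
    (hd : HasDerivWithinAt φ d (Iic (volume D).toReal) (volume D).toReal) (hη : 0 < η)
    (hmin : ∀ D' P', MeasurableSet D' → IsDownset D' →
      (volume D').toReal ∈ Icc ((volume D).toReal - η) (volume D).toReal →
      RelPerLE D' P' → P / φ (volume D).toReal * φ (volume D').toReal ≤ P')
    {f : ℝ → ℝ} {ℓ : ℝ} (hℓ : Tendsto f (𝓝[>] 0) (𝓝 ℓ)) {τ : ℝ} (hτ : 0 < τ)
    (hf : IntegrableOn f (Ioo 0 τ))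
    (hb : ∀ᵐ z, z ∈ Ioo 0 τ → ∀ ε > 0, ∃ p q, IsSqField p q ∧
      f z ≤ flux p q (slice D k z) + ε) :
    ℓ ≤ P / φ (volume D).toReal * d * rightLim (areaExt D k) 0 := by
  set v := (volume D).toReal with hv
  set r := P / φ v with hr
  set a0 := rightLim (areaExt D k) 0 with ha0
  have hA := areaExt_antitone hdown k
  have hr0 : 0 ≤ r := div_nonneg hP.nonneg hφ.le
  have hi := integrable_sliceArea hD hdown.1 k
  -- the mean of the slice area over a short interval tends to its right limit at zero
  have hmean : Tendsto (fun t => t⁻¹ * ∫ z in Ioo 0 t, sliceArea D k z) (𝓝[>] 0) (𝓝 a0) := by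
    refine tendsto_of_tendsto_of_tendsto_of_le_of_le' (hA.tendsto_rightLim 0) tendsto_const_nhds
      ?_ ?_ <;> filter_upwards [self_mem_nhdsWithin] with t (ht : 0 < t)
    · rw [← div_eq_inv_mul, le_div_iff₀ ht]
      calc areaExt D k t * t = ∫ _ in Ioo 0 t, areaExt D k t := by
            simp [Measure.real, Real.volume_Ioo, ht.le, mul_comm]
        _ ≤ _ := setIntegral_mono_on (integrableOn_const (by simp [Real.volume_Ioo]))
            hi.integrableOn measurableSet_Ioo fun z hz => by
              rw [← areaExt_eq (D := D) (k := k) hz.1.le]; exact hA hz.2.le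
    · rw [← div_eq_inv_mul, div_le_iff₀ ht]
      calc ∫ z in Ioo 0 t, sliceArea D k z ≤ ∫ _ in Ioo 0 t, a0 :=
            setIntegral_mono_on hi.integrableOn (integrableOn_const (by simp [Real.volume_Ioo]))
              measurableSet_Ioo fun z hz => by
                rw [← areaExt_eq (D := D) (k := k) hz.1.le]; exact hA.le_rightLim hz.1
        _ = _ := by simp [Measure.real, Real.volume_Ioo, ht.le, mul_comm]
  refine le_of_forall_pos_le_add fun ε hε => ?_
  set κ := ε / (2 * (r + 1)) with hκ
  have hκ0 : 0 < κ := by positivity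
  obtain ⟨ρ, hρ, hder⟩ : ∃ ρ > 0, ∀ s, 0 ≤ s → s ≤ ρ → φ v - φ (v - s) ≤ (d + κ) * s := by
    have h1 := (hasDerivWithinAt_iff_isLittleO.1 hd).def hκ0
    obtain ⟨ρ, hρ, hball⟩ := Metric.mem_nhdsWithin_iff.1 h1
    refine ⟨ρ / 2, half_pos hρ, fun s hs hs2 => ?_⟩
    have h2 := hball (show v - s ∈ Metric.ball v ρ ∩ Iic v from
      ⟨by rw [Metric.mem_ball, Real.dist_eq, sub_sub_cancel_left, abs_neg, abs_of_nonneg hs]
          linarith, by simp [hs]⟩)
    simp only [mem_ofPred_eq, Real.norm_eq_abs, smul_eq_mul, sub_sub_cancel_left, abs_neg,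
      abs_of_nonneg hs] at h2
    nlinarith [(abs_le.1 h2).1]
  have hlow : ∀ᶠ t in 𝓝[>] (0 : ℝ),
      ℓ - ε / 2 ≤ r * (d + κ) * (t⁻¹ * ∫ z in Ioo 0 t, sliceArea D k z) := by
    obtain ⟨σ, hσ, hσb⟩ : ∃ σ > 0, ∀ z ∈ Ioo 0 σ, ℓ - ε / 2 ≤ f z := by
      obtain ⟨σ, hσ, hb'⟩ := Metric.mem_nhdsWithin_iff.1
        (hℓ.eventually (Ici_mem_nhds (show ℓ - ε / 2 < ℓ by linarith)))
      exact ⟨σ, hσ, fun z hz => hb' ⟨by
        rw [Metric.mem_ball, Real.dist_eq, sub_zero, abs_of_pos hz.1]; exact hz.2, hz.1⟩⟩
    filter_upwards [Ioo_mem_nhdsGT (lt_min (lt_min hσ hτ) (lt_min (lt_min hη hρ) one_pos))]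
      with t ht
    simp only [lt_min_iff, mem_Ioo] at ht
    obtain ⟨ht0, ⟨htσ, htτ⟩, ⟨htη, htρ⟩, ht1⟩ := ht
    set I := ∫ z in Ioo 0 t, sliceArea D k z with hI
    have hI0 : 0 ≤ I := setIntegral_nonneg measurableSet_Ioo fun z _ => sliceArea_nonneg D k z
    have hI1 : I ≤ t := by
      calc I ≤ ∫ _ in Ioo 0 t, (1 : ℝ) := setIntegral_mono_on hi.integrableOn
            (integrableOn_const (by simp [Real.volume_Ioo])) measurableSet_Ioo
            fun z _ => sliceArea_le_one hdown.1 k z
        _ = t := by simp [Measure.real, Real.volume_Ioo, ht0.le]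
    have hsub : Ioo (0 : ℝ) t ⊆ Ioo 0 τ := Ioo_subset_Ioo le_rfl htτ.le
    have hsh := shiftDown_relPerLE hD hdown hP k hm ht0 ht1 (hf.mono_set hsub)
      (hb.mono fun z hz hzt => hz (hsub hzt))
    have hvol := volume_shiftDown hD hdown k ht0.le
    have h3 := hmin _ _ (measurableSet_shiftDown hD k t) (shiftDown_isDownset hdown k ht0.le)
      (by rw [hvol]; exact ⟨by linarith, by linarith⟩) hsh
    rw [hvol] at h3
    have h4 := mul_le_mul_of_nonneg_left (hder I hI0 (by linarith)) hr0
    have hrP : r * φ v = P := by rw [hr]; field_simp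
    have h5 : (ℓ - ε / 2) * t ≤ ∫ z in Ioo 0 t, f z := by
      calc (ℓ - ε / 2) * t = ∫ _ in Ioo 0 t, (ℓ - ε / 2) := by
            simp [Measure.real, Real.volume_Ioo, ht0.le, mul_comm]
        _ ≤ _ := setIntegral_mono_on (integrableOn_const (by simp [Real.volume_Ioo]))
            (hf.mono_set hsub) measurableSet_Ioo fun z hz => hσb z ⟨hz.1, hz.2.trans htσ⟩
    rw [← div_eq_inv_mul, ← mul_div_assoc, le_div_iff₀ ht0]
    linarith
  have h7 := le_of_tendsto_of_tendsto tendsto_const_nhds (hmean.const_mul (r * (d + κ))) hlow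
  have ha1 : a0 ≤ 1 :=
    (hA.rightLim_le le_rfl).trans (sliceArea_le_one hdown.1 k _)
  have ha2 : 0 ≤ a0 := (sliceArea_nonneg D k _).trans (hA.le_rightLim zero_lt_one)
  have h8 : r * κ ≤ ε / 2 := by
    rw [hκ, ← mul_div_assoc, div_le_iff₀ (by positivity)]
    nlinarith
  nlinarith [mul_le_mul_of_nonneg_left ha1 (mul_nonneg hr0 hκ0.le)]

end Vale.Agent.P232
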